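import Crest.Agent.R290.Defs

/-!
# Row 290, [AGB]: the concrete agreement graphs `AG` of `Defs.lean` and the abstract ones of `AG.lean`

Useful by-products (namespace `AGB`): `mem_bools`, `mem_fibre`, `mem_items`, `items_nodup`, `agree_iff`,
`agree_comm`, `val`, `vertEquiv`.
-/

set_option autoImplicit false
set_option linter.unusedSectionVars false

namespace Crest.Agent.R290

open Crest.WLRefine Finset
open Crest.Agent.R290.WL (PEquiv PSys Pres)

namespace AGB

/-! ### bit lists -/

theorem mem_bools {n : ℕ} {α : List Bool} : α ∈ bools n ↔ α.length = n := by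
  induction n generalizing α with
  | zero => simp [bools]
  | succ n ih =>
    rw [bools, List.mem_flatMap]
    constructor
    · rintro ⟨β, hβ, hα⟩
      rw [ih] at hβ
      simp only [List.mem_cons, List.not_mem_nil, or_false] at hα
      rcases hα with rfl | rfl <;> simp [hβ]
    · intro h
      cases α with
      | nil => simp at h
      | cons x β =>
        refine ⟨β, ih.2 (by simpa using h), ?_⟩
        cases x <;> simp

theorem bools_nodup (n : ℕ) : (bools n).Nodup := by
  induction n with
  | zero => simp [bools]
  | succ n ih =>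
    rw [bools, List.nodup_flatMap]
    refine ⟨fun α _ => by simp, ih.imp ?_⟩
    intro a b hab x hx hy
    simp only [List.mem_cons, List.not_mem_nil, or_false] at hx hy
    rcases hx with rfl | rfl <;> rcases hy with hy | hy <;> simp_all

theorem length_bools (n : ℕ) : (bools n).length = 2 ^ n := by
  induction n with
  | zero => simp [bools]
  | succ n ih =>
    rw [bools, List.length_flatMap]
    simp [ih, pow_succ]

theorem length_filter_bools (n : ℕ) (β : Bool) :
    ((bools (n + 1)).filter fun α => α.sum == β).length = 2 ^ n := by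
  rw [bools, List.filter_flatMap, List.length_flatMap]
  have h : ∀ α : List Bool, (List.filter (fun α => α.sum == β) [false :: α, true :: α]).length = 1 := by
    intro α
    have h0 : (false :: α).sum = α.sum := by
      rw [List.sum_cons]
      exact zero_add _
    have h1 : (true :: α).sum = !α.sum := by
      rw [List.sum_cons]
      cases α.sum <;> rfl
    rw [List.filter_cons, List.filter_cons, List.filter_nil, h0, h1]
    cases α.sum <;> cases β <;> simp
  simp only [h]
  simp [length_bools]

/-! ### values -/

section val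

variable {X : Type} [DecidableEq X]

/-- value of the variable `x` in the assignment `α` of the variables `l` -/
def val (l : List X) (α : List Bool) (x : X) : Bool := α.getD (l.idxOf x) false

theorem val_cons_self (l : List X) (a : Bool) (α : List Bool) (x : X) :
    val (x :: l) (a :: α) x = a := by
  simp [val]

theorem val_cons_ne (l : List X) (a : Bool) (α : List Bool) {x y : X} (h : x ≠ y) :
    val (x :: l) (a :: α) y = val l α y := by
  simp [val, List.idxOf_cons_ne _ h]

theorem map_val {l : List X} (hl : l.Nodup) {α : List Bool} (hα : α.length = l.length) :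
    l.map (val l α) = α := by
  induction l generalizing α with
  | nil => simpa using (List.length_eq_zero_iff.1 hα).symm
  | cons x l ih =>
    cases α with
    | nil => simp at hα
    | cons a α =>
      rw [List.nodup_cons] at hl
      rw [List.map_cons, val_cons_self]
      congr 1
      have h1 : l.map (val (x :: l) (a :: α)) = l.map (val l α) := by
        apply List.map_congr_left
        intro y hy
        exact val_cons_ne l a α (by rintro rfl; exact hl.1 hy)
      rw [h1]
      exact ih hl.2 (by simpa using hα)

theorem val_map {l : List X} (s : X → Bool) {x : X} (hx : x ∈ l) : val l (l.map s) x = s x := by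
  induction l with
  | nil => simp at hx
  | cons y l ih =>
    by_cases h : y = x
    · subst h
      rw [List.map_cons, val_cons_self]
    · rw [List.map_cons, val_cons_ne l _ _ h]
      exact ih (by
        rcases List.mem_cons.1 hx with h1 | h1
        · exact absurd h1.symm h
        · exact h1)

theorem mem_zip {l : List X} (hl : l.Nodup) {α : List Bool} (hα : α.length = l.length) (x : X)
    (β : Bool) : (x, β) ∈ l.zip α ↔ x ∈ l ∧ β = val l α x := by
  induction l generalizing α with
  | nil => simp
  | cons y l ih =>
    cases α with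
    | nil => simp at hα
    | cons a α =>
      rw [List.nodup_cons] at hl
      rw [List.zip_cons_cons, List.mem_cons, List.mem_cons, ih hl.2 (by simpa using hα)]
      by_cases h : y = x
      · subst h
        rw [val_cons_self]
        constructor
        · rintro (h1 | ⟨h1, -⟩)
          · exact ⟨Or.inl rfl, (Prod.ext_iff.1 h1).2⟩
          · exact absurd h1 hl.1
        · rintro ⟨-, h1⟩
          exact Or.inl (Prod.ext rfl h1)
      · rw [val_cons_ne l a α h]
        constructor
        · rintro (h1 | ⟨h1, h2⟩)
          · exact absurd (Prod.ext_iff.1 h1).1.symm h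
          · exact ⟨Or.inr h1, h2⟩
        · rintro ⟨h1, h2⟩
          rcases h1 with h1 | h1
          · exact absurd h1.symm h
          · exact Or.inr ⟨h1, h2⟩

theorem agree_iff' {l l' : List X} {α α' : List Bool} : agree l α l' α' = true ↔
    ∀ p ∈ l.zip α, ∀ q ∈ l'.zip α', p.1 = q.1 → p.2 = q.2 := by
  unfold agree
  simp only [List.all_eq_true, Bool.or_eq_true, Bool.not_eq_true', decide_eq_false_iff_not,
    beq_iff_eq]
  refine forall_congr' fun p => forall_congr' fun _ => forall_congr' fun q => forall_congr' fun _ => ?_
  tauto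

theorem agree_comm (l l' : List X) (α α' : List Bool) : agree l α l' α' = agree l' α' l α := by
  rw [Bool.eq_iff_iff, agree_iff', agree_iff']
  exact ⟨fun h p hp q hq e => (h q hq p hp e.symm).symm,
    fun h p hp q hq e => (h q hq p hp e.symm).symm⟩

theorem agree_iff {l l' : List X} (hl : l.Nodup) (hl' : l'.Nodup) {α α' : List Bool}
    (hα : α.length = l.length) (hα' : α'.length = l'.length) : agree l α l' α' = true ↔
      ∀ x ∈ l, x ∈ l' → val l α x = val l' α' x := by
  rw [agree_iff']
  constructor
  · intro h x hx hx'
    exact h (x, val l α x) ((mem_zip hl hα _ _).2 ⟨hx, rfl⟩) (x, val l' α' x)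
      ((mem_zip hl' hα' _ _).2 ⟨hx', rfl⟩) rfl
  · rintro h ⟨x, β⟩ hp ⟨y, γ⟩ hq hxy
    simp only at hxy
    subst hxy
    obtain ⟨h1, h2⟩ := (mem_zip hl hα _ _).1 hp
    obtain ⟨h3, h4⟩ := (mem_zip hl' hα' _ _).1 hq
    simp only
    rw [h2, h4, h x h1 h3]

end val

/-! ### `Bool` and `ZMod 2` -/

theorem bz_add (a b : Bool) : bz (a + b) = bz a + bz b := by
  cases a <;> cases b <;> decide


theorem bz_inj {a b : Bool} (h : bz a = bz b) : a = b := by
  cases a <;> cases b <;> simp_all [bz]

theorem bz_surj (z : ZMod 2) : ∃ b, bz b = z := by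
  fin_cases z
  · exact ⟨false, rfl⟩
  · exact ⟨true, rfl⟩

theorem bz_sum (α : List Bool) : bz α.sum = (α.map bz).sum := by
  induction α with
  | nil => rfl
  | cons a α ih => rw [List.sum_cons, bz_add, ih, List.map_cons, List.sum_cons]

theorem sum_toFinset {X : Type} [DecidableEq X] {l : List X} (hl : l.Nodup) (s : X → ZMod 2) :
    ∑ x ∈ l.toFinset, s x = (l.map s).sum := List.sum_toFinset s hl

theorem sum_bz_toFinset {X : Type} [DecidableEq X] {l : List X} (hl : l.Nodup) (s : X → Bool) :
    ∑ x ∈ l.toFinset, bz (s x) = bz (l.map s).sum := by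
  rw [sum_toFinset hl, bz_sum, List.map_map]
  rfl

/-! ### vertices -/

section vert

variable {C X : Type} [DecidableEq X] (G : AG C X) (b : C → Bool)

theorem mem_fibre {c : C} {α : List Bool} : α ∈ G.fibre b c ↔
    α.length = (G.vars c).length ∧ (G.con c = true → α.sum = b c) := by
  rw [AG.fibre, List.mem_filter, mem_bools]
  refine and_congr_right fun _ => ?_
  cases h : G.con c <;> simp

theorem mem_items {p : C × List Bool} : p ∈ G.items b ↔ p.1 ∈ G.cls ∧
    p.2.length = (G.vars p.1).length ∧ (G.con p.1 = true → p.2.sum = b p.1) := by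
  obtain ⟨c, α⟩ := p
  rw [AG.items, List.mem_flatMap]
  constructor
  · rintro ⟨c', hc', h⟩
    rw [List.mem_map] at h
    obtain ⟨α', hα', h⟩ := h
    obtain ⟨rfl, rfl⟩ := Prod.ext_iff.1 h
    exact ⟨hc', (mem_fibre G b).1 hα'⟩
  · rintro ⟨h1, h2⟩
    exact ⟨c, h1, List.mem_map.2 ⟨α, (mem_fibre G b).2 h2, rfl⟩⟩

theorem items_nodup (hcls : G.cls.Nodup) : (G.items b).Nodup := by
  rw [AG.items, List.nodup_flatMap]
  refine ⟨fun c _ => ?_, hcls.imp ?_⟩
  · refine List.Nodup.map ?_ ((bools_nodup _).filter _)
    intro x y h
    exact (Prod.ext_iff.1 h).2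
  · intro c c' hcc x hx hy
    rw [List.mem_map] at hx hy
    obtain ⟨a, -, rfl⟩ := hx
    obtain ⟨a', -, h⟩ := hy
    exact hcc (Prod.ext_iff.1 h).1.symm

/-- the abstract template (all classes related) -/
def tmpl : Template {c // c ∈ G.cls} X where
  vars c := (G.vars c.1).toFinset
  con c := G.con c.1 = true
  adj _ _ := true
  adj_symm _ _ := rfl

/-- abstract parities -/
def bab : {c // c ∈ G.cls} → ZMod 2 := fun c => bz (b c.1)

/-- class adjacency and agreement on abstract vertices -/
noncomputable def absAdj (v w : (tmpl G).Vert (bab G b)) : Bool :=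
  G.E v.cl.1 w.cl.1 && (tmpl G).agAdj (bab G b) v w

variable (hvars : ∀ c ∈ G.cls, (G.vars c).Nodup)

/-- abstract assignment -/
def asg (l : List X) (α : List Bool) (x : X) : ZMod 2 := if x ∈ l then bz (val l α x) else 0

include hvars in
theorem isVert_asg {p : C × List Bool} (hp : p ∈ G.items b) :
    (tmpl G).IsVert (bab G b) (⟨p.1, ((mem_items G b).1 hp).1⟩, asg (G.vars p.1) p.2) := by
  obtain ⟨h1, h2, h3⟩ := (mem_items G b).1 hp
  constructor
  · intro x hx
    change x ∉ (G.vars p.1).toFinset at hx
    rw [List.mem_toFinset] at hx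
    exact if_neg hx
  · intro hc
    change ∑ x ∈ (G.vars p.1).toFinset, asg (G.vars p.1) p.2 x = bz (b p.1)
    rw [← h3 hc]
    have h4 : ∑ x ∈ (G.vars p.1).toFinset, asg (G.vars p.1) p.2 x =
        ∑ x ∈ (G.vars p.1).toFinset, bz (val (G.vars p.1) p.2 x) := by
      refine Finset.sum_congr rfl fun x hx => ?_
      rw [List.mem_toFinset] at hx
      exact if_pos hx
    rw [h4, sum_bz_toFinset (hvars _ h1), map_val (hvars _ h1) h2]

/-- from items to abstract vertices -/
def toVert (p : {p // p ∈ G.items b}) : (tmpl G).Vert (bab G b) :=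
  ⟨_, isVert_asg G b hvars p.2⟩

theorem toVert_bijective : Function.Bijective (toVert G b hvars) := by
  constructor
  · rintro ⟨⟨c, α⟩, hp⟩ ⟨⟨c', α'⟩, hq⟩ h
    have h1 := congrArg Subtype.val h
    obtain ⟨h2, h3⟩ := Prod.ext_iff.1 h1
    have h4 : c = c' := congrArg Subtype.val h2
    subst h4
    obtain ⟨p1, p2, p3⟩ := (mem_items G b).1 hp
    obtain ⟨q1, q2, q3⟩ := (mem_items G b).1 hq
    have p2' : α.length = (G.vars c).length := p2
    have q2' : α'.length = (G.vars c).length := q2
    have h5 : α = α' := by
      rw [← map_val (hvars c p1) p2', ← map_val (hvars c q1) q2']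
      apply List.map_congr_left
      intro x hx
      have h6 := congrFun h3 x
      change asg (G.vars c) α x = asg (G.vars c) α' x at h6
      unfold asg at h6
      rw [if_pos hx, if_pos hx] at h6
      exact bz_inj h6
    subst h5
    rfl
  · rintro ⟨⟨⟨c, hc⟩, s⟩, h1, h2⟩
    choose ub hub using bz_surj
    have h0 : ∀ x, bz (ub (s x)) = s x := fun x => hub (s x)
    have hp : (c, (G.vars c).map fun x => ub (s x)) ∈ G.items b := by
      rw [mem_items]
      refine ⟨hc, by simp, fun hcon => ?_⟩
      apply bz_inj
      rw [← sum_bz_toFinset (hvars _ hc)]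
      simp only [h0]
      exact h2 hcon
    refine ⟨⟨_, hp⟩, ?_⟩
    apply Subtype.ext
    refine Prod.ext rfl ?_
    funext x
    change asg (G.vars c) ((G.vars c).map fun x => ub (s x)) x = s x
    unfold asg
    split_ifs with hx
    · rw [val_map (fun x => ub (s x)) hx, h0]
    · exact (h1 x (by change x ∉ (G.vars c).toFinset; rwa [List.mem_toFinset])).symm

/-- vertices of the concrete graph and of the abstract graph -/
noncomputable def vertEquiv (hcls : G.cls.Nodup) :
    Fin (G.order b) ≃ (tmpl G).Vert (bab G b) := by
  classical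
  exact ((items_nodup G b hcls).getEquiv (G.items b)).trans
    (Equiv.ofBijective _ (toVert_bijective G b hvars))

theorem vertEquiv_cl (hcls : G.cls.Nodup) (i : Fin (G.order b)) :
    (vertEquiv G b hvars hcls i).cl.1 = ((G.items b).get i).1 := rfl

theorem vertEquiv_as (hcls : G.cls.Nodup) (i : Fin (G.order b)) (x : X) :
    (vertEquiv G b hvars hcls i).as x =
      asg (G.vars ((G.items b).get i).1) ((G.items b).get i).2 x := rfl

theorem absAdj_vertEquiv (hcls : G.cls.Nodup) (i j : Fin (G.order b)) :
    absAdj G b (vertEquiv G b hvars hcls i) (vertEquiv G b hvars hcls j) = G.mat b i j := by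
  have hi := (mem_items G b).1 ((G.items b).get_mem i)
  have hj := (mem_items G b).1 ((G.items b).get_mem j)
  rw [Bool.eq_iff_iff, absAdj, AG.mat, AG.adj, Bool.and_eq_true, Bool.and_eq_true, vertEquiv_cl,
    vertEquiv_cl, Template.agAdj_iff,
    agree_iff (hvars _ hi.1) (hvars _ hj.1) hi.2.1 hj.2.1]
  refine and_congr_right fun _ => ?_
  constructor
  · rintro ⟨-, h⟩ x hx hx'
    have h1 := h x (List.mem_toFinset.2 hx) (List.mem_toFinset.2 hx')
    rw [vertEquiv_as, vertEquiv_as, asg, asg, if_pos hx, if_pos hx'] at h1
    exact bz_inj h1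
  · intro h
    refine ⟨rfl, fun x hx hx' => ?_⟩
    have hx1 : x ∈ G.vars ((G.items b).get i).1 := List.mem_toFinset.1 hx
    have hx2 : x ∈ G.vars ((G.items b).get j).1 := List.mem_toFinset.1 hx'
    rw [vertEquiv_as, vertEquiv_as, asg, asg, if_pos hx1, if_pos hx2, h x hx1 hx2]

end vert

end AGB

open AGB

section ag
variable {C X O : Type} [DecidableEq X]

theorem AG.adjMatrixCode_mat (G : AG C X) (b : C → Bool) : adjMatrixCode (G.mat b) = G.code b := by
  have h : (List.finRange (G.items b).length).map (G.items b).get = G.items b :=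
    List.map_get_finRange (G.items b)
  have h1 : (G.items b).flatMap (fun v => (G.items b).map fun w => G.adj v w) =
      (List.finRange (G.items b).length).flatMap fun v =>
        (List.finRange (G.items b).length).map fun w =>
          G.adj ((G.items b).get v) ((G.items b).get w) := by
    conv_lhs => rw [← h]
    rw [List.flatMap_map]
    congr 1
    funext v
    rw [List.map_map]
    rfl
  unfold AG.code
  rw [h1]
  rfl

theorem AG.isSimple_mat (G : AG C X) (b : C → Bool) (hs : ∀ c c', G.E c c' = G.E c' c)
    (hi : ∀ c, G.E c c = false) : IsSimple (G.mat b) := by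
  constructor
  · intro v w
    unfold AG.mat AG.adj
    rw [hs, agree_comm]
  · intro v
    unfold AG.mat AG.adj
    rw [hi, Bool.false_and]

theorem AG.order_eq (G : AG C X) (b b' : C → Bool) (h : ∀ c ∈ G.cls, G.con c = true → G.vars c ≠ []) :
    G.order b = G.order b' := by
  have key : ∀ b : C → Bool, ∀ c ∈ G.cls, (G.fibre b c).length =
      if G.con c = true then 2 ^ ((G.vars c).length - 1) else 2 ^ (G.vars c).length := by
    intro b c hc
    unfold AG.fibre
    split_ifs with hcon
    · obtain ⟨n, hn⟩ : ∃ n, (G.vars c).length = n + 1 :=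
        ⟨(G.vars c).length - 1, by
          have := List.length_pos_iff.2 (h c hc hcon)
          omega⟩
      rw [hn, Nat.add_sub_cancel, ← length_filter_bools n (b c)]
      congr 1
      apply List.filter_congr
      intro α _
      rw [hcon]
      rfl
    · have hcon' : G.con c = false := by simpa using hcon
      rw [← length_bools]
      congr 1
      rw [List.filter_eq_self]
      intro α _
      rw [hcon']
      rfl
  unfold AG.order AG.items
  rw [List.length_flatMap, List.length_flatMap]
  congr 1
  apply List.map_congr_left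
  intro c hc
  rw [List.length_map, List.length_map, key b c hc, key b' c hc]

/-- Duplicator: a shift system for the dominating objects gives a pebble system. -/
theorem AG.pequiv_of_shiftEquiv [DecidableEq O] (G : AG C X) (bC : C → Bool) (objs : List O)
    (ports : O → List X) (b : O → Bool) (dom : C → O) (K : ℕ) (hcls : G.cls.Nodup)
    (hports : ∀ u ∈ objs, (ports u).Nodup) (hvars : ∀ c ∈ G.cls, (G.vars c).Nodup)
    (hdom : ∀ c ∈ G.cls, dom c ∈ objs ∧ G.vars c ⊆ ports (dom c))
    (hcon : ∀ c ∈ G.cls, G.con c = true → G.vars c = ports (dom c) ∧ bC c = b (dom c))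
    (h : ShiftEquiv objs ports b K) : PEquiv K (G.mat fun _ => false) (G.mat bC) := by
  classical
  obtain ⟨S, hS⟩ := h
  let dom' : {c // c ∈ G.cls} → {u // u ∈ objs} := fun c => ⟨dom c.1, (hdom c.1 c.2).1⟩
  have hd : (tmpl G).Dominated (fun u : {u // u ∈ objs} => (ports u.1).toFinset) dom'
      (bab G fun _ => false) (fun _ => 0) := by
    refine ⟨fun c => ?_, fun c hc => ⟨?_, rfl⟩⟩
    · intro x hx
      exact List.mem_toFinset.2 ((hdom c.1 c.2).2 (List.mem_toFinset.1 hx))
    · change (G.vars c.1).toFinset = (ports (dom c.1)).toFinset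
      rw [(hcon c.1 c.2 hc).1]
  have hd' : (tmpl G).Dominated (fun u : {u // u ∈ objs} => (ports u.1).toFinset) dom'
      (bab G bC) (fun u => bz (b u.1)) := by
    refine ⟨hd.sub, fun c hc => ⟨(hd.con c hc).1, ?_⟩⟩
    change bz (bC c.1) = bz (b (dom c.1))
    rw [(hcon c.1 c.2 hc).2]
  have hS' : ShiftSys (fun u : {u // u ∈ objs} => (ports u.1).toFinset)
      (fun u => (fun u : {u // u ∈ objs} => bz (b u.1)) u +
        (fun _ : {u // u ∈ objs} => (0 : ZMod 2)) u) K S := by
    simpa only [add_zero] using hS
  have hP := (tmpl G).dup_psys hd hd' hS'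
  have hQ : PSys (absAdj G fun _ => false) (absAdj G bC) K
      ((tmpl G).posOf (bab G fun _ => false) (bab G bC) dom' S) := by
    refine PSys.mk' hP.empty (fun hPQ hQ => hP.mono hQ hPQ) hP.eq ?_ ?_
    · intro P hp a ha b hb
      have h1 := hP.adj hp a ha b hb
      obtain ⟨s, -, h2⟩ := hp
      unfold absAdj
      rw [h1, (h2 a ha).1, (h2 b hb).1]
    · intro P hp hc
      obtain ⟨f, hf⟩ := hP.ext hp hc
      refine ⟨f, fun z => ?_⟩
      convert hf z
  have e1 : PEquiv K (G.mat fun _ => false) (absAdj G fun _ => false) :=
    PEquiv.of_equiv K (vertEquiv G _ hvars hcls) fun v w => absAdj_vertEquiv G _ hvars hcls v w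
  have e2 : PEquiv K (G.mat bC) (absAdj G bC) :=
    PEquiv.of_equiv K (vertEquiv G _ hvars hcls) fun v w => absAdj_vertEquiv G _ hvars hcls v w
  exact e1.trans (WL.PEquiv.trans ⟨_, hQ⟩ e2.symm)

/-- a global solution gives an isomorphism -/
theorem AG.adjIso_of_solution (G : AG C X) (bC : C → Bool) (hcls : G.cls.Nodup)
    (hvars : ∀ c ∈ G.cls, (G.vars c).Nodup) (s : X → Bool)
    (hs : ∀ c ∈ G.cls, G.con c = true → ((G.vars c).map s).sum = bC c) :
    AdjIso (G.mat fun _ => false) (G.mat bC) := by
  have hpar : ∀ c : {c // c ∈ G.cls}, (tmpl G).con c →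
      ∑ x ∈ (tmpl G).vars c, bz (s x) = bab G bC c := by
    intro c hc
    change ∑ x ∈ (G.vars c.1).toFinset, bz (s x) = bz (bC c.1)
    rw [sum_bz_toFinset (hvars c.1 c.2), hs c.1 c.2 hc]
  have hpar1 : ∀ v : (tmpl G).Vert (bab G fun _ => false), (tmpl G).con v.cl →
      ∑ x ∈ (tmpl G).vars v.cl, bz (s x) = bab G bC v.cl + bab G (fun _ => false) v.cl := by
    intro v hc
    rw [hpar v.cl hc]
    exact (add_zero _).symm
  have hpar2 : ∀ v : (tmpl G).Vert (bab G bC), (tmpl G).con v.cl →
      ∑ x ∈ (tmpl G).vars v.cl, bz (s x) = bab G (fun _ => false) v.cl + bab G bC v.cl := by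
    intro v hc
    rw [hpar v.cl hc]
    exact (zero_add _).symm
  let f : (tmpl G).Vert (bab G fun _ => false) ≃ (tmpl G).Vert (bab G bC) :=
    { toFun := fun v => Template.shift (fun x => bz (s x)) v (hpar1 v)
      invFun := fun v => Template.shift (fun x => bz (s x)) v (hpar2 v)
      left_inv := by
        intro v
        apply Template.Vert.ext
        · rfl
        · intro x hx
          change x ∈ (tmpl G).vars v.cl at hx
          have h1 : (Template.shift (b' := bab G fun _ => false) (fun x => bz (s x))
              (Template.shift (b' := bab G bC) (fun x => bz (s x)) v (hpar1 v)) (hpar2 _)).as x =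
              (Template.shift (b' := bab G bC) (fun x => bz (s x)) v (hpar1 v)).as x + bz (s x) :=
            Template.shift_as _ _ _ hx
          refine h1.trans ?_
          rw [Template.shift_as _ _ _ hx, add_assoc, CharTwo.add_self_eq_zero, add_zero]
      right_inv := by
        intro v
        apply Template.Vert.ext
        · rfl
        · intro x hx
          change x ∈ (tmpl G).vars v.cl at hx
          have h1 : (Template.shift (b' := bab G bC) (fun x => bz (s x))
              (Template.shift (b' := bab G fun _ => false) (fun x => bz (s x)) v (hpar2 v))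
                (hpar1 _)).as x =
              (Template.shift (b' := bab G fun _ => false) (fun x => bz (s x)) v (hpar2 v)).as x +
                bz (s x) :=
            Template.shift_as _ _ _ hx
          refine h1.trans ?_
          rw [Template.shift_as _ _ _ hx, add_assoc, CharTwo.add_self_eq_zero, add_zero] }
  have hf : ∀ v w, absAdj G bC (f v) (f w) = absAdj G (fun _ => false) v w := by
    intro v w
    have hcl : ∀ v, (f v).cl = v.cl := fun _ => rfl
    have has : ∀ v x, x ∈ (tmpl G).vars v.cl → (f v).as x = v.as x + bz (s x) := fun v x hx =>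
      Template.shift_as (fun x => bz (s x)) v (hpar1 v) hx
    unfold absAdj
    rw [hcl, hcl]
    congr 1
    rw [Bool.eq_iff_iff, Template.agAdj_iff, Template.agAdj_iff, hcl, hcl]
    refine and_congr_right fun _ => forall_congr' fun x => ?_
    refine forall_congr' fun h1 => forall_congr' fun h2 => ?_
    rw [has v x h1, has w x h2]
    exact ⟨fun e => add_right_cancel e, fun e => by rw [e]⟩
  refine ⟨((vertEquiv G _ hvars hcls).trans f).trans (vertEquiv G _ hvars hcls).symm, fun v w => ?_⟩
  rw [← absAdj_vertEquiv G bC hvars hcls, ← absAdj_vertEquiv G (fun _ => false) hvars hcls]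
  simp only [Equiv.trans_apply, Equiv.apply_symm_apply]
  exact hf _ _

end ag

end Crest.Agent.R290
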