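import Crest.Prelude.Def_ParityLift

/-! The equation lemmas of some Prelude definitions, generated once (so that several modules which
use them do not each generate them). -/
private theorem rz_e16220dcea : type_of% @_root_.Crest.WLRefine.ParityLift.bAdj.eq_1 := @_root_.Crest.WLRefine.ParityLift.bAdj.eq_1
private theorem rz_605d6aa10e : type_of% @_root_.Crest.WLRefine.ParityLift.tAdj.eq_1 := @_root_.Crest.WLRefine.ParityLift.tAdj.eq_1
private theorem rz_20ee4bcc7d : type_of% @_root_.Crest.WLRefine.ParityLift.typeOf.eq_1 := @_root_.Crest.WLRefine.ParityLift.typeOf.eq_1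
private theorem rz_db7ccd14ed : type_of% @_root_.Crest.WLRefine.ParityLift.unionAdj.eq_1 := @_root_.Crest.WLRefine.ParityLift.unionAdj.eq_1
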