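import Mathlib
import Crest.Agent.R290.Flat
import Crest.Agent.R290.WL
import Crest.Prelude.Def_BitEnc
import Crest.Agent.Lib.PT.ListFns2

-- ▼ part R290/AG
section

/-!
# Row 290: agreement graphs and the Duplicator theorem (blueprint section 1).

`Template C X`: classes `C` with finite variable sets, some of them parity constrained, and a symmetric
relation on classes.  The agreement graph `G_b`: vertices are pairs (class, assignment of elements of
`ZMod 2` to the variables of the class, of parity `b c` if `c` is constrained); two vertices are adjacent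
when their classes are related and the assignments agree on the common variables.

A *shift system* over objects `O` (every class `c` is dominated by the object `dom c`) gives a family of
positions in which Duplicator wins the bijective pebble game.
-/

set_option autoImplicit false

namespace Crest.Agent.R290

open Finset

/-- Classes, their variables, constrained classes, and the relation between classes. -/
structure Template (C X : Type) where
  vars : C → Finset X
  con : C → Prop
  adj : C → C → Bool
  adj_symm : ∀ c c', adj c c' = adj c' c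

namespace Template

variable {C X : Type} (T : Template C X)

/-- Condition for a pair (class, assignment) to be a vertex of `G_b`. -/
def IsVert (b : C → ZMod 2) (p : C × (X → ZMod 2)) : Prop :=
  (∀ x, x ∉ T.vars p.1 → p.2 x = 0) ∧ (T.con p.1 → ∑ x ∈ T.vars p.1, p.2 x = b p.1)

/-- Vertices of the agreement graph `G_b`. -/
def Vert (b : C → ZMod 2) : Type := {p : C × (X → ZMod 2) // T.IsVert b p}

variable {T}

/-- class of a vertex -/
def Vert.cl {b : C → ZMod 2} (v : T.Vert b) : C := v.1.1

/-- assignment of a vertex -/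
def Vert.as {b : C → ZMod 2} (v : T.Vert b) : X → ZMod 2 := v.1.2

theorem Vert.ext {b : C → ZMod 2} {v w : T.Vert b} (h : v.cl = w.cl)
    (h' : ∀ x ∈ T.vars v.cl, v.as x = w.as x) : v = w := by
  apply Subtype.ext
  apply Prod.ext h
  funext x
  by_cases hx : x ∈ T.vars v.cl
  · exact h' x hx
  · have h1 : v.as x = 0 := v.2.1 x hx
    have h2 : w.as x = 0 := w.2.1 x (by rw [← show v.cl = w.1.1 from h]; exact hx)
    exact h1.trans h2.symm

variable (T)

open Classical in
/-- Adjacency of the agreement graph. -/
noncomputable def agAdj (b : C → ZMod 2) (v w : T.Vert b) : Bool :=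
  T.adj v.cl w.cl && decide (∀ x ∈ T.vars v.cl, x ∈ T.vars w.cl → v.as x = w.as x)

variable {T}

theorem agAdj_iff {b : C → ZMod 2} {v w : T.Vert b} :
    T.agAdj b v w = true ↔ T.adj v.cl w.cl = true ∧
      ∀ x ∈ T.vars v.cl, x ∈ T.vars w.cl → v.as x = w.as x := by
  simp [agAdj]



/-- The vertex of `G_{b'}` obtained from a vertex of `G_b` by the shift `s`. -/
noncomputable def shift {b b' : C → ZMod 2} (s : X → ZMod 2) (v : T.Vert b)
    (h : T.con v.cl → ∑ x ∈ T.vars v.cl, s x = b' v.cl + b v.cl) : T.Vert b' := by
  classical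
  refine ⟨(v.cl, fun x => if x ∈ T.vars v.cl then v.as x + s x else 0), ?_, ?_⟩
  · intro x hx
    exact if_neg hx
  · intro hc
    have h1 : ∑ x ∈ T.vars v.cl, (if x ∈ T.vars v.cl then v.as x + s x else 0) =
        ∑ x ∈ T.vars v.cl, (v.as x + s x) := Finset.sum_congr rfl fun x hx => if_pos hx
    have h2 : ∑ x ∈ T.vars v.cl, v.as x = b v.cl := v.2.2 hc
    change ∑ x ∈ T.vars v.cl, (if x ∈ T.vars v.cl then v.as x + s x else 0) = b' v.cl
    rw [h1, Finset.sum_add_distrib, h2, h hc]
    have h3 : b v.cl + b v.cl = 0 := CharTwo.add_self_eq_zero _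
    calc b v.cl + (b' v.cl + b v.cl) = b' v.cl + (b v.cl + b v.cl) := by ring
      _ = b' v.cl := by rw [h3, add_zero]


theorem shift_as {b b' : C → ZMod 2} (s : X → ZMod 2) (v : T.Vert b)
    (h : T.con v.cl → ∑ x ∈ T.vars v.cl, s x = b' v.cl + b v.cl) {x : X} (hx : x ∈ T.vars v.cl) :
    (shift s v h).as x = v.as x + s x := by
  classical
  exact if_pos hx

variable (T)

/-- Every class is dominated by an object; constrained classes carry the ports and the parity of
their object. -/
structure Dominated {O : Type} (ports : O → Finset X) (dom : C → O) (b : C → ZMod 2)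
    (par : O → ZMod 2) : Prop where
  sub : ∀ c, T.vars c ⊆ ports (dom c)
  con : ∀ c, T.con c → T.vars c = ports (dom c) ∧ b c = par (dom c)

end Template

/-- A `K`-shift system over objects with ports, for the parity difference `par`. -/
structure ShiftSys {O X : Type} [DecidableEq O] (ports : O → Finset X) (par : O → ZMod 2) (K : ℕ)
    (S : Finset O → (X → ZMod 2) → Prop) : Prop where
  valid : ∀ {P s}, S P s → ∀ u ∈ P, ∑ x ∈ ports u, s x = par u
  mono : ∀ {P Q s}, S P s → Q ⊆ P → S Q s
  empty : ∃ s, S ∅ s
  ext : ∀ {P s}, S P s → P.card < K → ∀ u, ∃ s', S (insert u P) s' ∧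
    ∀ v ∈ P, ∀ x ∈ ports v, s' x = s x

/-- A family of positions in which Duplicator wins the bijective `K`-pebble game (any number of
pebbles up to `K`). -/
structure PSys' {V W : Type} [DecidableEq V] [DecidableEq W] (A : V → V → Bool) (B : W → W → Bool)
    (K : ℕ) (R : Finset (V × W) → Prop) : Prop where
  empty : R ∅
  mono : ∀ {P Q : Finset (V × W)}, R P → Q ⊆ P → R Q
  eq : ∀ {P : Finset (V × W)}, R P → ∀ p ∈ P, ∀ q ∈ P, (p.1 = q.1 ↔ p.2 = q.2)
  adj : ∀ {P : Finset (V × W)}, R P → ∀ p ∈ P, ∀ q ∈ P, A p.1 q.1 = B p.2 q.2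
  ext : ∀ {P : Finset (V × W)}, R P → P.card < K → ∃ f : V ≃ W, ∀ z, R (insert (z, f z) P)

namespace Template

variable {C X O : Type} (T : Template C X)

/-- The positions given by a shift system. -/
def posOf [DecidableEq O] (b b' : C → ZMod 2) (dom : C → O) (S : Finset O → (X → ZMod 2) → Prop)
    (P : Finset (T.Vert b × T.Vert b')) : Prop :=
  ∃ s, S (P.image fun p => dom p.1.cl) s ∧
    ∀ p ∈ P, p.2.cl = p.1.cl ∧ ∀ x ∈ T.vars p.1.cl, p.2.as x = p.1.as x + s x

open Classical in
/-- **Duplicator theorem**: a `K`-shift system for `par' + par` gives a pebble system. -/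
theorem dup_psys [DecidableEq O] {ports : O → Finset X} {dom : C → O} {b b' : C → ZMod 2}
    {par par' : O → ZMod 2} (hd : T.Dominated ports dom b par) (hd' : T.Dominated ports dom b' par')
    {K : ℕ} {S : Finset O → (X → ZMod 2) → Prop}
    (hS : ShiftSys ports (fun u => par' u + par u) K S) :
    PSys' (T.agAdj b) (T.agAdj b') K (T.posOf b b' dom S) where
  empty := by
    obtain ⟨s, hs⟩ := hS.empty
    exact ⟨s, by simpa using hs, by simp⟩
  mono := by
    rintro P Q ⟨s, hs, h⟩ hQ
    exact ⟨s, hS.mono hs (Finset.image_subset_image hQ), fun p hp => h p (hQ hp)⟩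
  eq := by
    rintro P ⟨s, hs, h⟩ p hp q hq
    obtain ⟨hpc, hpa⟩ := h p hp
    obtain ⟨hqc, hqa⟩ := h q hq
    constructor
    · intro e
      apply Vert.ext
      · rw [hpc, hqc, e]
      · intro x hx
        rw [hpc] at hx
        rw [hpa x hx, hqa x (by rw [← e]; exact hx), e]
    · intro e
      have ec : p.1.cl = q.1.cl := by rw [← hpc, ← hqc, e]
      apply Vert.ext ec
      intro x hx
      have h1 := hpa x hx
      have h2 := hqa x (by rw [← ec]; exact hx)
      rw [e, h2] at h1
      exact (add_right_cancel h1).symm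
  adj := by
    rintro P ⟨s, hs, h⟩ p hp q hq
    obtain ⟨hpc, hpa⟩ := h p hp
    obtain ⟨hqc, hqa⟩ := h q hq
    rw [Bool.eq_iff_iff, agAdj_iff, agAdj_iff, hpc, hqc]
    refine and_congr_right fun _ => forall_congr' fun x => ?_
    refine forall_congr' fun h1 => forall_congr' fun h2 => ?_
    rw [hpa x h1, hqa x h2]
    exact ⟨fun e => by rw [e], fun e => add_right_cancel e⟩
  ext := by
    rintro P ⟨s, hs, h⟩ hP
    have hcard : (P.image fun p => dom p.1.cl).card < K := lt_of_le_of_lt Finset.card_image_le hP
    choose s' hs' hss' using fun u => hS.ext hs hcard u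
    -- the shift of class `c`
    have hpar : ∀ c, T.con c → ∑ x ∈ T.vars c, s' (dom c) x = b' c + b c := by
      intro c hc
      have h1 := hS.valid (hs' (dom c)) (dom c) (Finset.mem_insert_self _ _)
      rw [(hd.con c hc).1, h1, (hd.con c hc).2, (hd'.con c hc).2]
    have hpar' : ∀ c, T.con c → ∑ x ∈ T.vars c, s' (dom c) x = b c + b' c := by
      intro c hc
      rw [hpar c hc, add_comm]
    let f : T.Vert b ≃ T.Vert b' :=
      { toFun := fun v => shift (s' (dom v.cl)) v (hpar v.cl)
        invFun := fun w => shift (s' (dom w.cl)) w (hpar' w.cl)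
        left_inv := by
          intro v
          apply Vert.ext
          · rfl
          · intro x hx
            change x ∈ T.vars v.cl at hx
            have h1 : (shift (b' := b) (s' (dom v.cl)) (shift (b' := b') (s' (dom v.cl)) v (hpar v.cl))
                (hpar' v.cl)).as x = (shift (b' := b') (s' (dom v.cl)) v (hpar v.cl)).as x +
                  s' (dom v.cl) x := shift_as _ _ _ hx
            refine h1.trans ?_
            rw [shift_as _ _ _ hx, add_assoc, CharTwo.add_self_eq_zero, add_zero]
        right_inv := by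
          intro v
          apply Vert.ext
          · rfl
          · intro x hx
            change x ∈ T.vars v.cl at hx
            have h1 : (shift (b' := b') (s' (dom v.cl)) (shift (b' := b) (s' (dom v.cl)) v (hpar' v.cl))
                (hpar v.cl)).as x = (shift (b' := b) (s' (dom v.cl)) v (hpar' v.cl)).as x +
                  s' (dom v.cl) x := shift_as _ _ _ hx
            refine h1.trans ?_
            rw [shift_as _ _ _ hx, add_assoc, CharTwo.add_self_eq_zero, add_zero] }
    refine ⟨f, fun z => ⟨s' (dom z.cl), ?_, ?_⟩⟩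
    · have e : (insert (z, f z) P).image (fun p => dom p.1.cl) =
          insert (dom z.cl) (P.image fun p => dom p.1.cl) := by
        rw [Finset.image_insert]
      rw [e]
      exact hs' _
    · intro p hp
      rcases Finset.mem_insert.1 hp with rfl | hp
      · exact ⟨rfl, fun x hx => shift_as (s' (dom z.cl)) z (hpar z.cl) hx⟩
      · obtain ⟨hpc, hpa⟩ := h p hp
        refine ⟨hpc, fun x hx => ?_⟩
        rw [hpa x hx, hss' (dom z.cl) (dom p.1.cl) (Finset.mem_image_of_mem _ hp) x (hd.sub _ hx)]

end Template

end Crest.Agent.R290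
end

-- ▼ part R290/Defs

/-!
# Row 290: shared definitions (FROZEN; captain helper432)

See `Crest/Agent/R290/Blueprint.lean` for the mathematics. `Bool` is used as the field with two
elements: Mathlib's `BooleanRing` structure on `Bool` gives `a + b = Bool.xor a b`, `0 = false`,
so `List.sum` of a list of Booleans is its parity.
-/

set_option autoImplicit false

namespace Crest.Agent.R290

open Crest.WLRefine

/-! ## Pebble systems: see `WL.lean` (`WL.PSys`, `WL.PEquiv`). Shift systems: see `AG.lean`
(`ShiftSys`, over `Finset O` and `ZMod 2`). -/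

/-- `Bool` to `ZMod 2` -/
def bz (b : Bool) : ZMod 2 := if b then 1 else 0

/-- Existence of a `K`-consistent shift system for the listed objects `objs` with ports `ports` and
parities `b`. -/
def ShiftEquiv {O X : Type} [DecidableEq O] [DecidableEq X] (objs : List O) (ports : O → List X)
    (b : O → Bool) (K : ℕ) : Prop :=
  ∃ S, ShiftSys (O := {u // u ∈ objs}) (fun u => (ports u.1).toFinset) (fun u => bz (b u.1)) K S

/-- `s` is a global solution -/
def IsSol {O X : Type} (objs : List O) (ports : O → List X) (b : O → Bool) (s : X → Bool) : Prop :=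
  ∀ u ∈ objs, ((ports u).map s).sum = b u

/-! ## Agreement graphs -/

/-- all bit lists of length `n` -/
def bools : ℕ → List (List Bool)
  | 0 => [[]]
  | n + 1 => (bools n).flatMap fun α => [false :: α, true :: α]

/-- An agreement graph: classes with variables; constrained classes carry a parity; `E` says which
classes are joined. -/
structure AG (C X : Type) where
  /-- the classes -/
  cls : List C
  /-- the variables of a class -/
  vars : C → List X
  /-- is the class parity-constrained? -/
  con : C → Bool
  /-- adjacency of classes -/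
  E : C → C → Bool

/-- the two partial assignments agree on common variables -/
def agree {X : Type} [DecidableEq X] (l : List X) (α : List Bool) (l' : List X)
    (α' : List Bool) : Bool :=
  (l.zip α).all fun p => (l'.zip α').all fun q => !(decide (p.1 = q.1)) || (p.2 == q.2)

namespace AG

variable {C X : Type} [DecidableEq X]

/-- the assignments of a class, for the parity function `b` -/
def fibre (G : AG C X) (b : C → Bool) (c : C) : List (List Bool) :=
  (bools (G.vars c).length).filter fun α => !(G.con c) || (α.sum == b c)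

/-- the vertices -/
def items (G : AG C X) (b : C → Bool) : List (C × List Bool) :=
  G.cls.flatMap fun c => (G.fibre b c).map fun α => (c, α)

/-- adjacency of vertices -/
def adj (G : AG C X) (p q : C × List Bool) : Bool :=
  G.E p.1 q.1 && agree (G.vars p.1) p.2 (G.vars q.1) q.2

/-- number of vertices -/
def order (G : AG C X) (b : C → Bool) : ℕ := (G.items b).length

/-- the adjacency matrix -/
def mat (G : AG C X) (b : C → Bool) : Fin (G.order b) → Fin (G.order b) → Bool :=
  fun i j => G.adj ((G.items b).get i) ((G.items b).get j)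

/-- the code of the adjacency matrix as a list function -/
def code (G : AG C X) (b : C → Bool) : List Bool :=
  Crest.Enc.natCode (G.items b).length ++
    (G.items b).flatMap fun v => (G.items b).map fun w => G.adj v w

end AG

/-! ## XOR instances and their two encodings -/

/-- A XOR instance: objects (constraints) with ports (variables), list of all variables. -/
structure XI (O X : Type) where
  /-- objects -/
  objs : List O
  /-- ports of an object -/
  ports : O → List X
  /-- variables -/
  vl : List X

/-- well-formedness -/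
structure XI.OK {O X : Type} (I : XI O X) : Prop where
  objs_nodup : I.objs.Nodup
  objs_ne : I.objs ≠ []
  ports_nodup : ∀ u ∈ I.objs, (I.ports u).Nodup
  two_le : ∀ u ∈ I.objs, 2 ≤ (I.ports u).length
  vl_nodup : I.vl.Nodup
  mem_vl : ∀ x, x ∈ I.vl ↔ ∃ u ∈ I.objs, x ∈ I.ports u

/-- classes of the anchor encoding: objects, variables, anchors, dummies -/
abbrev CA (O X : Type) : Type := (O ⊕ X) ⊕ (ℕ ⊕ ℕ)

section encA
variable {O X : Type} [DecidableEq O] [DecidableEq X]

/-- objects and variables, in order -/
def XI.base (I : XI O X) : List (O ⊕ X) := I.objs.map Sum.inl ++ I.vl.map Sum.inr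

/-- class adjacency of the anchor encoding (symmetric): object - variable if the variable is a port;
object or variable number `j` - anchor `i` iff `i ≤ j`; anchors pairwise; anchor - dummy always. -/
def XI.EA (I : XI O X) : CA O X → CA O X → Bool
  | .inl (.inl u), .inl (.inr x) => decide (x ∈ I.ports u)
  | .inl (.inr x), .inl (.inl u) => decide (x ∈ I.ports u)
  | .inl c, .inr (.inl i) => decide (i ≤ I.base.idxOf c)
  | .inr (.inl i), .inl c => decide (i ≤ I.base.idxOf c)
  | .inr (.inl i), .inr (.inl j) => decide (i ≠ j)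
  | .inr (.inl _), .inr (.inr _) => true
  | .inr (.inr _), .inr (.inl _) => true
  | _, _ => false

/-- the anchor encoding with `D` dummies -/
def encA (I : XI O X) (D : ℕ) : AG (CA O X) X where
  cls := I.base.map Sum.inl ++ (List.range (I.base.length + 1)).map (fun i => Sum.inr (Sum.inl i)) ++
    (List.range D).map (fun i => Sum.inr (Sum.inr i))
  vars
    | .inl (.inl u) => I.ports u
    | .inl (.inr x) => [x]
    | _ => []
  con
    | .inl (.inl _) => true
    | _ => false
  E := I.EA

/-- parities on the classes of the anchor encoding -/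
def bA (b : O → Bool) : CA O X → Bool
  | .inl (.inl u) => b u
  | _ => false

end encA

/-- A base graph with oriented edges `(c, c')`, `vars c' ⊆ vars c`. -/
structure BG (C X : Type) where
  /-- classes -/
  cls : List C
  /-- variables -/
  vars : C → List X
  /-- parity-constrained? -/
  con : C → Bool
  /-- oriented edges -/
  es : List (C × C)

section subdiv
variable {C X : Type} [DecidableEq C] [DecidableEq X]

/-- class adjacency of the subdivision: `inr (k, 0)` subdivides edge number `k`, `inr (k, j)`,
`1 ≤ j ≤ k + 1`, form a pendant path at it. -/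
def BG.ES (G : BG C X) : C ⊕ (ℕ × ℕ) → C ⊕ (ℕ × ℕ) → Bool
  | .inl c, .inr (k, j) => decide (j = 0 ∧ ∃ e ∈ G.es[k]?, e.1 = c ∨ e.2 = c)
  | .inr (k, j), .inl c => decide (j = 0 ∧ ∃ e ∈ G.es[k]?, e.1 = c ∨ e.2 = c)
  | .inr (k, j), .inr (k', j') => decide (k = k' ∧ (j' = j + 1 ∨ j = j' + 1))
  | _, _ => false

/-- the subdivision with pendant paths -/
def subdiv (G : BG C X) : AG (C ⊕ (ℕ × ℕ)) X where
  cls := G.cls.map Sum.inl ++
    (List.range G.es.length).flatMap fun k => (List.range (k + 2)).map fun j => Sum.inr (k, j)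
  vars
    | .inl c => G.vars c
    | .inr (k, _) => match G.es[k]? with
      | some e => G.vars e.1
      | none => []
  con
    | .inl c => G.con c
    | .inr (k, _) => match G.es[k]? with
      | some e => G.con e.1
      | none => false
  E := G.ES

/-- parities on the classes of a subdivision -/
def bSub (G : BG C X) (b : C → Bool) : C ⊕ (ℕ × ℕ) → Bool
  | .inl c => b c
  | .inr (k, _) => match G.es[k]? with
    | some e => b e.1
    | none => false

end subdiv

/-- classes of the base graph of the subcubic encoding: `inl (u, i, 0)` full assignments of `u`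
(copy for port `i`), `inl (u, i, l)` level `l` of the merging tree of port `i`;
`inr (inl (u, i))` chain vertex of port `i` of `u`; `inr (inr (inl x))` join of the two values of `x`;
`inr (inr (inr x))` bus. -/
abbrev CB (O X : Type) : Type := (O × ℕ × ℕ) ⊕ ((O × ℕ) ⊕ (X ⊕ X))

section encS
variable {O X : Type} [DecidableEq O] [DecidableEq X]

/-- occurrences of the variable `x` -/
def XI.occ (I : XI O X) (x : X) : List (O × ℕ) :=
  I.objs.flatMap fun u => ((List.range (I.ports u).length).filter
    fun i => decide ((I.ports u)[i]? = some x)).map fun i => (u, i)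

/-- variables at level `l` of the merging tree of port `i` of `u` (`l ≥ 1`) -/
def XI.mvars (I : XI O X) (u : O) (i l : ℕ) : List X :=
  match (I.ports u)[i]? with
  | some x => x :: ((I.ports u).eraseIdx i).drop l
  | none => []

/-- base graph of the subcubic encoding -/
def baseS (I : XI O X) : BG (CB O X) X where
  cls := (I.objs.flatMap fun u => (List.range (I.ports u).length).flatMap fun i =>
      (List.range (I.ports u).length).map fun l => Sum.inl (u, i, l)) ++
    (I.objs.flatMap fun u => (List.range (I.ports u).length).map fun i => Sum.inr (Sum.inl (u, i))) ++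
    (I.vl.map fun x => Sum.inr (Sum.inr (Sum.inl x))) ++
    (I.vl.map fun x => Sum.inr (Sum.inr (Sum.inr x)))
  vars
    | .inl (u, i, l) => if l = 0 then I.ports u else I.mvars u i l
    | .inr (.inl (u, i)) => match (I.ports u)[i]? with
      | some x => [x]
      | none => []
    | _ => []
  con
    | .inl (_, _, l) => decide (l = 0)
    | _ => false
  es :=
    (I.objs.flatMap fun u => (List.range ((I.ports u).length - 1)).map fun i =>
      (Sum.inl (u, i, 0), Sum.inl (u, i + 1, 0))) ++
    (I.objs.flatMap fun u => (List.range (I.ports u).length).flatMap fun i =>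
      (List.range ((I.ports u).length - 1)).map fun l => (Sum.inl (u, i, l), Sum.inl (u, i, l + 1))) ++
    (I.objs.flatMap fun u => (List.range (I.ports u).length).map fun i =>
      (Sum.inl (u, i, (I.ports u).length - 1), Sum.inr (Sum.inl (u, i)))) ++
    (I.vl.flatMap fun x => ((I.occ x).zip (I.occ x).tail).map fun o =>
      (Sum.inr (Sum.inl o.1), Sum.inr (Sum.inl o.2))) ++
    (I.vl.flatMap fun x => ((I.occ x).take 1).map fun o =>
      (Sum.inr (Sum.inl o), Sum.inr (Sum.inr (Sum.inl x)))) ++
    (I.vl.map fun x => (Sum.inr (Sum.inr (Sum.inl x)), Sum.inr (Sum.inr (Sum.inr x)))) ++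
    ((I.vl.zip I.vl.tail).map fun p =>
      (Sum.inr (Sum.inr (Sum.inr p.1)), Sum.inr (Sum.inr (Sum.inr p.2))))

/-- parities on the base classes of the subcubic encoding -/
def bB (b : O → Bool) : CB O X → Bool
  | .inl (u, _, _) => b u
  | _ => false

/-- the subcubic encoding -/
def encS (I : XI O X) : AG (CB O X ⊕ (ℕ × ℕ)) X := subdiv (baseS I)

/-- parities on the classes of the subcubic encoding -/
def bS (I : XI O X) (b : O → Bool) : CB O X ⊕ (ℕ × ℕ) → Bool := bSub (baseS I) (bB b)

end encS

/-! ## Networks -/

/-- columns `(g, a, p)`; the centre of gadget `g` is `(g, 0, 0)` -/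
abbrev Col : Type := ℕ × ℕ × ℕ
/-- edges: hub edges and internal edges `(g, a, p)` (joining positions `p - 1` and `p` of arm `a`) -/
abbrev Edge (H : Type) : Type := H ⊕ (ℕ × ℕ × ℕ)
/-- variables: `Y (e, i, x, y)` and `U (κ, j, x)` -/
abbrev NVar (H Λ : Type) : Type := (Edge H × ℕ × Λ × Λ) ⊕ (Col × ℕ × Λ)
/-- objects `(κ, i, x, y)` -/
abbrev NObj (Λ : Type) : Type := Col × ℕ × Λ × Λ

set_option synthInstance.maxSize 2000 in
instance instDecEqNVar {H Λ : Type} [DecidableEq H] [DecidableEq Λ] : DecidableEq (NVar H Λ) :=
  inferInstance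
set_option synthInstance.maxSize 2000 in
instance instDecEqNObj {Λ : Type} [DecidableEq Λ] : DecidableEq (NObj Λ) := inferInstance

/-- A network: `m` rows, gadgets `0, …, nG - 1`, the twisted gadget `gt`, number of arms, hub of an
arm, projection of letters of an arm, letters of a gadget at a register. -/
structure Net (H Λ : Type) where
  /-- rows -/
  m : ℕ
  /-- number of gadgets -/
  nG : ℕ
  /-- twisted gadget -/
  gt : ℕ
  /-- number of arms -/
  narm : ℕ → ℕ
  /-- hub of an arm -/
  hub : ℕ → ℕ → H
  /-- projection of an arm -/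
  proj : ℕ → ℕ → Λ → Λ
  /-- letters of gadget `g` at register `j` -/
  lett : ℕ → ℕ → List Λ
  /-- the trivial letter -/
  o : Λ

namespace Net
variable {H Λ : Type}

/-- length of the arms -/
def L (N : Net H Λ) : ℕ := N.m + 2

/-- columns of a gadget -/
def cols (N : Net H Λ) (g : ℕ) : List Col :=
  (g, 0, 0) :: (List.range (N.narm g)).flatMap fun a => (List.range N.L).map fun p => (g, a, p + 1)

/-- edges of a column -/
def edges (N : Net H Λ) (κ : Col) : List (Edge H) :=
  if κ.2.2 = 0 then (List.range (N.narm κ.1)).map fun a => Sum.inr (κ.1, a, 1)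
  else [Sum.inr κ, if κ.2.2 < N.L then Sum.inr (κ.1, κ.2.1, κ.2.2 + 1) else Sum.inl (N.hub κ.1 κ.2.1)]

/-- letter of column `κ` seen at the edge `e` -/
def psi (N : Net H Λ) (κ : Col) (e : Edge H) (x : Λ) : Λ :=
  match e with
  | Sum.inl _ => N.proj κ.1 κ.2.1 x
  | Sum.inr _ => x

/-- the `Y` variable of row `i` at edge `e` -/
def Y (e : Edge H) (i : ℕ) (x y : Λ) : NVar H Λ := Sum.inl (e, i, x, y)
/-- the `U` variable of register `j` of the column `κ` -/
def U (κ : Col) (j : ℕ) (x : Λ) : NVar H Λ := Sum.inr (κ, j, x)

/-- ports of an object -/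
def ports (N : Net H Λ) (u : NObj Λ) : List (NVar H Λ) :=
  ((N.edges u.1).map fun e => Y e u.2.1 (N.psi u.1 e u.2.2.1) (N.psi u.1 e u.2.2.2)) ++
    ((if 0 < u.2.1 then [U u.1 u.2.1 u.2.2.1] else []) ++
      (if u.2.1 + 1 < N.m then [U u.1 (u.2.1 + 1) u.2.2.2] else []))

/-- the objects -/
def objs (N : Net H Λ) : List (NObj Λ) :=
  (List.range N.nG).flatMap fun g => (N.cols g).flatMap fun κ => (List.range N.m).flatMap fun i =>
    (N.lett g i).flatMap fun x => (N.lett g (i + 1)).map fun y => (κ, i, x, y)

/-- the twist: parity 1 at the bottom row of the centre of `gt` -/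
def beta (N : Net H Λ) (u : NObj Λ) : Bool := decide (u.1 = (N.gt, 0, 0) ∧ u.2.1 + 1 = N.m)

/-- a content of gadget `g`: one letter for every register -/
def Content (N : Net H Λ) (g : ℕ) (x : ℕ → Λ) : Prop := ∀ j, x j ∈ N.lett g j

/-- well-formedness -/
structure OK (N : Net H Λ) : Prop where
  two_le : 2 ≤ N.m
  gt_lt : N.gt < N.nG
  narm_gt : N.narm N.gt = 1
  narm_odd : ∀ g < N.nG, Odd (N.narm g)
  lett_triv : ∀ g < N.nG, ∀ j, (j = 0 ∨ N.m ≤ j) → N.lett g j = [N.o]
  proj_o : ∀ g a, N.proj g a N.o = N.o
  lett_nodup : ∀ g j, (N.lett g j).Nodup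
  lett_ne : ∀ g j, N.lett g j ≠ []

/-- A closed set `Kn` of facts with values `val`. -/
structure Closed (N : Net H Λ) (Kn : H → (ℕ → Λ) → Prop) (val : H → (ℕ → Λ) → Bool) : Prop where
  ne_one : ∀ g < N.nG, ∀ x, N.Content g x → ∀ a < N.narm g,
    (∀ a' < N.narm g, a' ≠ a → Kn (N.hub g a') (fun j => N.proj g a' (x j))) →
      Kn (N.hub g a) (fun j => N.proj g a (x j))
  sum_eq : ∀ g < N.nG, ∀ x, N.Content g x →
    (∀ a < N.narm g, Kn (N.hub g a) (fun j => N.proj g a (x j))) →
      ((List.range (N.narm g)).map fun a => val (N.hub g a) (fun j => N.proj g a (x j))).sum =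
        decide (g = N.gt)

/-- Unit propagation without the twisted gadget. -/
inductive Der (N : Net H Λ) : H → (ℕ → Λ) → Prop
  | mk (g : ℕ) (x : ℕ → Λ) (a : ℕ) (hg : g < N.nG) (hgt : g ≠ N.gt) (hx : N.Content g x)
      (ha : a < N.narm g)
      (h : ∀ a' < N.narm g, a' ≠ a → Der N (N.hub g a') (fun j => N.proj g a' (x j))) :
      Der N (N.hub g a) (fun j => N.proj g a (x j))


variable [DecidableEq H] [DecidableEq Λ]

/-- remove duplicates (keeps the last occurrences) -/
def dd {X : Type} [DecidableEq X] (l : List X) : List X :=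
  l.foldr (fun a acc => if a ∈ acc then acc else a :: acc) []

/-- the XOR instance of a network -/
def xi (N : Net H Λ) : XI (NObj Λ) (NVar H Λ) where
  objs := N.objs
  ports := N.ports
  vl := dd (N.objs.flatMap N.ports)

end Net

/-! ## Rules -/

/-- hubs (= predicates): `(0, i)` state `i`; `(1, k)` top pointer of stack `k`; `(2, a)` symbol `a`;
`(3, 0)` next pointer; `(4, 0)` target -/
abbrev Hub : Type := ℕ × ℕ
/-- letters `(t, t', s, s')` -/
abbrev Let : Type := ℕ × ℕ × ℕ × ℕ

instance instDecEqLet : DecidableEq Let := inferInstance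
instance instDecEqHub : DecidableEq Hub := inferInstance
instance instDecEqNVarHL : DecidableEq (NVar Hub Let) := instDecEqNVar
instance instDecEqNObjL : DecidableEq (NObj Let) := instDecEqNObj
/-- atoms: predicate and two selectors (`0` zero, `1` t, `2` t', `3` s, `4` s') -/
abbrev Atom : Type := Hub × ℕ × ℕ
/-- rules: premises and head -/
abbrev Rule : Type := List Atom × Atom

/-- value of a selector on a quadruple (used for letters and for numbers) -/
def sel (c : ℕ) (q : ℕ × ℕ × ℕ × ℕ) : ℕ :=
  if c = 1 then q.1 else if c = 2 then q.2.1 else if c = 3 then q.2.2.1 else if c = 4 then q.2.2.2 else 0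

/-- does the atom use `t'`? -/
def Atom.usesT (a : Atom) : Bool := decide (a.2.1 = 2 ∨ a.2.2 = 2)
/-- does the rule use `t'`? -/
def Rule.usesT (r : Rule) : Bool := r.1.any Atom.usesT || Atom.usesT r.2
/-- the arms: every premise twice, the head once -/
def Rule.arms (r : Rule) : List Atom := r.1.flatMap (fun a => [a, a]) ++ [r.2]

/-- the target rule of the twisted gadget -/
def tgtRule : Rule := ([], ((4, 0), 3, 4))

/-- the gadgets: a rule with `0`, or a rule using `t'` with `f + 1`, `f` the position of the
increment -/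
def gadgets (rs : List Rule) (D : ℕ) : List (Rule × ℕ) :=
  (rs.flatMap fun r => if Rule.usesT r then (List.range D).map (fun f => (r, f + 1)) else [(r, 0)]) ++
    [(tgtRule, 0)]

/-- letters at register `j` of a gadget with increment mark `f` -/
def letters (B D f j : ℕ) : List Let :=
  if j = 0 ∨ D < j then [(0, 0, 0, 0)]
  else (if f = 0 then (List.range B).map fun d => (d, 0)
      else if j < f then [(B - 1, 0)]
      else if j = f then (List.range (B - 1)).map fun d => (d, d + 1)
      else (List.range B).map fun d => (d, d)).flatMap fun p =>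
    (List.range B).flatMap fun a => (List.range B).map fun c => (p.1, p.2, a, c)

/-- arm `a` of gadget `g` -/
def armOf (rs : List Rule) (D g a : ℕ) : Atom :=
  (Rule.arms ((gadgets rs D).getD g (tgtRule, 0)).1).getD a ((4, 0), 3, 4)

/-- The network of a list of rules, base `B`, `D` digits; `m = D + 1` rows. -/
def ruleNet (rs : List Rule) (B D : ℕ) : Net Hub Let where
  m := D + 1
  nG := (gadgets rs D).length
  gt := (gadgets rs D).length - 1
  narm g := (Rule.arms ((gadgets rs D).getD g (tgtRule, 0)).1).length
  hub g a := (armOf rs D g a).1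
  proj g a q := (sel (armOf rs D g a).2.1 q, sel (armOf rs D g a).2.2 q, 0, 0)
  lett g j := letters B D ((gadgets rs D).getD g (tgtRule, 0)).2 j
  o := (0, 0, 0, 0)

/-- Horn derivability at the level of numbers below `M`. -/
inductive RDer (rs : List Rule) (M : ℕ) : Hub → ℕ → ℕ → Prop
  | mk (r : Rule) (t s s' : ℕ) (hr : r ∈ rs) (ht : t < M) (hs : s < M) (hs' : s' < M)
      (ht' : Rule.usesT r = true → t + 1 < M)
      (h : ∀ a ∈ r.1, RDer rs M a.1 (sel a.2.1 (t, if Rule.usesT r then t + 1 else 0, s, s'))
        (sel a.2.2 (t, if Rule.usesT r then t + 1 else 0, s, s'))) :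
      RDer rs M r.2.1 (sel r.2.2.1 (t, if Rule.usesT r then t + 1 else 0, s, s'))
        (sel r.2.2.2 (t, if Rule.usesT r then t + 1 else 0, s, s'))

/-- all hubs of a rule list -/
def hubsOf (rs : List Rule) : List Hub := rs.flatMap fun r => (r.1 ++ [r.2]).map fun a => a.1

/-- unlocking rules `acc(t) → h(s, s')` -/
def unlock (acc : Hub) (rs : List Rule) : List Rule :=
  (hubsOf rs ++ [acc, (4, 0)]).map fun h => ([(acc, 1, 0)], (h, 3, 4))

/-! ## Rules of flat programs (`Flat.lean`: `FInstr`, `Flat`, `frun`, `FHalts`) -/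

/-- stack index of an instruction -/
def FInstr.stack : FInstr → ℕ
  | .push k _ _ => k
  | .pop k _ _ _ => k

/-- instructions as a sum of products -/
def FInstr.toSum : FInstr → (ℕ × Bool × ℕ) ⊕ (ℕ × ℕ × ℕ × ℕ)
  | .push k b j => Sum.inl (k, b, j)
  | .pop k e t f => Sum.inr (k, e, t, f)

theorem FInstr.toSum_injective : Function.Injective FInstr.toSum := by
  rintro (⟨k, b, j⟩ | ⟨k, e, t, f⟩) (⟨k', b', j'⟩ | ⟨k', e', t', f'⟩) h <;>
    simp_all [FInstr.toSum]

instance : Crest.Agent.Lib.PT.PTCode FInstr :=
  Crest.Agent.Lib.PT.PTCode.ofInj FInstr.toSum FInstr.toSum_injective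

/-- pointer facts of all stacks but `k` persist -/
def persist (Ks i k : ℕ) : List Rule :=
  ((List.range Ks).filter fun k' => decide (k' ≠ k)).map fun k' =>
    ([((0, i), 1, 0), ((1, k'), 1, 3)], ((1, k'), 2, 3))

/-- rules of the instruction `c` at label `i`, `Ks` stacks, `n` the halting label -/
def instrRules (Ks n i : ℕ) : FInstr → List Rule
  | .push k b j =>
    [([((0, i), 1, 0)], ((0, min j n), 2, 0)),
     ([((0, i), 1, 0)], ((1, k), 2, 2)),
     ([((0, i), 1, 0), ((1, k), 1, 3)], ((3, 0), 2, 3)),
     ([((0, i), 1, 0)], ((2, b.toNat), 2, 0))] ++ persist Ks i k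
  | .pop k e t f =>
    [([((0, i), 1, 0), ((1, k), 1, 0)], ((0, min e n), 2, 0)),
     ([((0, i), 1, 0), ((1, k), 1, 0)], ((1, k), 2, 0)),
     ([((0, i), 1, 0), ((1, k), 1, 3), ((2, 1), 3, 0)], ((0, min t n), 2, 0)),
     ([((0, i), 1, 0), ((1, k), 1, 3), ((2, 0), 3, 0)], ((0, min f n), 2, 0)),
     ([((0, i), 1, 0), ((1, k), 1, 3), ((3, 0), 3, 4)], ((1, k), 2, 4))] ++ persist Ks i k

/-- rules of a flat program without the unlocking rules; the halting fact is `(0, p.length)` -/
def progRules (p : Flat) (Ks : ℕ) : List Rule :=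
  [([], ((0, 0), 0, 0))] ++ ((List.range Ks).map fun k => ([], ((1, k), 0, 0))) ++
    p.zipIdx.flatMap fun ci => instrRules Ks p.length ci.2 ci.1

/-- all rules -/
def allRules (p : Flat) (Ks : ℕ) : List Rule :=
  progRules p Ks ++ unlock (0, p.length) (progRules p Ks)

/-- the network of a flat program -/
def progNet (p : Flat) (Ks B D : ℕ) : Net Hub Let := ruleNet (allRules p Ks) B D

/-- the XOR instance of a flat program -/
def progXI (p : Flat) (Ks B D : ℕ) : XI (NObj Let) (NVar Hub Let) := (progNet p Ks B D).xi

/-- the pair of graphs of the anchor encoding -/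
def graphA (p : Flat) (Ks B D pad : ℕ) (tw : Bool) : List Bool :=
  (encA (progXI p Ks B D) pad).code (bA fun u => tw && (progNet p Ks B D).beta u)

/-- the pair of graphs of the subcubic encoding -/
def graphS (p : Flat) (Ks B D : ℕ) (tw : Bool) : List Bool :=
  (encS (progXI p Ks B D)).code (bS (progXI p Ks B D) fun u => tw && (progNet p Ks B D).beta u)

/-! ## Further notions used in the interfaces -/

/-- all stack indices are below `Ks` -/
def WF (p : Flat) (Ks : ℕ) : Prop := ∀ c ∈ p, FInstr.stack c < Ks

/-- `p` started on empty stacks never stops -/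
def RunsForever (p : Flat) : Prop := ∀ T, ¬ FHalts p T

/-- digit expansion of a pair of numbers as a content -/
def dig (B D a c : ℕ) : ℕ → Let := fun j =>
  if j = 0 ∨ D < j then (0, 0, 0, 0) else (a / B ^ (j - 1) % B, c / B ^ (j - 1) % B, 0, 0)

/-- a set of facts closed under the rules (numbers below `M`) -/
def HornClosed (rs : List Rule) (M : ℕ) (Tr : Hub → ℕ → ℕ → Prop) : Prop :=
  ∀ r ∈ rs, ∀ t s s' : ℕ, t < M → s < M → s' < M → (Rule.usesT r = true → t + 1 < M) →
    (∀ a ∈ r.1, Tr a.1 (sel a.2.1 (t, if Rule.usesT r then t + 1 else 0, s, s'))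
      (sel a.2.2 (t, if Rule.usesT r then t + 1 else 0, s, s'))) →
    Tr r.2.1 (sel r.2.2.1 (t, if Rule.usesT r then t + 1 else 0, s, s'))
      (sel r.2.2.2 (t, if Rule.usesT r then t + 1 else 0, s, s'))

/-- Every hub can be unlocked: for the hub `h` of any arm the gadget `ug h` has three arms, two
identical derivable ones and `h`, and `lift h j` lifts the letters of `h` at register `j`. -/
structure Net.Unlocked {H Λ : Type} (N : Net H Λ) (ug : H → ℕ) (lift : H → ℕ → Λ → Λ) : Prop where
  lt : ∀ g < N.nG, ∀ a < N.narm g, ug (N.hub g a) < N.nG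
  ne : ∀ g < N.nG, ∀ a < N.narm g, ug (N.hub g a) ≠ N.gt
  narm : ∀ g < N.nG, ∀ a < N.narm g, N.narm (ug (N.hub g a)) = 3
  hub2 : ∀ g < N.nG, ∀ a < N.narm g, N.hub (ug (N.hub g a)) 2 = N.hub g a
  hub01 : ∀ g < N.nG, ∀ a < N.narm g, N.hub (ug (N.hub g a)) 0 = N.hub (ug (N.hub g a)) 1
  proj01 : ∀ g < N.nG, ∀ a < N.narm g, N.proj (ug (N.hub g a)) 0 = N.proj (ug (N.hub g a)) 1
  mem : ∀ g < N.nG, ∀ a < N.narm g, ∀ j, ∀ x ∈ N.lett g j,
    lift (N.hub g a) j (N.proj g a x) ∈ N.lett (ug (N.hub g a)) j
  proj_lift : ∀ g < N.nG, ∀ a < N.narm g, ∀ j, ∀ x ∈ N.lett g j,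
    N.proj (ug (N.hub g a)) 2 (lift (N.hub g a) j (N.proj g a x)) = N.proj g a x
  der : ∀ g < N.nG, ∀ a < N.narm g, ∀ x, N.Content g x →
    N.Der (N.hub (ug (N.hub g a)) 0)
      (fun j => N.proj (ug (N.hub g a)) 0 (lift (N.hub g a) j (N.proj g a (x j))))

/-- order of the anchor encoding without dummies -/
def baseOrder (p : Flat) (Ks B D : ℕ) : ℕ :=
  (encA (progXI p Ks B D) 0).order (fun _ => false)

/-! equation lemmas, generated once here (so that the importing modules do not each generate them) -/


end Crest.Agent.R290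
private theorem rz_442575b314 : type_of% @_root_.Crest.Agent.R290.BG.ES.eq_1 := @_root_.Crest.Agent.R290.BG.ES.eq_1 -- L168
private theorem rz_b21355d86a : type_of% @_root_.Crest.Agent.R290.FInstr.stack.eq_1 := @_root_.Crest.Agent.R290.FInstr.stack.eq_1 -- L470
private theorem rz_1c5732462a : type_of% @_root_.Crest.Agent.R290.FInstr.toSum.eq_1 := @_root_.Crest.Agent.R290.FInstr.toSum.eq_1 -- L475
private theorem rz_6bfe2fcb55 : type_of% @_root_.Crest.Agent.R290.XI.EA.eq_1 := @_root_.Crest.Agent.R290.XI.EA.eq_1 -- L122
private theorem rz_fc7926461e : type_of% @_root_.Crest.Agent.R290.bSub.eq_1 := @_root_.Crest.Agent.R290.bSub.eq_1 -- L191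
private theorem rz_e719e98f5f : type_of% @_root_.Crest.Agent.R290.bools.eq_def := @_root_.Crest.Agent.R290.bools.eq_def -- L40
private theorem rz_7be0a8dbf9 : type_of% @_root_.Crest.Agent.R290.bools.eq_1 := @_root_.Crest.Agent.R290.bools.eq_1 -- L40
private theorem rz_5e58e4648c : type_of% @_root_.Crest.Agent.R290.instrRules.eq_1 := @_root_.Crest.Agent.R290.instrRules.eq_1 -- L492
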