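import Crest.Agent.R290.AGModel
import Crest.Agent.R290.EncA1

/-!
# Row 290: class recognition for the anchor encoding (ENCA-2, helper351)

Anchors are the vertices of degree at least `D`; the class number `j` is recognised by having exactly
`j + 1` adjacent anchors.
-/

set_option autoImplicit false

namespace Crest.Agent.R290

open Finset Crest.WLRefine AGM
open Crest.Agent.R290.WL (PEquiv PSys Pres)

/-! ### lawful equality test on sums -/

instance instLawfulBEqSumR290 {O X : Type} [BEq O] [LawfulBEq O] [BEq X] [LawfulBEq X] :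
    LawfulBEq (O ⊕ X) where
  eq_of_beq := by
    intro a b h
    rcases a with a | a <;> rcases b with b | b
    · exact congrArg Sum.inl (eq_of_beq h)
    · exact Bool.noConfusion h
    · exact Bool.noConfusion h
    · exact congrArg Sum.inr (eq_of_beq h)
  rfl := by
    intro a
    rcases a with a | a
    · exact beq_self_eq_true a
    · exact beq_self_eq_true a

/-! ### Unary predicates on arbitrary graphs -/

section preds

variable {V : Type} (D : ℕ) (A : V → V → Bool)

/-- anchors: degree at least `D` -/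
def An (v : V) : Prop := ∃ t, D ≤ t ∧ Nat.card {w // A v w = true} = t

/-- number of adjacent anchors -/
noncomputable def acnt (v : V) : ℕ := Nat.card {w // A v w = true ∧ An D A w}

/-- non-anchors with exactly `j + 1` adjacent anchors -/
def Qc (j : ℕ) (v : V) : Prop := ¬ An D A v ∧ acnt D A v = j + 1

theorem An_iff_le (v : V) : An D A v ↔ D ≤ Nat.card {w // A v w = true} :=
  ⟨fun ⟨_, h, h'⟩ => h' ▸ h, fun h => ⟨_, h, rfl⟩⟩

end preds

section pres

variable {V W : Type} {A : V → V → Bool} {B : W → W → Bool} {K : ℕ}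
  {R : Finset (V × W) → Prop}

theorem pres_An (hR : PSys A B K R) (hK : 2 ≤ K) (D : ℕ) :
    Pres R (fun v _ => An D A v) (fun v _ => An D B v) :=
  WL.Pres.exists_nat fun t => (WL.Pres.const (D ≤ t)).and (WL.Pres.card_unary hR hK hR.pres_adj t)

theorem pres_Qc (hR : PSys A B K R) (hK : 2 ≤ K) (D j : ℕ) :
    Pres R (fun v _ => Qc D A j v) (fun v _ => Qc D B j v) :=
  (pres_An hR hK D).not.and
    (WL.Pres.card_unary hR hK (hR.pres_adj.and (pres_An hR hK D).swap) (j + 1))

end pres

/-! ### Facts on the classes of `encA` -/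

section cls

variable {O X : Type} [DecidableEq O] [DecidableEq X] {I : XI O X} {D : ℕ}

theorem mem_cls_inl {c : O ⊕ X} : (Sum.inl c : CA O X) ∈ (encA I D).cls ↔ c ∈ I.base := by
  simp [encA]

theorem mem_cls_anc {i : ℕ} : (Sum.inr (Sum.inl i) : CA O X) ∈ (encA I D).cls ↔
    i < I.base.length + 1 := by
  simp [encA]

theorem mem_cls_dum {i : ℕ} : (Sum.inr (Sum.inr i) : CA O X) ∈ (encA I D).cls ↔ i < D := by
  simp [encA]

omit [DecidableEq O] [DecidableEq X] in
theorem mem_base_inl {u : O} : (Sum.inl u : O ⊕ X) ∈ I.base ↔ u ∈ I.objs := by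
  simp [XI.base]

omit [DecidableEq O] [DecidableEq X] in
theorem mem_base_inr {x : X} : (Sum.inr x : O ⊕ X) ∈ I.base ↔ x ∈ I.vl := by
  simp [XI.base]

omit [DecidableEq O] [DecidableEq X] in
theorem nodup_base (hI : I.OK) : I.base.Nodup := by
  unfold XI.base
  rw [List.nodup_append']
  refine ⟨hI.objs_nodup.map Sum.inl_injective, hI.vl_nodup.map Sum.inr_injective, ?_⟩
  intro a h1 h2
  obtain ⟨u, _, rfl⟩ := List.mem_map.mp h1
  obtain ⟨x, _, h⟩ := List.mem_map.mp h2
  exact absurd h (by simp)

theorem nodup_clsA (hI : I.OK) (D : ℕ) : (encA I D).cls.Nodup := by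
  unfold encA
  dsimp only
  rw [List.nodup_append', List.nodup_append']
  refine ⟨⟨(nodup_base hI).map Sum.inl_injective, List.nodup_range.map ?_, ?_⟩,
    List.nodup_range.map ?_, ?_⟩
  · intro a b h
    simpa using h
  · intro a h1 h2
    obtain ⟨u, _, rfl⟩ := List.mem_map.mp h1
    obtain ⟨x, _, h⟩ := List.mem_map.mp h2
    exact absurd h (by simp)
  · intro a b h
    simpa using h
  · intro a h1 h2
    obtain ⟨x, _, rfl⟩ := List.mem_map.mp h2
    rcases List.mem_append.mp h1 with h1 | h1
    · obtain ⟨u, _, h⟩ := List.mem_map.mp h1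
      exact absurd h (by simp)
    · obtain ⟨u, _, h⟩ := List.mem_map.mp h1
      exact absurd h (by simp)

theorem nodup_varsA (hI : I.OK) (D : ℕ) : ∀ c ∈ (encA I D).cls, ((encA I D).vars c).Nodup := by
  intro c hc
  rcases c with (u | x) | (i | i)
  · exact hI.ports_nodup u (mem_base_inl.mp (mem_cls_inl.mp hc))
  · simp [encA]
  · simp [encA]
  · simp [encA]

end cls

/-! ### Recognition of classes in a model -/

section model

variable {O X : Type} [DecidableEq O] [DecidableEq X] {I : XI O X} {D M : ℕ} {bC : CA O X → Bool}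
  {V : Type} {A : V → V → Bool} {cl : V → CA O X} {as : V → X → ZMod 2}

/-- a vertex of every class -/
theorem exists_cl (hI : I.OK) (hm : Model (encA I D) bC A cl as) {c : CA O X}
    (hc : c ∈ (encA I D).cls) : ∃ v, cl v = c := by
  rcases c with (u | x) | (i | i)
  · have hu : u ∈ I.objs := mem_base_inl.mp (mem_cls_inl.mp hc)
    have h2 := hI.two_le u hu
    obtain ⟨y, hy⟩ : ∃ y, y ∈ I.ports u := List.exists_mem_of_length_pos (by omega)
    obtain ⟨v, hv, _⟩ := hm.exists_v _ hc
      (fun x => if x = y then bz (bC (Sum.inl (Sum.inl u))) else 0) (fun _ => by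
      change ∑ x ∈ (I.ports u).toFinset, (if x = y then bz (bC (Sum.inl (Sum.inl u))) else 0) =
        bz (bC (Sum.inl (Sum.inl u)))
      rw [Finset.sum_ite_eq', if_pos (List.mem_toFinset.mpr hy)])
    exact ⟨v, hv⟩
  · obtain ⟨v, hv, _⟩ := hm.exists_v _ hc (fun _ => 0) (fun h => absurd h (by simp [encA]))
    exact ⟨v, hv⟩
  · obtain ⟨v, hv, _⟩ := hm.exists_v _ hc (fun _ => 0) (fun h => absurd h (by simp [encA]))
    exact ⟨v, hv⟩
  · obtain ⟨v, hv, _⟩ := hm.exists_v _ hc (fun _ => 0) (fun h => absurd h (by simp [encA]))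
    exact ⟨v, hv⟩

/-- a class without variables has one vertex -/
theorem eq_of_inr (hm : Model (encA I D) bC A cl as) {v w : V} {a : ℕ ⊕ ℕ}
    (hv : cl v = Sum.inr a) (hw : cl w = Sum.inr a) : v = w := by
  apply hm.ext v w (hv.trans hw.symm)
  intro x hx
  rw [hv] at hx
  rcases a with a | a <;> exact absurd hx (by simp [encA])

/-- adjacency when one of the classes has no variables -/
theorem adj_inr (hm : Model (encA I D) bC A cl as) {v w : V} {a : ℕ ⊕ ℕ}
    (hw : cl w = Sum.inr a) : A v w = true ↔ (encA I D).E (cl v) (cl w) = true := by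
  rw [hm.adj_iff]
  refine ⟨fun h => h.1, fun h => ⟨h, fun x _ hx => ?_⟩⟩
  rw [hw] at hx
  rcases a with a | a <;> exact absurd hx (by simp [encA])

theorem card_nondummy (hI : I.OK) [Finite V] (hm : Model (encA I D) bC A cl as)
    (hV : Nat.card V = M + D) : Nat.card {v // ¬ ∃ i, cl v = Sum.inr (Sum.inr i)} ≤ M := by
  classical
  have h1 : D ≤ Nat.card {v // ∃ i, cl v = Sum.inr (Sum.inr i)} := by
    choose f hf using fun i : Fin D => exists_cl hI hm (mem_cls_dum.mpr i.2)
    have h2 : Nat.card (Fin D) ≤ Nat.card {v // ∃ i, cl v = Sum.inr (Sum.inr i)} := by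
      refine Nat.card_le_card_of_injective (fun i => ⟨f i, _, hf i⟩) ?_
      intro i j hij
      have h3 : f i = f j := congrArg Subtype.val hij
      have h4 := hf i
      rw [h3, hf j] at h4
      exact Fin.ext (by simpa using h4.symm)
    simpa using h2
  have h2 : Nat.card V = Nat.card {v // ∃ i, cl v = Sum.inr (Sum.inr i)} +
      Nat.card {v // ¬ ∃ i, cl v = Sum.inr (Sum.inr i)} := by
    rw [← Nat.card_sum]
    exact Nat.card_congr (Equiv.sumCompl _).symm
  omega

theorem E_dum {c : CA O X} {i : ℕ} (h : (encA I D).E c (Sum.inr (Sum.inr i)) = true) :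
    ∃ j, c = Sum.inr (Sum.inl j) := by
  rcases c with (u | x) | (j | j)
  · simp [encA, XI.EA] at h
  · simp [encA, XI.EA] at h
  · exact ⟨j, rfl⟩
  · simp [encA, XI.EA] at h

/-- anchors are recognised by their degree -/
theorem An_model (hI : I.OK) [Finite V] (hm : Model (encA I D) bC A cl as)
    (hV : Nat.card V = M + D) (hD : M < D) (v : V) :
    An D A v ↔ ∃ i, cl v = Sum.inr (Sum.inl i) := by
  rw [An_iff_le]
  constructor
  · intro h
    by_contra hc
    have h1 : Nat.card {w // A v w = true} ≤ Nat.card {w // ¬ ∃ i, cl w = Sum.inr (Sum.inr i)} := by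
      refine Nat.card_le_card_of_injective (fun w => ⟨w.1, ?_⟩) ?_
      · rintro ⟨i, hi⟩
        have h2 := ((hm.adj_iff v w.1).mp w.2).1
        rw [hi] at h2
        exact hc (E_dum h2)
      · intro w w' hw
        exact Subtype.ext (Subtype.mk.inj hw)
    have h2 := card_nondummy hI hm hV
    omega
  · rintro ⟨i, hi⟩
    choose f hf using fun j : Fin D => exists_cl hI hm (mem_cls_dum.mpr j.2)
    have h2 : Nat.card (Fin D) ≤ Nat.card {w // A v w = true} := by
      refine Nat.card_le_card_of_injective (fun j => ⟨f j, ?_⟩) ?_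
      · rw [adj_inr hm (hf j), hf j, hi]
        rfl
      · intro j j' hjj
        have h3 : f j = f j' := congrArg Subtype.val hjj
        have h4 := hf j
        rw [h3, hf j'] at h4
        exact Fin.ext (by simpa using h4.symm)
    simpa using h2

theorem acnt_model (hI : I.OK) [Finite V] (hm : Model (encA I D) bC A cl as)
    (hV : Nat.card V = M + D) (hD : M < D) (v : V) :
    acnt D A v = ((Finset.range (I.base.length + 1)).filter
      fun i => (encA I D).E (cl v) (Sum.inr (Sum.inl i)) = true).card := by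
  classical
  choose f hf using fun j : Fin (I.base.length + 1) =>
    exists_cl hI hm (mem_cls_anc.mpr j.2)
  have h1 : Nat.card {i // i ∈ (Finset.range (I.base.length + 1)).filter
      fun i => (encA I D).E (cl v) (Sum.inr (Sum.inl i)) = true} = acnt D A v := by
    unfold acnt
    refine Nat.card_eq_of_bijective (fun i => ⟨f ⟨i.1, Finset.mem_range.mp (Finset.mem_filter.mp i.2).1⟩,
      ?_, ?_⟩) ⟨?_, ?_⟩
    · rw [adj_inr hm (hf _), hf]
      exact (Finset.mem_filter.mp i.2).2
    · rw [An_model hI hm hV hD]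
      exact ⟨_, hf _⟩
    · intro i j hij
      have h3 := congrArg Subtype.val hij
      dsimp only at h3
      have h4 := hf ⟨i.1, Finset.mem_range.mp (Finset.mem_filter.mp i.2).1⟩
      rw [h3, hf] at h4
      exact Subtype.ext (by simpa using h4.symm)
    · rintro ⟨w, hw, hw'⟩
      obtain ⟨i, hi⟩ := (An_model hI hm hV hD w).mp hw'
      have h5 : i < I.base.length + 1 := by
        have := hm.cl_mem w
        rw [hi] at this
        exact mem_cls_anc.mp this
      rw [adj_inr hm hi, hi] at hw
      refine ⟨⟨i, Finset.mem_filter.mpr ⟨Finset.mem_range.mpr h5, hw⟩⟩, ?_⟩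
      apply Subtype.ext
      exact eq_of_inr hm (hf ⟨i, h5⟩) hi
  rw [← h1, Nat.card_eq_fintype_card, Fintype.card_coe]

theorem acnt_inl (hI : I.OK) [Finite V] (hm : Model (encA I D) bC A cl as)
    (hV : Nat.card V = M + D) (hD : M < D) {v : V} {c : O ⊕ X} (hv : cl v = Sum.inl c) :
    acnt D A v = I.base.idxOf c + 1 := by
  have hc : c ∈ I.base := by
    have := hm.cl_mem v
    rw [hv] at this
    exact mem_cls_inl.mp this
  have h1 : I.base.idxOf c < I.base.length := List.idxOf_lt_length_iff.mpr hc
  rw [acnt_model hI hm hV hD, hv]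
  have h2 : ((Finset.range (I.base.length + 1)).filter
      fun i => (encA I D).E (Sum.inl c) (Sum.inr (Sum.inl i)) = true) =
        Finset.range (I.base.idxOf c + 1) := by
    ext i
    rw [Finset.mem_filter, Finset.mem_range, Finset.mem_range]
    have h3 : (encA I D).E (Sum.inl c) (Sum.inr (Sum.inl i)) = decide (i ≤ I.base.idxOf c) := by
      rcases c with u | x <;> rfl
    rw [h3, decide_eq_true_iff]
    omega
  rw [h2, Finset.card_range]

theorem acnt_dum (hI : I.OK) [Finite V] (hm : Model (encA I D) bC A cl as)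
    (hV : Nat.card V = M + D) (hD : M < D) {v : V} {j : ℕ} (hv : cl v = Sum.inr (Sum.inr j)) :
    acnt D A v = I.base.length + 1 := by
  rw [acnt_model hI hm hV hD, hv]
  have h2 : ((Finset.range (I.base.length + 1)).filter
      fun i => (encA I D).E (Sum.inr (Sum.inr j)) (Sum.inr (Sum.inl i)) = true) =
        Finset.range (I.base.length + 1) := by
    apply Finset.filter_true_of_mem
    intro i _
    rfl
  rw [h2, Finset.card_range]

theorem Qc_model (hI : I.OK) [Finite V] (hm : Model (encA I D) bC A cl as)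
    (hV : Nat.card V = M + D) (hD : M < D) {c : O ⊕ X} (hc : c ∈ I.base) (v : V) :
    Qc D A (I.base.idxOf c) v ↔ cl v = Sum.inl c := by
  have h1 : I.base.idxOf c < I.base.length := List.idxOf_lt_length_iff.mpr hc
  unfold Qc
  rw [An_model hI hm hV hD]
  constructor
  · rintro ⟨h2, h3⟩
    rcases hcl : cl v with c' | (i | i)
    · rw [acnt_inl hI hm hV hD hcl] at h3
      have h4 : I.base.idxOf c' = I.base.idxOf c := by omega
      rw [(List.idxOf_inj (by
        have := hm.cl_mem v
        rw [hcl] at this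
        exact mem_cls_inl.mp this)).mp h4]
    · exact absurd ⟨i, hcl⟩ h2
    · rw [acnt_dum hI hm hV hD hcl] at h3
      omega
  · intro hv
    refine ⟨?_, acnt_inl hI hm hV hD hv⟩
    rintro ⟨i, hi⟩
    rw [hv] at hi
    exact absurd hi (by simp)

theorem Qc_dum (hI : I.OK) [Finite V] (hm : Model (encA I D) bC A cl as)
    (hV : Nat.card V = M + D) (hD : M < D) (v : V) :
    Qc D A I.base.length v ↔ ∃ i, cl v = Sum.inr (Sum.inr i) := by
  unfold Qc
  rw [An_model hI hm hV hD]
  constructor
  · rintro ⟨h2, h3⟩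
    rcases hcl : cl v with c' | (i | i)
    · rw [acnt_inl hI hm hV hD hcl] at h3
      have hc : c' ∈ I.base := by
        have := hm.cl_mem v
        rw [hcl] at this
        exact mem_cls_inl.mp this
      have h1 : I.base.idxOf c' < I.base.length := List.idxOf_lt_length_iff.mpr hc
      omega
    · exact absurd ⟨i, hcl⟩ h2
    · exact ⟨i, rfl⟩
  · rintro ⟨i, hi⟩
    refine ⟨?_, acnt_dum hI hm hV hD hi⟩
    rintro ⟨j, hj⟩
    rw [hi] at hj
    exact absurd hj (by simp)

/-! ### all classes at once -/

variable (I D) in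
/-- the unary predicate recognising a class (all dummies together) -/
def Ucls (A : V → V → Bool) : CA O X → V → Prop
  | .inl c, v => Qc D A (I.base.idxOf c) v
  | .inr (.inl i), v => An D A v ∧ ∀ j, j < I.base.length →
      ((∃ w, A v w = true ∧ Qc D A j w) ↔ i ≤ j)
  | .inr (.inr _), v => Qc D A I.base.length v

/-- identify all dummies -/
def coarse : CA O X → CA O X
  | .inr (.inr _) => .inr (.inr 0)
  | c => c

theorem E_coarse (c c' : CA O X) : (encA I D).E c c' = (encA I D).E (coarse c) (coarse c') := by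
  rcases c with (u | x) | (i | i) <;> rcases c' with (u' | x') | (i' | i') <;> rfl

omit [DecidableEq O] [DecidableEq X] in
theorem coarse_inl {c : CA O X} {c' : O ⊕ X} (h : coarse c = coarse (Sum.inl c')) :
    c = Sum.inl c' := by
  rcases c with (u | x) | (i | i)
  · exact h
  · exact h
  · exact h
  · exact absurd h (by simp [coarse])

theorem Ucls_model (hI : I.OK) [Finite V] (hm : Model (encA I D) bC A cl as)
    (hV : Nat.card V = M + D) (hD : M < D) {c : CA O X} (hc : c ∈ (encA I D).cls) (v : V) :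
    Ucls I D A c v ↔ coarse (cl v) = coarse c := by
  rcases c with c | (i | i)
  · have h1 := Qc_model hI hm hV hD (mem_cls_inl.mp hc) v
    refine h1.trans ⟨fun h => by rw [h], fun h => coarse_inl h⟩
  · have hi := mem_cls_anc.mp hc
    have key : ∀ i' v, cl v = Sum.inr (Sum.inl i') → ∀ j, j < I.base.length →
        ((∃ w, A v w = true ∧ Qc D A j w) ↔ i' ≤ j) := by
      intro i' v hv j hj
      have hjc : I.base[j] ∈ I.base := List.getElem_mem hj
      have hidx : I.base.idxOf I.base[j] = j := (nodup_base hI).idxOf_getElem j hj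
      constructor
      · rintro ⟨w, hw1, hw2⟩
        rw [← hidx, Qc_model hI hm hV hD hjc] at hw2
        have h3 := ((hm.adj_iff v w).mp hw1).1
        rw [hv, hw2] at h3
        have h4 : (encA I D).E (Sum.inr (Sum.inl i')) (Sum.inl I.base[j]) =
            decide (i' ≤ I.base.idxOf I.base[j]) := by
          rcases I.base[j] with u | x <;> rfl
        rw [h4, decide_eq_true_iff, hidx] at h3
        exact h3
      · intro hij
        obtain ⟨w, hw⟩ := exists_cl hI hm (mem_cls_inl.mpr hjc)
        refine ⟨w, ?_, ?_⟩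
        · rw [hm.adj_iff]
          constructor
          · rw [hv, hw]
            have h4 : (encA I D).E (Sum.inr (Sum.inl i')) (Sum.inl I.base[j]) =
                decide (i' ≤ I.base.idxOf I.base[j]) := by
              rcases I.base[j] with u | x <;> rfl
            rw [h4, decide_eq_true_iff, hidx]
            exact hij
          · intro x hx
            rw [hv] at hx
            exact absurd hx (by simp [encA])
        · rw [← hidx]
          exact (Qc_model hI hm hV hD hjc w).mpr hw
    constructor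
    · rintro ⟨h1, h2⟩
      obtain ⟨i', hi'⟩ := (An_model hI hm hV hD v).mp h1
      have hi'' : i' < I.base.length + 1 := by
        have := hm.cl_mem v
        rw [hi'] at this
        exact mem_cls_anc.mp this
      have h3 : ∀ j, j < I.base.length → (i' ≤ j ↔ i ≤ j) := fun j hj =>
        (key i' v hi' j hj).symm.trans (h2 j hj)
      have h4 : i' = i := by
        rcases lt_trichotomy i' i with h | h | h
        · exact absurd ((h3 i' (by omega)).mp le_rfl) (by omega)
        · exact h
        · exact absurd ((h3 i (by omega)).mpr le_rfl) (by omega)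
      rw [hi', h4]
    · intro h
      have h5 : cl v = Sum.inr (Sum.inl i) := by
        rcases hcl : cl v with (u | x) | (i' | i')
        · rw [hcl] at h
          exact absurd h (by simp [coarse])
        · rw [hcl] at h
          exact absurd h (by simp [coarse])
        · rw [hcl] at h
          exact h
        · rw [hcl] at h
          exact absurd h (by simp [coarse])
      exact ⟨(An_model hI hm hV hD v).mpr ⟨i, h5⟩, key i v h5⟩
  · refine (Qc_dum hI hm hV hD v).trans ⟨?_, ?_⟩
    · rintro ⟨j, hj⟩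
      rw [hj]
      rfl
    · intro h
      rcases hcl : cl v with (u | x) | (i' | i')
      · rw [hcl] at h
        exact absurd h (by simp [coarse])
      · rw [hcl] at h
        exact absurd h (by simp [coarse])
      · rw [hcl] at h
        exact absurd h (by simp [coarse])
      · exact ⟨i', rfl⟩

theorem pres_Ucls {W : Type} {B : W → W → Bool} {K : ℕ} {R : Finset (V × W) → Prop}
    (hR : PSys A B K R) (hK : 2 ≤ K) (c : CA O X) :
    Pres R (fun v _ => Ucls I D A c v) (fun w _ => Ucls I D B c w) := by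
  rcases c with c | (i | i)
  · exact pres_Qc hR hK D _
  · refine (pres_An hR hK D).and ?_
    refine WL.Pres.forall_nat fun j => (WL.Pres.const (j < I.base.length)).imp ?_
    exact (WL.Pres.exists_unary hR hK (hR.pres_adj.and (pres_Qc hR hK D j).swap)).iff
      (WL.Pres.const (i ≤ j))
  · exact pres_Qc hR hK D _

end model

/-! ### Premodels -/

/-- Everything but the existence of vertices, and the right number of vertices: isomorphic. -/
theorem exists_iso_of_pre {C X V W : Type} [DecidableEq X] [Finite V] {G : AG C X} {b : C → Bool}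
    {A : V → V → Bool} {cl : V → C} {as : V → X → ZMod 2} (hm : Model G b A cl as)
    {B : W → W → Bool} (clW : W → C) (asW : W → X → ZMod 2) (h1 : ∀ w, clW w ∈ G.cls)
    (h2 : ∀ w, G.con (clW w) = true → ∑ x ∈ (G.vars (clW w)).toFinset, asW w x = bz (b (clW w)))
    (h3 : ∀ w w', clW w = clW w' → (∀ x ∈ G.vars (clW w), asW w x = asW w' x) → w = w')
    (h4 : ∀ w w', B w w' = true ↔ G.E (clW w) (clW w') = true ∧
      ∀ x ∈ G.vars (clW w), x ∈ G.vars (clW w') → asW w x = asW w' x)
    (hcard : Nat.card V ≤ Nat.card W) :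
    ∃ e : V ≃ W, ∀ v v', B (e v) (e v') = A v v' := by
  choose g hg1 hg2 using fun w => hm.exists_v (clW w) (h1 w) (asW w) (h2 w)
  have hinj : Function.Injective g := by
    intro w w' hw
    have hc : clW w = clW w' := by rw [← hg1 w, ← hg1 w', hw]
    apply h3 w w' hc
    intro x hx
    rw [← hg2 w x hx, hw, hg2 w' x (by rw [← hc]; exact hx)]
  have hbij := hinj.bijective_of_nat_card_le hcard
  refine ⟨(Equiv.ofBijective g hbij).symm, fun v v' => ?_⟩
  obtain ⟨w, rfl⟩ := hbij.2 v
  obtain ⟨w', rfl⟩ := hbij.2 v'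
  have e1 : (Equiv.ofBijective g hbij).symm (g w) = w := (Equiv.ofBijective g hbij).symm_apply_apply w
  have e2 : (Equiv.ofBijective g hbij).symm (g w') = w' :=
    (Equiv.ofBijective g hbij).symm_apply_apply w'
  rw [e1, e2, Bool.eq_iff_iff, h4, hm.adj_iff, hg1, hg1]
  refine and_congr Iff.rfl (forall_congr' fun x => forall_congr' fun hx => forall_congr' fun hx' => ?_)
  rw [hg2 w x hx, hg2 w' x hx']

/-! ### The game -/

section game

variable {O X : Type} [DecidableEq O] [DecidableEq X] {I : XI O X} {D M : ℕ} {bC bC' : CA O X → Bool}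
  {V W : Type} {A : V → V → Bool} {B : W → W → Bool} {cl : V → CA O X} {as : V → X → ZMod 2}
  {clW : W → CA O X} {asW : W → X → ZMod 2} {K : ℕ} {R : Finset (V × W) → Prop}


/-- adjacency of object and variable vertices -/
theorem adj_ob_va (hm : Model (encA I D) bC A cl as) {v w : V} {u : O} {x : X}
    (hv : cl v = Sum.inl (Sum.inl u)) (hw : cl w = Sum.inl (Sum.inr x)) (hx : x ∈ I.ports u) :
    A v w = true ↔ as v x = as w x := by
  rw [hm.adj_iff, hv, hw]
  constructor
  · intro h
    exact h.2 x hx (by simp [encA])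
  · intro h
    refine ⟨?_, fun y _ hy => ?_⟩
    · change decide (x ∈ I.ports u) = true
      exact decide_eq_true hx
    · have : y = x := by simpa [encA] using hy
      rw [this]
      exact h

theorem exists_va (hm : Model (encA I D) bC A cl as) {x : X} (hx : x ∈ I.vl) (ε : ZMod 2) :
    ∃ v, cl v = Sum.inl (Sum.inr x) ∧ as v x = ε := by
  obtain ⟨v, hv, hv'⟩ := hm.exists_v (Sum.inl (Sum.inr x))
    (mem_cls_inl.mpr (mem_base_inr.mpr hx)) (fun _ => ε) (fun h => absurd h (by simp [encA]))
  exact ⟨v, hv, hv' x (by simp [encA])⟩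

theorem eq_va (hm : Model (encA I D) bC A cl as) {x : X} {v w : V}
    (hv : cl v = Sum.inl (Sum.inr x)) (hw : cl w = Sum.inl (Sum.inr x)) : v = w ↔ as v x = as w x := by
  constructor
  · rintro rfl
    rfl
  · intro h
    apply hm.ext v w (hv.trans hw.symm)
    intro y hy
    rw [hv] at hy
    have : y = x := by simpa [encA] using hy
    rw [this]
    exact h

theorem eq_ob (hm : Model (encA I D) bC A cl as) {u : O} {v w : V}
    (hv : cl v = Sum.inl (Sum.inl u)) (hw : cl w = Sum.inl (Sum.inl u))
    (h : ∀ x ∈ I.ports u, as v x = as w x) : v = w := by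
  apply hm.ext v w (hv.trans hw.symm)
  intro y hy
  rw [hv] at hy
  exact h y hy

theorem parity_ob (hm : Model (encA I D) bC A cl as) {u : O} {v : V}
    (hv : cl v = Sum.inl (Sum.inl u)) : ∑ x ∈ (I.ports u).toFinset, as v x =
      bz (bC (Sum.inl (Sum.inl u))) := by
  have h := hm.parity v (by rw [hv]; rfl)
  rw [hv] at h
  exact h

/-- two pebbled objects have the same shift at a common variable -/
theorem consist (hR : PSys A B K R) (hK : 3 ≤ K) (hm : Model (encA I D) bC A cl as)
    (hcls : ∀ T, R T → ∀ p ∈ T, coarse (cl p.1) = coarse (clW p.2)) {x : X} (hx : x ∈ I.vl)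
    (hadj : ∀ w w' u, clW w = Sum.inl (Sum.inl u) → clW w' = Sum.inl (Sum.inr x) →
      x ∈ I.ports u → (B w w' = true ↔ asW w x = asW w' x))
    {T : Finset (V × W)} (hT : R T) {p q : V × W} (hp : p ∈ T) (hq : q ∈ T) {u u' : O}
    (hpu : cl p.1 = Sum.inl (Sum.inl u)) (hqu : cl q.1 = Sum.inl (Sum.inl u'))
    (hxu : x ∈ I.ports u) (hxu' : x ∈ I.ports u') :
    as p.1 x + asW p.2 x = as q.1 x + asW q.2 x := by
  obtain ⟨f, hf⟩ := hR.ext₂ hK hT hp hq
  obtain ⟨z, hz, hzx⟩ := exists_va hm hx (as p.1 x)
  obtain ⟨T', hT', hp', hq', hz'⟩ := hf z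
  have hfz : clW (f z) = Sum.inl (Sum.inr x) := by
    have := hcls T' hT' _ hz'
    rw [hz] at this
    exact coarse_inl this.symm
  have hpW : clW p.2 = Sum.inl (Sum.inl u) := by
    have := hcls T hT _ hp
    rw [hpu] at this
    exact coarse_inl this.symm
  have hqW : clW q.2 = Sum.inl (Sum.inl u') := by
    have := hcls T hT _ hq
    rw [hqu] at this
    exact coarse_inl this.symm
  have h1 := hR.adj hT' _ hp' _ hz'
  have h2 := hR.adj hT' _ hq' _ hz'
  have h3 := adj_ob_va hm hpu hz hxu
  have h4 := adj_ob_va hm hqu hz hxu'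
  have h5 := hadj _ _ _ hpW hfz hxu
  have h6 := hadj _ _ _ hqW hfz hxu'
  dsimp only at h1 h2
  have h7 : (as p.1 x = as z x) ↔ (asW p.2 x = asW (f z) x) := by
    rw [← h3, ← h5, h1]
  have h8 : (as q.1 x = as z x) ↔ (asW q.2 x = asW (f z) x) := by
    rw [← h4, ← h6, h2]
  rw [hzx] at h7 h8
  have h9 := h7.mp rfl
  rw [← h9] at h8
  generalize as p.1 x = a at h8 ⊢
  generalize as q.1 x = b at h8 ⊢
  generalize asW p.2 x = c at h8 ⊢
  generalize asW q.2 x = d at h8 ⊢
  revert a b c d
  decide

theorem cls_of_models (hI : I.OK) [Finite V] [Finite W] (hm : Model (encA I D) bC A cl as)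
    (hm' : Model (encA I D) bC' B clW asW) (hV : Nat.card V = M + D) (hW : Nat.card W = M + D)
    (hD : M < D) (hR : PSys A B K R) (hK : 2 ≤ K) :
    ∀ T, R T → ∀ p ∈ T, coarse (cl p.1) = coarse (clW p.2) := by
  intro T hT p hp
  have h1 := (Ucls_model hI hm hV hD (hm.cl_mem p.1) p.1).mpr rfl
  have h2 := (pres_Ucls hR hK (cl p.1) T hT p hp p hp).mp h1
  exact ((Ucls_model hI hm' hW hD (hm.cl_mem p.1) p.2).mp h2).symm

/-- **Spoiler side interface**: a pebble system between two anchor encodings gives a shift system. -/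
theorem shiftSys_of_psys (hI : I.OK) [Finite V] [Finite W] (hm : Model (encA I D) bC A cl as)
    (hm' : Model (encA I D) bC' B clW asW) (hV : Nat.card V = M + D) (hW : Nat.card W = M + D)
    (hD : M < D) (hR : PSys A B K R) (hK : 3 ≤ K) :
    ∃ S, ShiftSys (O := {u // u ∈ I.objs}) (fun u => (I.ports u.1).toFinset)
      (fun u => bz (bC (Sum.inl (Sum.inl u.1))) + bz (bC' (Sum.inl (Sum.inl u.1)))) K S := by
  classical
  have hcls := cls_of_models hI hm hm' hV hW hD hR (by omega)
  obtain ⟨v₀, _⟩ := exists_cl hI hm (c := Sum.inr (Sum.inl 0)) (mem_cls_anc.mpr (Nat.succ_pos _))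
  obtain ⟨w₀, _⟩ := exists_cl hI hm' (c := Sum.inr (Sum.inl 0)) (mem_cls_anc.mpr (Nat.succ_pos _))
  have : Nonempty (V × W) := ⟨(v₀, w₀)⟩
  refine ⟨fun P s => ∃ T, R T ∧ T.card ≤ P.card ∧ ∀ u ∈ P, ∃ p ∈ T,
    cl p.1 = Sum.inl (Sum.inl u.1) ∧ ∀ x ∈ I.ports u.1, s x = as p.1 x + asW p.2 x, ?_, ?_, ?_, ?_⟩
  · rintro P s ⟨T, hT, _, hP⟩ u hu
    obtain ⟨p, hp, hpu, hps⟩ := hP u hu
    have hpW : clW p.2 = Sum.inl (Sum.inl u.1) := by
      have := hcls T hT _ hp
      rw [hpu] at this
      exact coarse_inl this.symm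
    rw [← parity_ob hm hpu, ← parity_ob hm' hpW, ← Finset.sum_add_distrib]
    exact Finset.sum_congr rfl fun x hx => hps x (List.mem_toFinset.mp hx)
  · rintro P Q s ⟨T, hT, hTc, hP⟩ hQ
    choose! g hg1 hg2 hg3 using hP
    refine ⟨Q.image g, hR.mono ?_ hT, Finset.card_image_le, fun u hu =>
      ⟨g u, Finset.mem_image_of_mem g hu, hg2 u (hQ hu), hg3 u (hQ hu)⟩⟩
    intro p hp
    obtain ⟨u, hu, rfl⟩ := Finset.mem_image.mp hp
    exact hg1 u (hQ hu)
  · exact ⟨fun _ => 0, ∅, hR.empty, by simp, by simp⟩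
  · rintro P s ⟨T, hT, hTc, hP⟩ hPK u
    by_cases huP : u ∈ P
    · refine ⟨s, ⟨T, hT, by rwa [Finset.insert_eq_of_mem huP], ?_⟩, fun _ _ _ _ => rfl⟩
      rw [Finset.insert_eq_of_mem huP]
      exact hP
    obtain ⟨f, hf⟩ := hR.ext hT (lt_of_le_of_lt hTc hPK)
    obtain ⟨z, hz⟩ := exists_cl hI hm
      (c := Sum.inl (Sum.inl u.1)) (mem_cls_inl.mpr (mem_base_inl.mpr u.2))
    have hT' := hf z
    have hcons : ∀ v ∈ P, ∀ x ∈ I.ports v.1, x ∈ I.ports u.1 → as z x + asW (f z) x = s x := by
      intro v hv x hxv hxu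
      obtain ⟨p, hp, hpv, hps⟩ := hP v hv
      rw [hps x hxv]
      exact consist hR hK hm hcls ((hI.mem_vl x).mpr ⟨u.1, u.2, hxu⟩)
        (fun w w' u' h1 h2 h3 => adj_ob_va hm' h1 h2 h3) hT' (Finset.mem_insert_self _ _)
        (Finset.mem_insert_of_mem hp) hz hpv hxu hxv
    refine ⟨fun x => if x ∈ I.ports u.1 then as z x + asW (f z) x else s x,
      ⟨insert (z, f z) T, hT', ?_, ?_⟩, ?_⟩
    · rw [Finset.card_insert_of_notMem huP]
      exact (Finset.card_insert_le _ _).trans (Nat.succ_le_succ hTc)
    · intro v hv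
      rcases Finset.mem_insert.mp hv with rfl | hv
      · exact ⟨(z, f z), Finset.mem_insert_self _ _, hz, fun x hx => if_pos hx⟩
      · obtain ⟨p, hp, hpv, hps⟩ := hP v hv
        refine ⟨p, Finset.mem_insert_of_mem hp, hpv, fun x hx => ?_⟩
        dsimp only
        by_cases hxu : x ∈ I.ports u.1
        · rw [if_pos hxu, hcons v hv x hx hxu, hps x hx]
        · rw [if_neg hxu, hps x hx]
    · intro v hv x hx
      have hx' : x ∈ I.ports v.1 := List.mem_toFinset.mp hx
      dsimp only
      by_cases hxu : x ∈ I.ports u.1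
      · rw [if_pos hxu, hcons v hv x hx' hxu]
      · rw [if_neg hxu]

end game

/-! ### Reconstruction -/

section reconstruct

variable {O X : Type} [DecidableEq O] [DecidableEq X] {I : XI O X} {D M : ℕ}
  {V W : Type} {A : V → V → Bool} {B : W → W → Bool} {cl : V → CA O X} {as : V → X → ZMod 2}
  {K : ℕ} {R : Finset (V × W) → Prop}

omit [DecidableEq O] [DecidableEq X] in
theorem coarse_inr {c : CA O X} {a : ℕ ⊕ ℕ} (h : coarse c = coarse (Sum.inr a)) :
    ∃ a', c = Sum.inr a' := by
  rcases c with (u | x) | (i | i)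
  · rcases a with a | a <;> exact absurd h (by simp [coarse])
  · rcases a with a | a <;> exact absurd h (by simp [coarse])
  · exact ⟨_, rfl⟩
  · exact ⟨_, rfl⟩

/-- every graph equivalent to `encA` with zero parities is a premodel for some parities -/
theorem pre_of_psys (hI : I.OK) [Finite V] (hm : Model (encA I D) (fun _ => false) A cl as)
    (hV : Nat.card V = M + D) (hD : M < D) (hR : PSys A B K R) (hK : 3 ≤ K)
    (hBs : ∀ w w', B w w' = B w' w) :
    ∃ (b : O → Bool) (clW : W → CA O X) (asW : W → X → ZMod 2),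
      (∀ w, clW w ∈ (encA I D).cls) ∧
      (∀ w, (encA I D).con (clW w) = true →
        ∑ x ∈ ((encA I D).vars (clW w)).toFinset, asW w x = bz (bA b (clW w))) ∧
      (∀ w w', clW w = clW w' → (∀ x ∈ (encA I D).vars (clW w), asW w x = asW w' x) → w = w') ∧
      (∀ w w', B w w' = true ↔ (encA I D).E (clW w) (clW w') = true ∧
        ∀ x ∈ (encA I D).vars (clW w), x ∈ (encA I D).vars (clW w') → asW w x = asW w' x) := by
  classical
  obtain ⟨f₀, hf₀⟩ := hR.ext₀ (by omega)
  -- matched vertices have the same class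
  have hmatch : ∀ T, R T → ∀ p ∈ T, coarse (cl p.1) = coarse (cl (f₀.symm p.2)) := by
    intro T hT p hp
    obtain ⟨T₁, hT₁, hv₁⟩ := hf₀ (f₀.symm p.2)
    rw [Equiv.apply_symm_apply] at hv₁
    have h1 := (Ucls_model hI hm hV hD (hm.cl_mem (f₀.symm p.2)) (f₀.symm p.2)).mpr rfl
    have h2 := (pres_Ucls (I := I) (D := D) hR (by omega) (cl (f₀.symm p.2)) T₁ hT₁ _ hv₁ _ hv₁).mp h1
    have h3 := (pres_Ucls (I := I) (D := D) hR (by omega) (cl (f₀.symm p.2)) T hT _ hp _ hp).mpr h2
    exact (Ucls_model hI hm hV hD (hm.cl_mem (f₀.symm p.2)) p.1).mp h3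
  -- two arbitrary vertices of `W` can be matched
  have htwo : ∀ w w', ∃ T v v', R T ∧ (v, w) ∈ T ∧ (v', w') ∈ T := by
    intro w w'
    obtain ⟨T₁, hT₁, hv₁⟩ := hf₀ (f₀.symm w)
    rw [Equiv.apply_symm_apply] at hv₁
    obtain ⟨f₁, hf₁⟩ := hR.ext₁ (by omega) hT₁ hv₁
    obtain ⟨T₂, hT₂, h1, h2⟩ := hf₁ (f₁.symm w')
    rw [Equiv.apply_symm_apply] at h2
    exact ⟨T₂, _, _, hT₂, h1, h2⟩
  obtain ⟨v₀, _⟩ := exists_cl hI hm (c := Sum.inr (Sum.inl 0)) (mem_cls_anc.mpr (Nat.succ_pos _))
  have hz : ∀ x, ∃ z : V, x ∈ I.vl → cl z = Sum.inl (Sum.inr x) ∧ as z x = 1 := by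
    intro x
    by_cases hx : x ∈ I.vl
    · obtain ⟨z, hz⟩ := exists_va hm hx 1
      exact ⟨z, fun _ => hz⟩
    · exact ⟨v₀, fun h => absurd h hx⟩
  choose z₁ hz₁ using hz
  let clW : W → CA O X := fun w => cl (f₀.symm w)
  let asW : W → X → ZMod 2 := fun w x =>
    if (∃ u, cl (f₀.symm w) = Sum.inl (Sum.inl u)) then bz (B w (f₀ (z₁ x))) else as (f₀.symm w) x
  have hcls : ∀ T, R T → ∀ p ∈ T, coarse (cl p.1) = coarse (clW p.2) := hmatch
  have hadj : ∀ w w' u x, clW w = Sum.inl (Sum.inl u) → clW w' = Sum.inl (Sum.inr x) →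
      x ∈ I.vl → x ∈ I.ports u → (B w w' = true ↔ asW w x = asW w' x) := by
    intro w w' u x hw hw' hxv hx
    have e1 : asW w x = bz (B w (f₀ (z₁ x))) := if_pos ⟨u, hw⟩
    have e2 : asW w' x = as (f₀.symm w') x := if_neg (by
      rintro ⟨u', hu'⟩
      have : clW w' = Sum.inl (Sum.inl u') := hu'
      rw [hw'] at this
      exact absurd this (by simp))
    rw [e1, e2]
    obtain ⟨hzc, hz1⟩ := hz₁ x hxv
    obtain ⟨T₁, hT₁, hv₁⟩ := hf₀ (f₀.symm w)
    rw [Equiv.apply_symm_apply] at hv₁
    obtain ⟨f₁, hf₁⟩ := hR.ext₁ (by omega) hT₁ hv₁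
    obtain ⟨T₂, hT₂, h1, h2⟩ := hf₁ (f₁.symm w')
    rw [Equiv.apply_symm_apply] at h2
    obtain ⟨T₃, hT₃, h3, h4⟩ := hf₁ (f₁.symm (f₀ (z₁ x)))
    rw [Equiv.apply_symm_apply] at h4
    have c1 : cl (f₁.symm w') = Sum.inl (Sum.inr x) := by
      have := hcls T₂ hT₂ _ h2
      dsimp only at this
      rw [hw'] at this
      exact coarse_inl this
    have c2 : cl (f₁.symm (f₀ (z₁ x))) = Sum.inl (Sum.inr x) := by
      have := hcls T₃ hT₃ _ h4
      simp only [clW, Equiv.symm_apply_apply, hzc] at this
      exact coarse_inl this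
    have c3 : cl (f₀.symm w) = Sum.inl (Sum.inl u) := hw
    have c4 : cl (f₀.symm w') = Sum.inl (Sum.inr x) := hw'
    have a1 := hR.adj hT₂ _ h1 _ h2
    have a2 := hR.adj hT₃ _ h3 _ h4
    dsimp only at a1 a2
    have a3 := adj_ob_va hm c3 c1 hx
    have a4 := adj_ob_va hm c3 c2 hx
    rw [a1] at a3
    rw [a2] at a4
    have e3 : (as (f₁.symm w') x = as (f₁.symm (f₀ (z₁ x))) x) ↔ as (f₀.symm w') x = 1 := by
      rw [← eq_va hm c1 c2, ← hz1, ← eq_va hm c4 hzc, f₁.symm.injective.eq_iff,
        Equiv.symm_apply_eq]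
    have e4 : bz (B w (f₀ (z₁ x))) = 1 ↔ B w (f₀ (z₁ x)) = true := by
      cases B w (f₀ (z₁ x)) <;> decide
    rw [a4] at e4
    rw [a3]
    generalize as (f₀.symm w') x = ε at e3 ⊢
    generalize bz (B w (f₀ (z₁ x))) = c at e4 ⊢
    generalize as (f₁.symm w') x = p at e3 ⊢
    generalize as (f₁.symm (f₀ (z₁ x))) x = q at e3 e4
    generalize as (f₀.symm w) x = a at e4 ⊢
    clear * - e3 e4
    revert ε c p q a
    decide
  have hcons : ∀ T, R T → ∀ p ∈ T, ∀ q ∈ T, ∀ u, cl p.1 = Sum.inl (Sum.inl u) →
      cl q.1 = Sum.inl (Sum.inl u) → u ∈ I.objs → ∀ x ∈ I.ports u,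
        as p.1 x + asW p.2 x = as q.1 x + asW q.2 x := by
    intro T hT p hp q hq u hpu hqu hu x hx
    have hxv : x ∈ I.vl := (hI.mem_vl x).mpr ⟨u, hu, hx⟩
    exact consist hR hK hm hcls hxv (fun w w' u' h1 h2 h3 => hadj w w' u' x h1 h2 hxv h3) hT hp hq
      hpu hqu hx hx
  have hobj : ∀ w u, clW w = Sum.inl (Sum.inl u) → u ∈ I.objs := by
    intro w u hw
    have := hm.cl_mem (f₀.symm w)
    rw [show cl (f₀.symm w) = Sum.inl (Sum.inl u) from hw] at this
    exact mem_base_inl.mp (mem_cls_inl.mp this)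
  -- two vertices of the same object class
  have hsame : ∀ w w' u, clW w = Sum.inl (Sum.inl u) → clW w' = Sum.inl (Sum.inl u) →
      ∃ T v v', R T ∧ (v, w) ∈ T ∧ (v', w') ∈ T ∧ cl v = Sum.inl (Sum.inl u) ∧
        cl v' = Sum.inl (Sum.inl u) ∧ ∀ x ∈ I.ports u, as v x + asW w x = as v' x + asW w' x := by
    intro w w' u hw hw'
    obtain ⟨T, v, v', hT, h1, h2⟩ := htwo w w'
    have c1 : cl v = Sum.inl (Sum.inl u) := by
      have := hcls T hT _ h1
      dsimp only at this
      rw [hw] at this
      exact coarse_inl this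
    have c2 : cl v' = Sum.inl (Sum.inl u) := by
      have := hcls T hT _ h2
      dsimp only at this
      rw [hw'] at this
      exact coarse_inl this
    exact ⟨T, v, v', hT, h1, h2, c1, c2, hcons T hT _ h1 _ h2 u c1 c2 (hobj w u hw)⟩
  -- representatives of the object classes
  have hrep : ∀ u, ∃ w, u ∈ I.objs → clW w = Sum.inl (Sum.inl u) := by
    intro u
    by_cases hu : u ∈ I.objs
    · obtain ⟨v, hv⟩ := exists_cl hI hm (c := Sum.inl (Sum.inl u))
        (mem_cls_inl.mpr (mem_base_inl.mpr hu))
      refine ⟨f₀ v, fun _ => ?_⟩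
      simp only [clW, Equiv.symm_apply_apply]
      exact hv
    · exact ⟨f₀ v₀, fun h => absurd h hu⟩
  choose rep hrep using hrep
  refine ⟨fun u => zb (∑ x ∈ (I.ports u).toFinset, asW (rep u) x), clW, asW,
    fun w => hm.cl_mem _, ?_, ?_, ?_⟩
  · -- parity
    intro w hw
    rcases hcl : clW w with (u | x) | (i | i)
    · have hu := hobj w u hcl
      obtain ⟨T, v, v', hT, h1, h2, c1, c2, h3⟩ := hsame w (rep u) u hcl (hrep u hu)
      change ∑ x ∈ (I.ports u).toFinset, asW w x =
        bz (zb (∑ x ∈ (I.ports u).toFinset, asW (rep u) x))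
      rw [bz_zb]
      have h4 : ∑ x ∈ (I.ports u).toFinset, (as v x + asW w x) =
          ∑ x ∈ (I.ports u).toFinset, (as v' x + asW (rep u) x) :=
        Finset.sum_congr rfl fun x hx => h3 x (List.mem_toFinset.mp hx)
      rw [Finset.sum_add_distrib, Finset.sum_add_distrib, parity_ob hm c1, parity_ob hm c2] at h4
      exact add_left_cancel h4
    · rw [hcl] at hw
      exact absurd hw (by simp [encA])
    · rw [hcl] at hw
      exact absurd hw (by simp [encA])
    · rw [hcl] at hw
      exact absurd hw (by simp [encA])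
  · -- extensionality
    intro w w' hww h
    rcases hcl : clW w with (u | x) | a
    · rw [hcl] at hww h
      obtain ⟨T, v, v', hT, h1, h2, c1, c2, h3⟩ := hsame w w' u hcl hww.symm
      have h4 : v = v' := by
        apply eq_ob hm c1 c2
        intro x hx
        have h5 := h3 x hx
        rw [h x hx] at h5
        exact add_right_cancel h5
      exact (hR.eqv hT _ h1 _ h2).mp h4
    · rw [hcl] at hww h
      have c1 : cl (f₀.symm w) = Sum.inl (Sum.inr x) := hcl
      have c2 : cl (f₀.symm w') = Sum.inl (Sum.inr x) := hww.symm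
      have e1 : asW w x = as (f₀.symm w) x := if_neg (by
        rintro ⟨u', hu'⟩
        rw [c1] at hu'
        exact absurd hu' (by simp))
      have e2 : asW w' x = as (f₀.symm w') x := if_neg (by
        rintro ⟨u', hu'⟩
        rw [c2] at hu'
        exact absurd hu' (by simp))
      have h5 := h x (by simp [encA])
      rw [e1, e2] at h5
      exact f₀.symm.injective ((eq_va hm c1 c2).mpr h5)
    · rw [hcl] at hww
      exact f₀.symm.injective (eq_of_inr hm hcl hww.symm)
  · -- adjacency
    have hE : ∀ w w', B w w' = true → (encA I D).E (clW w) (clW w') = true := by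
      intro w w' h
      obtain ⟨T, v, v', hT, h1, h2⟩ := htwo w w'
      have h3 := hR.adj hT _ h1 _ h2
      dsimp only at h3
      rw [h] at h3
      have h4 := ((hm.adj_iff v v').mp h3).1
      have c1 := hcls T hT _ h1
      have c2 := hcls T hT _ h2
      dsimp only at c1 c2
      rw [E_coarse, ← c1, ← c2, ← E_coarse]
      exact h4
    have hEr : ∀ w w' a, clW w' = Sum.inr a → (encA I D).E (clW w) (clW w') = true →
        B w w' = true := by
      intro w w' a hw' h
      obtain ⟨T, v, v', hT, h1, h2⟩ := htwo w w'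
      have h3 := hR.adj hT _ h1 _ h2
      dsimp only at h3
      rw [← h3]
      have c1 := hcls T hT _ h1
      have c2 := hcls T hT _ h2
      dsimp only at c1 c2
      obtain ⟨a', ha'⟩ := coarse_inr (c := cl v') (a := a) (by rw [c2, hw'])
      rw [adj_inr hm ha', E_coarse, c1, c2, ← E_coarse]
      exact h
    have hob : ∀ w w' u x, clW w = Sum.inl (Sum.inl u) → clW w' = Sum.inl (Sum.inr x) →
        (B w w' = true ↔ x ∈ I.ports u ∧ asW w x = asW w' x) := by
      intro w w' u x hw hw'
      constructor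
      · intro h
        have h1 := hE w w' h
        rw [hw, hw'] at h1
        have hx : x ∈ I.ports u := of_decide_eq_true h1
        have hxv : x ∈ I.vl := (hI.mem_vl x).mpr ⟨u, hobj w u hw, hx⟩
        exact ⟨hx, (hadj w w' u x hw hw' hxv hx).mp h⟩
      · rintro ⟨hx, h⟩
        have hxv : x ∈ I.vl := (hI.mem_vl x).mpr ⟨u, hobj w u hw, hx⟩
        exact (hadj w w' u x hw hw' hxv hx).mpr h
    intro w w'
    rcases hcl : clW w with (u | x) | a
    · rcases hcl' : clW w' with (u' | x') | a'
      · constructor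
        · intro h
          have h1 := hE w w' h
          rw [hcl, hcl'] at h1
          exact absurd h1 (by simp [encA, XI.EA])
        · rintro ⟨h, _⟩
          exact absurd h (by simp [encA, XI.EA])
      · rw [hob w w' u x' hcl hcl']
        constructor
        · rintro ⟨h1, h2⟩
          refine ⟨decide_eq_true h1, fun y _ hy => ?_⟩
          have : y = x' := by simpa [encA] using hy
          rw [this]
          exact h2
        · rintro ⟨h1, h2⟩
          have hx : x' ∈ I.ports u := of_decide_eq_true h1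
          exact ⟨hx, h2 x' hx (by simp [encA])⟩
      · constructor
        · intro h
          refine ⟨?_, fun y _ hy => ?_⟩
          · rw [← hcl, ← hcl']
            exact hE w w' h
          · rcases a' with a' | a' <;> exact absurd hy (by simp [encA])
        · rintro ⟨h, _⟩
          apply hEr w w' a' hcl'
          rw [hcl, hcl']
          exact h
    · rcases hcl' : clW w' with (u' | x') | a'
      · rw [hBs, hob w' w u' x hcl' hcl]
        constructor
        · rintro ⟨h1, h2⟩
          refine ⟨decide_eq_true h1, fun y hy _ => ?_⟩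
          have : y = x := by simpa [encA] using hy
          rw [this]
          exact h2.symm
        · rintro ⟨h1, h2⟩
          have hx : x ∈ I.ports u' := of_decide_eq_true h1
          exact ⟨hx, (h2 x (by simp [encA]) hx).symm⟩
      · constructor
        · intro h
          have h1 := hE w w' h
          rw [hcl, hcl'] at h1
          exact absurd h1 (by simp [encA, XI.EA])
        · rintro ⟨h, _⟩
          exact absurd h (by simp [encA, XI.EA])
      · constructor
        · intro h
          refine ⟨?_, fun y _ hy => ?_⟩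
          · rw [← hcl, ← hcl']
            exact hE w w' h
          · rcases a' with a' | a' <;> exact absurd hy (by simp [encA])
        · rintro ⟨h, _⟩
          apply hEr w w' a' hcl'
          rw [hcl, hcl']
          exact h
    · constructor
      · intro h
        refine ⟨?_, fun y hy _ => ?_⟩
        · rw [← hcl]
          exact hE w w' h
        · rcases a with a | a <;> exact absurd hy (by simp [encA])
      · rintro ⟨h, _⟩
        rw [hBs]
        apply hEr w' w a hcl
        rw [hcl]
        have hsymm : ∀ c c' : CA O X, (encA I D).E c c' = (encA I D).E c' c := by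
          intro c c'
          rcases c with (u | x) | (i | i) <;> rcases c' with (u' | x') | (i' | i') <;> try rfl
          change decide (i ≠ i') = decide (i' ≠ i)
          exact decide_eq_decide.mpr ⟨Ne.symm, Ne.symm⟩
        rw [hsymm]
        exact h

end reconstruct

/-! ### Interface theorems -/

section iface

variable {O X : Type} [DecidableEq O] [DecidableEq X]

omit [DecidableEq O] [DecidableEq X] in
theorem bA_false : (bA (fun _ => false) : CA O X → Bool) = fun _ => false := by
  funext c
  rcases c with (u | x) | (i | i) <;> rfl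

theorem card_mat (I : XI O X) (hI : I.OK) (D : ℕ) :
    Nat.card (Fin ((encA I D).order (fun _ => false))) = (encA I 0).order (fun _ => false) + D := by
  rw [Nat.card_eq_fintype_card, Fintype.card_fin]
  have h := encA_order I hI D (fun _ => false)
  rw [bA_false] at h
  exact h

theorem card_mat' (I : XI O X) (hI : I.OK) (D : ℕ) (b : O → Bool) :
    Nat.card (Fin ((encA I D).order (bA b))) = (encA I 0).order (fun _ => false) + D := by
  rw [Nat.card_eq_fintype_card, Fintype.card_fin]
  exact encA_order I hI D b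

theorem shift_of_encA_pequiv (I : XI O X) (hI : I.OK) (D : ℕ)
    (hD : (encA I 0).order (fun _ => false) + 2 ≤ D) (b : O → Bool) (K : ℕ) (hK : 3 ≤ K)
    (h : PEquiv K ((encA I D).mat fun _ => false) ((encA I D).mat (bA b))) :
    ShiftEquiv I.objs I.ports b K := by
  obtain ⟨R, hR⟩ := h
  have h := shiftSys_of_psys hI (AG.model_mat (nodup_clsA hI D) (nodup_varsA hI D))
    (AG.model_mat (nodup_clsA hI D) (nodup_varsA hI D)) (card_mat I hI D) (card_mat' I hI D b)
    (by omega) hR hK
  have e : (fun u : {u // u ∈ I.objs} => bz false + bz (bA b (Sum.inl (Sum.inl u.1) : CA O X))) =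
      fun u => bz (b u.1) := by
    funext u
    change bz false + bz (b u.1) = bz (b u.1)
    rw [bz_false', zero_add]
  rw [e] at h
  exact h

theorem encA_reconstruct (I : XI O X) (hI : I.OK) (D : ℕ)
    (hD : (encA I 0).order (fun _ => false) + 2 ≤ D) (K : ℕ) (hK : 3 ≤ K) {n : ℕ}
    (B : Fin n → Fin n → Bool) (hB : IsSimple B) (h : PEquiv K ((encA I D).mat fun _ => false) B) :
    ∃ b : O → Bool, AdjIso ((encA I D).mat (bA b)) B := by
  obtain ⟨R, hR⟩ := h
  obtain ⟨e⟩ := hR.exists_equiv (by omega)
  obtain ⟨b, clW, asW, h1, h2, h3, h4⟩ := pre_of_psys hI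
    (AG.model_mat (nodup_clsA hI D) (nodup_varsA hI D)) (card_mat I hI D) (by omega) hR hK hB.1
  refine ⟨b, ?_⟩
  refine exists_iso_of_pre (AG.model_mat (nodup_clsA hI D) (nodup_varsA hI D)) clW asW h1 h2 h3 h4 ?_
  rw [card_mat' I hI D b, ← card_mat I hI D, Nat.card_congr e]

end iface

end Crest.Agent.R290
private theorem rz_dc7b06ed89 : type_of% @_root_.Crest.Agent.R290.coarse.eq_1 := @_root_.Crest.Agent.R290.coarse.eq_1 -- L362
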