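import Mathlib
import Crest.Agent.R290.Defs

-- ▼ part R290/Dup
section

/-!
# Row 290, module (D): the Duplicator extension lemma of the compressed tube network

Self-contained.  `m` = number of rows, `L` = arm length (`m + 2 ≤ L`), pebbles `K = m + 1`.
-/

set_option autoImplicit false
set_option linter.unusedSectionVars false

namespace Crest.Agent.R290.Dup

open Finset

/-- A network: hubs, gadgets, letters; every gadget has arms, an arm is attached to a hub through a
projection of letters; letter sets of the registers of a gadget; right-hand side of a gadget. -/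
structure Net where
  Hub : Type
  Gad : Type
  Ltr : Type
  Arm : Gad → Type
  o : Ltr
  hub : (g : Gad) → Arm g → Hub
  pr : (g : Gad) → Arm g → Ltr → Ltr
  pr_o : ∀ g a, pr g a o = o
  A : Gad → ℕ → Set Ltr
  beta : Gad → ZMod 2

variable (N : Net)

/-- Columns: the centre of a gadget, and the columns `1 ≤ p ≤ L` of its arms. -/
inductive Col
  | ctr (g : N.Gad)
  | arm (g : N.Gad) (a : N.Arm g) (p : ℕ)

/-- Edges: `int g a p` joins positions `p - 1` and `p` of arm `a`, `hub h` joins the ends of all arms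
attached to `h`. -/
inductive Edge
  | int (g : N.Gad) (a : N.Arm g) (p : ℕ)
  | hub (h : N.Hub)

/-- An object of the network: column, row, left letter, right letter. -/
structure Obj where
  col : Col N
  row : ℕ
  x : N.Ltr
  y : N.Ltr

variable {N}

/-- The outer edge of the column `(a, p)`. -/
def nxt (L : ℕ) (g : N.Gad) (a : N.Arm g) (p : ℕ) : Edge N :=
  if p < L then Edge.int g a (p + 1) else Edge.hub (N.hub g a)

/-- `Inc L κ e` : the edge `e` is an edge of the column `κ`. -/
def Inc (L : ℕ) : Col N → Edge N → Prop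
  | Col.ctr g, e => ∃ a : N.Arm g, e = Edge.int g a 1
  | Col.arm g a p, e => e = Edge.int g a p ∨ e = nxt L g a p

/-- Sum of a function over the edges of a column. -/
def esum [∀ g, Fintype (N.Arm g)] (L : ℕ) : Col N → (Edge N → ZMod 2) → ZMod 2
  | Col.ctr g, f => ∑ a : N.Arm g, f (Edge.int g a 1)
  | Col.arm g a p, f => f (Edge.int g a p) + f (nxt L g a p)

/-- How an edge reads the letters of a column. -/
def psi : Col N → Edge N → N.Ltr → N.Ltr
  | Col.arm g a _, Edge.hub _ => N.pr g a
  | _, _ => id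

/-- gadget of a column -/
def gad : Col N → N.Gad
  | Col.ctr g => g
  | Col.arm g _ _ => g

/-- position of a column in its arm -/
def pos : Col N → ℕ
  | Col.ctr _ => 0
  | Col.arm _ _ p => p

/-- right-hand side of a column -/
def bcol : Col N → ZMod 2
  | Col.ctr g => N.beta g
  | Col.arm _ _ _ => 0

/-- A column is valid: positions are in `[1, L]`. -/
def VCol (L : ℕ) : Col N → Prop
  | Col.ctr _ => True
  | Col.arm _ _ p => 1 ≤ p ∧ p ≤ L

/-- Valid objects. -/
structure VObj (m L : ℕ) (p : Obj N) : Prop where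
  row : p.row < m
  col : VCol L p.col
  hx : p.x ∈ N.A (gad p.col) p.row
  hy : p.y ∈ N.A (gad p.col) (p.row + 1)

/-- Two objects in consecutive rows share a node. -/
def Link (L : ℕ) (p q : Obj N) : Prop :=
  ∃ e, Inc L p.col e ∧ Inc L q.col e ∧ psi p.col e p.y = psi q.col e q.x

/-- A section in `P`. -/
structure Sec (m L : ℕ) (P : Finset (Obj N)) (σ : ℕ → Obj N) : Prop where
  mem : ∀ i < m, σ i ∈ P
  row : ∀ i < m, (σ i).row = i
  link : ∀ i, i + 1 < m → Link L (σ i) (σ (i + 1))

/-! ### Links -/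

theorem inc_int {L : ℕ} {κ : Col N} {g : N.Gad} {a : N.Arm g} {n : ℕ}
    (h : Inc L κ (Edge.int g a n)) :
    (κ = Col.ctr g ∧ n = 1) ∨ κ = Col.arm g a n ∨ (∃ p, p < L ∧ n = p + 1 ∧ κ = Col.arm g a p) := by
  cases κ with
  | ctr g' =>
    obtain ⟨a', h'⟩ := h
    injection h' with h1 h2 h3
    subst h1
    left
    exact ⟨rfl, h3⟩
  | arm g' a' p =>
    rcases h with h | h
    · injection h with h1 h2 h3
      subst h1
      obtain rfl := eq_of_heq h2
      subst h3
      right; left; rfl
    · unfold nxt at h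
      split_ifs at h with hp
      injection h with h1 h2 h3
      subst h1
      obtain rfl := eq_of_heq h2
      right; right
      exact ⟨p, hp, h3, rfl⟩

theorem inc_hub {L : ℕ} {κ : Col N} {h : N.Hub} (hi : Inc L κ (Edge.hub h)) :
    ∃ g a p, κ = Col.arm g a p ∧ L ≤ p ∧ N.hub g a = h := by
  cases κ with
  | ctr g' =>
    obtain ⟨a', h'⟩ := hi
    cases h'
  | arm g' a' p =>
    rcases hi with h | h
    · cases h
    · unfold nxt at h
      split_ifs at h with hp
      injection h with h1
      exact ⟨g', a', p, rfl, by omega, h1.symm⟩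

/-- Structure of a link. -/
inductive LinkT (L : ℕ) (p q : Obj N) : Prop
  | int (g : N.Gad) (a : N.Arm g) (n : ℕ) (hp : Inc L p.col (Edge.int g a n))
      (hq : Inc L q.col (Edge.int g a n)) (hl : p.y = q.x)
  | hub (g : N.Gad) (a : N.Arm g) (n : ℕ) (g' : N.Gad) (a' : N.Arm g') (n' : ℕ)
      (hp : p.col = Col.arm g a n) (hq : q.col = Col.arm g' a' n')
      (hn : L ≤ n) (hn' : L ≤ n') (hh : N.hub g a = N.hub g' a')
      (hl : N.pr g a p.y = N.pr g' a' q.x)

theorem Link.type {L : ℕ} {p q : Obj N} (h : Link L p q) : LinkT L p q := by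
  obtain ⟨e, h1, h2, h3⟩ := h
  cases e with
  | int g a n =>
    refine LinkT.int g a n h1 h2 ?_
    have e1 : psi p.col (Edge.int g a n) p.y = p.y := by
      cases p.col <;> rfl
    have e2 : psi q.col (Edge.int g a n) q.x = q.x := by
      cases q.col <;> rfl
    rw [e1, e2] at h3
    exact h3
  | hub h =>
    obtain ⟨g, a, n, hp, hn, hh⟩ := inc_hub h1
    obtain ⟨g', a', n', hq, hn', hh'⟩ := inc_hub h2
    refine LinkT.hub g a n g' a' n' hp hq hn hn' (hh.trans hh'.symm) ?_
    rw [hp, hq] at h3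
    exact h3


/-! ### Near columns -/

/-- Columns sharing an internal edge. -/
inductive Near : Col N → Col N → Prop
  | same (κ : Col N) : Near κ κ
  | ca (g : N.Gad) (a : N.Arm g) : Near (Col.ctr g) (Col.arm g a 1)
  | ac (g : N.Gad) (a : N.Arm g) : Near (Col.arm g a 1) (Col.ctr g)
  | up (g : N.Gad) (a : N.Arm g) (n : ℕ) : Near (Col.arm g a n) (Col.arm g a (n + 1))
  | dn (g : N.Gad) (a : N.Arm g) (n : ℕ) : Near (Col.arm g a (n + 1)) (Col.arm g a n)

theorem Near.symm {κ κ' : Col N} (h : Near κ κ') : Near κ' κ := by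
  cases h with
  | same => exact Near.same _
  | ca g a => exact Near.ac g a
  | ac g a => exact Near.ca g a
  | up g a n => exact Near.dn g a n
  | dn g a n => exact Near.up g a n

theorem Near.gad {κ κ' : Col N} (h : Near κ κ') : gad κ = gad κ' := by
  cases h <;> rfl

theorem Near.pos {κ κ' : Col N} (h : Near κ κ') : pos κ' ≤ pos κ + 1 := by
  cases h <;> (simp [Dup.pos]; try omega)

theorem near_of_int {L : ℕ} {κ κ' : Col N} {g : N.Gad} {a : N.Arm g} {n : ℕ}
    (hv : VCol L κ) (hv' : VCol L κ') (h : Inc L κ (Edge.int g a n))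
    (h' : Inc L κ' (Edge.int g a n)) : Near κ κ' := by
  rcases inc_int h with ⟨rfl, rfl⟩ | rfl | ⟨p, hp, rfl, rfl⟩
  · rcases inc_int h' with ⟨rfl, _⟩ | rfl | ⟨p, hp, h1, rfl⟩
    · exact Near.same _
    · exact Near.ca g a
    · exfalso; simp [VCol] at hv'; omega
  · rcases inc_int h' with ⟨rfl, rfl⟩ | rfl | ⟨p, hp, rfl, rfl⟩
    · exact Near.ac g a
    · exact Near.same _
    · exact Near.dn g a p
  · rcases inc_int h' with ⟨rfl, h1⟩ | rfl | ⟨p', hp', h1, rfl⟩
    · exfalso; simp [VCol] at hv; omega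
    · exact Near.up g a p
    · obtain rfl : p = p' := by omega
      exact Near.same _

theorem Link.near {L : ℕ} {p q : Obj N} (h : Link L p q) (hp : VCol L p.col) (hq : VCol L q.col)
    (hlt : pos p.col < L ∨ pos q.col < L) : Near p.col q.col ∧ p.y = q.x := by
  rcases h.type with ⟨g, a, n, h1, h2, h3⟩ | ⟨g, a, n, g', a', n', h1, h2, hn, hn', hh, hl⟩
  · exact ⟨near_of_int hp hq h1 h2, h3⟩
  · exfalso
    rw [h1, h2] at hlt
    simp [pos] at hlt
    omega

/-! ### Induction along a section -/

theorem sec_up {m c : ℕ} {Φ : ℕ → Prop} (h0 : Φ c) (hs : ∀ k, c ≤ k → k + 1 < m → Φ k → Φ (k + 1)) :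
    ∀ k, c ≤ k → k < m → Φ k := by
  intro k hk
  induction k, hk using Nat.le_induction with
  | base => intro _; exact h0
  | succ k hk ih => intro hkm; exact hs k hk hkm (ih (by omega))

theorem sec_dn {c : ℕ} {Φ : ℕ → Prop} (h0 : Φ c) (hs : ∀ k, k < c → Φ (k + 1) → Φ k) :
    ∀ k, k ≤ c → Φ k := by
  intro k hk
  obtain ⟨j, rfl⟩ := Nat.exists_eq_add_of_le hk
  clear hk
  induction j generalizing k with
  | zero => simpa using h0
  | succ j ih =>
    apply hs k (by omega)
    have := ih (k + 1) (by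
      have e : k + 1 + j = k + (j + 1) := by omega
      rw [e]; exact h0) (by
      intro k' hk'
      apply hs
      omega)
    exact this

theorem sec_ind {m c : ℕ} {Φ : ℕ → Prop} (hc : c < m) (h0 : Φ c)
    (hu : ∀ k, k + 1 < m → Φ k → Φ (k + 1)) (hd : ∀ k, k + 1 < m → Φ (k + 1) → Φ k) :
    ∀ k, k < m → Φ k := by
  intro k hk
  rcases le_total c k with h | h
  · exact sec_up (m := m) h0 (fun k _ hk1 => hu k hk1) k h hk
  · exact sec_dn h0 (fun k hk1 => hd k (by omega)) k h


section Sections

variable {m L : ℕ} {P : Finset (Obj N)} {σ : ℕ → Obj N}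

/-- A section whose member `c` is near the centre: positions grow at most by one per row. -/
theorem Sec.wander (hσ : Sec m L P σ) (hP : ∀ p ∈ P, VObj m L p) (hL : m + 2 ≤ L) {c : ℕ}
    (hc : c < m) (hpos : pos (σ c).col ≤ 1) :
    ∀ k, k < m → gad (σ k).col = gad (σ c).col ∧
      pos (σ k).col ≤ pos (σ c).col + ((k - c) + (c - k)) := by
  intro k hk
  rcases le_total c k with h | h
  · refine sec_up (m := m) (c := c)
      (Φ := fun k => gad (σ k).col = gad (σ c).col ∧
        pos (σ k).col ≤ pos (σ c).col + ((k - c) + (c - k))) ⟨rfl, by omega⟩ ?_ k h hk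
    intro k hck hk1 ih
    obtain ⟨h1, h2⟩ := (hσ.link k hk1).near (hP _ (hσ.mem k (by omega))).col
      (hP _ (hσ.mem (k + 1) hk1)).col (Or.inl (by omega))
    exact ⟨h1.gad.symm.trans ih.1, by have := h1.pos; omega⟩
  · refine sec_dn (c := c)
      (Φ := fun k => gad (σ k).col = gad (σ c).col ∧
        pos (σ k).col ≤ pos (σ c).col + ((k - c) + (c - k))) ⟨rfl, by omega⟩ ?_ k h
    intro k hck ih
    obtain ⟨h1, h2⟩ := (hσ.link k (by omega)).near (hP _ (hσ.mem k (by omega))).col
      (hP _ (hσ.mem (k + 1) (by omega))).col (Or.inr (by omega))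
    exact ⟨h1.gad.trans ih.1, by have := h1.symm.pos; omega⟩

/-- The content of a section, read from the left letters. -/
def cont (N : Net) (m : ℕ) (σ : ℕ → Obj N) (j : ℕ) : N.Ltr := if j < m then (σ j).x else N.o

/-- Local section: all positions `< L`. -/
theorem Sec.loc (hσ : Sec m L P σ) (hP : ∀ p ∈ P, VObj m L p)
    (hpos : ∀ k < m, pos (σ k).col < L) :
    ∀ k, k + 1 < m → Near (σ k).col (σ (k + 1)).col ∧ (σ k).y = (σ (k + 1)).x := by
  intro k hk
  exact (hσ.link k hk).near (hP _ (hσ.mem k (by omega))).col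
    (hP _ (hσ.mem (k + 1) (by omega))).col (Or.inl (hpos k (by omega)))

theorem Sec.cont_x (k : ℕ) (hk : k < m) : (σ k).x = cont N m σ k := by
  simp [cont, hk]

theorem Sec.cont_y (hσ : Sec m L P σ) (hP : ∀ p ∈ P, VObj m L p)
    (hpos : ∀ k < m, pos (σ k).col < L) (hm0 : ∀ g, ∀ l ∈ N.A g m, l = N.o)
    (k : ℕ) (hk : k < m) : (σ k).y = cont N m σ (k + 1) := by
  by_cases h : k + 1 < m
  · simp only [cont, h, if_true]
    exact (hσ.loc hP hpos k h).2
  · simp only [cont, h, if_false]
    have hk' : k + 1 = m := by omega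
    have h1 := (hP _ (hσ.mem k hk)).hy
    rw [hσ.row k hk, hk'] at h1
    exact hm0 _ _ h1


/-- a local section without centre stays in one arm -/
theorem Sec.loc_arm (hσ : Sec m L P σ) (hP : ∀ p ∈ P, VObj m L p)
    (hpos : ∀ k < m, pos (σ k).col < L) (hnc : ∀ k < m, ∀ g, (σ k).col ≠ Col.ctr g)
    {c : ℕ} (hc : c < m) {g : N.Gad} {a : N.Arm g} {n : ℕ} (hcol : (σ c).col = Col.arm g a n) :
    ∀ k, k < m → ∃ n, (σ k).col = Col.arm g a n := by
  apply sec_ind (m := m) (Φ := fun k => ∃ n, (σ k).col = Col.arm g a n) hc ⟨n, hcol⟩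
  · rintro k hk ⟨n, h⟩
    have h1 := (hσ.loc hP hpos k hk).1
    rw [h] at h1
    generalize hκ : (σ (k + 1)).col = κ at h1
    cases h1 with
    | same => exact ⟨n, rfl⟩
    | ac => exact absurd hκ (hnc _ hk _)
    | up => exact ⟨_, rfl⟩
    | dn => exact ⟨_, rfl⟩
  · rintro k hk ⟨n, h⟩
    have h1 := (hσ.loc hP hpos k hk).1
    rw [h] at h1
    generalize hκ : (σ k).col = κ at h1
    cases h1 with
    | same => exact ⟨n, rfl⟩
    | ca => exact absurd hκ (hnc _ (by omega) _)
    | up => exact ⟨_, rfl⟩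
    | dn => exact ⟨_, rfl⟩

/-- the hub of a column -/
def hubc : Col N → Option N.Hub
  | Col.ctr _ => none
  | Col.arm g a _ => some (N.hub g a)

/-- the projection of a column -/
def prc : Col N → N.Ltr → N.Ltr
  | Col.ctr _ => id
  | Col.arm g a _ => N.pr g a

theorem prc_o (κ : Col N) : prc κ N.o = N.o := by
  cases κ with
  | ctr g => rfl
  | arm g a n => exact N.pr_o g a

theorem Near.hubc {κ κ' : Col N} (h : Near κ κ') (h1 : ∀ g, κ ≠ Col.ctr g)
    (h2 : ∀ g, κ' ≠ Col.ctr g) : hubc κ = hubc κ' ∧ prc κ = prc κ' := by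
  cases h with
  | same => exact ⟨rfl, rfl⟩
  | ca => exact absurd rfl (h1 _)
  | ac => exact absurd rfl (h2 _)
  | up => exact ⟨rfl, rfl⟩
  | dn => exact ⟨rfl, rfl⟩

theorem Link.hubc {p q : Obj N} (h : Link L p q) (hp : VCol L p.col) (hq : VCol L q.col)
    (h1 : ∀ g, p.col ≠ Col.ctr g) (h2 : ∀ g, q.col ≠ Col.ctr g) :
    Dup.hubc p.col = Dup.hubc q.col ∧ prc p.col p.y = prc q.col q.x := by
  rcases h.type with ⟨g, a, n, h3, h4, h5⟩ | ⟨g, a, n, g', a', n', h3, h4, hn, hn', hh, hl⟩
  · have := (near_of_int hp hq h3 h4).hubc h1 h2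
    refine ⟨this.1, ?_⟩
    rw [this.2, h5]
  · rw [h3, h4]
    exact ⟨by simp [Dup.hubc, hh], hl⟩

/-- the projected content of a section -/
def pcont (N : Net) (m : ℕ) (σ : ℕ → Obj N) (j : ℕ) : N.Ltr :=
  if j < m then prc (σ j).col (σ j).x else N.o

theorem Sec.hub_eq (hσ : Sec m L P σ) (hP : ∀ p ∈ P, VObj m L p)
    (hnc : ∀ k < m, ∀ g, (σ k).col ≠ Col.ctr g) {c : ℕ} (hc : c < m) :
    ∀ k, k < m → hubc (σ k).col = hubc (σ c).col := by
  apply sec_ind (m := m) (Φ := fun k => hubc (σ k).col = hubc (σ c).col) hc rfl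
  · intro k hk h
    rw [← h]
    exact ((hσ.link k hk).hubc (hP _ (hσ.mem k (by omega))).col (hP _ (hσ.mem (k + 1) hk)).col
      (hnc _ (by omega)) (hnc _ hk)).1.symm
  · intro k hk h
    rw [← h]
    exact ((hσ.link k hk).hubc (hP _ (hσ.mem k (by omega))).col (hP _ (hσ.mem (k + 1) hk)).col
      (hnc _ (by omega)) (hnc _ hk)).1

theorem Sec.pcont_y (hσ : Sec m L P σ) (hP : ∀ p ∈ P, VObj m L p)
    (hnc : ∀ k < m, ∀ g, (σ k).col ≠ Col.ctr g) (hm0 : ∀ g, ∀ l ∈ N.A g m, l = N.o)
    (k : ℕ) (hk : k < m) : prc (σ k).col (σ k).y = pcont N m σ (k + 1) := by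
  by_cases h : k + 1 < m
  · simp only [pcont, h, if_true]
    exact ((hσ.link k h).hubc (hP _ (hσ.mem k (by omega))).col (hP _ (hσ.mem (k + 1) h)).col
      (hnc _ (by omega)) (hnc _ h)).2
  · simp only [pcont, h, if_false]
    have hk' : k + 1 = m := by omega
    have h1 := (hP _ (hσ.mem k hk)).hy
    rw [hσ.row k hk, hk'] at h1
    rw [hm0 _ _ h1, prc_o]

/-- constancy of `ε` on the edges of a section without centre -/
theorem Sec.const [∀ g, Fintype (N.Arm g)] (hσ : Sec m L P σ)
    (hnc : ∀ k < m, ∀ g, (σ k).col ≠ Col.ctr g) {ε : Edge N → ZMod 2}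
    (hG : ∀ p ∈ P, esum L p.col ε = bcol p.col) {c : ℕ} (hc : c < m) {e0 : Edge N}
    (he0 : Inc L (σ c).col e0) :
    ∀ k, k < m → ∀ e, Inc L (σ k).col e → ε e = ε e0 := by
  have key : ∀ k < m, ∀ e, Inc L (σ k).col e → ∀ e', Inc L (σ k).col e' → ε e = ε e' := by
    intro k hk e he e' he'
    have hg := hG _ (hσ.mem k hk)
    generalize hκ : (σ k).col = κ at *
    cases κ with
    | ctr g => exact absurd hκ (hnc k hk g)
    | arm g a n =>
      have h2 : ε (Edge.int g a n) = ε (nxt L g a n) := by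
        simp only [esum, bcol] at hg
        exact CharTwo.add_eq_zero.mp hg
      rcases he with rfl | rfl <;> rcases he' with rfl | rfl
      · rfl
      · exact h2
      · exact h2.symm
      · rfl
  apply sec_ind (m := m) hc (Φ := fun k => ∀ e, Inc L (σ k).col e → ε e = ε e0)
  · intro e he
    exact key c hc e he e0 he0
  · intro k hk ih e he
    obtain ⟨f, hf1, hf2, _⟩ := hσ.link k hk
    rw [key (k + 1) hk e he f hf2]
    exact ih f hf1
  · intro k hk ih e he
    obtain ⟨f, hf1, hf2, _⟩ := hσ.link k hk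
    rw [key k (by omega) e he f hf1]
    exact ih f hf2

/-- constancy of `ε` on the edges of an arm touched by a section through a centre -/
theorem Sec.constC [∀ g, Fintype (N.Arm g)] (hσ : Sec m L P σ) (hP : ∀ p ∈ P, VObj m L p)
    (hpos : ∀ k < m, pos (σ k).col < L) {ε : Edge N → ZMod 2}
    (hG : ∀ p ∈ P, esum L p.col ε = bcol p.col) {c : ℕ} (hc : c < m) {g : N.Gad}
    (hcol : (σ c).col = Col.ctr g) :
    ∀ k, k < m → ∀ (a : N.Arm g) (n : ℕ), Inc L (σ k).col (Edge.int g a n) →
      ε (Edge.int g a n) = ε (Edge.int g a 1) := by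
  have hstep : ∀ κ κ' : Col N, Near κ κ' → VCol L κ → VCol L κ' → pos κ < L → pos κ' < L →
      esum L κ' ε = bcol κ' →
      (∀ (a : N.Arm g) (n : ℕ), Inc L κ (Edge.int g a n) → ε (Edge.int g a n) = ε (Edge.int g a 1)) →
      (∀ (a : N.Arm g) (n : ℕ), Inc L κ' (Edge.int g a n) → ε (Edge.int g a n) = ε (Edge.int g a 1)) := by
    intro κ κ' hn hv hv' hp hp' hG ih a n hinc
    rcases inc_int hinc with ⟨rfl, rfl⟩ | rfl | ⟨p, hp, rfl, rfl⟩
    · rfl
    · -- κ' = arm g a n, edge int g a n
      have hg : ε (Edge.int g a n) = ε (Edge.int g a (n + 1)) := by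
        simp only [pos] at hp'
        simp only [esum, bcol, nxt, hp', if_true] at hG
        exact CharTwo.add_eq_zero.mp hG
      cases hn with
      | same => exact ih a n (Or.inl rfl)
      | ca => rfl
      | up _ _ k =>
        apply ih a (k + 1)
        right
        simp only [pos] at hp
        simp [nxt, hp]
      | dn _ _ k =>
        rw [hg]
        exact ih a (n + 1) (Or.inl rfl)
    · -- κ' = arm g a p, edge int g a (p+1)
      have hg : ε (Edge.int g a p) = ε (Edge.int g a (p + 1)) := by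
        simp only [esum, bcol, nxt, hp, if_true] at hG
        exact CharTwo.add_eq_zero.mp hG
      cases hn with
      | same => exact ih a (p + 1) hinc
      | ca => exact hg.symm
      | up _ _ k =>
        rw [← hg]
        apply ih a (k + 1)
        right
        simp only [pos] at *
        simp [nxt, *]
      | dn _ _ k => exact ih a (p + 1) (Or.inl rfl)
  apply sec_ind (m := m) hc (Φ := fun k => ∀ (a : N.Arm g) (n : ℕ),
    Inc L (σ k).col (Edge.int g a n) → ε (Edge.int g a n) = ε (Edge.int g a 1))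
  · intro a n h
    rw [hcol] at h
    rcases inc_int h with ⟨_, rfl⟩ | h | ⟨p, hp, _, h⟩
    · rfl
    · cases h
    · cases h
  · intro k hk ih
    exact hstep _ _ (hσ.loc hP hpos k hk).1 (hP _ (hσ.mem k (by omega))).col
      (hP _ (hσ.mem (k + 1) hk)).col (hpos k (by omega)) (hpos _ hk) (hG _ (hσ.mem _ hk)) ih
  · intro k hk ih
    exact hstep _ _ (hσ.loc hP hpos k hk).1.symm (hP _ (hσ.mem (k + 1) hk)).col
      (hP _ (hσ.mem k (by omega))).col (hpos _ hk) (hpos k (by omega))
      (hG _ (hσ.mem _ (by omega))) ih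

end Sections


/-! ### Potentials -/

/-- Potentials: edge, register, letter. -/
abbrev Pot (N : Net) := Edge N → ℕ → N.Ltr → ZMod 2

/-- `V` is a potential with value `ε` at register `m`. -/
structure IsPot (m : ℕ) (V : Pot N) (ε : Edge N → ZMod 2) : Prop where
  zero : ∀ e l, V e 0 l = 0
  top : ∀ e l, V e m l = ε e

/-- The ports of the object `p` are not changed between `V` and `V'`. -/
structure Agree [∀ g, Fintype (N.Arm g)] (m L : ℕ) (V V' : Pot N) (p : Obj N) : Prop where
  hY : ∀ e, Inc L p.col e →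
    V' e p.row (psi p.col e p.x) + V' e (p.row + 1) (psi p.col e p.y) =
      V e p.row (psi p.col e p.x) + V e (p.row + 1) (psi p.col e p.y)
  hU1 : 1 ≤ p.row → esum L p.col (fun e => V' e p.row (psi p.col e p.x)) =
    esum L p.col (fun e => V e p.row (psi p.col e p.x))
  hU2 : p.row + 1 < m → esum L p.col (fun e => V' e (p.row + 1) (psi p.col e p.y)) =
    esum L p.col (fun e => V e (p.row + 1) (psi p.col e p.y))

section Reach

variable [∀ g, Fintype (N.Arm g)] {m L : ℕ} {P : Finset (Obj N)}

theorem esum_congr {κ : Col N} {f f' : Edge N → ZMod 2} (h : ∀ e, Inc L κ e → f e = f' e) :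
    esum L κ f = esum L κ f' := by
  cases κ with
  | ctr g => exact Finset.sum_congr rfl fun a _ => h _ ⟨a, rfl⟩
  | arm g a n => simp only [esum]; rw [h _ (Or.inl rfl), h _ (Or.inr rfl)]

theorem esum_add {κ : Col N} {f f' : Edge N → ZMod 2} :
    esum L κ (fun e => f e + f' e) = esum L κ f + esum L κ f' := by
  cases κ with
  | ctr g => exact Finset.sum_add_distrib
  | arm g a n => simp only [esum]; ring

theorem esum_zero {κ : Col N} : esum L κ (fun _ => 0) = 0 := by
  cases κ with
  | ctr g => simp [esum]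
  | arm g a n => simp [esum]

/-- reach, second form: only the top register changes -/
theorem reach_touch (hm : 2 ≤ m) {V : Pot N} {ε ε' : Edge N → ZMod 2} (hV : IsPot m V ε)
    (hε : ∀ p ∈ P, ∀ e, Inc L p.col e → ε' e = ε e) (hrow : ∀ p ∈ P, p.row < m) :
    ∃ V', IsPot m V' ε' ∧ ∀ p ∈ P, Agree m L V V' p := by
  refine ⟨fun e j l => if j = m then ε' e else V e j l, ⟨?_, ?_⟩, ?_⟩
  · intro e l
    have : (0 : ℕ) ≠ m := by omega
    simp [this, hV.zero]
  · intro e l
    simp
  · intro p hp
    have h1 : p.row ≠ m := (hrow p hp).ne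
    refine ⟨?_, ?_, ?_⟩
    · intro e he
      simp only [h1, if_false]
      congr 1
      split_ifs with h2
      · rw [h2, hV.top, hε p hp e he]
      · rfl
    · intro _
      simp only [h1, if_false]
    · intro h2
      have : p.row + 1 ≠ m := by omega
      simp only [this, if_false]

/-- reach from a difference potential -/
theorem reach_add {V W : Pot N} {ε ε' : Edge N → ZMod 2} (hV : IsPot m V ε)
    (hW : IsPot m W (fun e => ε' e + ε e))
    (hp : ∀ p ∈ P, Agree m L (fun _ _ _ => 0) W p) :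
    ∃ V', IsPot m V' ε' ∧ ∀ p ∈ P, Agree m L V V' p := by
  refine ⟨fun e j l => V e j l + W e j l, ⟨?_, ?_⟩, ?_⟩
  · intro e l; rw [hV.zero, hW.zero, add_zero]
  · intro e l
    rw [hV.top, hW.top]
    have := CharTwo.add_self_eq_zero (ε e)
    linear_combination this
  · intro p hpP
    have h := hp p hpP
    refine ⟨?_, ?_, ?_⟩
    · intro e he
      have := h.hY e he
      simp only [add_zero] at this
      linear_combination this
    · intro h1
      have := h.hU1 h1
      rw [esum_zero] at this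
      rw [esum_add, this, add_zero]
    · intro h1
      have := h.hU2 h1
      rw [esum_zero] at this
      rw [esum_add, this, add_zero]

/-- reach, first form: `P` contains no section -/
theorem reach_nosec (hm : 2 ≤ m) {V : Pot N} {ε ε' : Edge N → ZMod 2} (hV : IsPot m V ε)
    (hcard : P.card ≤ m) (hrow : ∀ p ∈ P, p.row < m)
    (hG : ∀ p ∈ P, esum L p.col ε = bcol p.col)
    (hG' : ∀ p ∈ P, esum L p.col ε' = bcol p.col)
    (hns : ∀ σ, ¬ Sec m L P σ) :
    ∃ V', IsPot m V' ε' ∧ ∀ p ∈ P, Agree m L V V' p := by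
  classical
  set η : Edge N → ZMod 2 := fun e => ε' e + ε e with hη
  have hη0 : ∀ p ∈ P, esum L p.col η = 0 := by
    intro p hp
    rw [hη, esum_add, hG p hp, hG' p hp]
    exact CharTwo.add_self_eq_zero _
  by_cases hempty : ∃ r < m, ∀ p ∈ P, p.row ≠ r
  · obtain ⟨r, hr, hr'⟩ := hempty
    apply reach_add (W := fun e j _ => if r < j then η e else 0) hV
    · refine ⟨?_, ?_⟩
      · intro e l; simp
      · intro e l; simp [hr, hη]
    · intro p hp
      have h1 := hr' p hp
      refine ⟨?_, ?_, ?_⟩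
      · intro e he
        simp only [add_zero]
        rcases lt_or_gt_of_ne h1 with h2 | h2
        · have h3 : ¬ r < p.row := by omega
          have h4 : ¬ r < p.row + 1 := by omega
          simp [h3, h4]
        · have h4 : r < p.row + 1 := by omega
          simp only [h2, h4, if_true]
          exact CharTwo.add_self_eq_zero _
      · intro _
        rw [esum_zero]
        split_ifs
        · exact hη0 p hp
        · exact esum_zero
      · intro _
        rw [esum_zero]
        split_ifs
        · exact hη0 p hp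
        · exact esum_zero
  · push Not at hempty
    have : Nonempty (Obj N) := by
      obtain ⟨p, _⟩ := hempty 0 (by omega)
      exact ⟨p⟩
    choose! f hfP hfr using hempty
    have himg : P = (Finset.range m).image f := by
      symm
      apply Finset.eq_of_subset_of_card_le
      · intro p hp
        obtain ⟨i, hi, rfl⟩ := Finset.mem_image.mp hp
        exact hfP i (Finset.mem_range.mp hi)
      · rw [Finset.card_image_of_injOn, Finset.card_range]
        · exact hcard
        · intro i hi j hj hij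
          have h1 := hfr i (by simpa using hi)
          have h2 := hfr j (by simpa using hj)
          rw [← h1, ← h2]
          exact congrArg Obj.row hij
    have hP : ∀ p ∈ P, p = f p.row := by
      intro p hp
      rw [himg] at hp
      obtain ⟨i, hi, rfl⟩ := Finset.mem_image.mp hp
      rw [hfr i (Finset.mem_range.mp hi)]
    -- a break
    have hbr : ∃ j, j + 1 < m ∧ ¬ Link L (f j) (f (j + 1)) := by
      by_contra hcon
      push Not at hcon
      exact hns f ⟨hfP, hfr, hcon⟩
    obtain ⟨j, hj, hjl⟩ := hbr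
    -- nodes touched by f (j+1)
    let touch : Edge N → N.Ltr → Prop := fun e l =>
      Inc L (f (j + 1)).col e ∧ psi (f (j + 1)).col e (f (j + 1)).x = l
    apply reach_add (W := fun e i l =>
      if i = j + 1 then (if touch e l then η e else 0) else if j + 1 < i then η e else 0) hV
    · refine ⟨?_, ?_⟩
      · intro e l; simp
      · intro e l
        have h1 : m ≠ j + 1 := by omega
        have h2 : j + 1 < m := by omega
        simp [h1, h2, hη]
    · intro p hp
      have hpf := hP p hp
      have hpm := hrow p hp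
      rcases Nat.lt_trichotomy p.row (j + 1) with h1 | h1 | h1
      · -- rows ≤ j
        rcases Nat.lt_or_ge (p.row + 1) (j + 1) with h2 | h2
        · have e1 : p.row ≠ j + 1 := by omega
          have e2 : ¬ j + 1 < p.row := by omega
          have e3 : p.row ≠ j := by omega
          have e4 : ¬ j < p.row := by omega
          refine ⟨?_, ?_, ?_⟩ <;> simp [e1, e2, e3, e4, esum_zero]
        · -- p.row = j
          have hrj : p.row = j := by omega
          rw [hrj] at hpf
          have e1 : j ≠ j + 1 := by omega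
          have e2 : ¬ j + 1 < j := by omega
          have hnt : ∀ e, Inc L p.col e → ¬ touch e (psi p.col e p.y) := by
            rintro e he ⟨h3, h4⟩
            apply hjl
            exact ⟨e, by rw [← hpf]; exact he, h3, by rw [← hpf]; exact h4.symm⟩
          refine ⟨?_, ?_, ?_⟩
          · intro e he
            simp [hrj, hnt e he]
          · intro _
            simp [hrj, esum_zero]
          · intro _
            apply esum_congr
            intro e he
            simp [hrj, hnt e he]
      · -- p.row = j + 1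
        rw [h1] at hpf
        have ht : ∀ e, Inc L p.col e → touch e (psi p.col e p.x) := by
          intro e he
          rw [hpf] at he ⊢
          exact ⟨he, rfl⟩
        refine ⟨?_, ?_, ?_⟩
        · intro e he
          simp only [h1, if_true, ht e he, add_zero]
          have e1 : ¬ j + 1 + 1 = j + 1 := by omega
          have e2 : j + 1 < j + 1 + 1 := by omega
          simp only [e1, e2, if_true, if_false]
          exact CharTwo.add_self_eq_zero _
        · intro _
          rw [esum_zero, ← hη0 p hp]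
          apply esum_congr
          intro e he
          simp [h1, ht e he]
        · intro _
          rw [esum_zero, ← hη0 p hp]
          apply esum_congr
          intro e he
          simp [h1]
      · -- rows > j + 1
        have e1 : p.row ≠ j + 1 := by omega
        have e2 : p.row + 1 ≠ j + 1 := by omega
        have e3 : j + 1 < p.row + 1 := by omega
        refine ⟨?_, ?_, ?_⟩
        · intro e he
          simp only [e1, e2, e3, h1, if_true, if_false, add_zero]
          exact CharTwo.add_self_eq_zero _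
        · intro _
          rw [esum_zero, ← hη0 p hp]
          apply esum_congr
          intro e he
          simp only [e1, h1, if_true, if_false]
        · intro _
          rw [esum_zero, ← hη0 p hp]
          apply esum_congr
          intro e he
          simp only [e2, e3, if_true, if_false]

end Reach


/-! ### Known facts -/

/-- The set `Kn` of known facts with values `val` is closed. -/
structure Closed [∀ g, Fintype (N.Arm g)] (m : ℕ) (Kn : N.Hub → (Fin (m + 1) → N.Ltr) → Prop)
    (val : N.Hub → (Fin (m + 1) → N.Ltr) → ZMod 2) : Prop where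
  one : ∀ (g : N.Gad) (x : Fin (m + 1) → N.Ltr), (∀ j : Fin (m + 1), x j ∈ N.A g j) →
    ∀ a : N.Arm g, (∀ a', a' ≠ a → Kn (N.hub g a') (fun j => N.pr g a' (x j))) →
      Kn (N.hub g a) (fun j => N.pr g a (x j))
  all : ∀ (g : N.Gad) (x : Fin (m + 1) → N.Ltr), (∀ j : Fin (m + 1), x j ∈ N.A g j) →
    (∀ a, Kn (N.hub g a) (fun j => N.pr g a (x j))) →
      ∑ a, val (N.hub g a) (fun j => N.pr g a (x j)) = N.beta g

/-- The Duplicator invariant on the top values. -/
structure Inv [∀ g, Fintype (N.Arm g)] (m L : ℕ) (Kn : N.Hub → (Fin (m + 1) → N.Ltr) → Prop)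
    (val : N.Hub → (Fin (m + 1) → N.Ltr) → ZMod 2) (P : Finset (Obj N))
    (ε : Edge N → ZMod 2) : Prop where
  G1 : ∀ p ∈ P, esum L p.col ε = bcol p.col
  G2C : ∀ σ, Sec m L P σ → ∀ c < m, ∀ g, (σ c).col = Col.ctr g →
    ∀ k < m, ∀ (a : N.Arm g) (n : ℕ), Inc L (σ k).col (Edge.int g a n) →
      Kn (N.hub g a) (fun j => N.pr g a (cont N m σ j)) →
        ε (Edge.int g a n) = val (N.hub g a) (fun j => N.pr g a (cont N m σ j))
  G2H : ∀ σ, Sec m L P σ → (∀ k < m, ∀ g, (σ k).col ≠ Col.ctr g) →
    ∀ h, hubc (σ 0).col = some h → Kn h (fun j => pcont N m σ j) →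
      ∀ k < m, ∀ e, Inc L (σ k).col e → ε e = val h (fun j => pcont N m σ j)

section Cases

variable [∀ g, Fintype (N.Arm g)] {m L : ℕ} {P T : Finset (Obj N)}
  {Kn : N.Hub → (Fin (m + 1) → N.Ltr) → Prop}
  {val : N.Hub → (Fin (m + 1) → N.Ltr) → ZMod 2}

theorem Sec.mono {σ : ℕ → Obj N} (h : Sec m L P σ) (hPT : P ⊆ T) : Sec m L T σ :=
  ⟨fun i hi => hPT (h.mem i hi), h.row, h.link⟩

/-- an unpebbled column in the arm `a`, when the centre is pebbled -/
theorem exists_free (hT : T.card ≤ m + 1) {g : N.Gad} (hg : ∃ p ∈ T, p.col = Col.ctr g)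
    (a : N.Arm g) : ∃ t, 1 ≤ t ∧ t ≤ m + 1 ∧ ∀ p ∈ T, p.col ≠ Col.arm g a t := by
  classical
  by_contra hcon
  push Not at hcon
  let F : ℕ → Col N := fun n => if n = 0 then Col.ctr g else Col.arm g a n
  have hF : ∀ i j, F i = F j → i = j := by
    intro i j hij
    simp only [F] at hij
    split_ifs at hij with h1 h2 h2
    · omega
    · injection hij
  have hsub : (Finset.range (m + 2)).image F ⊆ T.image Obj.col := by
    intro κ hκ
    obtain ⟨n, hn, rfl⟩ := Finset.mem_image.mp hκ
    have hn' := Finset.mem_range.mp hn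
    rcases Nat.eq_zero_or_pos n with rfl | hn0
    · obtain ⟨p, hp, hp'⟩ := hg
      exact Finset.mem_image.mpr ⟨p, hp, by simpa [F] using hp'⟩
    · obtain ⟨p, hp, hp'⟩ := hcon n hn0 (by omega)
      refine Finset.mem_image.mpr ⟨p, hp, ?_⟩
      have : n ≠ 0 := by omega
      simpa [F, this] using hp'
  have h1 := Finset.card_le_card hsub
  rw [Finset.card_image_of_injective _ (fun i j h => hF i j h), Finset.card_range] at h1
  have h2 : (T.image Obj.col).card ≤ T.card := Finset.card_image_le
  omega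

/-- case (i): no section in `T` -/
theorem eps_nosec (hm : 2 ≤ m) (hL : m + 2 ≤ L) (harm : ∀ g, Nonempty (N.Arm g))
    (hV : ∀ p ∈ T, VObj m L p) (hT : T.card ≤ m + 1) (hns : ∀ σ, ¬ Sec m L T σ) :
    ∃ ε : Edge N → ZMod 2, Inv m L Kn val T ε := by
  classical
  let a0 : ∀ g, N.Arm g := fun g => Classical.choice (harm g)
  have hfree : ∀ g : N.Gad, ∃ t, 1 ≤ t ∧ t ≤ m + 1 ∧
      ((∃ p ∈ T, p.col = Col.ctr g) → ∀ p ∈ T, p.col ≠ Col.arm g (a0 g) t) := by
    intro g
    by_cases hg : ∃ p ∈ T, p.col = Col.ctr g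
    · obtain ⟨t, h1, h2, h3⟩ := exists_free hT hg (a0 g)
      exact ⟨t, h1, h2, fun _ => h3⟩
    · exact ⟨1, le_rfl, by omega, fun h => absurd h hg⟩
  choose t ht1 ht2 ht3 using hfree
  let ε : Edge N → ZMod 2
    | Edge.int g a p => if (∃ p ∈ T, p.col = Col.ctr g) ∧ a = a0 g ∧ p ≤ t g then N.beta g else 0
    | Edge.hub _ => 0
  refine ⟨ε, ?_, fun σ hσ => absurd hσ (hns σ), fun σ hσ => absurd hσ (hns σ)⟩
  intro q hq
  have hv := (hV q hq).col
  generalize hκ : q.col = κ at *
  cases κ with
  | ctr g =>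
    simp only [esum, bcol, ε]
    have hg : ∃ p ∈ T, p.col = Col.ctr g := ⟨q, hq, hκ⟩
    simp [hg, ht1 g]
  | arm g a p =>
    simp only [esum, bcol]
    obtain ⟨hp1, hp2⟩ := hv
    by_cases hg : ∃ p ∈ T, p.col = Col.ctr g
    · by_cases ha : a = a0 g
      · subst ha
        have hne : p ≠ t g := by
          rintro rfl
          exact ht3 g hg q hq hκ
        have ht2' := ht2 g
        by_cases hpL : p < L
        · simp only [nxt, hpL, if_true, ε, hg, true_and]
          rcases lt_or_gt_of_ne hne with h | h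
          · have h' : p + 1 ≤ t g := h
            simp only [h.le, h', if_true]
            exact CharTwo.add_self_eq_zero _
          · have h1 : ¬ p ≤ t g := by omega
            have h2 : ¬ p + 1 ≤ t g := by omega
            simp [h1, h2]
        · have h1 : ¬ p ≤ t g := by omega
          simp [nxt, hpL, ε, h1]
      · by_cases hpL : p < L <;> simp [nxt, hpL, ε, ha]
    · by_cases hpL : p < L
      · simp only [nxt, hpL, if_true, ε, hg, false_and, if_false, add_zero]
      · simp only [nxt, hpL, if_false, ε, hg, false_and, add_zero]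

/-- At most one object of `T` is outside a section. -/
theorem Sec.extra {σ : ℕ → Obj N} (hm : 2 ≤ m) (hT : T.card ≤ m + 1) (hσ : Sec m L T σ) :
    ∃ q ∈ T, ∀ p ∈ T, (p = σ p.row ∧ p.row < m) ∨ p = q := by
  classical
  set S := (Finset.range m).image σ with hS
  have hST : S ⊆ T := by
    intro p hp
    obtain ⟨i, hi, rfl⟩ := Finset.mem_image.mp hp
    exact hσ.mem i (Finset.mem_range.mp hi)
  have hScard : S.card = m := by
    rw [hS, Finset.card_image_of_injOn, Finset.card_range]
    intro i hi j hj hij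
    have h1 := hσ.row i (by simpa using hi)
    have h2 := hσ.row j (by simpa using hj)
    rw [← h1, ← h2]
    exact congrArg Obj.row hij
  have hSmem : ∀ p ∈ S, p = σ p.row ∧ p.row < m := by
    intro p hp
    obtain ⟨i, hi, rfl⟩ := Finset.mem_image.mp hp
    rw [hσ.row i (Finset.mem_range.mp hi)]
    exact ⟨rfl, Finset.mem_range.mp hi⟩
  have hc : (T \ S).card ≤ 1 := by
    rw [Finset.card_sdiff_of_subset hST, hScard]
    omega
  rcases Finset.eq_empty_or_nonempty (T \ S) with h | ⟨q, hq⟩
  · refine ⟨σ 0, hσ.mem 0 (by omega), ?_⟩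
    intro p hp
    left
    apply hSmem
    by_contra hpS
    have : p ∈ T \ S := Finset.mem_sdiff.mpr ⟨hp, hpS⟩
    rw [h] at this
    simp at this
  · refine ⟨q, (Finset.mem_sdiff.mp hq).1, ?_⟩
    intro p hp
    by_cases hpS : p ∈ S
    · exact Or.inl (hSmem p hpS)
    · right
      exact Finset.card_le_one.mp hc _ (Finset.mem_sdiff.mpr ⟨hp, hpS⟩) _ hq

/-- two sections agree outside the row of the extra object -/
theorem Sec.agree {σ τ : ℕ → Obj N} (hτ : Sec m L T τ) {q : Obj N}
    (hq : ∀ p ∈ T, (p = σ p.row ∧ p.row < m) ∨ p = q) :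
    ∀ i < m, i ≠ q.row → τ i = σ i := by
  intro i hi hiq
  rcases hq _ (hτ.mem i hi) with ⟨h, _⟩ | h
  · rw [hτ.row i hi] at h
    exact h
  · exfalso
    apply hiq
    rw [← h, hτ.row i hi]


/-- a section filling `P` -/
theorem Sec.full {τ : ℕ → Obj N} (hP : P.card ≤ m) (hτ : Sec m L P τ) :
    ∀ p ∈ P, p = τ p.row ∧ p.row < m := by
  classical
  set S := (Finset.range m).image τ with hS
  have hST : S ⊆ P := by
    intro p hp
    obtain ⟨i, hi, rfl⟩ := Finset.mem_image.mp hp
    exact hτ.mem i (Finset.mem_range.mp hi)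
  have hScard : S.card = m := by
    rw [hS, Finset.card_image_of_injOn, Finset.card_range]
    intro i hi j hj hij
    have h1 := hτ.row i (by simpa using hi)
    have h2 := hτ.row j (by simpa using hj)
    rw [← h1, ← h2]
    exact congrArg Obj.row hij
  have hSP : S = P := Finset.eq_of_subset_of_card_le hST (by omega)
  intro p hp
  rw [← hSP] at hp
  obtain ⟨i, hi, rfl⟩ := Finset.mem_image.mp hp
  rw [hτ.row i (Finset.mem_range.mp hi)]
  exact ⟨rfl, Finset.mem_range.mp hi⟩

theorem exists_ne (hm : 2 ≤ m) (r : ℕ) : ∃ i < m, i ≠ r := by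
  by_cases h : r = 0
  · exact ⟨1, by omega, by omega⟩
  · exact ⟨0, by omega, fun h' => h h'.symm⟩

/-- contents of two sections without centre coincide -/
theorem pcont_eq (hm : 2 ≤ m) (hV : ∀ p ∈ T, VObj m L p)
    (hA0 : ∀ g, ∀ l ∈ N.A g 0, l = N.o) (hAm : ∀ g, ∀ l ∈ N.A g m, l = N.o)
    {σ τ : ℕ → Obj N} (hσ : Sec m L T σ) (hτ : Sec m L T τ)
    (hσc : ∀ k < m, ∀ g, (σ k).col ≠ Col.ctr g) (hτc : ∀ k < m, ∀ g, (τ k).col ≠ Col.ctr g)
    {q : Obj N} (hq : ∀ i < m, i ≠ q.row → τ i = σ i) :
    (∀ j, pcont N m τ j = pcont N m σ j) ∧ hubc (τ 0).col = hubc (σ 0).col := by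
  constructor
  · intro j
    by_cases hj : j < m
    · by_cases hjq : j = q.row
      · rcases Nat.eq_zero_or_pos j with h0 | h0
        · subst h0
          have e1 : pcont N m τ 0 = N.o := by
            simp only [pcont, hj, if_true]
            have := (hV _ (hτ.mem 0 hj)).hx
            rw [hτ.row 0 hj] at this
            rw [hA0 _ _ this, prc_o]
          have e2 : pcont N m σ 0 = N.o := by
            simp only [pcont, hj, if_true]
            have := (hV _ (hσ.mem 0 hj)).hx
            rw [hσ.row 0 hj] at this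
            rw [hA0 _ _ this, prc_o]
          rw [e1, e2]
        · obtain ⟨i, rfl⟩ : ∃ i, j = i + 1 := ⟨j - 1, by omega⟩
          rw [← hτ.pcont_y hV hτc hAm i (by omega), ← hσ.pcont_y hV hσc hAm i (by omega),
            hq i (by omega) (by omega)]
      · simp only [pcont, hj, if_true, hq j hj hjq]
    · simp only [pcont, hj, if_false]
  · obtain ⟨i, hi, hiq⟩ := exists_ne hm q.row
    rw [← hτ.hub_eq hV hτc (c := 0) (by omega) i hi, ← hσ.hub_eq hV hσc (c := 0) (by omega) i hi,
      hq i hi hiq]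

/-- membership of the content of a local section -/
theorem Sec.cont_mem (hm : 2 ≤ m) (hV : ∀ p ∈ T, VObj m L p) (hAm : ∀ g, ∀ l ∈ N.A g m, l = N.o)
    {σ : ℕ → Obj N} (hσ : Sec m L T σ) (hpos : ∀ k < m, pos (σ k).col < L) {g : N.Gad}
    (hg : ∀ k < m, gad (σ k).col = g) (j : ℕ) (hj : j ≤ m) : cont N m σ j ∈ N.A g j := by
  rcases Nat.lt_or_ge j m with h | h
  · rw [← Sec.cont_x j h, ← hg j h]
    have := (hV _ (hσ.mem j h)).hx
    rw [hσ.row j h] at this
    exact this
  · obtain rfl : j = m := by omega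
    have h1 : j - 1 < j := by omega
    have := hσ.cont_y hV hpos hAm (j - 1) h1
    have e : j - 1 + 1 = j := by omega
    rw [e] at this
    rw [← this, ← hg (j - 1) h1]
    have h2 := (hV _ (hσ.mem (j - 1) h1)).hy
    rw [hσ.row (j - 1) h1, e] at h2
    exact h2

theorem exists_inc (hm : 2 ≤ m) {σ : ℕ → Obj N} (hσ : Sec m L T σ) : ∃ e, Inc L (σ 0).col e := by
  obtain ⟨e, he, _⟩ := hσ.link 0 (by omega)
  exact ⟨e, he⟩

/-- case (ii): sections in `T`, none through a centre -/
theorem eps_hub (hm : 2 ≤ m) (hL : m + 2 ≤ L) (harm : ∀ g, Nonempty (N.Arm g))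
    (hA0 : ∀ g, ∀ l ∈ N.A g 0, l = N.o) (hAm : ∀ g, ∀ l ∈ N.A g m, l = N.o)
    (hcl : Closed m Kn val)
    (hV : ∀ p ∈ T, VObj m L p) (hT : T.card ≤ m + 1) (hPT : P ⊆ T) (hP : P.card ≤ m)
    {ε : Edge N → ZMod 2} (hI : Inv m L Kn val P ε)
    {σ : ℕ → Obj N} (hσ : Sec m L T σ)
    (hnc : ∀ τ, Sec m L T τ → ∀ k < m, ∀ g, (τ k).col ≠ Col.ctr g) :
    ∃ ε' : Edge N → ZMod 2, Inv m L Kn val T ε' ∧
      ((∃ τ, Sec m L P τ) → ∀ p ∈ P, ∀ e, Inc L p.col e → ε' e = ε e) := by
  classical
  obtain ⟨q, hqT, hq⟩ := hσ.extra hm hT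
  have hVP : ∀ p ∈ P, VObj m L p := fun p hp => hV p (hPT hp)
  -- the hub
  obtain ⟨h0, hh0⟩ : ∃ h0, hubc (σ 0).col = some h0 := by
    have := hnc σ hσ 0 (by omega)
    generalize (σ 0).col = κ at this
    cases κ with
    | ctr g => exact absurd rfl (this g)
    | arm g a n => exact ⟨_, rfl⟩
  have hsame : ∀ τ, Sec m L T τ → (∀ j, pcont N m τ j = pcont N m σ j) ∧
      hubc (τ 0).col = some h0 := by
    intro τ hτ
    have := pcont_eq hm hV hA0 hAm hσ hτ (hnc σ hσ) (hnc τ hτ) (q := q) (hτ.agree hq)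
    exact ⟨this.1, this.2.trans hh0⟩
  -- the value v
  obtain ⟨v, hv1, hv2⟩ : ∃ v : ZMod 2,
      (Kn h0 (fun j => pcont N m σ j) → v = val h0 (fun j => pcont N m σ j)) ∧
      ((∃ τ, Sec m L P τ) → ∀ p ∈ P, ∀ e, Inc L p.col e → ε e = v) := by
    by_cases hPs : ∃ τ, Sec m L P τ
    · obtain ⟨τ, hτ⟩ := hPs
      have hτT := hτ.mono hPT
      obtain ⟨e0, he0⟩ := exists_inc hm hτ
      have hconst := hτ.const (hnc τ hτT) hI.G1 (c := 0) (by omega) he0
      refine ⟨ε e0, ?_, ?_⟩
      · intro hk
        have hs := hsame τ hτT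
        have e : (fun j : Fin (m + 1) => pcont N m σ j) = fun j : Fin (m + 1) => pcont N m τ j := by
          funext j; exact (hs.1 j).symm
        rw [e] at hk ⊢
        exact hI.G2H τ hτ (hnc τ hτT) h0 hs.2 hk 0 (by omega) e0 he0
      · intro _ p hp e he
        obtain ⟨h1, h2⟩ := hτ.full hP p hp
        rw [h1] at he
        exact hconst _ h2 e he
    · refine ⟨if Kn h0 (fun j => pcont N m σ j) then val h0 (fun j => pcont N m σ j) else 0, ?_, ?_⟩
      · intro h; simp [h]
      · intro h; exact absurd h hPs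
  -- the base assignment
  let base : Edge N → ZMod 2
    | Edge.int g a _ => if N.hub g a = h0 then v else 0
    | Edge.hub h => if h = h0 then v else 0
  have hbase : ∀ κ : Col N, hubc κ = some h0 → ∀ e, Inc L κ e → base e = v := by
    intro κ hκ e he
    cases κ with
    | ctr g => simp [hubc] at hκ
    | arm g a n =>
      simp only [hubc, Option.some.injEq] at hκ
      rcases he with rfl | rfl
      · simp [base, hκ]
      · unfold nxt
        split_ifs <;> simp [base, hκ]
  have hbase2 : ∀ (g : N.Gad) (a : N.Arm g) (n : ℕ),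
      base (Edge.int g a n) + base (nxt L g a n) = 0 := by
    intro g a n
    unfold nxt
    split_ifs <;> simp only [base] <;> exact CharTwo.add_self_eq_zero _
  let δ : N.Gad → ZMod 2 := fun g => N.beta g + ∑ a : N.Arm g, base (Edge.int g a 1)
  -- the free arm
  have hfree : ∀ g : N.Gad, ∃ a : N.Arm g, (∃ p ∈ T, p.col = Col.ctr g) →
      (∀ p ∈ T, p.col ≠ Col.arm g a 1) ∨ δ g = 0 := by
    intro g
    by_cases hex : ∃ a : N.Arm g, ∀ p ∈ T, p.col ≠ Col.arm g a 1
    · obtain ⟨a, ha⟩ := hex
      exact ⟨a, fun _ => Or.inl ha⟩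
    · push Not at hex
      let a1 : N.Arm g := Classical.choice (harm g)
      refine ⟨a1, ?_⟩
      rintro ⟨p0, hp0, hp0c⟩
      right
      have hp0q : p0 = q := by
        rcases hq p0 hp0 with ⟨h1, h2⟩ | h
        · exfalso
          rw [h1] at hp0c
          exact hnc σ hσ _ h2 _ hp0c
        · exact h
      have hin : ∀ a : N.Arm g, ∃ i < m, (σ i).col = Col.arm g a 1 := by
        intro a
        obtain ⟨p, hp, hpc⟩ := hex a
        rcases hq p hp with ⟨h1, h2⟩ | h
        · exact ⟨p.row, h2, by rw [← h1]; exact hpc⟩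
        · exfalso
          rw [h, ← hp0q, hp0c] at hpc
          cases hpc
      obtain ⟨i1, hi1, hi1c⟩ := hin a1
      have hw := hσ.wander hV hL hi1 (by rw [hi1c]; simp [pos])
      have hpos : ∀ k < m, pos (σ k).col < L := by
        intro k hk
        have h1 := (hw k hk).2
        rw [hi1c] at h1
        simp only [pos] at h1 ⊢
        have : pos (σ k).col ≤ 1 + (k - i1 + (i1 - k)) := h1
        show pos (σ k).col < L
        omega
      have hgad : ∀ k < m, gad (σ k).col = g := by
        intro k hk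
        rw [(hw k hk).1, hi1c]; rfl
      have harmk := hσ.loc_arm hV hpos (hnc σ hσ) hi1 hi1c
      have huniq : ∀ a : N.Arm g, a = a1 := by
        intro a
        obtain ⟨i, hi, hic⟩ := hin a
        obtain ⟨n, hn⟩ := harmk i hi
        rw [hic] at hn
        injection hn with _ h2 _
      have hmem : ∀ j : Fin (m + 1), cont N m σ j ∈ N.A g j := fun j =>
        hσ.cont_mem hm hV hAm hpos hgad j (by omega)
      have hkn := hcl.one g (fun j => cont N m σ j) hmem a1
        (fun a' ha' => absurd (huniq a') ha')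
      have hall := hcl.all g (fun j => cont N m σ j) hmem (fun a => by rw [huniq a]; exact hkn)
      have hsum : ∀ f : N.Arm g → ZMod 2, ∑ a, f a = f a1 := by
        intro f
        have : (Finset.univ : Finset (N.Arm g)) = {a1} := by
          ext a; simp [huniq a]
        rw [this, Finset.sum_singleton]
      rw [hsum] at hall
      have hhub : N.hub g a1 = h0 := by
        have h1 := hσ.hub_eq hV (hnc σ hσ) (c := 0) (by omega) i1 hi1
        rw [hi1c, hh0] at h1
        simpa [hubc] using h1
      have hpc : (fun j : Fin (m + 1) => N.pr g a1 (cont N m σ j)) =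
          fun j : Fin (m + 1) => pcont N m σ j := by
        funext j
        by_cases hj : (j : ℕ) < m
        · obtain ⟨n, hn⟩ := harmk j hj
          simp only [cont, pcont, hj, if_true, hn, prc]
        · simp only [cont, pcont, hj, if_false, N.pr_o]
      rw [hhub, hpc] at hkn hall
      have hv := hv1 hkn
      show N.beta g + ∑ a : N.Arm g, base (Edge.int g a 1) = 0
      rw [hsum]
      have : base (Edge.int g a1 1) = v := by simp [base, hhub]
      rw [this, hv, hall]
      exact CharTwo.add_self_eq_zero _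
  choose as has using hfree
  let flip : Edge N → ZMod 2
    | Edge.int g a p => if (∃ p ∈ T, p.col = Col.ctr g) ∧ p = 1 ∧ a = as g then δ g else 0
    | Edge.hub _ => 0
  have hflip : ∀ p ∈ T, (∀ g, p.col ≠ Col.ctr g) → ∀ e, Inc L p.col e → flip e = 0 := by
    intro p hp hpc e he
    have hvp := (hV p hp).col
    cases e with
    | hub h => rfl
    | int g a n =>
      simp only [flip]
      split_ifs with hc
      · obtain ⟨hc1, rfl, rfl⟩ := hc
        rcases has g hc1 with h | h
        · exfalso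
          rcases inc_int he with ⟨h1, _⟩ | h1 | ⟨k, _, h2, h1⟩
          · exact hpc _ h1
          · exact h p hp h1
          · rw [h1] at hvp
            simp only [VCol] at hvp
            omega
        · exact h
      · rfl
  have hε' : ∀ τ, Sec m L T τ → ∀ k < m, ∀ e, Inc L (τ k).col e → base e + flip e = v := by
    intro τ hτ k hk e he
    rw [hflip _ (hτ.mem k hk) (hnc τ hτ k hk) e he, add_zero]
    apply hbase (τ k).col _ e he
    rw [hτ.hub_eq hV (hnc τ hτ) (c := 0) (by omega) k hk]
    exact (hsame τ hτ).2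
  refine ⟨fun e => base e + flip e, ⟨?_, ?_, ?_⟩, ?_⟩
  · intro p hp
    have hvp := (hV p hp).col
    have hf := hflip p hp
    generalize hκ : p.col = κ at *
    cases κ with
    | ctr g =>
      have hg : ∃ p ∈ T, p.col = Col.ctr g := ⟨p, hp, hκ⟩
      simp only [esum, bcol]
      rw [Finset.sum_add_distrib]
      have : ∑ a : N.Arm g, flip (Edge.int g a 1) = δ g := by
        simp only [flip, hg, true_and]
        simp
      rw [this]
      show _ + (N.beta g + ∑ a : N.Arm g, base (Edge.int g a 1)) = N.beta g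
      have h2 := CharTwo.add_self_eq_zero (∑ a : N.Arm g, base (Edge.int g a 1))
      linear_combination h2
    | arm g a n =>
      have hf' := hf (by intro g'; simp)
      simp only [esum, bcol]
      rw [hf' _ (Or.inl rfl), hf' _ (Or.inr rfl), add_zero, add_zero]
      exact hbase2 g a n
  · intro τ hτ c hc g hcol
    exact absurd hcol (hnc τ hτ c hc g)
  · intro τ hτ _ h hh hk k hkm e he
    show base e + flip e = _
    rw [hε' τ hτ k hkm e he]
    have hs := hsame τ hτ
    have hh' : h = h0 := by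
      rw [hs.2] at hh
      exact (Option.some.inj hh).symm
    subst hh'
    have e1 : (fun j : Fin (m + 1) => pcont N m τ j) = fun j : Fin (m + 1) => pcont N m σ j := by
      funext j; exact hs.1 j
    rw [e1] at hk ⊢
    exact hv1 hk
  · rintro ⟨τ, hτ⟩ p hp e he
    rw [hv2 ⟨τ, hτ⟩ p hp e he]
    obtain ⟨h1, h2⟩ := hτ.full hP p hp
    rw [h1] at he
    exact hε' τ (hτ.mono hPT) _ h2 e he


/-- Choice of the values of the arms of a gadget. -/
theorem choose_v {ι : Type} [Fintype ι] (β : ZMod 2) (kn fix : ι → Prop) (vl w : ι → ZMod 2)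
    (h1 : ∀ a, fix a → kn a → w a = vl a)
    (h2 : (∀ a, fix a ∨ kn a) → ∀ v : ι → ZMod 2, (∀ a, fix a → v a = w a) →
      (∀ a, kn a → v a = vl a) → ∑ a, v a = β) :
    ∃ v : ι → ZMod 2, ∑ a, v a = β ∧ (∀ a, fix a → v a = w a) ∧ (∀ a, kn a → v a = vl a) := by
  classical
  let v0 : ι → ZMod 2 := fun a => if fix a then w a else if kn a then vl a else 0
  have h01 : ∀ a, fix a → v0 a = w a := fun a h => by simp [v0, h]
  have h02 : ∀ a, kn a → v0 a = vl a := by
    intro a h
    by_cases hf : fix a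
    · simp [v0, hf, h1 a hf h]
    · simp [v0, hf, h]
  by_cases hall : ∀ a, fix a ∨ kn a
  · exact ⟨v0, h2 hall v0 h01 h02, h01, h02⟩
  · push Not at hall
    obtain ⟨a0, ha1, ha2⟩ := hall
    refine ⟨fun a => v0 a + if a = a0 then β + ∑ b, v0 b else 0, ?_, ?_, ?_⟩
    · rw [Finset.sum_add_distrib]
      simp only [Finset.sum_ite_eq', Finset.mem_univ, if_true]
      have := CharTwo.add_self_eq_zero (∑ b, v0 b)
      linear_combination this
    · intro a ha
      have : a ≠ a0 := by rintro rfl; exact ha1 ha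
      simp [this, h01 a ha]
    · intro a ha
      have : a ≠ a0 := by rintro rfl; exact ha2 ha
      simp [this, h02 a ha]

/-- contents of two local sections coincide -/
theorem cont_eq (hm : 2 ≤ m) (hV : ∀ p ∈ T, VObj m L p)
    (hA0 : ∀ g, ∀ l ∈ N.A g 0, l = N.o) (hAm : ∀ g, ∀ l ∈ N.A g m, l = N.o)
    {σ τ : ℕ → Obj N} (hσ : Sec m L T σ) (hτ : Sec m L T τ)
    (hσp : ∀ k < m, pos (σ k).col < L) (hτp : ∀ k < m, pos (τ k).col < L)
    {q : Obj N} (hq : ∀ i < m, i ≠ q.row → τ i = σ i) :
    ∀ j, cont N m τ j = cont N m σ j := by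
  intro j
  by_cases hj : j < m
  · by_cases hjq : j = q.row
    · rcases Nat.eq_zero_or_pos j with h0 | h0
      · subst h0
        have e1 : cont N m τ 0 = N.o := by
          rw [← Sec.cont_x 0 hj]
          have := (hV _ (hτ.mem 0 hj)).hx
          rw [hτ.row 0 hj] at this
          exact hA0 _ _ this
        have e2 : cont N m σ 0 = N.o := by
          rw [← Sec.cont_x 0 hj]
          have := (hV _ (hσ.mem 0 hj)).hx
          rw [hσ.row 0 hj] at this
          exact hA0 _ _ this
        rw [e1, e2]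
      · obtain ⟨i, rfl⟩ : ∃ i, j = i + 1 := ⟨j - 1, by omega⟩
        rw [← hτ.cont_y hV hτp hAm i (by omega), ← hσ.cont_y hV hσp hAm i (by omega),
          hq i (by omega) (by omega)]
    · simp only [cont, hj, if_true, hq j hj hjq]
  · simp only [cont, hj, if_false]

/-- case (iii): a section of `T` goes through the centre of `g` -/
theorem eps_ctr (hm : 2 ≤ m) (hL : m + 2 ≤ L) (harm : ∀ g, Nonempty (N.Arm g))
    (hA0 : ∀ g, ∀ l ∈ N.A g 0, l = N.o) (hAm : ∀ g, ∀ l ∈ N.A g m, l = N.o)
    (hcl : Closed m Kn val)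
    (hV : ∀ p ∈ T, VObj m L p) (hT : T.card ≤ m + 1) (hPT : P ⊆ T) (hP : P.card ≤ m)
    {ε : Edge N → ZMod 2} (hI : Inv m L Kn val P ε)
    {σ : ℕ → Obj N} (hσ : Sec m L T σ) {c : ℕ} (hc : c < m) {g : N.Gad}
    (hcol : (σ c).col = Col.ctr g) :
    ∃ ε' : Edge N → ZMod 2, Inv m L Kn val T ε' ∧
      ((∃ τ, Sec m L P τ) → ∀ p ∈ P, ∀ e, Inc L p.col e → ε' e = ε e) := by
  classical
  obtain ⟨q, hqT, hq⟩ := hσ.extra hm hT
  have hVP : ∀ p ∈ P, VObj m L p := fun p hp => hV p (hPT hp)
  have hw := hσ.wander hV hL hc (by rw [hcol]; simp [pos])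
  have hposσ : ∀ k < m, pos (σ k).col ≤ m - 1 := by
    intro k hk
    have h1 := (hw k hk).2
    rw [hcol] at h1
    have h2 : pos (σ k).col ≤ 0 + (k - c + (c - k)) := h1
    omega
  have hgadσ : ∀ k < m, gad (σ k).col = g := by
    intro k hk
    rw [(hw k hk).1, hcol]; rfl
  -- every section of `T` is local, in `g`, at positions ≤ m
  have hloc : ∀ τ, Sec m L T τ → ∀ k < m, gad (τ k).col = g ∧ pos (τ k).col ≤ m := by
    intro τ hτ k hk
    have hag := hτ.agree hq
    by_cases hkq : k = q.row
    · -- neighbour in the section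
      rcases Nat.eq_zero_or_pos k with h0 | h0
      · have h1 : k + 1 < m := by omega
        have e1 := hag (k + 1) h1 (by omega)
        have hl := hτ.link k h1
        have hp1 : pos (τ (k + 1)).col ≤ m - 1 := by rw [e1]; exact hposσ _ h1
        have hn := (hl.near (hV _ (hτ.mem k hk)).col (hV _ (hτ.mem (k + 1) h1)).col
          (Or.inr (by omega))).1
        refine ⟨?_, ?_⟩
        · rw [hn.gad, e1]; exact hgadσ _ h1
        · have := hn.symm.pos; omega
      · obtain ⟨i, rfl⟩ : ∃ i, k = i + 1 := ⟨k - 1, by omega⟩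
        have e1 := hag i (by omega) (by omega)
        have hl := hτ.link i hk
        have hp1 : pos (τ i).col ≤ m - 1 := by rw [e1]; exact hposσ _ (by omega)
        have hn := (hl.near (hV _ (hτ.mem i (by omega))).col (hV _ (hτ.mem (i + 1) hk)).col
          (Or.inl (by omega))).1
        refine ⟨?_, ?_⟩
        · rw [← hn.gad, e1]; exact hgadσ _ (by omega)
        · have := hn.pos; omega
    · rw [hag k hk hkq]
      exact ⟨hgadσ k hk, by have := hposσ k hk; omega⟩
  have hlt : ∀ τ, Sec m L T τ → ∀ k < m, pos (τ k).col < L := by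
    intro τ hτ k hk
    have := (hloc τ hτ k hk).2
    omega
  have hcont : ∀ τ, Sec m L T τ → ∀ j, cont N m τ j = cont N m σ j := fun τ hτ =>
    cont_eq hm hV hA0 hAm hσ hτ (hlt σ hσ) (hlt τ hτ) (hτ.agree hq)
  have hmem : ∀ j : Fin (m + 1), cont N m σ j ∈ N.A g j := fun j =>
    hσ.cont_mem hm hV hAm (hlt σ hσ) hgadσ j (by omega)
  -- the projected content of a section without centre
  have hpcont : ∀ τ, Sec m L T τ → (∀ k < m, ∀ g, (τ k).col ≠ Col.ctr g) →
      ∃ a : N.Arm g, (∀ k < m, ∃ n, (τ k).col = Col.arm g a n) ∧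
        (∀ j, pcont N m τ j = N.pr g a (cont N m σ j)) := by
    intro τ hτ hτc
    have h0 : 0 < m := by omega
    have hg0 := (hloc τ hτ 0 h0).1
    generalize hκ : (τ 0).col = κ at hg0
    cases κ with
    | ctr g' => exact absurd hκ (hτc 0 h0 g')
    | arm g' a n =>
      have : g' = g := hg0
      subst this
      have harm' := hτ.loc_arm hV (hlt τ hτ) hτc h0 hκ
      refine ⟨a, harm', ?_⟩
      intro j
      by_cases hj : j < m
      · obtain ⟨n, hn⟩ := harm' j hj
        rw [← hcont τ hτ j]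
        simp only [pcont, cont, hj, if_true, hn, prc]
      · simp only [pcont, cont, hj, if_false, N.pr_o]
  -- the values of the arms
  obtain ⟨v, hv0, hv1, hv2⟩ : ∃ v : N.Arm g → ZMod 2, ∑ a, v a = N.beta g ∧
      ((∃ τ, Sec m L P τ) → ∀ p ∈ P, ∀ (a : N.Arm g) (n : ℕ), Inc L p.col (Edge.int g a n) →
        v a = ε (Edge.int g a n)) ∧
      (∀ a, Kn (N.hub g a) (fun j => N.pr g a (cont N m σ j)) →
        v a = val (N.hub g a) (fun j => N.pr g a (cont N m σ j))) := by
    by_cases hPs : ∃ τ, Sec m L P τ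
    · obtain ⟨τ, hτ⟩ := hPs
      have hτT := hτ.mono hPT
      have hfun : (∀ a : N.Arm g, (fun j : Fin (m + 1) => N.pr g a (cont N m τ j)) =
          fun j : Fin (m + 1) => N.pr g a (cont N m σ j)) := by
        intro a; funext j; rw [hcont τ hτT j]
      by_cases hτc : ∃ c' < m, ∃ g', (τ c').col = Col.ctr g'
      · obtain ⟨c', hc', g', hc'g⟩ := hτc
        have hgg : g' = g := by
          have := (hloc τ hτT c' hc').1
          rw [hc'g] at this
          exact this
        subst hgg
        have hcc := hτ.constC hVP (hlt τ hτT) hI.G1 hc' hc'g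
        have hG := hI.G1 _ (hτ.mem c' hc')
        rw [hc'g] at hG
        refine ⟨fun a => ε (Edge.int g' a 1), hG, ?_, ?_⟩
        · intro _ p hp a n hpn
          obtain ⟨h1, h2⟩ := hτ.full hP p hp
          rw [h1] at hpn
          exact (hcc _ h2 a n hpn).symm
        · intro a hk
          have := hI.G2C τ hτ c' hc' g' hc'g c' hc' a 1 (by rw [hc'g]; exact ⟨a, rfl⟩)
          rw [hfun a] at this
          exact this hk
      · push Not at hτc
        obtain ⟨a1, harm1, hpc1⟩ := hpcont τ hτT hτc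
        obtain ⟨n0, hn0⟩ := harm1 0 (by omega)
        have hcst := hτ.const hτc hI.G1 (c := 0) (by omega) (e0 := Edge.int g a1 n0)
          (by rw [hn0]; exact Or.inl rfl)
        have hw1 : Kn (N.hub g a1) (fun j => N.pr g a1 (cont N m σ j)) →
            ε (Edge.int g a1 n0) = val (N.hub g a1) (fun j => N.pr g a1 (cont N m σ j)) := by
          intro hk
          have e : (fun j : Fin (m + 1) => pcont N m τ j) =
              fun j : Fin (m + 1) => N.pr g a1 (cont N m σ j) := by
            funext j; exact hpc1 j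
          have := hI.G2H τ hτ hτc (N.hub g a1) (by rw [hn0]; rfl)
          rw [e] at this
          exact this hk 0 (by omega) _ (by rw [hn0]; exact Or.inl rfl)
        obtain ⟨v, hv0, hv1, hv2⟩ := choose_v (N.beta g)
          (fun a => Kn (N.hub g a) (fun j => N.pr g a (cont N m σ j))) (fun a => a = a1)
          (fun a => val (N.hub g a) (fun j => N.pr g a (cont N m σ j)))
          (fun _ => ε (Edge.int g a1 n0))
          (by rintro a rfl hk; exact hw1 hk)
          (by
            intro hall v hva hvk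
            have hkall : ∀ a, Kn (N.hub g a) (fun j => N.pr g a (cont N m σ j)) := by
              intro a
              by_cases ha : a = a1
              · subst ha
                apply hcl.one g _ hmem
                intro a' ha'
                exact (hall a').resolve_left ha'
              · exact (hall a).resolve_left ha
            rw [← hcl.all g _ hmem hkall]
            exact Finset.sum_congr rfl fun a _ => hvk a (hkall a))
        refine ⟨v, hv0, ?_, hv2⟩
        intro _ p hp a n hpn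
        obtain ⟨h1, h2⟩ := hτ.full hP p hp
        rw [h1] at hpn
        obtain ⟨n', hn'⟩ := harm1 _ h2
        have ha : a = a1 := by
          rw [hn'] at hpn
          rcases inc_int hpn with ⟨h, _⟩ | h | ⟨_, _, _, h⟩
          · cases h
          · injection h with _ h3 _; exact h3.symm
          · injection h with _ h3 _; exact h3.symm
        subst ha
        rw [hv1 a rfl]
        exact (hcst _ h2 _ hpn).symm
    · obtain ⟨v, hv0, _, hv2⟩ := choose_v (N.beta g)
          (fun a => Kn (N.hub g a) (fun j => N.pr g a (cont N m σ j))) (fun _ => False)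
          (fun a => val (N.hub g a) (fun j => N.pr g a (cont N m σ j)))
          (fun _ => 0) (by intro a h; exact absurd h id)
          (by
            intro hall v _ hvk
            have hkall : ∀ a, Kn (N.hub g a) (fun j => N.pr g a (cont N m σ j)) := fun a =>
              (hall a).resolve_left id
            rw [← hcl.all g _ hmem hkall]
            exact Finset.sum_congr rfl fun a _ => hvk a (hkall a))
      exact ⟨v, hv0, fun h => absurd h hPs, hv2⟩
  -- cut positions
  let t : N.Arm g → ℕ := fun a => if ∃ p ∈ T, p.col = Col.arm g a m then m + 1 else m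
  have ht1 : ∀ a, m ≤ t a ∧ t a ≤ m + 1 := by
    intro a; simp only [t]; split_ifs <;> omega
  have htm : ∀ a, (∃ p ∈ T, p.col = Col.arm g a m) → t a = m + 1 := by
    intro a h; simp [t, h]
  have htfree : ∀ a, ∀ p ∈ T, p.col ≠ Col.arm g a (t a) := by
    intro a p hp hpc
    by_cases h : ∃ p ∈ T, p.col = Col.arm g a m
    · rw [htm a h] at hpc
      obtain ⟨p', hp', hpc'⟩ := h
      have hnot : ∀ r ∈ T, m ≤ pos r.col → r = q := by
        intro r hr hrp
        rcases hq r hr with ⟨h1, h2⟩ | h
        · exfalso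
          have := hposσ _ h2
          rw [← h1] at this
          omega
        · exact h
      have e1 := hnot p hp (by rw [hpc]; simp [pos])
      have e2 := hnot p' hp' (by rw [hpc']; simp [pos])
      rw [e1] at hpc
      rw [e2, hpc] at hpc'
      injection hpc' with _ _ h3
      omega
    · have : t a = m := by simp [t, h]
      rw [this] at hpc
      exact h ⟨p, hp, hpc⟩
  let a0 : ∀ g, N.Arm g := fun g => Classical.choice (harm g)
  let ε' : Edge N → ZMod 2
    | Edge.int g' a p =>
      if h : g' = g then (if p ≤ t (h ▸ a) then v (h ▸ a) else 0)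
      else if (∃ p ∈ T, p.col = Col.ctr g') ∧ p = 1 ∧ a = a0 g' then N.beta g' else 0
    | Edge.hub _ => 0
  have hε'g : ∀ (a : N.Arm g) (p : ℕ), ε' (Edge.int g a p) = if p ≤ t a then v a else 0 := by
    intro a p
    simp [ε']
  have hε'ne : ∀ (g' : N.Gad) (a : N.Arm g') (p : ℕ), g' ≠ g → ε' (Edge.int g' a p) =
      if (∃ p ∈ T, p.col = Col.ctr g') ∧ p = 1 ∧ a = a0 g' then N.beta g' else 0 := by
    intro g' a p h
    simp [ε', h]
  -- touched edges of sections
  have htouch : ∀ p ∈ T, gad p.col = g → pos p.col ≤ m → ∀ e, Inc L p.col e →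
      ∃ a n, e = Edge.int g a n ∧ ε' e = v a := by
    intro p hp hg hpm e he
    generalize hκ : p.col = κ at *
    cases κ with
    | ctr g' =>
      have : g' = g := hg
      subst this
      obtain ⟨a, rfl⟩ := he
      refine ⟨a, 1, rfl, ?_⟩
      rw [hε'g]
      have := ht1 a
      have : 1 ≤ t a := by omega
      simp [this]
    | arm g' a n =>
      have : g' = g := hg
      subst this
      have hn : n ≤ m := hpm
      rcases he with rfl | rfl
      · refine ⟨a, n, rfl, ?_⟩
        rw [hε'g]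
        have := ht1 a
        have : n ≤ t a := by omega
        simp [this]
      · have hnL : n < L := by omega
        refine ⟨a, n + 1, by simp [nxt, hnL], ?_⟩
        simp only [nxt, hnL, if_true]
        rw [hε'g]
        have : n + 1 ≤ t a := by
          rcases Nat.lt_or_ge n m with h | h
          · have := ht1 a; omega
          · have hnm : n = m := by omega
            rw [htm a ⟨p, hp, by rw [hκ, hnm]⟩]
            omega
        simp [this]
  refine ⟨ε', ⟨?_, ?_, ?_⟩, ?_⟩
  · -- G1
    intro p hp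
    have hvp := (hV p hp).col
    generalize hκ : p.col = κ at *
    cases κ with
    | ctr g' =>
      simp only [esum, bcol]
      by_cases hg : g' = g
      · subst hg
        rw [← hv0]
        apply Finset.sum_congr rfl
        intro a _
        rw [hε'g]
        have := ht1 a
        have : 1 ≤ t a := by omega
        simp [this]
      · have hex : ∃ p ∈ T, p.col = Col.ctr g' := ⟨p, hp, hκ⟩
        have : ∀ a : N.Arm g', ε' (Edge.int g' a 1) = if a = a0 g' then N.beta g' else 0 := by
          intro a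
          rw [hε'ne g' a 1 hg]
          simp [hex]
        simp [this]
    | arm g' a n =>
      simp only [esum, bcol]
      obtain ⟨hn1, hn2⟩ := hvp
      by_cases hg : g' = g
      · subst hg
        have hne : n ≠ t a := by
          rintro rfl
          exact htfree a p hp hκ
        have ht := ht1 a
        by_cases hnL : n < L
        · simp only [nxt, hnL, if_true]
          rw [hε'g, hε'g]
          rcases lt_or_gt_of_ne hne with h | h
          · have h' : n + 1 ≤ t a := h
            simp only [h.le, h', if_true]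
            exact CharTwo.add_self_eq_zero _
          · have h1 : ¬ n ≤ t a := by omega
            have h2 : ¬ n + 1 ≤ t a := by omega
            simp [h1, h2]
        · have h1 : ¬ n ≤ t a := by omega
          simp only [nxt, hnL, if_false]
          rw [hε'g]
          simp [h1, ε']
      · -- the extra object
        have hnoctr : ¬ ∃ p ∈ T, p.col = Col.ctr g' := by
          rintro ⟨r, hr, hrc⟩
          have e1 : r = q := by
            rcases hq r hr with ⟨h1, h2⟩ | h
            · exfalso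
              apply hg
              have := hgadσ _ h2
              rw [← h1, hrc] at this
              exact this
            · exact h
          have e2 : p = q := by
            rcases hq p hp with ⟨h1, h2⟩ | h
            · exfalso
              apply hg
              have := hgadσ _ h2
              rw [← h1, hκ] at this
              exact this
            · exact h
          rw [e1] at hrc
          rw [e2, hrc] at hκ
          cases hκ
        rw [hε'ne g' a n hg]
        by_cases hnL : n < L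
        · simp only [nxt, hnL, if_true]
          rw [hε'ne g' a (n + 1) hg]
          simp only [hnoctr, false_and, if_false, add_zero]
        · simp only [nxt, hnL, if_false, hnoctr, false_and, if_false, ε', add_zero]
  · -- G2C
    intro τ hτ c' hc' g' hc'g k hk a n hinc hkn
    have hgg : g' = g := by
      have := (hloc τ hτ c' hc').1
      rw [hc'g] at this
      exact this
    subst hgg
    obtain ⟨hg, hp⟩ := hloc τ hτ k hk
    obtain ⟨a', n', he, hεv⟩ := htouch _ (hτ.mem k hk) hg hp _ hinc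
    injection he with _ h2 h3
    subst h2
    have e : (fun j : Fin (m + 1) => N.pr g' a (cont N m τ j)) =
        fun j : Fin (m + 1) => N.pr g' a (cont N m σ j) := by
      funext j; rw [hcont τ hτ j]
    rw [e] at hkn ⊢
    rw [hεv]
    exact hv2 a hkn
  · -- G2H
    intro τ hτ hτc h hh hkn k hk e he
    obtain ⟨a, harm1, hpc⟩ := hpcont τ hτ hτc
    obtain ⟨n0, hn0⟩ := harm1 0 (by omega)
    rw [hn0] at hh
    have hh' : N.hub g a = h := by simpa [hubc] using hh
    subst hh'
    obtain ⟨hg, hp⟩ := hloc τ hτ k hk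
    obtain ⟨a', n', he', hεv⟩ := htouch _ (hτ.mem k hk) hg hp _ he
    have haa : a' = a := by
      subst he'
      obtain ⟨n, hn⟩ := harm1 k hk
      rw [hn] at he
      rcases inc_int he with ⟨h, _⟩ | h | ⟨_, _, _, h⟩
      · cases h
      · injection h with _ h3 _; exact h3.symm
      · injection h with _ h3 _; exact h3.symm
    subst haa
    have e1 : (fun j : Fin (m + 1) => pcont N m τ j) =
        fun j : Fin (m + 1) => N.pr g a' (cont N m σ j) := by
      funext j; exact hpc j
    rw [e1] at hkn ⊢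
    rw [hεv]
    exact hv2 a' hkn
  · -- agreement
    rintro ⟨τ, hτ⟩ p hp e he
    obtain ⟨h1, h2⟩ := hτ.full hP p hp
    have hτT := hτ.mono hPT
    obtain ⟨hg, hpp⟩ := hloc τ hτT _ h2
    rw [← h1] at hg hpp
    obtain ⟨a, n, rfl, hεv⟩ := htouch p (hPT hp) hg hpp e he
    rw [hεv]
    exact hv1 ⟨τ, hτ⟩ p hp a n he

/-- **Extension lemma (D)**. -/
theorem extend (hm : 2 ≤ m) (hL : m + 2 ≤ L) (harm : ∀ g, Nonempty (N.Arm g))
    (hA0 : ∀ g, ∀ l ∈ N.A g 0, l = N.o) (hAm : ∀ g, ∀ l ∈ N.A g m, l = N.o)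
    (hcl : Closed m Kn val)
    (hV : ∀ p ∈ T, VObj m L p) (hT : T.card ≤ m + 1) (hPT : P ⊆ T) (hP : P.card ≤ m)
    {V : Pot N} {ε : Edge N → ZMod 2} (hpot : IsPot m V ε) (hI : Inv m L Kn val P ε) :
    ∃ (V' : Pot N) (ε' : Edge N → ZMod 2), IsPot m V' ε' ∧ Inv m L Kn val T ε' ∧
      ∀ p ∈ P, Agree m L V V' p := by
  have hrow : ∀ p ∈ P, p.row < m := fun p hp => (hV p (hPT hp)).row
  have key : ∃ ε' : Edge N → ZMod 2, Inv m L Kn val T ε' ∧
      ((∃ τ, Sec m L P τ) → ∀ p ∈ P, ∀ e, Inc L p.col e → ε' e = ε e) := by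
    by_cases hs : ∃ σ, Sec m L T σ
    · obtain ⟨σ, hσ⟩ := hs
      by_cases hc : ∃ τ, Sec m L T τ ∧ ∃ c < m, ∃ g, (τ c).col = Col.ctr g
      · obtain ⟨τ, hτ, c, hc, g, hcg⟩ := hc
        exact eps_ctr hm hL harm hA0 hAm hcl hV hT hPT hP hI hτ hc hcg
      · push Not at hc
        exact eps_hub hm hL harm hA0 hAm hcl hV hT hPT hP hI hσ hc
    · push Not at hs
      obtain ⟨ε', h⟩ := eps_nosec (Kn := Kn) (val := val) hm hL harm hV hT hs
      exact ⟨ε', h, fun ⟨τ, hτ⟩ => absurd (hτ.mono hPT) (hs τ)⟩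
  obtain ⟨ε', hI', hag⟩ := key
  by_cases hPs : ∃ τ, Sec m L P τ
  · obtain ⟨V', h1, h2⟩ := reach_touch hm hpot (hag hPs) hrow
    exact ⟨V', ε', h1, hI', h2⟩
  · push Not at hPs
    obtain ⟨V', h1, h2⟩ := reach_nosec hm hpot hP hrow hI.G1
      (fun p hp => hI'.G1 p (hPT hp)) hPs
    exact ⟨V', ε', h1, hI', h2⟩

end Cases

end Crest.Agent.R290.Dup
private theorem rz_71ea1979a2 : type_of% @_root_.Crest.Agent.R290.Dup.VCol.eq_1 := @_root_.Crest.Agent.R290.Dup.VCol.eq_1 -- L87
private theorem rz_272cc7d24a : type_of% @_root_.Crest.Agent.R290.Dup.bcol.eq_1 := @_root_.Crest.Agent.R290.Dup.bcol.eq_1 -- L82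
private theorem rz_6a1b6dcb3e : type_of% @_root_.Crest.Agent.R290.Dup.esum.eq_1 := @_root_.Crest.Agent.R290.Dup.esum.eq_1 -- L62
private theorem rz_2f59a2fc63 : type_of% @_root_.Crest.Agent.R290.Dup.hubc.eq_1 := @_root_.Crest.Agent.R290.Dup.hubc.eq_1 -- L351
private theorem rz_e77029ce11 : type_of% @_root_.Crest.Agent.R290.Dup.pos.eq_1 := @_root_.Crest.Agent.R290.Dup.pos.eq_1 -- L77
private theorem rz_9391c18564 : type_of% @_root_.Crest.Agent.R290.Dup.prc.eq_1 := @_root_.Crest.Agent.R290.Dup.prc.eq_1 -- L356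
end

-- ▼ part R290/NetD
section

/-!
# Row 290, [NETD]: closed facts give a shift system (blueprint 2.1)
-/

set_option autoImplicit false
set_option linter.unusedSectionVars false

namespace Crest.Agent.R290

namespace NetD

open Finset

variable {H Λ : Type}

theorem bz_add (a b : Bool) : bz (a + b) = bz a + bz b := by
  cases a <;> cases b <;> decide

theorem bz_sum (l : List Bool) : bz l.sum = (l.map bz).sum := by
  induction l with
  | nil => rfl
  | cons a l ih => rw [List.sum_cons, List.map_cons, List.sum_cons, bz_add, ih]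

theorem range_sum {M : Type} [AddCommMonoid M] (n : ℕ) (f : ℕ → M) :
    ((List.range n).map f).sum = ∑ a : Fin n, f a := by
  rw [← Finset.sum_range]
  induction n with
  | zero => simp
  | succ n ih => rw [List.range_succ, List.map_append, List.sum_append, ih, Finset.sum_range_succ]; simp

variable (N : Net H Λ)

/-- the associated network of `Dup.lean` -/
def dnet (hN : N.OK) : Dup.Net where
  Hub := H
  Gad := Fin N.nG
  Ltr := Λ
  Arm := fun g => Fin (N.narm g)
  o := N.o
  hub := fun g a => N.hub g a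
  pr := fun g a => N.proj g a
  pr_o := fun g a => hN.proj_o g a
  A := fun g j => {x | x ∈ N.lett g j}
  beta := fun g => bz (decide (g.1 = N.gt))

variable {N}
variable (hN : N.OK)

instance (g : (dnet N hN).Gad) : Fintype ((dnet N hN).Arm g) := by
  unfold dnet; infer_instance

/-- the column map -/
def fcol (κ : Col) : Dup.Col (dnet N hN) :=
  if h : κ.1 < N.nG then
    if κ.2.2 = 0 then Dup.Col.ctr (N := dnet N hN) (⟨κ.1, h⟩ : Fin N.nG)
    else if h2 : κ.2.1 < N.narm κ.1 then
      Dup.Col.arm (N := dnet N hN) (⟨κ.1, h⟩ : Fin N.nG) (⟨κ.2.1, h2⟩ : Fin (N.narm κ.1)) κ.2.2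
    else Dup.Col.ctr (N := dnet N hN) (⟨N.gt, hN.gt_lt⟩ : Fin N.nG)
  else Dup.Col.ctr (N := dnet N hN) (⟨N.gt, hN.gt_lt⟩ : Fin N.nG)

/-- the edge map -/
def fedge (e : Edge H) : Dup.Edge (dnet N hN) :=
  match e with
  | Sum.inl h => Dup.Edge.hub (N := dnet N hN) h
  | Sum.inr κ =>
    if h : κ.1 < N.nG then
      if h2 : κ.2.1 < N.narm κ.1 then
        Dup.Edge.int (N := dnet N hN) (⟨κ.1, h⟩ : Fin N.nG) (⟨κ.2.1, h2⟩ : Fin (N.narm κ.1)) κ.2.2
      else Dup.Edge.int (N := dnet N hN) (⟨N.gt, hN.gt_lt⟩ : Fin N.nG)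
        (⟨0, by rw [hN.narm_gt]; exact Nat.one_pos⟩ : Fin (N.narm N.gt)) 0
    else Dup.Edge.int (N := dnet N hN) (⟨N.gt, hN.gt_lt⟩ : Fin N.nG)
        (⟨0, by rw [hN.narm_gt]; exact Nat.one_pos⟩ : Fin (N.narm N.gt)) 0

/-- the object map -/
def fobj (u : NObj Λ) : Dup.Obj (dnet N hN) :=
  ⟨fcol hN u.1, u.2.1, u.2.2.1, u.2.2.2⟩

/-- valid columns -/
inductive VC (N : Net H Λ) : Col → Prop
  | ctr (g : ℕ) (hg : g < N.nG) : VC N (g, 0, 0)
  | arm (g a p : ℕ) (hg : g < N.nG) (ha : a < N.narm g) (hp : p < N.L) : VC N (g, a, p + 1)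

theorem mem_objs (u : NObj Λ) : u ∈ N.objs → VC N u.1 ∧ u.2.1 < N.m ∧
    u.2.2.1 ∈ N.lett u.1.1 u.2.1 ∧ u.2.2.2 ∈ N.lett u.1.1 (u.2.1 + 1) := by
  intro h
  simp only [Net.objs, Net.cols, List.mem_flatMap, List.mem_range, List.mem_cons, List.mem_map] at h
  obtain ⟨g, hg, κ, hκ, i, hi, x, hx, y, hy, rfl⟩ := h
  rcases hκ with rfl | ⟨a, ha, p, hp, rfl⟩
  · exact ⟨VC.ctr g hg, hi, hx, hy⟩
  · exact ⟨VC.arm g a p hg ha hp, hi, hx, hy⟩

theorem fcol_ctr (g : ℕ) (hg : g < N.nG) :
    fcol hN (g, 0, 0) = Dup.Col.ctr (N := dnet N hN) (⟨g, hg⟩ : Fin N.nG) := by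
  simp [fcol, hg]

theorem fcol_arm (g a p : ℕ) (hg : g < N.nG) (ha : a < N.narm g) :
    fcol hN (g, a, p + 1) = Dup.Col.arm (N := dnet N hN) (⟨g, hg⟩ : Fin N.nG)
      (⟨a, ha⟩ : Fin (N.narm g)) (p + 1) := by
  simp [fcol, hg, ha]

theorem fedge_int (g a p : ℕ) (hg : g < N.nG) (ha : a < N.narm g) :
    fedge hN (Sum.inr (g, a, p)) = Dup.Edge.int (N := dnet N hN) (⟨g, hg⟩ : Fin N.nG)
      (⟨a, ha⟩ : Fin (N.narm g)) p := by
  simp [fedge, hg, ha]

theorem edges_ctr (g : ℕ) : N.edges (g, 0, 0) =
    (List.range (N.narm g)).map fun a => Sum.inr (g, a, 1) := by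
  simp [Net.edges]

theorem edges_arm (g a p : ℕ) : N.edges (g, a, p + 1) =
    [Sum.inr (g, a, p + 1), if p + 1 < N.L then Sum.inr (g, a, p + 1 + 1) else Sum.inl (N.hub g a)] := by
  simp [Net.edges]

theorem esum_eq {κ : Col} (hκ : VC N κ) (f : Dup.Edge (dnet N hN) → ZMod 2) :
    Dup.esum N.L (fcol hN κ) f = ((N.edges κ).map fun e => f (fedge hN e)).sum := by
  cases hκ with
  | ctr g hg =>
    rw [fcol_ctr hN g hg, edges_ctr, List.map_map, range_sum]
    simp only [Dup.esum]
    apply Finset.sum_congr rfl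
    intro a _
    change f _ = f (fedge hN (Sum.inr (g, (Fin.val (n := N.narm g) a), 1)))
    rw [fedge_int hN g (Fin.val (n := N.narm g) a) 1 hg (Fin.isLt (n := N.narm g) a)]
    rfl
  | arm g a p hg ha hp =>
    rw [fcol_arm hN g a p hg ha, edges_arm]
    simp only [Dup.esum, Dup.nxt, List.map_cons, List.map_nil, List.sum_cons, List.sum_nil, add_zero]
    rw [fedge_int hN g a (p + 1) hg ha]
    congr 1
    split_ifs
    · rw [fedge_int hN g a (p + 1 + 1) hg ha]
    · rfl

theorem inc_of_mem {κ : Col} (hκ : VC N κ) {e : Edge H} (he : e ∈ N.edges κ) :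
    Dup.Inc N.L (fcol hN κ) (fedge hN e) ∧
      ∀ x, Dup.psi (fcol hN κ) (fedge hN e) x = N.psi κ e x := by
  cases hκ with
  | ctr g hg =>
    rw [edges_ctr, List.mem_map] at he
    obtain ⟨a, ha, rfl⟩ := he
    have ha' := List.mem_range.mp ha
    rw [fcol_ctr hN g hg, fedge_int hN g a 1 hg ha']
    exact ⟨⟨_, rfl⟩, fun x => rfl⟩
  | arm g a p hg ha hp =>
    rw [edges_arm] at he
    rw [fcol_arm hN g a p hg ha]
    rcases List.mem_cons.mp he with rfl | he
    · rw [fedge_int hN g a (p + 1) hg ha]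
      exact ⟨Or.inl rfl, fun x => rfl⟩
    · have he := List.mem_singleton.mp he
      by_cases hp : p + 1 < N.L
      · rw [if_pos hp] at he
        subst he
        rw [fedge_int hN g a (p + 1 + 1) hg ha]
        refine ⟨Or.inr ?_, fun x => rfl⟩
        simp [Dup.nxt, hp]
      · rw [if_neg hp] at he
        subst he
        refine ⟨Or.inr ?_, fun x => rfl⟩
        simp only [Dup.nxt, hp, if_false]
        rfl

/-- the shift given by a potential -/
def sV (V : Dup.Pot (dnet N hN)) : NVar H Λ → ZMod 2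
  | Sum.inl (e, i, x, y) => V (fedge hN e) i x + V (fedge hN e) (i + 1) y
  | Sum.inr (κ, j, x) => ((N.edges κ).map fun e => V (fedge hN e) j (N.psi κ e x)).sum

theorem sV_U (V : Dup.Pot (dnet N hN)) {κ : Col} (hκ : VC N κ) (j : ℕ) (x : Λ) :
    sV hN V (Net.U κ j x) =
      Dup.esum N.L (fcol hN κ) (fun e => V e j (Dup.psi (fcol hN κ) e x)) := by
  rw [esum_eq hN hκ]
  simp only [Net.U, sV]
  congr 1
  apply List.map_congr_left
  intro e he
  rw [(inc_of_mem hN hκ he).2 x]

theorem vobj {u : NObj Λ} (hu : u ∈ N.objs) : Dup.VObj N.m N.L (fobj hN u) := by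
  obtain ⟨h1, h2, h3, h4⟩ := mem_objs u hu
  obtain ⟨κ, i, x, y⟩ := u
  simp only at h1 h2 h3 h4
  cases h1 with
  | ctr g hg =>
    refine ⟨h2, ?_, ?_, ?_⟩
    · show Dup.VCol N.L (fcol hN _)
      rw [fcol_ctr hN g hg]; trivial
    · show x ∈ (dnet N hN).A (Dup.gad (fcol hN _)) i
      rw [fcol_ctr hN g hg]; exact h3
    · show y ∈ (dnet N hN).A (Dup.gad (fcol hN _)) (i + 1)
      rw [fcol_ctr hN g hg]; exact h4
  | arm g a p hg ha hp =>
    refine ⟨h2, ?_, ?_, ?_⟩
    · show Dup.VCol N.L (fcol hN _)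
      rw [fcol_arm hN g a p hg ha]
      exact ⟨by omega, by omega⟩
    · show x ∈ (dnet N hN).A (Dup.gad (fcol hN _)) i
      rw [fcol_arm hN g a p hg ha]; exact h3
    · show y ∈ (dnet N hN).A (Dup.gad (fcol hN _)) (i + 1)
      rw [fcol_arm hN g a p hg ha]; exact h4

/-! ### closedness -/

/-- extension of a content by the trivial letter -/
def ex (N : Net H Λ) (z : Fin (N.m + 1) → Λ) : ℕ → Λ := fun j =>
  if h : j < N.m + 1 then z ⟨j, h⟩ else N.o

include hN in
theorem ex_proj (g a : ℕ) (x : Fin (N.m + 1) → Λ) :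
    ex N (fun j => N.proj g a (x j)) = fun j => N.proj g a (ex N x j) := by
  funext j
  unfold ex
  split_ifs
  · rfl
  · exact (hN.proj_o g a).symm

include hN in
theorem ex_content (g : ℕ) (hg : g < N.nG) (x : Fin (N.m + 1) → Λ)
    (hx : ∀ j : Fin (N.m + 1), x j ∈ N.lett g j) : N.Content g (ex N x) := by
  intro j
  unfold ex
  split_ifs with h
  · exact hx ⟨j, h⟩
  · rw [hN.lett_triv g hg j (Or.inr (by omega))]
    exact List.mem_singleton.mpr rfl

theorem closed_transfer {Kn : H → (ℕ → Λ) → Prop} {val : H → (ℕ → Λ) → Bool}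
    (h : N.Closed Kn val) :
    Dup.Closed (N := dnet N hN) N.m (fun hb z => Kn hb (ex N z)) (fun hb z => bz (val hb (ex N z))) := by
  constructor
  · intro g x hx a ha
    have hc := ex_content hN g.1 g.2 x hx
    have := h.ne_one g.1 g.2 (ex N x) hc a.1 a.2 (by
      intro a' ha' hne
      have := ha ⟨a', ha'⟩ (by
        intro e; apply hne; exact congrArg Fin.val e)
      have e := ex_proj hN g.1 a' x
      rw [← e]
      exact this)
    have e := ex_proj hN g.1 a.1 x
    rw [← e] at this
    exact this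
  · intro g x hx ha
    have hc := ex_content hN g.1 g.2 x hx
    have := h.sum_eq g.1 g.2 (ex N x) hc (by
      intro a ha'
      have h1 := ha ⟨a, ha'⟩
      rw [← ex_proj hN g.1 a x]
      exact h1)
    have h2 := congrArg bz this
    rw [bz_sum, List.map_map, range_sum] at h2
    show _ = bz (decide (g.1 = N.gt))
    rw [← h2]
    apply Finset.sum_congr rfl
    intro a _
    have e := ex_proj hN g.1 (Fin.val (n := N.narm g.1) a) x
    simp only [Function.comp]
    rw [← e]
    rfl

theorem inv_mono {M : Dup.Net} [∀ g, Fintype (M.Arm g)] {m L : ℕ} {P Q : Finset (Dup.Obj M)}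
    {Kn : M.Hub → (Fin (m + 1) → M.Ltr) → Prop} {val : M.Hub → (Fin (m + 1) → M.Ltr) → ZMod 2}
    {ε : Dup.Edge M → ZMod 2} (h : Dup.Inv m L Kn val P ε) (hQ : Q ⊆ P) :
    Dup.Inv m L Kn val Q ε :=
  ⟨fun p hp => h.G1 p (hQ hp), fun σ hσ => h.G2C σ (hσ.mono hQ), fun σ hσ => h.G2H σ (hσ.mono hQ)⟩

variable [DecidableEq H] [DecidableEq Λ]

theorem edges_nodup (κ : Col) : (N.edges κ).Nodup := by
  unfold Net.edges
  split_ifs with h h2
  · apply List.Nodup.map _ List.nodup_range
    intro a b hab
    simpa using hab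
  · simp only [List.nodup_cons, List.mem_singleton, List.not_mem_nil, not_false_eq_true,
      List.nodup_nil, and_true]
    intro e
    have := congrArg (fun s : Edge H => match s with | Sum.inl _ => 0 | Sum.inr k => k.2.2) e
    simp at this
  · simp

theorem ports_nodup (u : NObj Λ) : (N.ports u).Nodup := by
  unfold Net.ports
  rw [List.nodup_append]
  refine ⟨?_, ?_, ?_⟩
  · apply List.Nodup.map _ (edges_nodup u.1)
    intro e e' h
    simp only [Net.Y, Sum.inl.injEq, Prod.mk.injEq] at h
    exact h.1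
  · split_ifs <;> simp [Net.U]
  · intro a ha b hb
    simp only [List.mem_map] at ha
    obtain ⟨e, _, rfl⟩ := ha
    simp only [List.mem_append] at hb
    rcases hb with hb | hb <;> split_ifs at hb <;> simp at hb <;> subst hb <;> simp [Net.Y, Net.U]


theorem sum_ports (V : Dup.Pot (dnet N hN)) {ε : Dup.Edge (dnet N hN) → ZMod 2}
    (hV : Dup.IsPot N.m V ε) {u : NObj Λ} (hu : u ∈ N.objs)
    (hG : Dup.esum N.L (fcol hN u.1) ε = Dup.bcol (fcol hN u.1)) :
    ((N.ports u).map (sV hN V)).sum = bz (N.beta u) := by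
  obtain ⟨hκ, hi, hx, hy⟩ := mem_objs u hu
  obtain ⟨κ, i, x, y⟩ := u
  simp only at hκ hi hx hy hG
  have hg : κ.1 < N.nG := by cases hκ <;> assumption
  unfold Net.ports
  rw [List.map_append, List.sum_append, List.map_map, List.map_append, List.sum_append]
  -- the Y part
  have hY : ((N.edges κ).map ((sV hN V) ∘ fun e => Net.Y e i (N.psi κ e x) (N.psi κ e y))).sum =
      ((N.edges κ).map fun e => V (fedge hN e) i (N.psi κ e x)).sum +
        ((N.edges κ).map fun e => V (fedge hN e) (i + 1) (N.psi κ e y)).sum := by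
    rw [← List.sum_map_add]
    rfl
  have h1 : (List.map (sV hN V) (if 0 < i then [Net.U κ i x] else [])).sum =
      ((N.edges κ).map fun e => V (fedge hN e) i (N.psi κ e x)).sum := by
    split_ifs with h
    · simp [Net.U, sV]
    · have h0 : i = 0 := by omega
      subst h0
      simp only [List.map_nil, List.sum_nil]
      symm
      apply List.sum_eq_zero
      intro z hz
      obtain ⟨e, _, rfl⟩ := List.mem_map.mp hz
      exact hV.zero _ _
  have h2 : (List.map (sV hN V) (if i + 1 < N.m then [Net.U κ (i + 1) y] else [])).sum =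
      ((N.edges κ).map fun e => V (fedge hN e) (i + 1) (N.psi κ e y)).sum + bz (N.beta (κ, i, x, y)) := by
    split_ifs with h
    · have : N.beta (κ, i, x, y) = false := by
        simp only [Net.beta, decide_eq_false_iff_not, not_and]
        intro _; omega
      rw [this]
      simp [Net.U, sV, bz]
    · have hm : i + 1 = N.m := by omega
      have e1 : ((N.edges κ).map fun e => V (fedge hN e) (i + 1) (N.psi κ e y)).sum =
          bz (N.beta (κ, i, x, y)) := by
        have : ((N.edges κ).map fun e => V (fedge hN e) (i + 1) (N.psi κ e y)) =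
            ((N.edges κ).map fun e => ε (fedge hN e)) := by
          apply List.map_congr_left
          intro e _
          rw [hm]
          exact hV.top _ _
        rw [this, ← esum_eq hN hκ, hG]
        cases hκ with
        | ctr g hg' =>
          rw [fcol_ctr hN g hg']
          simp only [Dup.bcol]
          show bz (decide (g = N.gt)) = _
          congr 1
          simp [Net.beta, hm]
        | arm g a p hg' ha hp =>
          rw [fcol_arm hN g a p hg' ha]
          simp only [Dup.bcol]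
          have : N.beta ((g, a, p + 1), i, x, y) = false := by
            simp [Net.beta]
          rw [this]
          rfl
      rw [e1]
      simp only [List.map_nil, List.sum_nil]
      exact (CharTwo.add_self_eq_zero _).symm
  show ((N.edges κ).map ((sV hN V) ∘ fun e => Net.Y e i (N.psi κ e x) (N.psi κ e y))).sum +
    ((List.map (sV hN V) (if 0 < i then [Net.U κ i x] else [])).sum +
      (List.map (sV hN V) (if i + 1 < N.m then [Net.U κ (i + 1) y] else [])).sum) =
      bz (N.beta (κ, i, x, y))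
  rw [hY, h1, h2]
  have a1 := CharTwo.add_self_eq_zero (((N.edges κ).map fun e => V (fedge hN e) i (N.psi κ e x)).sum)
  have a2 := CharTwo.add_self_eq_zero
    (((N.edges κ).map fun e => V (fedge hN e) (i + 1) (N.psi κ e y)).sum)
  linear_combination a1 + a2

theorem agree_ports {V V' : Dup.Pot (dnet N hN)} {u : NObj Λ} (hu : u ∈ N.objs)
    (h : Dup.Agree N.m N.L V V' (fobj hN u)) : ∀ x ∈ N.ports u, sV hN V' x = sV hN V x := by
  obtain ⟨hκ, hi, hx, hy⟩ := mem_objs u hu
  obtain ⟨κ, i, x, y⟩ := u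
  simp only at hκ hi hx hy
  intro w hw
  unfold Net.ports at hw
  simp only [List.mem_append, List.mem_map] at hw
  rcases hw with ⟨e, he, rfl⟩ | hw | hw
  · obtain ⟨h1, h2⟩ := inc_of_mem hN hκ he
    have := h.hY (fedge hN e) h1
    simp only [fobj] at this
    rw [h2 x, h2 y] at this
    exact this
  · split_ifs at hw with h0
    · obtain rfl := List.mem_singleton.mp hw
      rw [sV_U hN V' hκ, sV_U hN V hκ]
      exact h.hU1 h0
    · simp at hw
  · split_ifs at hw with h0
    · obtain rfl := List.mem_singleton.mp hw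
      rw [sV_U hN V' hκ, sV_U hN V hκ]
      exact h.hU2 h0
    · simp at hw

end NetD

open NetD in
/-- **[NETD]** closed facts give a shift system. -/
theorem Net.shiftEquiv_of_closed {H Λ : Type} [DecidableEq H] [DecidableEq Λ] (N : Net H Λ)
    (hN : N.OK) {Kn : H → (ℕ → Λ) → Prop} {val : H → (ℕ → Λ) → Bool} (h : N.Closed Kn val) :
    ShiftEquiv N.objs N.ports N.beta (N.m + 1) := by
  classical
  have hcl := closed_transfer hN h
  let img : Finset {u // u ∈ N.objs} → Finset (Dup.Obj (dnet N hN)) := fun P =>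
    P.image fun u => fobj hN u.1
  have himg : ∀ (P : Finset {u // u ∈ N.objs}), ∀ p ∈ img P, Dup.VObj N.m N.L p := by
    intro P p hp
    obtain ⟨u, _, rfl⟩ := Finset.mem_image.mp hp
    exact vobj hN u.2
  refine ⟨fun P s => ∃ V ε, Dup.IsPot N.m V ε ∧
    Dup.Inv (N := dnet N hN) N.m N.L (fun hb z => Kn hb (ex N z)) (fun hb z => bz (val hb (ex N z)))
      (img P) ε ∧ s = sV hN V, ?_, ?_, ?_, ?_⟩
  · -- valid
    rintro P s ⟨V, ε, hV, hI, rfl⟩ u hu
    rw [List.sum_toFinset _ (ports_nodup u.1)]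
    exact sum_ports hN V hV u.2 (hI.G1 _ (Finset.mem_image.mpr ⟨u, hu, rfl⟩))
  · -- mono
    rintro P Q s ⟨V, ε, hV, hI, rfl⟩ hQ
    exact ⟨V, ε, hV, inv_mono hI (Finset.image_subset_image hQ), rfl⟩
  · -- empty
    refine ⟨_, fun _ _ _ => 0, fun _ => 0, ⟨fun _ _ => rfl, fun _ _ => rfl⟩, ⟨?_, ?_, ?_⟩, rfl⟩
    · intro p hp
      simp [img] at hp
    · intro σ hσ
      have := hσ.mem 0 (by have := hN.two_le; omega)
      simp [img] at this
    · intro σ hσ
      have := hσ.mem 0 (by have := hN.two_le; omega)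
      simp [img] at this
  · -- ext
    rintro P s ⟨V, ε, hV, hI, rfl⟩ hcard u
    have hsub : img P ⊆ img (insert u P) := Finset.image_subset_image (Finset.subset_insert _ _)
    have hA0 : ∀ g : (dnet N hN).Gad, ∀ l ∈ (dnet N hN).A g 0, l = (dnet N hN).o := by
      intro g l hl
      have h1 : l ∈ N.lett (Fin.val (n := N.nG) g) 0 := hl
      rw [hN.lett_triv _ (Fin.isLt (n := N.nG) g) 0 (Or.inl rfl)] at h1
      exact List.mem_singleton.mp h1
    have hAm : ∀ g : (dnet N hN).Gad, ∀ l ∈ (dnet N hN).A g N.m, l = (dnet N hN).o := by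
      intro g l hl
      have h1 : l ∈ N.lett (Fin.val (n := N.nG) g) N.m := hl
      rw [hN.lett_triv _ (Fin.isLt (n := N.nG) g) N.m (Or.inr le_rfl)] at h1
      exact List.mem_singleton.mp h1
    have harm : ∀ g : (dnet N hN).Gad, Nonempty ((dnet N hN).Arm g) := by
      intro g
      have h1 := hN.narm_odd _ (Fin.isLt (n := N.nG) g)
      exact ⟨(⟨0, h1.pos⟩ : Fin (N.narm (Fin.val (n := N.nG) g)))⟩
    have hc1 : (img P).card ≤ N.m := by
      have : (img P).card ≤ P.card := Finset.card_image_le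
      omega
    have hc2 : (img (insert u P)).card ≤ N.m + 1 := by
      have h1 : (img (insert u P)).card ≤ (insert u P).card := Finset.card_image_le
      have h2 : (insert u P).card ≤ P.card + 1 := Finset.card_insert_le _ _
      omega
    obtain ⟨V', ε', h1, h2, h3⟩ := Dup.extend (N := dnet N hN) (m := N.m) (L := N.L) hN.two_le
      (le_refl _) harm hA0 hAm hcl (himg _) hc2 hsub hc1 hV hI
    refine ⟨sV hN V', ⟨V', ε', h1, h2, rfl⟩, ?_⟩
    intro v hv x hx
    exact agree_ports hN v.2 (h3 _ (Finset.mem_image.mpr ⟨v, hv, rfl⟩)) x (List.mem_toFinset.mp hx)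

end Crest.Agent.R290
private theorem rz_921bbf2b43 : type_of% @_root_.Crest.Agent.R290.NetD.fedge.eq_1 := @_root_.Crest.Agent.R290.NetD.fedge.eq_1 -- L65
private theorem rz_dea28ff92a : type_of% @_root_.Crest.Agent.R290.NetD.sV.eq_1 := @_root_.Crest.Agent.R290.NetD.sV.eq_1 -- L167
end

-- ▼ part R290/NetSp

/-!
# Row 290, [NETSP]: Spoiler's derivations in a network with `m + 1` pebbles

`Net.Drv`: derived facts; `Net.Drv.step`: column step (general parities, for `NetId`);
`Net.not_shiftEquiv_of_der`: the frozen statement.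
-/

set_option autoImplicit false
set_option linter.unusedSectionVars false

namespace Crest.Agent.R290

open Finset

namespace Net

variable {H Λ : Type} [DecidableEq H] [DecidableEq Λ]

/-! ## ports -/



theorem sp_edges_nodup (N : Net H Λ) (κ : Col) : (N.edges κ).Nodup := by
  unfold edges
  split_ifs with h1 h2
  · refine List.Nodup.map ?_ List.nodup_range
    intro a b hab
    simpa using hab
  · simp only [List.nodup_cons, List.mem_singleton, List.not_mem_nil, not_false_eq_true,
      List.nodup_nil, and_true]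
    intro h
    have h3 := Sum.inr.inj h
    have h4 := congrArg (fun q : ℕ × ℕ × ℕ => q.2.2) h3
    simp only at h4
    omega
  · simp

theorem sp_ports_nodup (N : Net H Λ) (u : NObj Λ) : (N.ports u).Nodup := by
  unfold ports
  refine List.Nodup.append ?_ ?_ ?_
  · refine List.Nodup.map ?_ (N.sp_edges_nodup u.1)
    intro a b hab
    simp only [Y, Sum.inl.injEq, Prod.mk.injEq] at hab
    exact hab.1
  · refine List.Nodup.append ?_ ?_ ?_
    · split_ifs <;> simp
    · split_ifs <;> simp
    · intro a h1 h2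
      split_ifs at h1 h2 with h3 h4
      · rw [List.mem_singleton] at h1 h2
        rw [h1] at h2
        simp only [U, Sum.inr.injEq, Prod.mk.injEq] at h2
        omega
      · simp at h2
      · simp at h1
      · simp at h1
  · intro a h1 h2
    obtain ⟨e, _, rfl⟩ := List.mem_map.1 h1
    rcases List.mem_append.1 h2 with h2 | h2
    · split_ifs at h2
      · simp [Y, U] at h2
      · simp at h2
    · split_ifs at h2
      · simp [Y, U] at h2
      · simp at h2

theorem sp_sum_ports (N : Net H Λ) (u : NObj Λ) (s : NVar H Λ → ZMod 2) :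
    ∑ v ∈ (N.ports u).toFinset, s v =
      ((N.edges u.1).map fun e => s (Y e u.2.1 (N.psi u.1 e u.2.2.1) (N.psi u.1 e u.2.2.2))).sum +
        ((if 0 < u.2.1 then s (U u.1 u.2.1 u.2.2.1) else 0) +
          (if u.2.1 + 1 < N.m then s (U u.1 (u.2.1 + 1) u.2.2.2) else 0)) := by
  rw [List.sum_toFinset _ (N.sp_ports_nodup u)]
  unfold ports
  rw [List.map_append, List.sum_append, List.map_append, List.sum_append, List.map_map]
  congr 1
  congr 1
  · split_ifs <;> simp
  · split_ifs <;> simp

theorem sp_Y_mem_ports (N : Net H Λ) (u : NObj Λ) {e : Edge H} (he : e ∈ N.edges u.1) :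
    Y e u.2.1 (N.psi u.1 e u.2.2.1) (N.psi u.1 e u.2.2.2) ∈ N.ports u := by
  unfold ports
  exact List.mem_append_left _ (List.mem_map.2 ⟨e, he, rfl⟩)

theorem sp_mem_objs (N : Net H Λ) {κ : Col} {i : ℕ} {x y : Λ} :
    (κ, i, x, y) ∈ N.objs ↔ κ.1 < N.nG ∧ κ ∈ N.cols κ.1 ∧ i < N.m ∧ x ∈ N.lett κ.1 i ∧
      y ∈ N.lett κ.1 (i + 1) := by
  have hc : ∀ g κ, κ ∈ N.cols g → κ.1 = g := by
    intro g κ h
    unfold cols at h
    rcases List.mem_cons.1 h with rfl | h
    · rfl
    · obtain ⟨a, _, h⟩ := List.mem_flatMap.1 h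
      obtain ⟨p, _, rfl⟩ := List.mem_map.1 h
      rfl
  unfold objs
  simp only [List.mem_flatMap, List.mem_map, List.mem_range, Prod.mk.injEq]
  constructor
  · rintro ⟨g, hg, κ', hκ', i', hi', x', hx', y', hy', rfl, rfl, rfl, rfl⟩
    obtain rfl := hc _ _ hκ'
    exact ⟨hg, hκ', hi', hx', hy'⟩
  · rintro ⟨hg, hκ, hi, hx, hy⟩
    exact ⟨κ.1, hg, κ, hκ, i, hi, x, hx, y, hy, rfl, rfl, rfl, rfl⟩

theorem sp_ctr_mem_cols (N : Net H Λ) (g : ℕ) : (g, 0, 0) ∈ N.cols g := List.mem_cons_self ..

theorem sp_arm_mem_cols (N : Net H Λ) {g a p : ℕ} (ha : a < N.narm g) (h1 : 1 ≤ p) (h2 : p ≤ N.L) :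
    (g, a, p) ∈ N.cols g := by
  refine List.mem_cons_of_mem _ (List.mem_flatMap.2 ⟨a, List.mem_range.2 ha, ?_⟩)
  refine List.mem_map.2 ⟨p - 1, List.mem_range.2 (by omega), ?_⟩
  simp only [Prod.mk.injEq, true_and]
  omega

/-- object of a column and a content -/
def spOb (κ : Col) (x : ℕ → Λ) (i : ℕ) : NObj Λ := (κ, i, x i, x (i + 1))

theorem sp_ob_mem (N : Net H Λ) {κ : Col} {x : ℕ → Λ} (hg : κ.1 < N.nG) (hκ : κ ∈ N.cols κ.1)
    (hx : N.Content κ.1 x) {i : ℕ} (hi : i < N.m) : spOb κ x i ∈ N.objs :=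
  N.sp_mem_objs.2 ⟨hg, hκ, hi, hx _, hx _⟩

/-! ## positions -/

variable {N : Net H Λ} {b : NObj Λ → Bool}
  {S : Finset {u // u ∈ N.objs} → (NVar H Λ → ZMod 2) → Prop}

/-- exchanging the objects one by one, keeping the values of given ports -/
theorem sp_exch (hS : ShiftSys (fun u : {u // u ∈ N.objs} => (N.ports u.1).toFinset)
      (fun u => bz (b u.1)) (N.m + 1) S)
    {P : Finset {u // u ∈ N.objs}} {s : NVar H Λ → ZMod 2} (hP : S P s)
    (y : Fin N.m → NVar H Λ) (p v : Fin N.m → {u // u ∈ N.objs})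
    (hpP : ∀ i, p i ∈ P) (hp : ∀ i, y i ∈ N.ports (p i).1) (hv : ∀ i, y i ∈ N.ports (v i).1) :
    ∃ s', S (univ.image v) s' ∧ ∀ i, s' (y i) = s (y i) := by
  have key : ∀ k ≤ N.m, ∃ s', S (univ.image fun i : Fin N.m => if i.val < k then v i else p i) s' ∧
      ∀ i, s' (y i) = s (y i) := by
    intro k
    induction k with
    | zero =>
      intro _
      refine ⟨s, hS.mono hP ?_, fun _ => rfl⟩
      intro u hu
      obtain ⟨i, _, rfl⟩ := mem_image.1 hu
      simpa using hpP i
    | succ k ih =>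
      intro hk
      obtain ⟨s', h1, h2⟩ := ih (by omega)
      have hc : (univ.image fun i : Fin N.m => if i.val < k then v i else p i).card < N.m + 1 := by
        refine Nat.lt_succ_of_le (card_image_le.trans ?_)
        simp
      obtain ⟨s'', h3, h4⟩ := hS.ext h1 hc (v ⟨k, hk⟩)
      refine ⟨s'', hS.mono h3 ?_, ?_⟩
      · intro u hu
        obtain ⟨i, _, rfl⟩ := mem_image.1 hu
        by_cases hi : i.val < k
        · rw [if_pos (by omega)]
          refine mem_insert_of_mem (mem_image.2 ⟨i, mem_univ _, ?_⟩)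
          rw [if_pos hi]
        · by_cases hik : i.val = k
          · have : i = ⟨k, hk⟩ := Fin.ext hik
            rw [if_pos (by omega), this]
            exact mem_insert_self _ _
          · rw [if_neg (by omega)]
            refine mem_insert_of_mem (mem_image.2 ⟨i, mem_univ _, ?_⟩)
            rw [if_neg hi]
      · intro i
        rw [← h2 i]
        refine h4 (if i.val < k then v i else p i) (mem_image.2 ⟨i, mem_univ _, rfl⟩) (y i) ?_
        rw [List.mem_toFinset]
        split_ifs
        · exact hv i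
        · exact hp i
  obtain ⟨s', h1, h2⟩ := key N.m le_rfl
  refine ⟨s', ?_, h2⟩
  have : (fun i : Fin N.m => if i.val < N.m then v i else p i) = v := by
    funext i
    rw [if_pos i.isLt]
  rwa [this] at h1

/-- existence of positions -/
theorem sp_exPos (hS : ShiftSys (fun u : {u // u ∈ N.objs} => (N.ports u.1).toFinset)
      (fun u => bz (b u.1)) (N.m + 1) S) (v : Fin N.m → {u // u ∈ N.objs}) :
    ∃ s, S (univ.image v) s := by
  have key : ∀ P : Finset {u // u ∈ N.objs}, P.card ≤ N.m + 1 → ∃ s, S P s := by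
    intro P
    induction P using Finset.induction_on with
    | empty => intro _; exact hS.empty
    | insert u P hu ih =>
      intro hc
      rw [card_insert_of_notMem hu] at hc
      obtain ⟨s, hs⟩ := ih (by omega)
      obtain ⟨s', hs', _⟩ := hS.ext hs (by omega) u
      exact ⟨s', hs'⟩
  refine key _ ((card_image_le).trans ?_)
  simp

/-- Derived facts: in every position with all the variables `Y(e, i, z)` visible their shifts add up
to `f`. -/
def Drv (N : Net H Λ) (S : Finset {u // u ∈ N.objs} → (NVar H Λ → ZMod 2) → Prop) (e : Edge H)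
    (z : ℕ → Λ) (f : ZMod 2) : Prop :=
  ∀ P s, S P s → (∀ i < N.m, ∃ u ∈ P, Y e i (z i) (z (i + 1)) ∈ N.ports u.1) →
    ∑ i ∈ range N.m, s (Y e i (z i) (z (i + 1))) = f

theorem sp_z2_telescope (g : ℕ → ZMod 2) : ∀ n, ∑ i ∈ range n, (g i + g (i + 1)) = g 0 + g n := by
  have h2 : ∀ a : ZMod 2, a + a = 0 := by decide
  intro n
  induction n with
  | zero => simp [h2]
  | succ n ih =>
    rw [sum_range_succ, ih]
    calc g 0 + g n + (g n + g (n + 1)) = g 0 + (g n + g n) + g (n + 1) := by ring
      _ = g 0 + g (n + 1) := by rw [h2, add_zero]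

/-- sum over the edges of a column -/
theorem sp_col_sum (hS : ShiftSys (fun u : {u // u ∈ N.objs} => (N.ports u.1).toFinset)
      (fun u => bz (b u.1)) (N.m + 1) S)
    {κ : Col} (x : ℕ → Λ) (hκ : ∀ i < N.m, spOb κ x i ∈ N.objs)
    {P : Finset {u // u ∈ N.objs}} {s : NVar H Λ → ZMod 2} (hP : S P s)
    (hPκ : ∀ i (hi : i < N.m), ⟨spOb κ x i, hκ i hi⟩ ∈ P) :
    ((N.edges κ).map fun e => ∑ i ∈ range N.m,
      s (Y e i (N.psi κ e (x i)) (N.psi κ e (x (i + 1))))).sum =
      ∑ i ∈ range N.m, bz (b (spOb κ x i)) := by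
  have h1 : ∑ i ∈ range N.m, bz (b (spOb κ x i)) =
      ∑ i ∈ range N.m, ∑ v ∈ (N.ports (spOb κ x i)).toFinset, s v := by
    refine sum_congr rfl fun i hi => ?_
    rw [mem_range] at hi
    exact (hS.valid hP _ (hPκ i hi)).symm
  have h2 : ∀ (l : List (Edge H)) (f : Edge H → ℕ → ZMod 2),
      (l.map fun e => ∑ i ∈ range N.m, f e i).sum = ∑ i ∈ range N.m, (l.map fun e => f e i).sum := by
    intro l f
    induction l with
    | nil => simp
    | cons e l ih => simp [ih, sum_add_distrib]
  rw [h1, h2]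
  simp_rw [sp_sum_ports]
  rw [sum_add_distrib]
  let g : ℕ → ZMod 2 := fun j => if 0 < j ∧ j < N.m then s (U κ j (x j)) else 0
  have h3 : ∑ i ∈ range N.m, ((if 0 < (spOb κ x i).2.1 then s (U (spOb κ x i).1 (spOb κ x i).2.1 (spOb κ x i).2.2.1) else 0) +
      (if (spOb κ x i).2.1 + 1 < N.m then s (U (spOb κ x i).1 ((spOb κ x i).2.1 + 1) (spOb κ x i).2.2.2) else 0)) =
      ∑ i ∈ range N.m, (g i + g (i + 1)) := by
    refine sum_congr rfl fun i hi => ?_
    rw [mem_range] at hi
    change (if 0 < i then s (U κ i (x i)) else 0) +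
      (if i + 1 < N.m then s (U κ (i + 1) (x (i + 1))) else 0) = g i + g (i + 1)
    have e1 : g i = if 0 < i then s (U κ i (x i)) else 0 := by
      by_cases h : 0 < i
      · simp [g, h, hi]
      · simp [g, h]
    have e2 : g (i + 1) = if i + 1 < N.m then s (U κ (i + 1) (x (i + 1))) else 0 := by
      by_cases h : i + 1 < N.m
      · simp [g, h]
      · simp [g, h]
    rw [e1, e2]
  rw [h3, sp_z2_telescope]
  simp only [g, lt_irrefl, false_and, and_false, if_false, add_zero]
  rfl

theorem sp_sum_map_filter {E : Type} [DecidableEq E] {l : List E} (hl : l.Nodup) {e₀ : E} (he : e₀ ∈ l)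
    (F : E → ZMod 2) :
    (l.map F).sum = F e₀ + ((l.filter fun e => decide (e ≠ e₀)).map F).sum := by
  induction l with
  | nil => simp at he
  | cons a l ih =>
    rw [List.nodup_cons] at hl
    by_cases ha : a = e₀
    · subst ha
      have h1 : (a :: l).filter (fun e => decide (e ≠ a)) = l := by
        rw [List.filter_cons_of_neg (by simp)]
        rw [List.filter_eq_self]
        intro e he'
        have : e ≠ a := by
          rintro rfl
          exact hl.1 he'
        simpa using this
      rw [h1, List.map_cons, List.sum_cons]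
    · have he' : e₀ ∈ l := by
        rcases List.mem_cons.1 he with h | h
        · exact absurd h.symm ha
        · exact h
      rw [List.filter_cons_of_pos (by simpa using ha), List.map_cons, List.sum_cons, ih hl.2 he',
        List.map_cons, List.sum_cons]
      ring

/-- **Column step**: if all edges of a column but `e₀` are derived then so is `e₀`. -/
theorem Drv.step (hS : ShiftSys (fun u : {u // u ∈ N.objs} => (N.ports u.1).toFinset)
      (fun u => bz (b u.1)) (N.m + 1) S)
    {κ : Col} (x : ℕ → Λ) (hκ : ∀ i < N.m, spOb κ x i ∈ N.objs)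
    {e₀ : Edge H} (he₀ : e₀ ∈ N.edges κ) (f : Edge H → ZMod 2)
    (hf : ∀ e ∈ N.edges κ, e ≠ e₀ → N.Drv S e (fun j => N.psi κ e (x j)) (f e)) :
    N.Drv S e₀ (fun j => N.psi κ e₀ (x j))
      ((((N.edges κ).filter fun e => decide (e ≠ e₀)).map f).sum +
        ∑ i ∈ range N.m, bz (b (spOb κ x i))) := by
  have h2 : ∀ a b c : ZMod 2, a + b = c → a = b + c := by decide
  intro P s hP hv
  have hv' : ∀ i : Fin N.m, ∃ u, u ∈ P ∧ Y e₀ i.val (N.psi κ e₀ (x i.val)) (N.psi κ e₀ (x (i.val + 1))) ∈ N.ports u.1 :=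
    fun i => hv i.val i.isLt
  choose p hpP hp using hv'
  obtain ⟨s', h3, h4⟩ := sp_exch hS hP
    (fun i => Y e₀ i.val (N.psi κ e₀ (x i.val)) (N.psi κ e₀ (x (i.val + 1)))) p
    (fun i => ⟨spOb κ x i.val, hκ i.val i.isLt⟩) hpP hp (fun i => N.sp_Y_mem_ports (spOb κ x i.val) he₀)
  have hmem : ∀ i (hi : i < N.m), (⟨spOb κ x i, hκ i hi⟩ : {u // u ∈ N.objs}) ∈
      univ.image (fun i : Fin N.m => (⟨spOb κ x i.val, hκ i.val i.isLt⟩ : {u // u ∈ N.objs})) :=
    fun i hi => mem_image.2 ⟨⟨i, hi⟩, mem_univ _, rfl⟩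
  have h5 := sp_col_sum hS x hκ h3 hmem
  rw [sp_sum_map_filter (N.sp_edges_nodup κ) he₀] at h5
  have h6 : ∑ i ∈ range N.m, s' (Y e₀ i (N.psi κ e₀ (x i)) (N.psi κ e₀ (x (i + 1)))) =
      ∑ i ∈ range N.m, s (Y e₀ i (N.psi κ e₀ (x i)) (N.psi κ e₀ (x (i + 1)))) := by
    refine sum_congr rfl fun i hi => ?_
    rw [mem_range] at hi
    exact h4 ⟨i, hi⟩
  rw [h6] at h5
  have h7 : (((N.edges κ).filter fun e => decide (e ≠ e₀)).map fun e => ∑ i ∈ range N.m,
      s' (Y e i (N.psi κ e (x i)) (N.psi κ e (x (i + 1))))) =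
      ((N.edges κ).filter fun e => decide (e ≠ e₀)).map f := by
    refine List.map_congr_left fun e he => ?_
    rw [List.mem_filter] at he
    have he1 : e ∈ N.edges κ := he.1
    have he2 : e ≠ e₀ := by simpa using he.2
    refine hf e he1 he2 _ s' h3 fun i hi => ⟨_, hmem i hi, ?_⟩
    exact N.sp_Y_mem_ports (spOb κ x i) he1
  rw [h7] at h5
  exact h2 _ _ _ h5

/-- derived values are unique -/
theorem Drv.unique (hS : ShiftSys (fun u : {u // u ∈ N.objs} => (N.ports u.1).toFinset)
      (fun u => bz (b u.1)) (N.m + 1) S)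
    {κ : Col} (x : ℕ → Λ) (hκ : ∀ i < N.m, spOb κ x i ∈ N.objs)
    {e : Edge H} (he : e ∈ N.edges κ) {f f' : ZMod 2}
    (h1 : N.Drv S e (fun j => N.psi κ e (x j)) f) (h2 : N.Drv S e (fun j => N.psi κ e (x j)) f') :
    f = f' := by
  obtain ⟨s, hs⟩ := sp_exPos hS (fun i : Fin N.m => ⟨spOb κ x i.val, hκ i.val i.isLt⟩)
  have hvis : ∀ i < N.m, ∃ u ∈ univ.image (fun i : Fin N.m =>
      (⟨spOb κ x i.val, hκ i.val i.isLt⟩ : {u // u ∈ N.objs})),
      Y e i (N.psi κ e (x i)) (N.psi κ e (x (i + 1))) ∈ N.ports u.1 := by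
    intro i hi
    exact ⟨_, mem_image.2 ⟨⟨i, hi⟩, mem_univ _, rfl⟩, N.sp_Y_mem_ports (spOb κ x i) he⟩
  rw [← h1 _ s hs hvis, ← h2 _ s hs hvis]

/-! ## arms and centres -/

theorem sp_edges_ctr (N : Net H Λ) (g : ℕ) :
    N.edges (g, 0, 0) = (List.range (N.narm g)).map fun a => (Sum.inr (g, a, 1) : Edge H) := by
  simp [edges]

theorem sp_edges_arm (N : Net H Λ) {g a p : ℕ} (hp : 1 ≤ p) :
    N.edges (g, a, p) = [Sum.inr (g, a, p),
      if p < N.L then Sum.inr (g, a, p + 1) else Sum.inl (N.hub g a)] := by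
  unfold edges
  rw [if_neg (by simp only; omega)]

/-- total parity of a column for a content -/
def spBC (N : Net H Λ) (b : NObj Λ → Bool) (κ : Col) (x : ℕ → Λ) : ZMod 2 :=
  ∑ i ∈ range N.m, bz (b (spOb κ x i))

/-- step at a column with two edges -/
theorem Drv.two (hS : ShiftSys (fun u : {u // u ∈ N.objs} => (N.ports u.1).toFinset)
      (fun u => bz (b u.1)) (N.m + 1) S)
    {κ : Col} (x : ℕ → Λ) (hκ : ∀ i < N.m, spOb κ x i ∈ N.objs) {e₁ e₂ : Edge H}
    (he : N.edges κ = [e₁, e₂]) {f : ZMod 2} (h : N.Drv S e₁ (fun j => N.psi κ e₁ (x j)) f) :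
    N.Drv S e₂ (fun j => N.psi κ e₂ (x j)) (f + N.spBC b κ x) := by
  have hne : e₁ ≠ e₂ := by
    have := N.sp_edges_nodup κ
    rw [he] at this
    simpa using this
  have h1 := Drv.step hS x hκ (e₀ := e₂) (by rw [he]; simp) (fun _ => f) (by
    intro e h2 h3
    rw [he] at h2
    simp only [List.mem_cons, List.not_mem_nil, or_false] at h2
    rcases h2 with rfl | rfl
    · exact h
    · exact absurd rfl h3)
  have h4 : (([e₁, e₂] : List (Edge H)).filter fun e => decide (e ≠ e₂)) = [e₁] := by
    rw [List.filter_cons_of_pos (by simpa using hne), List.filter_cons_of_neg (by simp)]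
    rfl
  rw [he, h4] at h1
  simpa [spBC] using h1

/-- step at a column with two edges, other direction -/
theorem Drv.two' (hS : ShiftSys (fun u : {u // u ∈ N.objs} => (N.ports u.1).toFinset)
      (fun u => bz (b u.1)) (N.m + 1) S)
    {κ : Col} (x : ℕ → Λ) (hκ : ∀ i < N.m, spOb κ x i ∈ N.objs) {e₁ e₂ : Edge H}
    (he : N.edges κ = [e₁, e₂]) {f : ZMod 2} (h : N.Drv S e₂ (fun j => N.psi κ e₂ (x j)) f) :
    N.Drv S e₁ (fun j => N.psi κ e₁ (x j)) (f + N.spBC b κ x) := by
  have hne : e₁ ≠ e₂ := by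
    have := N.sp_edges_nodup κ
    rw [he] at this
    simpa using this
  have h1 := Drv.step hS x hκ (e₀ := e₁) (by rw [he]; simp) (fun _ => f) (by
    intro e h2 h3
    rw [he] at h2
    simp only [List.mem_cons, List.not_mem_nil, or_false] at h2
    rcases h2 with rfl | rfl
    · exact absurd rfl h3
    · exact h)
  have h4 : (([e₁, e₂] : List (Edge H)).filter fun e => decide (e ≠ e₁)) = [e₂] := by
    rw [List.filter_cons_of_neg (by simp), List.filter_cons_of_pos (by simpa using hne.symm)]
    rfl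
  rw [he, h4] at h1
  simpa [spBC] using h1

theorem sp_ob_mem_arm {g : ℕ} (hg : g < N.nG) {x : ℕ → Λ} (hx : N.Content g x) {a p : ℕ}
    (ha : a < N.narm g) (h1 : 1 ≤ p) (h2 : p ≤ N.L) : ∀ i < N.m, spOb (g, a, p) x i ∈ N.objs :=
  fun _ hi => N.sp_ob_mem hg (N.sp_arm_mem_cols ha h1 h2) hx hi

theorem sp_ob_mem_ctr {g : ℕ} (hg : g < N.nG) {x : ℕ → Λ} (hx : N.Content g x) :
    ∀ i < N.m, spOb (g, 0, 0) x i ∈ N.objs :=
  fun _ hi => N.sp_ob_mem hg (N.sp_ctr_mem_cols g) hx hi

/-- from the centre outwards along an arm -/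
theorem Drv.out (hS : ShiftSys (fun u : {u // u ∈ N.objs} => (N.ports u.1).toFinset)
      (fun u => bz (b u.1)) (N.m + 1) S)
    {g : ℕ} (hg : g < N.nG) {x : ℕ → Λ} (hx : N.Content g x) {a : ℕ} (ha : a < N.narm g)
    {f : ZMod 2} (h : N.Drv S (Sum.inr (g, a, 1)) x f) :
    N.Drv S (Sum.inl (N.hub g a)) (fun j => N.proj g a (x j))
      (f + ∑ p ∈ range N.L, N.spBC b (g, a, p + 1) x) := by
  have hL : N.L = N.m + 2 := rfl
  have key : ∀ p < N.L, N.Drv S (Sum.inr (g, a, p + 1)) x
      (f + ∑ q ∈ range p, N.spBC b (g, a, q + 1) x) := by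
    intro p
    induction p with
    | zero => intro _; simpa using h
    | succ p ih =>
      intro hp
      have h1 := ih (by omega)
      have he := N.sp_edges_arm (g := g) (a := a) (p := p + 1) (by omega)
      rw [if_pos hp] at he
      have h2 := Drv.two hS x (sp_ob_mem_arm hg hx ha (p := p + 1) (by omega) (by omega)) he h1
      rw [sum_range_succ, ← add_assoc]
      exact h2
  have h1 := key (N.m + 1) (by omega)
  have he := N.sp_edges_arm (g := g) (a := a) (p := N.m + 1 + 1) (by omega)
  rw [if_neg (by omega)] at he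
  have h2 := Drv.two hS x (sp_ob_mem_arm hg hx ha (p := N.m + 1 + 1) (by omega) (by omega)) he h1
  rw [hL, sum_range_succ, ← add_assoc]
  exact h2

/-- from the hub inwards along an arm -/
theorem Drv.inn (hS : ShiftSys (fun u : {u // u ∈ N.objs} => (N.ports u.1).toFinset)
      (fun u => bz (b u.1)) (N.m + 1) S)
    {g : ℕ} (hg : g < N.nG) {x : ℕ → Λ} (hx : N.Content g x) {a : ℕ} (ha : a < N.narm g)
    {f : ZMod 2} (h : N.Drv S (Sum.inl (N.hub g a)) (fun j => N.proj g a (x j)) f) :
    N.Drv S (Sum.inr (g, a, 1)) x (f + ∑ p ∈ range N.L, N.spBC b (g, a, p + 1) x) := by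
  have hL : N.L = N.m + 2 := rfl
  have he := N.sp_edges_arm (g := g) (a := a) (p := N.m + 1 + 1) (by omega)
  rw [if_neg (by omega)] at he
  have h1 : N.Drv S (Sum.inr (g, a, N.m + 1 + 1)) x (f + N.spBC b (g, a, N.m + 1 + 1) x) :=
    Drv.two' hS x (sp_ob_mem_arm hg hx ha (p := N.m + 1 + 1) (by omega) (by omega)) he h
  have key : ∀ q ≤ N.m + 1, N.Drv S (Sum.inr (g, a, N.m + 1 - q + 1)) x
      (f + ∑ p ∈ Ico (N.m + 1 - q) N.L, N.spBC b (g, a, p + 1) x) := by
    intro q
    induction q with
    | zero =>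
      intro _
      rw [Nat.sub_zero, hL, sum_eq_sum_Ico_succ_bot (by omega : N.m + 1 < N.m + 2)]
      simpa using h1
    | succ q ih =>
      intro hq
      have h2 := ih (by omega)
      have e1 : N.m + 1 - q = N.m + 1 - (q + 1) + 1 := by omega
      rw [e1] at h2
      have he := N.sp_edges_arm (g := g) (a := a) (p := N.m + 1 - (q + 1) + 1) (by omega)
      rw [if_pos (by omega)] at he
      have h3 := Drv.two' hS x
        (sp_ob_mem_arm hg hx ha (p := N.m + 1 - (q + 1) + 1) (by omega) (by omega)) he h2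
      rw [sum_eq_sum_Ico_succ_bot (by omega : N.m + 1 - (q + 1) < N.L), add_comm (N.spBC b _ x),
        ← add_assoc]
      exact h3
  have h4 := key (N.m + 1) le_rfl
  rw [Nat.sub_self] at h4
  rw [range_eq_Ico]
  exact h4

/-- step at a centre -/
theorem Drv.ctr (hS : ShiftSys (fun u : {u // u ∈ N.objs} => (N.ports u.1).toFinset)
      (fun u => bz (b u.1)) (N.m + 1) S)
    {g : ℕ} (hg : g < N.nG) {x : ℕ → Λ} (hx : N.Content g x) {a : ℕ} (ha : a < N.narm g)
    (f : ℕ → ZMod 2)
    (h : ∀ a' < N.narm g, a' ≠ a → N.Drv S (Sum.inr (g, a', 1)) x (f a')) :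
    N.Drv S (Sum.inr (g, a, 1)) x
      (∑ a' ∈ (range (N.narm g)).erase a, f a' + N.spBC b (g, 0, 0) x) := by
  have he : (Sum.inr (g, a, 1) : Edge H) ∈ N.edges (g, 0, 0) := by
    rw [sp_edges_ctr]
    exact List.mem_map.2 ⟨a, List.mem_range.2 ha, rfl⟩
  have h1 := Drv.step hS x (sp_ob_mem_ctr hg hx) he
    (Sum.elim (fun _ => 0) fun q => f q.2.1) (by
    intro e h2 h3
    rw [sp_edges_ctr] at h2
    obtain ⟨a', ha', rfl⟩ := List.mem_map.1 h2
    refine h a' (List.mem_range.1 ha') ?_
    rintro rfl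
    exact h3 rfl)
  have h4 : ((((N.edges (g, 0, 0)).filter fun e => decide (e ≠ Sum.inr (g, a, 1))).map
      (Sum.elim (fun _ => (0 : ZMod 2)) fun q => f q.2.1))).sum =
        ∑ a' ∈ (range (N.narm g)).erase a, f a' := by
    have h5 := sp_sum_map_filter (N.sp_edges_nodup (g, 0, 0)) he
      (Sum.elim (fun _ => (0 : ZMod 2)) fun q => f q.2.1)
    have h6 := add_sum_erase (range (N.narm g)) f (mem_range.2 ha)
    have h7 : ((N.edges (g, 0, 0)).map (Sum.elim (fun _ => (0 : ZMod 2)) fun q => f q.2.1)).sum =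
        ∑ a' ∈ range (N.narm g), f a' := by
      rw [sp_edges_ctr, List.map_map, ← List.sum_toFinset _ List.nodup_range, List.toFinset_range]
      rfl
    rw [h7, ← h6] at h5
    exact (add_left_cancel h5).symm
  rw [h4] at h1
  exact h1

/-! ## the twist -/

theorem sp_BC_beta (N : Net H Λ) (hm : 1 ≤ N.m) (κ : Col) (x : ℕ → Λ) :
    N.spBC N.beta κ x = if κ = (N.gt, 0, 0) then 1 else 0 := by
  unfold spBC
  obtain ⟨n, hn⟩ : ∃ n, N.m = n + 1 := ⟨N.m - 1, by omega⟩
  rw [hn, sum_range_succ]
  have h1 : ∑ i ∈ range n, bz (N.beta (spOb κ x i)) = 0 := by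
    refine sum_eq_zero fun i hi => ?_
    rw [mem_range] at hi
    have : N.beta (spOb κ x i) = false := by
      refine decide_eq_false ?_
      rintro ⟨_, h⟩
      have h' : i + 1 = N.m := h
      omega
    rw [this]; rfl
  rw [h1, zero_add]
  by_cases hκ : κ = (N.gt, 0, 0)
  · have : N.beta (spOb κ x n) = true := decide_eq_true ⟨hκ, hn.symm⟩
    rw [this, if_pos hκ]; rfl
  · have : N.beta (spOb κ x n) = false := by
      refine decide_eq_false ?_
      rintro ⟨h, _⟩
      exact hκ h
    rw [this, if_neg hκ]; rfl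

theorem sp_arm_beta (N : Net H Λ) (hm : 1 ≤ N.m) (g a : ℕ) (x : ℕ → Λ) :
    ∑ p ∈ range N.L, N.spBC N.beta (g, a, p + 1) x = 0 := by
  refine sum_eq_zero fun p _ => ?_
  rw [N.sp_BC_beta hm, if_neg]
  intro h
  have := congrArg (fun q : Col => q.2.2) h
  simp at this

/-- facts derived without the twisted gadget have value `0` -/
theorem Der.sp_drv (hN : N.OK)
    (hS : ShiftSys (fun u : {u // u ∈ N.objs} => (N.ports u.1).toFinset)
      (fun u => bz (N.beta u.1)) (N.m + 1) S)
    {h : H} {z : ℕ → Λ} (hd : N.Der h z) : N.Drv S (Sum.inl h) z 0 := by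
  have hm : 1 ≤ N.m := by have := hN.two_le; omega
  induction hd with
  | mk g x a hg hgt hx ha _ ih =>
    have h1 : ∀ a' < N.narm g, a' ≠ a → N.Drv S (Sum.inr (g, a', 1)) x 0 := by
      intro a' ha' hne
      have h2 := Drv.inn hS hg hx ha' (ih a' ha' hne)
      rwa [N.sp_arm_beta hm, add_zero] at h2
    have h3 := Drv.ctr hS hg hx ha (fun _ => 0) h1
    rw [N.sp_BC_beta hm, if_neg (by intro h4; exact hgt (congrArg Prod.fst h4)), sum_const_zero,
      add_zero] at h3
    have h4 := Drv.out hS hg hx ha h3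
    rwa [N.sp_arm_beta hm, add_zero] at h4

/-- the twisted fact has value `1` -/
theorem sp_drv_tgt (hN : N.OK)
    (hS : ShiftSys (fun u : {u // u ∈ N.objs} => (N.ports u.1).toFinset)
      (fun u => bz (N.beta u.1)) (N.m + 1) S)
    {x : ℕ → Λ} (hx : N.Content N.gt x) :
    N.Drv S (Sum.inl (N.hub N.gt 0)) (fun j => N.proj N.gt 0 (x j)) 1 := by
  have hm : 1 ≤ N.m := by have := hN.two_le; omega
  have ha : 0 < N.narm N.gt := by rw [hN.narm_gt]; exact Nat.one_pos
  have h3 := Drv.ctr hS hN.gt_lt hx ha (fun _ => 0) (by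
    intro a' h1 h2
    rw [hN.narm_gt] at h1
    omega)
  rw [N.sp_BC_beta hm, if_pos rfl, sum_const_zero, zero_add] at h3
  have h4 := Drv.out hS hN.gt_lt hx ha h3
  rwa [N.sp_arm_beta hm, add_zero] at h4

/-- **[NETSP]** -/
theorem not_shiftEquiv_of_der (N : Net H Λ) (hN : N.OK) (x : ℕ → Λ) (hx : N.Content N.gt x)
    (h : N.Der (N.hub N.gt 0) (fun j => N.proj N.gt 0 (x j))) :
    ¬ ShiftEquiv N.objs N.ports N.beta (N.m + 1) := by
  rintro ⟨S, hS⟩
  have h1 := Der.sp_drv hN hS h
  have h2 := sp_drv_tgt hN hS hx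
  have ha : 0 < N.narm N.gt := by rw [hN.narm_gt]; exact Nat.one_pos
  have hL : N.L = N.m + 2 := rfl
  have he := N.sp_edges_arm (g := N.gt) (a := 0) (p := N.L) (by omega)
  rw [if_neg (by omega)] at he
  have h3 : (0 : ZMod 2) = 1 :=
    Drv.unique hS x (sp_ob_mem_arm hN.gt_lt hx ha (p := N.L) (by omega) le_rfl)
      (e := Sum.inl (N.hub N.gt 0)) (by rw [he]; simp) h1 h2
  exact absurd h3 (by decide)

end Net

end Crest.Agent.R290
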