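import Crest.Agent.R290.EncA1
import Crest.Agent.R290.Defs
import Crest.Agent.R290.NetWF
import Crest.Agent.R290.AGBridge
import Crest.Agent.R290.WL
import Crest.Agent.R290.EncA2
import Crest.Agent.R290.NetSp_Mg

-- ▼ part R290/EncA3
section

/-!
# Row 290: shift systems with many pebbles give global solutions; isomorphic lifts are solvable.
-/

set_option autoImplicit false

namespace Crest.Agent.R290

open Crest.WLRefine
open Crest.Agent.R290.WL (PEquiv PSys Pres)

section
variable {O X : Type} [DecidableEq O] [DecidableEq X]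

/-- A shift system with at least as many pebbles as objects contains a global shift. -/
theorem ShiftSys.exists_global {O X : Type} [DecidableEq O] [Fintype O] {ports : O → Finset X}
    {par : O → ZMod 2} {K : ℕ} {S : Finset O → (X → ZMod 2) → Prop} (h : ShiftSys ports par K S)
    (hK : Fintype.card O ≤ K) : ∃ s, S Finset.univ s := by
  have key : ∀ P : Finset O, ∃ s, S P s := by
    intro P
    induction P using Finset.induction_on with
    | empty => exact h.empty
    | insert u P hu ih =>
      obtain ⟨s, hs⟩ := ih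
      have hc : P.card < K := by
        refine lt_of_lt_of_le ?_ hK
        rw [← Finset.card_univ]
        exact Finset.card_lt_card (Finset.ssubset_univ_iff.2 fun e => hu (e ▸ Finset.mem_univ u))
      obtain ⟨s', hs', _⟩ := h.ext hs hc u
      exact ⟨s', hs'⟩
  exact key _

/-- A shift system with at least as many pebbles as objects gives a global solution. -/
theorem sol_of_shiftEquiv {objs : List O} {ports : O → List X} {b : O → Bool} {K : ℕ}
    (hports : ∀ u ∈ objs, (ports u).Nodup) (hK : objs.length ≤ K)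
    (h : ShiftEquiv objs ports b K) : ∃ s : X → Bool, IsSol objs ports b s := by
  obtain ⟨S, hS⟩ := h
  have hfin : ∀ u, u ∈ objs.toFinset ↔ u ∈ objs := fun u => List.mem_toFinset
  let _ : Fintype {u // u ∈ objs} := Fintype.subtype objs.toFinset hfin
  have hcard : Fintype.card {u // u ∈ objs} ≤ K := by
    rw [Fintype.card_of_subtype objs.toFinset hfin]
    exact (List.toFinset_card_le objs).trans hK
  obtain ⟨s, hs⟩ := hS.exists_global hcard
  choose t ht using AGB.bz_surj
  refine ⟨fun x => t (s x), fun u hu => ?_⟩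
  have h1 := hS.valid hs ⟨u, hu⟩ (Finset.mem_univ _)
  have h2 := AGB.sum_bz_toFinset (hports u hu) (fun x => t (s x))
  apply AGB.bz_inj
  rw [← h2, ← h1]
  exact Finset.sum_congr rfl fun x _ => ht (s x)

/-- isomorphic lifts have a global solution -/
theorem sol_of_adjIso_of_shift {objs : List O} {ports : O → List X} {b : O → Bool} {n m : ℕ}
    {G : Fin n → Fin n → Bool} {H : Fin m → Fin m → Bool}
    (hports : ∀ u ∈ objs, (ports u).Nodup)
    (hshift : ∀ K, 3 ≤ K → PEquiv K G H → ShiftEquiv objs ports b K)
    (h : AdjIso G H) : ∃ s : X → Bool, IsSol objs ports b s :=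
  sol_of_shiftEquiv hports (Nat.le_add_right _ 3)
    (hshift (objs.length + 3) (Nat.le_add_left _ _) (WL.AdjIso.pequiv _ h))

end

end Crest.Agent.R290
end

-- ▼ part R290/NetNoSol
section

/-!
# Row 290: column sums of a (local) solution of a network; networks without a global solution
-/

set_option autoImplicit false

namespace Crest.Agent.R290

open Finset

namespace NS

open Net

variable {H Λ : Type}

theorem list_range_sum (f : ℕ → Bool) (n : ℕ) :
    ((List.range n).map f).sum = ∑ i ∈ Finset.range n, f i := by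
  induction n with
  | zero => rfl
  | succ n ih => rw [List.range_succ, List.map_append, List.sum_append, ih, Finset.sum_range_succ]; simp

/-- The value of a fact: sum of the `Y` variables along the rows -/
def fval (m : ℕ) (s : NVar H Λ → Bool) (e : Edge H) (z : ℕ → Λ) : Bool :=
  ∑ i ∈ Finset.range m, s (Y e i (z i) (z (i + 1)))

theorem bool_add_self (a : Bool) : a + a = 0 := by cases a <;> rfl

theorem bool_add_eq_zero {a b : Bool} (h : a + b = 0) : a = b := by
  revert h; cases a <;> cases b <;> decide

/-- telescoping of the `U` variables -/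
theorem sum_U (m : ℕ) (f : ℕ → Bool) :
    ∑ i ∈ Finset.range m, ((if 0 < i then f i else 0) + (if i + 1 < m then f (i + 1) else 0)) = 0 := by
  rw [Finset.sum_add_distrib]
  have h1 : ∑ i ∈ Finset.range m, (if 0 < i then f i else (0 : Bool)) =
      ∑ i ∈ Finset.range m, (if i + 1 < m then f (i + 1) else (0 : Bool)) := by
    cases m with
    | zero => rfl
    | succ m =>
      rw [Finset.sum_range_succ', Finset.sum_range_succ]
      congr 1
      · apply Finset.sum_congr rfl
        intro i hi
        have := Finset.mem_range.1 hi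
        rw [if_pos (Nat.succ_pos i), if_pos (by omega)]
      · simp
  rw [h1]
  exact bool_add_self _

/-- The sum over the rows of the constraints of a column. -/
theorem column_sum (N : Net H Λ) (s : NVar H Λ → Bool) (b : NObj Λ → Bool) (κ : Col) (x : ℕ → Λ)
    (h : ∀ i < N.m, ((N.ports (κ, i, x i, x (i + 1))).map s).sum = b (κ, i, x i, x (i + 1))) :
    ((N.edges κ).map fun e => fval N.m s e (fun j => N.psi κ e (x j))).sum =
      ∑ i ∈ Finset.range N.m, b (κ, i, x i, x (i + 1)) := by
  have h1 : ∀ i ∈ Finset.range N.m, b (κ, i, x i, x (i + 1)) =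
      ((N.edges κ).map fun e => s (Y e i (N.psi κ e (x i)) (N.psi κ e (x (i + 1))))).sum +
        ((if 0 < i then s (U κ i (x i)) else 0) +
          (if i + 1 < N.m then s (U κ (i + 1) (x (i + 1))) else 0)) := by
    intro i hi
    rw [← h i (Finset.mem_range.1 hi)]
    simp only [Net.ports, List.map_append, List.sum_append, List.map_map, Function.comp_def]
    congr 1
    congr 1
    · split_ifs <;> simp
    · split_ifs <;> simp
  rw [Finset.sum_congr rfl h1, Finset.sum_add_distrib, sum_U N.m (fun j => s (U κ j (x j))), add_zero]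
  induction N.edges κ with
  | nil => simp
  | cons e l ih =>
    simp only [List.map_cons, List.sum_cons, Finset.sum_add_distrib]
    rw [ih]
    rfl

/-- membership of objects -/
theorem mem_objs (N : Net H Λ) {g : ℕ} (hg : g < N.nG) {κ : Col} (hκ : κ ∈ N.cols g) {i : ℕ}
    (hi : i < N.m) {x y : Λ} (hx : x ∈ N.lett g i) (hy : y ∈ N.lett g (i + 1)) :
    (κ, i, x, y) ∈ N.objs := by
  simp only [Net.objs, List.mem_flatMap, List.mem_range, List.mem_map]
  exact ⟨g, hg, κ, hκ, i, hi, x, hx, y, hy, rfl⟩

theorem ctr_mem_cols (N : Net H Λ) (g : ℕ) : (g, 0, 0) ∈ N.cols g := by simp [Net.cols]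

theorem arm_mem_cols (N : Net H Λ) {g a p : ℕ} (ha : a < N.narm g) (hp : p < N.L) :
    (g, a, p + 1) ∈ N.cols g := by
  simp only [Net.cols, List.mem_cons, List.mem_flatMap, List.mem_range, List.mem_map]
  exact Or.inr ⟨a, ha, p, hp, rfl⟩

theorem edges_ctr (N : Net H Λ) (g : ℕ) :
    N.edges (g, 0, 0) = (List.range (N.narm g)).map fun a => Sum.inr (g, a, 1) := by
  simp [Net.edges]

theorem edges_arm (N : Net H Λ) {g a p : ℕ} (hp : p + 1 < N.L) :
    N.edges (g, a, p + 1) = [Sum.inr (g, a, p + 1), Sum.inr (g, a, p + 2)] := by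
  simp [Net.edges, hp]

theorem edges_last (N : Net H Λ) {g a p : ℕ} (hp : p + 1 = N.L) :
    N.edges (g, a, p + 1) = [Sum.inr (g, a, p + 1), Sum.inl (N.hub g a)] := by
  have h : ¬ p + 1 < N.L := by omega
  simp only [Net.edges, Nat.succ_ne_zero, if_false, h]

/-- the beta of the centre -/
theorem beta_sum (N : Net H Λ) (hm : 0 < N.m) (κ : Col) (x : ℕ → Λ) :
    ∑ i ∈ Finset.range N.m, N.beta (κ, i, x i, x (i + 1)) = decide (κ = (N.gt, 0, 0)) := by
  by_cases hκ : κ = (N.gt, 0, 0)
  · have : ∀ i ∈ Finset.range N.m, N.beta (κ, i, x i, x (i + 1)) =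
        if i = N.m - 1 then (1 : Bool) else 0 := by
      intro i hi
      have := Finset.mem_range.1 hi
      by_cases h : i = N.m - 1
      · rw [if_pos h]
        have h' : i + 1 = N.m := by omega
        simp only [Net.beta]
        have e : (κ = (N.gt, 0, 0) ∧ i + 1 = N.m) := ⟨hκ, h'⟩
        simp only [e, and_self, decide_true]
        rfl
      · rw [if_neg h]
        have h' : ¬ i + 1 = N.m := by omega
        simp only [Net.beta]
        simp only [h', and_false, decide_false]
        rfl
    rw [Finset.sum_congr rfl this, Finset.sum_ite_eq' (Finset.range N.m) (N.m - 1) (fun _ => (1 : Bool)),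
      if_pos (Finset.mem_range.2 (by omega))]
    simp only [hκ, decide_true]
    rfl
  · have : ∀ i ∈ Finset.range N.m, N.beta (κ, i, x i, x (i + 1)) = 0 := by
      intro i hi
      simp only [Net.beta]
      simp only [hκ, false_and, decide_false]
      rfl
    rw [Finset.sum_congr rfl this, Finset.sum_const_zero]
    simp only [hκ, decide_false]
    rfl

/-- Along an arm the value does not change. -/
theorem arm_val (N : Net H Λ) (s : NVar H Λ → Bool) {g : ℕ} {a : ℕ} (x : ℕ → Λ)
    (h : ∀ p < N.L, ((N.edges (g, a, p + 1)).map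
      fun e => fval N.m s e (fun j => N.psi (g, a, p + 1) e (x j))).sum = 0) :
    fval N.m s (Sum.inr (g, a, 1)) x = fval N.m s (Sum.inl (N.hub g a)) (fun j => N.proj g a (x j)) := by
  have h1 : ∀ p < N.L, fval N.m s (Sum.inr (g, a, 1)) x = fval N.m s (Sum.inr (g, a, p + 1)) x := by
    intro p
    induction p with
    | zero => intro _; rfl
    | succ p ih =>
      intro hp
      rw [ih (by omega)]
      have := h p (by omega)
      rw [edges_arm N hp] at this
      simp only [List.map_cons, List.map_nil, List.sum_cons, List.sum_nil, add_zero] at this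
      exact bool_add_eq_zero this
  have hL : N.m + 1 < N.L := by simp [Net.L]
  rw [h1 (N.m + 1) hL]
  have := h (N.m + 1) hL
  rw [edges_last N (by simp [Net.L])] at this
  simp only [List.map_cons, List.map_nil, List.sum_cons, List.sum_nil, add_zero] at this
  exact bool_add_eq_zero this

/-- The values of a global solution at the hubs of a gadget add up to the twist. -/
theorem gadget_sum (N : Net H Λ) (hm : 0 < N.m) (s : NVar H Λ → Bool)
    (hs : IsSol N.objs N.ports N.beta s) {g : ℕ} (hg : g < N.nG) (x : ℕ → Λ) (hx : N.Content g x) :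
    ∑ a ∈ Finset.range (N.narm g), fval N.m s (Sum.inl (N.hub g a)) (fun j => N.proj g a (x j)) =
      decide (g = N.gt) := by
  have hcol : ∀ κ ∈ N.cols g, ((N.edges κ).map fun e => fval N.m s e (fun j => N.psi κ e (x j))).sum =
      decide (κ = (N.gt, 0, 0)) := by
    intro κ hκ
    rw [column_sum N s N.beta κ x, beta_sum N hm]
    intro i hi
    exact hs _ (mem_objs N hg hκ hi (hx i) (hx (i + 1)))
  have harm : ∀ a ∈ Finset.range (N.narm g), fval N.m s (Sum.inl (N.hub g a)) (fun j => N.proj g a (x j))
      = fval N.m s (Sum.inr (g, a, 1)) x := by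
    intro a ha
    symm
    apply arm_val
    intro p hp
    rw [hcol _ (arm_mem_cols N (Finset.mem_range.1 ha) hp)]
    have : ¬ ((g, a, p + 1) = (N.gt, 0, 0)) := by
      intro h
      simp at h
    simp only [this, decide_false]
    rfl
  rw [Finset.sum_congr rfl harm]
  have := hcol _ (ctr_mem_cols N g)
  rw [edges_ctr, List.map_map] at this
  have e1 : ((List.range (N.narm g)).map
      ((fun e => fval N.m s e (fun j => N.psi (g, 0, 0) e (x j))) ∘ fun a => Sum.inr (g, a, 1))).sum =
      ∑ a ∈ Finset.range (N.narm g), fval N.m s (Sum.inr (g, a, 1)) x := by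
    rw [list_range_sum]
    rfl
  rw [e1] at this
  rw [this]
  by_cases hgt : g = N.gt
  · subst hgt; simp
  · have : ¬ ((g, 0, 0) = (N.gt, 0, 0)) := by
      intro h
      exact hgt (Prod.mk.inj h).1
    simp only [this, hgt, decide_false]

end NS

namespace Net

variable {H Λ : Type}

/-- A three-armed gadget with two equal arms whose third arm sees a fact of the twisted gadget:
no global solution. -/
theorem no_solution (N : Net H Λ) (hN : N.OK) (g : ℕ) (hg : g < N.nG) (hgt : g ≠ N.gt)
    (h3 : N.narm g = 3) (hh : N.hub g 0 = N.hub g 1) (hp : N.proj g 0 = N.proj g 1)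
    (h2 : N.hub g 2 = N.hub N.gt 0) (x y : ℕ → Λ) (hx : N.Content g x) (hy : N.Content N.gt y)
    (hxy : ∀ j, N.proj g 2 (x j) = N.proj N.gt 0 (y j)) :
    ¬ ∃ s : NVar H Λ → Bool, IsSol N.objs N.ports N.beta s := by
  rintro ⟨s, hs⟩
  have hm : 0 < N.m := by have := hN.two_le; omega
  have e1 := NS.gadget_sum N hm s hs hg x hx
  have e2 := NS.gadget_sum N hm s hs hN.gt_lt y hy
  rw [h3] at e1
  rw [hN.narm_gt] at e2
  simp only [Finset.sum_range_succ, Finset.sum_range_zero, zero_add, hgt, decide_false, decide_true]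
    at e1 e2
  rw [hh, hp, NS.bool_add_self, zero_add, h2] at e1
  have e3 : (fun j => N.proj g 2 (x j)) = fun j => N.proj N.gt 0 (y j) := funext hxy
  rw [e3, e2] at e1
  exact absurd e1 (by decide)

end Net

end Crest.Agent.R290
end

-- ▼ part R290/NetId
section

/-!
# Row 290, module NETID (blueprint 2.3): identification.

* `Net.solution_of_unlocked`: if every hub can be unlocked, a shift system for the parities `b` gives a
  global solution for `b`.
* `Net.no_solution` (the twist has no global solution) is in `NetNoSol.lean` (helper290), imported here.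

The derivation calculus is done directly over `Net` and lists of objects: `Net.LSys` is the list form of
a shift system, `Net.Kn S e z f` says that in every position covering the variables `Y (e, ·, z)` the
sum of their values is `f`.
-/

set_option autoImplicit false

namespace Crest.Agent.R290

namespace Net

open Finset

variable {H Λ : Type}

/-! ### arithmetic mod 2 -/

theorem z2_add_self (a : ZMod 2) : a + a = 0 := by revert a; decide

theorem z2_eq_of_add {a b c : ZMod 2} (h : a + b = c) : b = a + c := by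
  revert h; revert a b c; decide

theorem z2_tele (g : ℕ → ZMod 2) (n : ℕ) : ∑ i ∈ range n, (g i + g (i + 1)) = g 0 + g n := by
  induction n with
  | zero => simp [z2_add_self]
  | succ n ih =>
    rw [sum_range_succ, ih]
    calc g 0 + g n + (g n + g (n + 1)) = g 0 + (g n + g n) + g (n + 1) := by ring
      _ = g 0 + g (n + 1) := by rw [z2_add_self, add_zero]

/-! ### splitting a cocycle over rows -/

/-- A row function whose total over all contents vanishes is a coboundary. -/
theorem split_rows (m : ℕ) (A : ℕ → Λ → Prop) (c : ℕ → Λ) (hc : ∀ j, A j (c j))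
    (d : ℕ → Λ → Λ → ZMod 2)
    (h : ∀ x : ℕ → Λ, (∀ j, A j (x j)) → ∑ i ∈ range m, d i (x i) (x (i + 1)) = 0) :
    ∃ T : ℕ → Λ → ZMod 2, (∀ x, T 0 x = 0) ∧ (∀ y, A m y → T m y = 0) ∧
      ∀ i < m, ∀ x y, A i x → A (i + 1) y → T i x + T (i + 1) y = d i x y := by
  classical
  refine ⟨fun j x => ∑ i ∈ range j, d i (Function.update c j x i) (Function.update c j x (i + 1)),
    fun x => by simp, ?_, ?_⟩
  · intro y hy
    apply h
    intro j
    by_cases hj : j = m
    · subst hj; simpa using hy
    · rw [Function.update_of_ne hj]; exact hc j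
  · intro i hi x y hx hy
    let w' : ℕ → Λ := Function.update c (i + 1) y
    let w : ℕ → Λ := Function.update (Function.update c i x) (i + 1) y
    have hw' : ∀ j, A j (w' j) := by
      intro j
      by_cases hj : j = i + 1
      · subst hj; simpa [w'] using hy
      · simp only [w']; rw [Function.update_of_ne hj]; exact hc j
    have hw : ∀ j, A j (w j) := by
      intro j
      by_cases hj : j = i + 1
      · subst hj; simpa [w] using hy
      · simp only [w]; rw [Function.update_of_ne hj]
        by_cases hj' : j = i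
        · subst hj'; simpa using hx
        · rw [Function.update_of_ne hj']; exact hc j
    have e1 := h w hw
    have e2 := h w' hw'
    obtain ⟨k, rfl⟩ : ∃ k, m = (i + 1) + k := ⟨m - (i + 1), by omega⟩
    rw [sum_range_add] at e1 e2
    have et : ∑ t ∈ range k, d (i + 1 + t) (w (i + 1 + t)) (w (i + 1 + t + 1)) =
        ∑ t ∈ range k, d (i + 1 + t) (w' (i + 1 + t)) (w' (i + 1 + t + 1)) := by
      refine sum_congr rfl fun t _ => ?_
      have f1 : w (i + 1 + t) = w' (i + 1 + t) := by
        simp only [w, w']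
        by_cases ht : i + 1 + t = i + 1
        · rw [ht]; simp
        · rw [Function.update_of_ne ht, Function.update_of_ne ht, Function.update_of_ne (by omega)]
      have f2 : w (i + 1 + t + 1) = w' (i + 1 + t + 1) := by
        simp only [w, w']
        rw [Function.update_of_ne (by omega), Function.update_of_ne (by omega),
          Function.update_of_ne (by omega)]
      rw [f1, f2]
    rw [et] at e1
    have e3 : ∑ t ∈ range (i + 1), d t (w t) (w (t + 1)) =
        ∑ t ∈ range (i + 1), d t (w' t) (w' (t + 1)) := by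
      have := e1.trans e2.symm
      exact add_right_cancel this
    rw [sum_range_succ] at e3
    have e4 : ∑ t ∈ range i, d t (w t) (w (t + 1)) =
        ∑ t ∈ range i, d t (Function.update c i x t) (Function.update c i x (t + 1)) := by
      refine sum_congr rfl fun t ht => ?_
      have ht := mem_range.1 ht
      have f1 : w t = Function.update c i x t := Function.update_of_ne (by omega) _ _
      have f2 : w (t + 1) = Function.update c i x (t + 1) := Function.update_of_ne (by omega) _ _
      rw [f1, f2]
    have e5 : d i (w i) (w (i + 1)) = d i x y := by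
      simp only [w]
      rw [Function.update_of_ne (by omega)]
      simp
    rw [e4, e5] at e3
    change (∑ t ∈ range i, d t (Function.update c i x t) (Function.update c i x (t + 1))) +
      ∑ t ∈ range (i + 1), d t (w' t) (w' (t + 1)) = d i x y
    rw [← e3, ← add_assoc, z2_add_self, zero_add]

/-! ### sums over ports -/

theorem sum_ports {M : Type} [AddCommMonoid M] (N : Net H Λ) (s : NVar H Λ → M) (κ : Col) (i : ℕ)
    (x y : Λ) :
    ((N.ports (κ, i, x, y)).map s).sum =
      ((N.edges κ).map fun e => s (Y e i (N.psi κ e x) (N.psi κ e y))).sum +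
        ((if 0 < i then s (U κ i x) else 0) + (if i + 1 < N.m then s (U κ (i + 1) y) else 0)) := by
  rw [ports, List.map_append, List.sum_append, List.map_append, List.sum_append, List.map_map]
  congr 2
  · split_ifs <;> simp
  · split_ifs <;> simp

theorem sum_list_comm {ι M : Type} [AddCommMonoid M] (m : ℕ) (l : List ι) (f : ℕ → ι → M) :
    ∑ i ∈ range m, (l.map (f i)).sum = (l.map fun e => ∑ i ∈ range m, f i e).sum := by
  induction l with
  | nil => simp
  | cons a l ih => simp only [List.map_cons, List.sum_cons]; rw [sum_add_distrib, ih]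

/-- object of a column in row `i` for a content -/
def ob (κ : Col) (x : ℕ → Λ) (i : ℕ) : NObj Λ := (κ, i, x i, x (i + 1))

/-- content of a column seen at an edge -/
def see (N : Net H Λ) (κ : Col) (e : Edge H) (x : ℕ → Λ) : ℕ → Λ := fun j => N.psi κ e (x j)

/-- total parity of a column for a content -/
def dc (N : Net H Λ) (b : NObj Λ → ZMod 2) (κ : Col) (x : ℕ → Λ) : ZMod 2 :=
  ∑ i ∈ range N.m, b (ob κ x i)

/-- sum of the variables of an edge for a content -/
def flux (N : Net H Λ) (s : NVar H Λ → ZMod 2) (e : Edge H) (z : ℕ → Λ) : ZMod 2 :=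
  ∑ i ∈ range N.m, s (Y e i (z i) (z (i + 1)))

theorem col_sum (N : Net H Λ) (b : NObj Λ → ZMod 2) (s : NVar H Λ → ZMod 2) (κ : Col) (x : ℕ → Λ)
    (h : ∀ i < N.m, ((N.ports (ob κ x i)).map s).sum = b (ob κ x i)) :
    ((N.edges κ).map fun e => N.flux s e (N.see κ e x)).sum = N.dc b κ x := by
  have h1 : ∑ i ∈ range N.m, ((N.ports (ob κ x i)).map s).sum = N.dc b κ x :=
    sum_congr rfl fun i hi => h i (mem_range.1 hi)
  rw [← h1]
  unfold ob
  simp_rw [sum_ports]
  rw [sum_add_distrib, sum_list_comm]
  let g : ℕ → ZMod 2 := fun j => if 0 < j ∧ j < N.m then s (U κ j (x j)) else 0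
  have h2 : ∀ i ∈ range N.m, ((if 0 < i then s (U κ i (x i)) else 0) +
      (if i + 1 < N.m then s (U κ (i + 1) (x (i + 1))) else 0)) = g i + g (i + 1) := by
    intro i hi
    have hi := mem_range.1 hi
    simp only [g]
    congr 1
    · by_cases h0 : 0 < i
      · rw [if_pos h0, if_pos ⟨h0, hi⟩]
      · rw [if_neg h0, if_neg (fun h => h0 h.1)]
    · by_cases h0 : i + 1 < N.m
      · rw [if_pos h0, if_pos ⟨Nat.succ_pos i, h0⟩]
      · rw [if_neg h0, if_neg (fun h => h0 h.2)]
  rw [sum_congr rfl h2, z2_tele]
  simp only [g]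
  rw [if_neg (by omega), if_neg (by omega), add_zero, add_zero]
  rfl

/-! ### list form of a shift system -/

/-- list form of a shift system -/
structure LSys (N : Net H Λ) (b : NObj Λ → ZMod 2) (K : ℕ)
    (S : List (NObj Λ) → (NVar H Λ → ZMod 2) → Prop) : Prop where
  valid : ∀ {l s}, S l s → ∀ u ∈ l, ((N.ports u).map s).sum = b u
  mono : ∀ {l l' s}, S l s → l' ⊆ l → S l' s
  empty : ∃ s, S [] s
  ext : ∀ {l s}, S l s → l.length < K → ∀ u ∈ N.objs, ∃ s', S (u :: l) s' ∧
    ∀ v ∈ l, ∀ x ∈ N.ports v, s' x = s x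

theorem lsys_of_shiftEquiv [DecidableEq H] [DecidableEq Λ] (N : Net H Λ) (b : NObj Λ → Bool) (K : ℕ)
    (h : ShiftEquiv N.objs N.ports b K) : ∃ S, LSys N (fun u => bz (b u)) K S := by
  classical
  obtain ⟨S, hS⟩ := h
  refine ⟨fun l s => ∃ Q : Finset {u // u ∈ N.objs}, Q.card ≤ l.length ∧ S Q s ∧
    ∀ u ∈ l, ∃ h : u ∈ N.objs, (⟨u, h⟩ : {u // u ∈ N.objs}) ∈ Q, ?_, ?_, ?_, ?_⟩
  · rintro l s ⟨Q, _, hQ, hl⟩ u hu
    obtain ⟨h, hq⟩ := hl u hu
    rw [← hS.valid hQ _ hq]
    exact (AGB.sum_toFinset (N.nodup_ports u) s).symm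
  · rintro l l' s ⟨Q, _, hQ, hl⟩ hll
    refine ⟨l'.toFinset.attach.image fun u =>
      ⟨u.1, (hl u.1 (hll (List.mem_toFinset.1 u.2))).1⟩, ?_, ?_, ?_⟩
    · refine card_image_le.trans ?_
      rw [card_attach]
      exact List.toFinset_card_le _
    · refine hS.mono hQ ?_
      intro q hq
      obtain ⟨u, _, rfl⟩ := mem_image.1 hq
      exact (hl u.1 (hll (List.mem_toFinset.1 u.2))).2
    · intro u hu
      exact ⟨(hl u (hll hu)).1, mem_image.2 ⟨⟨u, List.mem_toFinset.2 hu⟩, mem_attach _ _, rfl⟩⟩
  · obtain ⟨s, hs⟩ := hS.empty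
    exact ⟨s, ∅, by simp, hs, by simp⟩
  · rintro l s ⟨Q, hc, hQ, hl⟩ hK u hu
    obtain ⟨s', hs', h'⟩ := hS.ext hQ (lt_of_le_of_lt hc hK) ⟨u, hu⟩
    refine ⟨s', ⟨insert ⟨u, hu⟩ Q, ?_, hs', ?_⟩, ?_⟩
    · exact (card_insert_le _ _).trans (by simpa using hc)
    · intro v hv
      rcases List.mem_cons.1 hv with rfl | hv
      · exact ⟨hu, mem_insert_self _ _⟩
      · obtain ⟨h1, h2⟩ := hl v hv
        exact ⟨h1, mem_insert_of_mem h2⟩
    · intro v hv x hx
      obtain ⟨h1, h2⟩ := hl v hv
      exact h' _ h2 x (List.mem_toFinset.2 hx)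


section calculus

variable {N : Net H Λ} {b : NObj Λ → ZMod 2} {S : List (NObj Λ) → (NVar H Λ → ZMod 2) → Prop}

/-- exchange the objects one by one -/
theorem LSys.exch (h : LSys N b (N.m + 1) S) (u u' : ℕ → NObj Λ) (v : ℕ → NVar H Λ)
    (hu' : ∀ i < N.m, u' i ∈ N.objs) (hv : ∀ i < N.m, v i ∈ N.ports (u i))
    (hv' : ∀ i < N.m, v i ∈ N.ports (u' i)) {s : NVar H Λ → ZMod 2}
    (hs : S ((List.range N.m).map u) s) :
    ∃ s', S ((List.range N.m).map u') s' ∧ ∀ i < N.m, s' (v i) = s (v i) := by
  have key : ∀ k ≤ N.m, ∃ s', S ((List.range N.m).map fun i => if i < k then u' i else u i) s' ∧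
      ∀ i < N.m, s' (v i) = s (v i) := by
    intro k
    induction k with
    | zero =>
      intro _
      exact ⟨s, by simpa using hs, fun _ _ => rfl⟩
    | succ k ih =>
      intro hk
      obtain ⟨s1, h1, h2⟩ := ih (by omega)
      obtain ⟨s2, h3, h4⟩ := h.ext h1 (by simp) (u' k) (hu' k (by omega))
      refine ⟨s2, h.mono h3 ?_, ?_⟩
      · intro w hw
        obtain ⟨i, hi, rfl⟩ := List.mem_map.1 hw
        have hi := List.mem_range.1 hi
        by_cases hik : i = k
        · subst hik
          rw [if_pos (Nat.lt_succ_self i)]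
          exact List.mem_cons_self ..
        · apply List.mem_cons_of_mem
          refine List.mem_map.2 ⟨i, List.mem_range.2 hi, ?_⟩
          by_cases hlt : i < k
          · rw [if_pos hlt, if_pos (by omega)]
          · rw [if_neg hlt, if_neg (by omega)]
      · intro i hi
        rw [← h2 i hi]
        refine h4 (if i < k then u' i else u i) (List.mem_map.2 ⟨i, List.mem_range.2 hi, rfl⟩) _ ?_
        split
        · exact hv' i hi
        · exact hv i hi
  obtain ⟨s', h1, h2⟩ := key N.m le_rfl
  refine ⟨s', ?_, h2⟩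
  have : ((List.range N.m).map fun i => if i < N.m then u' i else u i) =
      (List.range N.m).map u' := by
    apply List.map_congr_left
    intro i hi
    rw [if_pos (List.mem_range.1 hi)]
  rwa [this] at h1

theorem LSys.exists_pos (h : LSys N b (N.m + 1) S) (u : ℕ → NObj Λ) (hu : ∀ i < N.m, u i ∈ N.objs) :
    ∃ s, S ((List.range N.m).map u) s := by
  have key : ∀ k ≤ N.m, ∃ s, S ((List.range k).map u) s := by
    intro k
    induction k with
    | zero => intro _; simpa using h.empty
    | succ k ih =>
      intro hk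
      obtain ⟨s, hs⟩ := ih (by omega)
      obtain ⟨s', hs', _⟩ := h.ext hs (by simp; omega) (u k) (hu k (by omega))
      refine ⟨s', h.mono hs' ?_⟩
      intro w hw
      obtain ⟨i, hi, rfl⟩ := List.mem_map.1 hw
      have hi := List.mem_range.1 hi
      by_cases hik : i = k
      · subst hik; exact List.mem_cons_self ..
      · exact List.mem_cons_of_mem _ (List.mem_map.2 ⟨i, List.mem_range.2 (by omega), rfl⟩)
  exact key N.m le_rfl

variable (N S)

/-- In every position covering the variables `Y (e, ·, z)` the sum of their values is `f`. -/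
def Kn (e : Edge H) (z : ℕ → Λ) (f : ZMod 2) : Prop :=
  ∀ (u : ℕ → NObj Λ) (s : NVar H Λ → ZMod 2),
    (∀ i < N.m, Y e i (z i) (z (i + 1)) ∈ N.ports (u i)) → S ((List.range N.m).map u) s →
      N.flux s e z = f

variable {N S}

theorem ob_mem {g : ℕ} {κ : Col} {x : ℕ → Λ} (hg : g < N.nG) (hκ : κ ∈ N.cols g)
    (hx : N.Content g x) {i : ℕ} (hi : i < N.m) : ob κ x i ∈ N.objs := by
  have e : κ.1 = g := by
    rw [mem_cols] at hκ
    rcases hκ with rfl | ⟨a, _, p, _, rfl⟩ <;> rfl
  rw [mem_objs]
  refine ⟨by rw [show (ob κ x i).1.1 = κ.1 from rfl, e]; exact hg, ?_, hi, ?_, ?_⟩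
  · rw [show (ob κ x i).1.1 = κ.1 from rfl, e]; exact hκ
  · rw [show (ob κ x i).1.1 = κ.1 from rfl, e]; exact hx i
  · rw [show (ob κ x i).1.1 = κ.1 from rfl, e]; exact hx (i + 1)

theorem Y_mem_ports {κ : Col} {x : ℕ → Λ} {e : Edge H} (he : e ∈ N.edges κ) (i : ℕ) :
    Y e i (N.see κ e x i) (N.see κ e x (i + 1)) ∈ N.ports (ob κ x i) := by
  rw [ports]
  apply List.mem_append_left
  exact List.mem_map.2 ⟨e, he, rfl⟩

theorem Kn.core (h : LSys N b (N.m + 1) S) {g : ℕ} {κ : Col} {x : ℕ → Λ} (hg : g < N.nG)
    (hκ : κ ∈ N.cols g) (hx : N.Content g x) {e : Edge H} (he : e ∈ N.edges κ) {z : ℕ → Λ}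
    (hz : z = N.see κ e x) {f : ZMod 2}
    (H : ∀ s, S ((List.range N.m).map (ob κ x)) s →
      ((N.edges κ).map fun e' => N.flux s e' (N.see κ e' x)).sum = N.dc b κ x →
        N.flux s e (N.see κ e x) = f) : Kn N S e z f := by
  subst hz
  intro u s hu hs
  obtain ⟨s', h1, h2⟩ := h.exch u (ob κ x)
    (fun i => Y e i (N.see κ e x i) (N.see κ e x (i + 1))) (fun i hi => ob_mem hg hκ hx hi) hu
    (fun i _ => Y_mem_ports he i) hs
  have h3 : N.flux s e (N.see κ e x) = N.flux s' e (N.see κ e x) :=
    sum_congr rfl fun i hi => (h2 i (mem_range.1 hi)).symm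
  rw [h3]
  refine H s' h1 (col_sum N b s' κ x fun i hi => h.valid h1 _ ?_)
  exact List.mem_map.2 ⟨i, List.mem_range.2 hi, rfl⟩

theorem Kn.unique (h : LSys N b (N.m + 1) S) {g : ℕ} {κ : Col} {x : ℕ → Λ} (hg : g < N.nG)
    (hκ : κ ∈ N.cols g) (hx : N.Content g x) {e : Edge H} (he : e ∈ N.edges κ) {f f' : ZMod 2}
    (h1 : Kn N S e (N.see κ e x) f) (h2 : Kn N S e (N.see κ e x) f') : f = f' := by
  obtain ⟨s, hs⟩ := h.exists_pos (ob κ x) (fun i hi => ob_mem hg hκ hx hi)
  rw [← h1 (ob κ x) s (fun i _ => Y_mem_ports he i) hs,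
    ← h2 (ob κ x) s (fun i _ => Y_mem_ports he i) hs]

/-! ### arms -/

variable (N)

/-- edge number `p` of the arm `a` of `g`; number `L` is the hub -/
def ed (g a p : ℕ) : Edge H := if p < N.L then Sum.inr (g, a, p + 1) else Sum.inl (N.hub g a)

/-- content seen at the edge number `p` -/
def cz (g a p : ℕ) (x : ℕ → Λ) : ℕ → Λ := if p < N.L then x else fun j => N.proj g a (x j)

variable {N}

theorem ed_L (g a : ℕ) : N.ed g a N.L = Sum.inl (N.hub g a) := if_neg (lt_irrefl _)

theorem cz_L (g a : ℕ) (x : ℕ → Λ) : N.cz g a N.L x = fun j => N.proj g a (x j) :=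
  if_neg (lt_irrefl _)

theorem ed_zero (g a : ℕ) : N.ed g a 0 = Sum.inr (g, a, 1) := if_pos (by unfold L; omega)

theorem cz_zero (g a : ℕ) (x : ℕ → Λ) : N.cz g a 0 x = x := if_pos (by unfold L; omega)

theorem edges_arm {g a p : ℕ} (hp : p < N.L) :
    N.edges (g, a, p + 1) = [N.ed g a p, N.ed g a (p + 1)] := by
  rw [edges, if_neg (by simp)]
  unfold ed
  rw [if_pos hp]

theorem see_ed (g a p q : ℕ) (x : ℕ → Λ) : N.see (g, a, p) (N.ed g a q) x = N.cz g a q x := by
  unfold see ed cz psi
  by_cases h : q < N.L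
  · rw [if_pos h, if_pos h]
  · rw [if_neg h, if_neg h]

theorem arm_mem {g a p : ℕ} (ha : a < N.narm g) (hp : p < N.L) : (g, a, p + 1) ∈ N.cols g :=
  N.mem_cols.2 (Or.inr ⟨a, ha, p, hp, rfl⟩)

theorem arm_sum (s : NVar H Λ → ZMod 2) {g a p : ℕ} (hp : p < N.L) (x : ℕ → Λ) :
    ((N.edges (g, a, p + 1)).map fun e => N.flux s e (N.see (g, a, p + 1) e x)).sum =
      N.flux s (N.ed g a p) (N.cz g a p x) + N.flux s (N.ed g a (p + 1)) (N.cz g a (p + 1) x) := by
  rw [edges_arm hp]
  simp only [List.map_cons, List.map_nil, List.sum_cons, List.sum_nil, add_zero]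
  rw [see_ed, see_ed]

theorem Kn.arm_out1 (h : LSys N b (N.m + 1) S) {g a p : ℕ} {x : ℕ → Λ} (hg : g < N.nG)
    (ha : a < N.narm g) (hp : p < N.L) (hx : N.Content g x) {f : ZMod 2}
    (hf : Kn N S (N.ed g a p) (N.cz g a p x) f) :
    Kn N S (N.ed g a (p + 1)) (N.cz g a (p + 1) x) (f + N.dc b (g, a, p + 1) x) := by
  refine Kn.core h hg (arm_mem ha hp) hx (by rw [edges_arm hp]; simp) (see_ed ..).symm ?_
  intro s hs hsum
  rw [arm_sum s hp] at hsum
  rw [see_ed]
  have h1 : N.flux s (N.ed g a p) (N.cz g a p x) = f := by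
    refine hf (ob (g, a, p + 1) x) s (fun i _ => ?_) hs
    have := Y_mem_ports (N := N) (κ := (g, a, p + 1)) (x := x) (e := N.ed g a p)
      (by rw [edges_arm hp]; simp) i
    rwa [see_ed] at this
  rw [h1] at hsum
  exact z2_eq_of_add hsum

theorem Kn.arm_in1 (h : LSys N b (N.m + 1) S) {g a p : ℕ} {x : ℕ → Λ} (hg : g < N.nG)
    (ha : a < N.narm g) (hp : p < N.L) (hx : N.Content g x) {f : ZMod 2}
    (hf : Kn N S (N.ed g a (p + 1)) (N.cz g a (p + 1) x) f) :
    Kn N S (N.ed g a p) (N.cz g a p x) (f + N.dc b (g, a, p + 1) x) := by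
  refine Kn.core h hg (arm_mem ha hp) hx (by rw [edges_arm hp]; simp) (see_ed ..).symm ?_
  intro s hs hsum
  rw [arm_sum s hp, add_comm] at hsum
  rw [see_ed]
  have h1 : N.flux s (N.ed g a (p + 1)) (N.cz g a (p + 1) x) = f := by
    refine hf (ob (g, a, p + 1) x) s (fun i _ => ?_) hs
    have := Y_mem_ports (N := N) (κ := (g, a, p + 1)) (x := x) (e := N.ed g a (p + 1))
      (by rw [edges_arm hp]; simp) i
    rwa [see_ed] at this
  rw [h1] at hsum
  exact z2_eq_of_add hsum

/-- total parity of an arm -/
def armSum (N : Net H Λ) (b : NObj Λ → ZMod 2) (g a : ℕ) (x : ℕ → Λ) : ZMod 2 :=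
  ∑ p ∈ range N.L, N.dc b (g, a, p + 1) x

theorem Kn.arm_out (h : LSys N b (N.m + 1) S) {g a : ℕ} {x : ℕ → Λ} (hg : g < N.nG)
    (ha : a < N.narm g) (hx : N.Content g x) {f : ZMod 2}
    (hf : Kn N S (Sum.inr (g, a, 1)) x f) :
    Kn N S (Sum.inl (N.hub g a)) (fun j => N.proj g a (x j)) (f + N.armSum b g a x) := by
  have key : ∀ p ≤ N.L, Kn N S (N.ed g a p) (N.cz g a p x)
      (f + ∑ q ∈ range p, N.dc b (g, a, q + 1) x) := by
    intro p
    induction p with
    | zero => intro _; rw [ed_zero, cz_zero]; simpa using hf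
    | succ p ih =>
      intro hp
      rw [sum_range_succ, ← add_assoc]
      exact Kn.arm_out1 h hg ha hp hx (ih (by omega))
  have := key N.L le_rfl
  rwa [ed_L, cz_L] at this

theorem Kn.arm_in (h : LSys N b (N.m + 1) S) {g a : ℕ} {x : ℕ → Λ} (hg : g < N.nG)
    (ha : a < N.narm g) (hx : N.Content g x) {f : ZMod 2}
    (hf : Kn N S (Sum.inl (N.hub g a)) (fun j => N.proj g a (x j)) f) :
    Kn N S (Sum.inr (g, a, 1)) x (f + N.armSum b g a x) := by
  have key : ∀ p ≤ N.L, ∀ f', Kn N S (N.ed g a p) (N.cz g a p x) f' →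
      Kn N S (Sum.inr (g, a, 1)) x (f' + ∑ q ∈ range p, N.dc b (g, a, q + 1) x) := by
    intro p
    induction p with
    | zero => intro _ f' hf'; rw [ed_zero, cz_zero] at hf'; simpa using hf'
    | succ p ih =>
      intro hp f' hf'
      have := ih (by omega) _ (Kn.arm_in1 h hg ha hp hx hf')
      rw [sum_range_succ]
      rw [show f' + (∑ q ∈ range p, N.dc b (g, a, q + 1) x + N.dc b (g, a, p + 1) x) =
        f' + N.dc b (g, a, p + 1) x + ∑ q ∈ range p, N.dc b (g, a, q + 1) x by ring]
      exact this
  refine key N.L le_rfl f ?_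
  rw [ed_L, cz_L]
  exact hf

/-! ### gadgets -/

theorem edges_ctr (g : ℕ) :
    N.edges (g, 0, 0) = (List.range (N.narm g)).map fun a => Sum.inr (g, a, 1) := by
  rw [edges, if_pos rfl]

theorem ctr_sum (s : NVar H Λ → ZMod 2) (g : ℕ) (x : ℕ → Λ) :
    ((N.edges (g, 0, 0)).map fun e => N.flux s e (N.see (g, 0, 0) e x)).sum =
      ∑ a ∈ range (N.narm g), N.flux s (Sum.inr (g, a, 1)) x := by
  rw [edges_ctr, List.map_map, ← List.sum_toFinset _ List.nodup_range, List.toFinset_range]
  rfl

theorem Kn.gadget (h : LSys N b (N.m + 1) S) {g a : ℕ} {x : ℕ → Λ} (hg : g < N.nG)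
    (ha : a < N.narm g) (hx : N.Content g x) (f : ℕ → ZMod 2)
    (hf : ∀ a' < N.narm g, a' ≠ a →
      Kn N S (Sum.inl (N.hub g a')) (fun j => N.proj g a' (x j)) (f a')) :
    Kn N S (Sum.inl (N.hub g a)) (fun j => N.proj g a (x j))
      (∑ a' ∈ (range (N.narm g)).erase a, f a' +
        (N.dc b (g, 0, 0) x + ∑ a' ∈ range (N.narm g), N.armSum b g a' x)) := by
  have hc : Kn N S (Sum.inr (g, a, 1)) x
      (∑ a' ∈ (range (N.narm g)).erase a, (f a' + N.armSum b g a' x) + N.dc b (g, 0, 0) x) := by
    refine Kn.core h (κ := (g, 0, 0)) hg (N.mem_cols.2 (Or.inl rfl)) hx ?_ rfl ?_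
    · rw [edges_ctr]
      exact List.mem_map.2 ⟨a, List.mem_range.2 ha, rfl⟩
    · intro s hs hsum
      rw [ctr_sum, ← add_sum_erase _ _ (mem_range.2 ha), add_comm] at hsum
      have h1 : ∀ a' ∈ (range (N.narm g)).erase a, N.flux s (Sum.inr (g, a', 1)) x =
          f a' + N.armSum b g a' x := by
        intro a' ha'
        obtain ⟨h2, h3⟩ := mem_erase.1 ha'
        have h3 := mem_range.1 h3
        refine Kn.arm_in h hg h3 hx (hf a' h3 h2) (ob (g, 0, 0) x) s (fun i _ => ?_) hs
        exact Y_mem_ports (N := N) (κ := (g, 0, 0)) (x := x) (e := Sum.inr (g, a', 1))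
          (by rw [edges_ctr]; exact List.mem_map.2 ⟨a', List.mem_range.2 h3, rfl⟩) i
      rw [sum_congr rfl h1] at hsum
      exact z2_eq_of_add hsum
  have := Kn.arm_out h hg ha hx hc
  convert this using 1
  rw [sum_add_distrib, ← add_sum_erase _ _ (mem_range.2 ha)]
  ring

theorem Kn.gadget_sum (h : LSys N b (N.m + 1) S) {g : ℕ} {x : ℕ → Λ} (hg : g < N.nG)
    (h0 : 0 < N.narm g) (hx : N.Content g x) (f : ℕ → ZMod 2)
    (hf : ∀ a < N.narm g, Kn N S (Sum.inl (N.hub g a)) (fun j => N.proj g a (x j)) (f a)) :
    ∑ a ∈ range (N.narm g), f a =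
      N.dc b (g, 0, 0) x + ∑ a ∈ range (N.narm g), N.armSum b g a x := by
  have h1 := Kn.gadget h hg h0 hx f (fun a' ha' _ => hf a' ha')
  have h2 := hf 0 h0
  have hL : 0 < N.L := by unfold L; omega
  obtain ⟨k, hk⟩ : ∃ k, N.L = k + 1 := ⟨N.L - 1, by omega⟩
  have h3 : ∀ f', Kn N S (Sum.inl (N.hub g 0)) (fun j => N.proj g 0 (x j)) f' →
      Kn N S (N.ed g 0 N.L) (N.see (g, 0, k + 1) (N.ed g 0 N.L) x) f' := by
    intro f' hf'
    rw [see_ed, ed_L, cz_L]; exact hf'
  have h4 := Kn.unique h hg (arm_mem (p := k) h0 (by omega)) hx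
    (by rw [edges_arm (by omega), ← hk]; simp) (h3 _ h1) (h3 _ h2)
  rw [← add_sum_erase _ _ (mem_range.2 h0), ← h4, add_comm, ← add_assoc, z2_add_self, zero_add]

/-- Facts derived by unit propagation (without the twisted gadget) are known. -/
theorem Der.kn (h : LSys N b (N.m + 1) S) {e : H} {z : ℕ → Λ} (hd : N.Der e z) :
    ∃ f, Kn N S (Sum.inl e) z f := by
  induction hd with
  | mk g x a hg hgt hx ha _ ih =>
    have ih' : ∀ a', ∃ f, a' < N.narm g → a' ≠ a →
        Kn N S (Sum.inl (N.hub g a')) (fun j => N.proj g a' (x j)) f := by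
      intro a'
      by_cases h1 : a' < N.narm g ∧ a' ≠ a
      · obtain ⟨f, hf⟩ := ih a' h1.1 h1.2
        exact ⟨f, fun _ _ => hf⟩
      · exact ⟨0, fun h2 h3 => absurd ⟨h2, h3⟩ h1⟩
    choose f hf using ih'
    exact ⟨_, Kn.gadget h hg ha hx f hf⟩

/-- total parity of a gadget for a content -/
def tot (N : Net H Λ) (b : NObj Λ → ZMod 2) (g : ℕ) (x : ℕ → Λ) : ZMod 2 :=
  N.dc b (g, 0, 0) x + ∑ a ∈ range (N.narm g), N.armSum b g a x

/-- An unlocked hub fact is known, with the total parity of the unlocking gadget as value. -/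
theorem Kn.unlocked (h : LSys N b (N.m + 1) S) {ug : H → ℕ} {lift : H → ℕ → Λ → Λ}
    (hu : N.Unlocked ug lift) {g a : ℕ} (hg : g < N.nG) (ha : a < N.narm g) {x : ℕ → Λ}
    (hx : N.Content g x) :
    Kn N S (Sum.inl (N.hub g a)) (fun j => N.proj g a (x j))
      (N.tot b (ug (N.hub g a)) fun j => lift (N.hub g a) j (N.proj g a (x j))) := by
  obtain ⟨f, hf⟩ := Der.kn h (hu.der g hg a ha x hx)
  have hG := hu.lt g hg a ha
  have h3 := hu.narm g hg a ha
  have hlx : N.Content (ug (N.hub g a)) fun j => lift (N.hub g a) j (N.proj g a (x j)) :=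
    fun j => hu.mem g hg a ha j _ (hx j)
  have key := Kn.gadget h hG (a := 2) (by omega) hlx (fun _ => f) (by
    intro a' ha' hne
    have : a' = 0 ∨ a' = 1 := by omega
    rcases this with rfl | rfl
    · exact hf
    · rw [hu.hub01 g hg a ha, hu.proj01 g hg a ha] at hf
      exact hf)
  rw [hu.hub2 g hg a ha] at key
  have e1 : (fun j => N.proj (ug (N.hub g a)) 2 (lift (N.hub g a) j (N.proj g a (x j)))) =
      fun j => N.proj g a (x j) := funext fun j => hu.proj_lift g hg a ha j _ (hx j)
  rw [e1] at key
  have e2 : (range (N.narm (ug (N.hub g a)))).erase 2 = {0, 1} := by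
    rw [h3]; decide
  rw [e2, sum_pair (by decide), z2_add_self, zero_add] at key
  exact key

end calculus

/-! ### the solution -/

section solution

variable (N : Net H Λ) (b : NObj Λ → ZMod 2) (ug : H → ℕ) (lift : H → ℕ → Λ → Λ)

/-- parity of a gadget in row `i` -/
def gpar (g i : ℕ) (x y : Λ) : ZMod 2 :=
  b ((g, 0, 0), i, x, y) + ∑ a ∈ range (N.narm g), ∑ p ∈ range N.L, b ((g, a, p + 1), i, x, y)

theorem tot_eq (g : ℕ) (x : ℕ → Λ) :
    N.tot b g x = ∑ i ∈ range N.m, N.gpar b g i (x i) (x (i + 1)) := by
  unfold tot gpar armSum dc ob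
  rw [sum_add_distrib]
  congr 1
  symm
  rw [sum_comm]
  refine sum_congr rfl fun a _ => ?_
  rw [sum_comm]

/-- value of a hub variable -/
def Yh (h : H) (i : ℕ) (z z' : Λ) : ZMod 2 := N.gpar b (ug h) i (lift h i z) (lift h (i + 1) z')

/-- value of the variable of the edge number `p` of an arm, in terms of the letters of the gadget -/
def Ya (g a p i : ℕ) (x y : Λ) : ZMod 2 :=
  N.Yh b ug lift (N.hub g a) i (N.proj g a x) (N.proj g a y) +
    ∑ q ∈ Ico p N.L, b ((g, a, q + 1), i, x, y)

/-- the solution; `T g` are the potentials of the centre of `g` -/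
def sol (T : ℕ → ℕ → Λ → ZMod 2) : NVar H Λ → ZMod 2
  | .inl (.inl h, i, z, z') => N.Yh b ug lift h i z z'
  | .inl (.inr (g, a, p), i, x, y) => N.Ya b ug lift g a (p - 1) i x y
  | .inr ((g, _, p), j, x) => if p = 0 then T g j x else 0

/-- defect of the centre -/
def defect (g i : ℕ) (x y : Λ) : ZMod 2 :=
  (∑ a ∈ range (N.narm g), N.Yh b ug lift (N.hub g a) i (N.proj g a x) (N.proj g a y)) +
    N.gpar b g i x y

theorem sol_ed (T : ℕ → ℕ → Λ → ZMod 2) (g a p i : ℕ) (x y : Λ) (hp : p ≤ N.L) :
    N.sol b ug lift T (Y (N.ed g a p) i (N.psi (g, a, p) (N.ed g a p) x)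
      (N.psi (g, a, p) (N.ed g a p) y)) = N.Ya b ug lift g a p i x y := by
  unfold ed psi
  by_cases h : p < N.L
  · rw [if_pos h]
    rfl
  · have : p = N.L := by omega
    subst this
    rw [if_neg h]
    unfold Ya
    rw [Ico_self, sum_empty, add_zero]
    rfl

theorem sol_arm (T : ℕ → ℕ → Λ → ZMod 2) (g a p i : ℕ) (x y : Λ) (hp : p < N.L) :
    ((N.ports ((g, a, p + 1), i, x, y)).map (N.sol b ug lift T)).sum =
      b ((g, a, p + 1), i, x, y) := by
  rw [sum_ports, edges_arm hp]
  simp only [List.map_cons, List.map_nil, List.sum_cons, List.sum_nil, add_zero]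
  have e1 := N.sol_ed b ug lift T g a p i x y (by omega)
  have e2 := N.sol_ed b ug lift T g a (p + 1) i x y (by omega)
  have e3 : ∀ e : Edge H, ∀ w : Λ, N.psi (g, a, p + 1) e w = N.psi (g, a, p) e w := by
    intro e w; cases e <;> rfl
  rw [e3, e3, e1, e2]
  have e0 : ∀ j w, N.sol b ug lift T (U (g, a, p + 1) j w) = 0 := by
    intro j w
    change (if p + 1 = 0 then T g j w else 0) = 0
    rw [if_neg (Nat.succ_ne_zero p)]
  have e4 : (if 0 < i then N.sol b ug lift T (U (g, a, p + 1) i x) else 0) = 0 := by
    rw [e0, ite_self]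
  have e5 : (if i + 1 < N.m then N.sol b ug lift T (U (g, a, p + 1) (i + 1) y) else 0) = 0 := by
    rw [e0, ite_self]
  rw [e4, e5, add_zero, add_zero]
  unfold Ya
  rw [Finset.sum_eq_sum_Ico_succ_bot hp]
  generalize N.Yh b ug lift (N.hub g a) i (N.proj g a x) (N.proj g a y) = A
  generalize ∑ k ∈ Ico (p + 1) N.L, b ((g, a, k + 1), i, x, y) = B
  generalize b ((g, a, p + 1), i, x, y) = C
  revert A B C; decide

theorem sol_ctr (T : ℕ → ℕ → Λ → ZMod 2) (g i : ℕ) (x y : Λ)
    (hT0 : i = 0 → T g i x = 0) (hTm : ¬ (i + 1 < N.m) → T g (i + 1) y = 0)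
    (hT : T g i x + T g (i + 1) y = N.defect b ug lift g i x y) :
    ((N.ports ((g, 0, 0), i, x, y)).map (N.sol b ug lift T)).sum = b ((g, 0, 0), i, x, y) := by
  rw [sum_ports, edges_ctr, List.map_map, ← List.sum_toFinset _ List.nodup_range,
    List.toFinset_range]
  have e4 : (if 0 < i then N.sol b ug lift T (U (g, 0, 0) i x) else 0) = T g i x := by
    by_cases h : 0 < i
    · rw [if_pos h]; rfl
    · rw [if_neg h, hT0 (by omega)]
  have e5 : (if i + 1 < N.m then N.sol b ug lift T (U (g, 0, 0) (i + 1) y) else 0) =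
      T g (i + 1) y := by
    by_cases h : i + 1 < N.m
    · rw [if_pos h]; rfl
    · rw [if_neg h, hTm h]
  rw [e4, e5, hT]
  have e6 : ∀ a ∈ range (N.narm g), ((fun e => N.sol b ug lift T (Y e i (N.psi (g, 0, 0) e x)
      (N.psi (g, 0, 0) e y))) ∘ fun a => (Sum.inr (g, a, 1) : Edge H)) a =
      N.Yh b ug lift (N.hub g a) i (N.proj g a x) (N.proj g a y) +
        ∑ q ∈ range N.L, b ((g, a, q + 1), i, x, y) := by
    intro a _
    change N.Ya b ug lift g a 0 i x y = _
    unfold Ya
    rw [range_eq_Ico]
  rw [sum_congr rfl e6, sum_add_distrib]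
  unfold defect gpar
  generalize ∑ a ∈ range (N.narm g), N.Yh b ug lift (N.hub g a) i (N.proj g a x) (N.proj g a y) = A
  generalize ∑ a ∈ range (N.narm g), ∑ q ∈ range N.L, b ((g, a, q + 1), i, x, y) = B
  generalize b ((g, 0, 0), i, x, y) = C
  revert A B C; decide

end solution

end Net

section main

variable {H Λ : Type} [DecidableEq H] [DecidableEq Λ]

open Finset in
theorem Net.solution_of_unlocked (N : Net H Λ) (hN : N.OK) {ug : H → ℕ} {lift : H → ℕ → Λ → Λ}
    (hu : N.Unlocked ug lift) (b : NObj Λ → Bool)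
    (hS : ShiftEquiv N.objs N.ports b (N.m + 1)) :
    ∃ s : NVar H Λ → Bool, IsSol N.objs N.ports b s := by
  classical
  obtain ⟨S, hS⟩ := N.lsys_of_shiftEquiv b _ hS
  set b' : NObj Λ → ZMod 2 := fun u => bz (b u) with hb'
  have key : ∀ g, ∃ T : ℕ → Λ → ZMod 2, g < N.nG → (∀ x, T 0 x = 0) ∧
      (∀ y ∈ N.lett g N.m, T N.m y = 0) ∧
      ∀ i < N.m, ∀ x ∈ N.lett g i, ∀ y ∈ N.lett g (i + 1),
        T i x + T (i + 1) y = N.defect b' ug lift g i x y := by
    intro g
    by_cases hg : g < N.nG
    · have hne : ∀ j, ∃ c, c ∈ N.lett g j := fun j => List.exists_mem_of_ne_nil _ (hN.lett_ne g j)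
      choose c hc using hne
      obtain ⟨T, h1, h2, h3⟩ := Net.split_rows N.m (fun j x => x ∈ N.lett g j) c hc
        (N.defect b' ug lift g) (by
          intro x hx
          have hx : N.Content g x := hx
          have h0 : 0 < N.narm g := (hN.narm_odd g hg).pos
          have h4 := Net.Kn.gadget_sum hS hg h0 hx _
            (fun a ha => Net.Kn.unlocked hS hu hg ha hx)
          have h5 : ∑ i ∈ range N.m, N.defect b' ug lift g i (x i) (x (i + 1)) =
              (∑ a ∈ range (N.narm g), N.tot b' (ug (N.hub g a))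
                fun j => lift (N.hub g a) j (N.proj g a (x j))) + N.tot b' g x := by
            unfold Net.defect
            rw [sum_add_distrib, sum_comm, ← Net.tot_eq]
            congr 1
            refine sum_congr rfl fun a _ => ?_
            rw [Net.tot_eq]
            rfl
          rw [h5, h4]
          exact Net.z2_add_self _)
      exact ⟨T, fun _ => ⟨h1, h2, fun i hi x hx y hy => h3 i hi x y hx hy⟩⟩
    · exact ⟨fun _ _ => 0, fun h => absurd h hg⟩
  choose T hT using key
  have hsol : ∀ u ∈ N.objs, ((N.ports u).map (N.sol b' ug lift T)).sum = b' u := by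
    rintro ⟨κ, i, x, y⟩ hmem
    obtain ⟨hg, hκ, hi, hx, hy⟩ := N.mem_objs.1 hmem
    obtain ⟨h1, h2, h3⟩ := hT κ.1 hg
    simp only at hg hκ hi hx hy
    rw [Net.mem_cols] at hκ
    rcases hκ with e | ⟨a, ha, p, hp, e⟩
    · rw [e]
      refine N.sol_ctr b' ug lift T κ.1 i x y (fun h => ?_) (fun h => ?_) (h3 i hi x hx y hy)
      · rw [h]; exact h1 x
      · have : i + 1 = N.m := by omega
        rw [this]
        apply h2
        rw [← this]; exact hy
    · rw [e]
      exact N.sol_arm b' ug lift T κ.1 a p i x y hp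
  choose r hr using AGB.bz_surj
  refine ⟨fun v => r (N.sol b' ug lift T v), fun u hmem => ?_⟩
  apply AGB.bz_inj
  rw [AGB.bz_sum, List.map_map]
  have := hsol u hmem
  simp only [hb'] at this
  rw [← this]
  congr 1
  apply List.map_congr_left
  intro v _
  exact hr _

end main

end Crest.Agent.R290
end

-- ▼ part R290/Rules
section

/-!
# Row 290, module RULES: the network of a list of rules
-/

set_option autoImplicit false
set_option linter.unusedVariables false

namespace Crest.Agent.R290

namespace Rules

/-! ### Digits -/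

/-- digit `i` of `a` in base `B` -/
abbrev dg (B a i : ℕ) : ℕ := a / B ^ i % B

theorem dg_zero (B a : ℕ) : dg B a 0 = a % B := by simp [dg]

theorem dg_succ (B a i : ℕ) : dg B a (i + 1) = dg B (a / B) i := by
  simp only [dg, pow_succ', Nat.div_div_eq_div_mul]

theorem dg_lt {B : ℕ} (hB : 2 ≤ B) (a i : ℕ) : dg B a i < B := Nat.mod_lt _ (by omega)

theorem dg_of_zero (B i : ℕ) : dg B 0 i = 0 := by simp [dg]

theorem div_lt_pow {B D a : ℕ} (hB : 2 ≤ B) (h : a < B ^ (D + 1)) : a / B < B ^ D := by
  rw [Nat.div_lt_iff_lt_mul (by omega)]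
  rwa [pow_succ] at h

theorem dg_inj {B : ℕ} (hB : 2 ≤ B) : ∀ {D a a' : ℕ}, a < B ^ D → a' < B ^ D →
    (∀ i < D, dg B a i = dg B a' i) → a = a' := by
  intro D
  induction D with
  | zero => intro a a' h h' _; simp only [pow_zero] at h h'; omega
  | succ D ih =>
    intro a a' h h' hd
    have h0 := hd 0 (by omega)
    rw [dg_zero, dg_zero] at h0
    have h1 : a / B = a' / B := ih (div_lt_pow hB h) (div_lt_pow hB h') (fun i hi => by
      have := hd (i + 1) (by omega)
      rwa [dg_succ, dg_succ] at this)
    rw [← Nat.div_add_mod a B, ← Nat.div_add_mod a' B, h0, h1]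

theorem exists_num {B : ℕ} (hB : 2 ≤ B) : ∀ (D : ℕ) (d : ℕ → ℕ), (∀ i < D, d i < B) →
    ∃ a < B ^ D, ∀ i < D, dg B a i = d i := by
  intro D
  induction D with
  | zero => intro d _; exact ⟨0, by simp, by omega⟩
  | succ D ih =>
    intro d hd
    obtain ⟨a, ha, h⟩ := ih (fun i => d (i + 1)) (fun i hi => hd (i + 1) (by omega))
    refine ⟨d 0 + B * a, ?_, ?_⟩
    · have := hd 0 (by omega)
      rw [pow_succ]
      nlinarith
    · intro i hi
      have h0 := hd 0 (by omega)
      rcases i with _ | i
      · rw [dg_zero, Nat.add_mul_mod_self_left, Nat.mod_eq_of_lt h0]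
      · rw [dg_succ, Nat.add_mul_div_left _ _ (by omega), Nat.div_eq_of_lt h0, zero_add]
        exact h i (by omega)

theorem incr_of_digits {B : ℕ} (hB : 2 ≤ B) : ∀ (f D t t' : ℕ), f < D → t < B ^ D → t' < B ^ D →
    (∀ i < f, dg B t i = B - 1 ∧ dg B t' i = 0) → dg B t' f = dg B t f + 1 →
    (∀ i, f < i → i < D → dg B t i = dg B t' i) → t' = t + 1 := by
  intro f
  induction f with
  | zero =>
    intro D t t' hf ht ht' _ h0 h1
    obtain ⟨D, rfl⟩ : ∃ D', D = D' + 1 := ⟨D - 1, by omega⟩
    rw [dg_zero, dg_zero] at h0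
    have h2 : t / B = t' / B := dg_inj hB (div_lt_pow hB ht) (div_lt_pow hB ht') (fun i hi => by
      have := h1 (i + 1) (by omega) (by omega)
      rwa [dg_succ, dg_succ] at this)
    have e1 := Nat.div_add_mod t B
    have e2 := Nat.div_add_mod t' B
    rw [h2] at e1
    omega
  | succ f ih =>
    intro D t t' hf ht ht' hl h0 h1
    obtain ⟨D, rfl⟩ : ∃ D', D = D' + 1 := ⟨D - 1, by omega⟩
    have h2 : t' / B = t / B + 1 := by
      apply ih D (t / B) (t' / B) (by omega) (div_lt_pow hB ht) (div_lt_pow hB ht')
      · intro i hi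
        have := hl (i + 1) (by omega)
        rwa [dg_succ, dg_succ] at this
      · rwa [dg_succ, dg_succ] at h0
      · intro i hi hiD
        have := h1 (i + 1) (by omega) (by omega)
        rwa [dg_succ, dg_succ] at this
    have h3 := hl 0 (by omega)
    rw [dg_zero, dg_zero] at h3
    have e1 := Nat.div_add_mod t B
    have e2 := Nat.div_add_mod t' B
    rw [h2, h3.2] at e2
    rw [h3.1] at e1
    have : B * (t / B + 1) = B * (t / B) + B := by ring
    omega

theorem digits_of_incr {B : ℕ} (hB : 2 ≤ B) : ∀ (D t : ℕ), t + 1 < B ^ D → ∃ f < D,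
    (∀ i < f, dg B t i = B - 1 ∧ dg B (t + 1) i = 0) ∧ dg B (t + 1) f = dg B t f + 1 ∧
      (∀ i, f < i → dg B (t + 1) i = dg B t i) := by
  intro D
  induction D with
  | zero => intro t h; simp at h
  | succ D ih =>
    intro t h
    have e1 := Nat.div_add_mod t B
    by_cases h1 : t % B < B - 1
    · have h2 : (t + 1) / B = t / B := by
        have h5 : (t % B + 1 + B * (t / B)) / B = t / B := by
          rw [Nat.add_mul_div_left _ _ (by omega), Nat.div_eq_of_lt (by omega), zero_add]
        have h6 : t % B + 1 + B * (t / B) = t + 1 := by omega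
        rwa [h6] at h5
      refine ⟨0, by omega, by omega, ?_, ?_⟩
      · rw [dg_zero, dg_zero]
        have h5 : (t % B + 1 + B * (t / B)) % B = t % B + 1 := by
          rw [Nat.add_mul_mod_self_left, Nat.mod_eq_of_lt (by omega)]
        have h6 : t % B + 1 + B * (t / B) = t + 1 := by omega
        rwa [h6] at h5
      · intro i hi
        obtain ⟨i, rfl⟩ : ∃ i', i = i' + 1 := ⟨i - 1, by omega⟩
        rw [dg_succ, dg_succ, h2]
    · have h1' : t % B = B - 1 := by
        have := Nat.mod_lt t (show 0 < B by omega)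
        omega
      have h6 : 0 + B * (t / B + 1) = t + 1 := by
        have : B * (t / B + 1) = B * (t / B) + B := by ring
        omega
      have h2 : (t + 1) / B = t / B + 1 := by
        rw [← h6, Nat.add_mul_div_left _ _ (by omega), Nat.zero_div, zero_add]
      have h3 : (t + 1) % B = 0 := by
        rw [← h6, Nat.add_mul_mod_self_left, Nat.zero_mod]
      obtain ⟨f, hf, ha, hb, hc⟩ := ih (t / B) (by
        have := div_lt_pow hB h
        omega)
      refine ⟨f + 1, by omega, ?_, ?_, ?_⟩
      · intro i hi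
        rcases i with _ | i
        · rw [dg_zero, dg_zero]; exact ⟨h1', h3⟩
        · rw [dg_succ, dg_succ, h2]; exact ha i (by omega)
      · rw [dg_succ, dg_succ, h2]; exact hb
      · intro i hi
        obtain ⟨i, rfl⟩ : ∃ i', i = i' + 1 := ⟨i - 1, by omega⟩
        rw [dg_succ, dg_succ, h2]
        exact hc i (by omega)

/-! ### Letters -/

theorem mem_letters {B D f j : ℕ} {q : Let} : q ∈ letters B D f j ↔
    if j = 0 ∨ D < j then q = (0, 0, 0, 0) else
      q.2.2.1 < B ∧ q.2.2.2 < B ∧
        (if f = 0 then q.1 < B ∧ q.2.1 = 0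
        else if j < f then q.1 = B - 1 ∧ q.2.1 = 0
        else if j = f then q.1 < B - 1 ∧ q.2.1 = q.1 + 1
        else q.1 < B ∧ q.2.1 = q.1) := by
  obtain ⟨q1, q2, q3, q4⟩ := q
  unfold letters
  by_cases h0 : j = 0 ∨ D < j
  · rw [if_pos h0, if_pos h0]; simp
  · rw [if_neg h0, if_neg h0]
    simp only [List.mem_flatMap, List.mem_map, List.mem_range, Prod.mk.injEq]
    have key : ∀ (l : List (ℕ × ℕ)) (Q : Prop), ((q1, q2) ∈ l ↔ Q) →
        ((∃ a ∈ l, ∃ a_1 < B, ∃ a_2 < B, a.1 = q1 ∧ a.2 = q2 ∧ a_1 = q3 ∧ a_2 = q4) ↔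
          q3 < B ∧ q4 < B ∧ Q) := by
      intro l Q hQ
      constructor
      · rintro ⟨⟨a, b⟩, hab, c, hc, d, hd, rfl, rfl, rfl, rfl⟩
        exact ⟨hc, hd, hQ.mp hab⟩
      · rintro ⟨hc, hd, hq⟩
        exact ⟨(q1, q2), hQ.mpr hq, q3, hc, q4, hd, rfl, rfl, rfl, rfl⟩
    apply key
    split_ifs
    · simp only [List.mem_map, List.mem_range, Prod.mk.injEq]
      constructor
      · rintro ⟨d, hd, rfl, rfl⟩; exact ⟨hd, rfl⟩
      · rintro ⟨h, rfl⟩; exact ⟨q1, h, rfl, rfl⟩
    · simp
    · simp only [List.mem_map, List.mem_range, Prod.mk.injEq]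
      constructor
      · rintro ⟨d, hd, rfl, rfl⟩; exact ⟨hd, rfl⟩
      · rintro ⟨h, rfl⟩; exact ⟨q1, h, rfl, rfl⟩
    · simp only [List.mem_map, List.mem_range, Prod.mk.injEq]
      constructor
      · rintro ⟨d, hd, rfl, rfl⟩; exact ⟨hd, rfl⟩
      · rintro ⟨h, h'⟩; exact ⟨q1, h, rfl, h'.symm⟩

theorem letters_nodup (B D f j : ℕ) : (letters B D f j).Nodup := by
  unfold letters
  split_ifs with h0
  · simp
  all_goals
    rw [List.nodup_flatMap]
    constructor
    · intro p _
      rw [List.nodup_flatMap]
      constructor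
      · intro a _
        apply List.Nodup.map _ List.nodup_range
        intro c c' h
        simpa using h
      · apply List.Nodup.pairwise_of_forall_ne List.nodup_range
        intro a _ b _ hab
        simp only [Function.onFun, List.disjoint_left, List.mem_map, not_exists, not_and]
        rintro _ ⟨c, _, rfl⟩ c' _ h
        simp only [Prod.mk.injEq] at h
        exact hab h.2.2.1.symm
    · apply List.Nodup.pairwise_of_forall_ne
      · first
          | exact List.nodup_singleton _
          | (apply List.Nodup.map _ List.nodup_range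
             intro c c' h
             simpa using h)
      · intro p _ p' _ hpp
        simp only [Function.onFun, List.disjoint_left, List.mem_flatMap, List.mem_map, not_exists,
          not_and]
        rintro _ ⟨a, _, c, _, rfl⟩ a' _ c' _ h
        simp only [Prod.mk.injEq] at h
        exact hpp (Prod.ext h.1.symm h.2.1.symm)

/-! ### Arms -/

theorem arms_length (r : Rule) : (Rule.arms r).length = 2 * r.1.length + 1 := by
  unfold Rule.arms
  rw [List.length_append, List.length_flatMap]
  simp [mul_comm]

theorem arms_getD_dbl (l : List Atom) (x d : Atom) : ∀ i, i < 2 * l.length →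
    (l.flatMap (fun a => [a, a]) ++ [x]).getD i d = l.getD (i / 2) d := by
  induction l with
  | nil => intro i hi; simp at hi
  | cons a l ih =>
    intro i hi
    rw [List.length_cons] at hi
    rcases i with _ | _ | i
    · simp
    · simp
    · have := ih i (by omega)
      rw [show (i + 1 + 1) / 2 = i / 2 + 1 by omega]
      simpa using this

theorem arms_getD_last (l : List Atom) (x d : Atom) :
    (l.flatMap (fun a => [a, a]) ++ [x]).getD (2 * l.length) d = x := by
  induction l with
  | nil => simp
  | cons a l ih =>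
    rw [List.length_cons, show 2 * (l.length + 1) = 2 * l.length + 1 + 1 by ring]
    simpa using ih

variable (rs : List Rule) (B D : ℕ)

/-- rule and mark of gadget `g` -/
abbrev RM (g : ℕ) : Rule × ℕ := (gadgets rs D).getD g (tgtRule, 0)

theorem armOf_dbl {g i : ℕ} (h : i < 2 * (RM rs D g).1.1.length) :
    armOf rs D g i = (RM rs D g).1.1.getD (i / 2) ((4, 0), 3, 4) := by
  unfold armOf Rule.arms
  exact arms_getD_dbl _ _ _ i h

theorem armOf_last (g : ℕ) : armOf rs D g (2 * (RM rs D g).1.1.length) = (RM rs D g).1.2 := by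
  unfold armOf Rule.arms
  exact arms_getD_last _ _ _

/-- the gadgets without the twisted one -/
def gads0 : List (Rule × ℕ) :=
  rs.flatMap fun r => if Rule.usesT r then (List.range D).map (fun f => (r, f + 1)) else [(r, 0)]

theorem gadgets_eq : gadgets rs D = gads0 rs D ++ [(tgtRule, 0)] := rfl

theorem gadgets_length : (gadgets rs D).length = (gads0 rs D).length + 1 := by
  rw [gadgets_eq]; simp

theorem RM_gt : RM rs D (gads0 rs D).length = (tgtRule, 0) := by
  unfold RM
  rw [gadgets_eq]
  simp

theorem RM_mem {g : ℕ} (hg : g < (gads0 rs D).length) : RM rs D g ∈ gads0 rs D := by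
  unfold RM
  rw [gadgets_eq, List.getD_append _ _ _ _ hg, List.getD_eq_getElem _ _ hg]
  exact List.getElem_mem _

theorem mem_gads0 {x : Rule × ℕ} : x ∈ gads0 rs D ↔ x.1 ∈ rs ∧
    (if Rule.usesT x.1 then ∃ f < D, x.2 = f + 1 else x.2 = 0) := by
  obtain ⟨r, f⟩ := x
  unfold gads0
  rw [List.mem_flatMap]
  constructor
  · rintro ⟨r', hr', h⟩
    split_ifs at h with hu
    · rw [List.mem_map] at h
      obtain ⟨f', hf', h⟩ := h
      simp only [Prod.mk.injEq] at h
      obtain ⟨rfl, rfl⟩ := h
      exact ⟨hr', by rw [if_pos hu]; exact ⟨f', List.mem_range.mp hf', rfl⟩⟩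
    · rw [List.mem_singleton, Prod.mk.injEq] at h
      obtain ⟨rfl, rfl⟩ := h
      exact ⟨hr', by rw [if_neg hu]⟩
  · rintro ⟨hr, h⟩
    refine ⟨r, hr, ?_⟩
    split_ifs at h ⊢ with hu
    · obtain ⟨f', hf', rfl⟩ := h
      exact List.mem_map.mpr ⟨f', List.mem_range.mpr hf', rfl⟩
    · simp only at h
      rw [h]
      exact List.mem_singleton.mpr rfl

theorem exists_RM {x : Rule × ℕ} (hx : x ∈ gads0 rs D) :
    ∃ g < (gads0 rs D).length, RM rs D g = x := by
  obtain ⟨g, hg, h⟩ := List.getElem_of_mem hx
  refine ⟨g, hg, ?_⟩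
  unfold RM
  rw [gadgets_eq, List.getD_append _ _ _ _ hg, List.getD_eq_getElem _ _ hg, h]

@[simp] theorem ruleNet_m : (ruleNet rs B D).m = D + 1 := rfl
@[simp] theorem ruleNet_nG : (ruleNet rs B D).nG = (gads0 rs D).length + 1 := gadgets_length rs D
@[simp] theorem ruleNet_gt : (ruleNet rs B D).gt = (gads0 rs D).length := by
  show (gadgets rs D).length - 1 = _
  rw [gadgets_length]; rfl
@[simp] theorem ruleNet_narm (g : ℕ) :
    (ruleNet rs B D).narm g = 2 * (RM rs D g).1.1.length + 1 := arms_length _
@[simp] theorem ruleNet_hub (g a : ℕ) : (ruleNet rs B D).hub g a = (armOf rs D g a).1 := rfl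
@[simp] theorem ruleNet_proj (g a : ℕ) (q : Let) : (ruleNet rs B D).proj g a q =
    (sel (armOf rs D g a).2.1 q, sel (armOf rs D g a).2.2 q, 0, 0) := rfl
@[simp] theorem ruleNet_lett (g j : ℕ) :
    (ruleNet rs B D).lett g j = letters B D (RM rs D g).2 j := rfl
@[simp] theorem ruleNet_o : (ruleNet rs B D).o = (0, 0, 0, 0) := rfl

theorem sel_zero' (c : ℕ) : sel c (0, 0, 0, 0) = 0 := by
  unfold sel; split_ifs <;> rfl

theorem letters_ne (hB : 2 ≤ B) (f j : ℕ) : letters B D f j ≠ [] := by
  have : ∃ q, q ∈ letters B D f j := by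
    by_cases h0 : j = 0 ∨ D < j
    · exact ⟨(0, 0, 0, 0), by rw [mem_letters, if_pos h0]⟩
    · by_cases h1 : f = 0
      · refine ⟨(0, 0, 0, 0), ?_⟩
        rw [mem_letters, if_neg h0, if_pos h1]
        exact ⟨show 0 < B by omega, show 0 < B by omega, show 0 < B by omega, rfl⟩
      · by_cases h2 : j < f
        · refine ⟨(B - 1, 0, 0, 0), ?_⟩
          rw [mem_letters, if_neg h0, if_neg h1, if_pos h2]
          exact ⟨show 0 < B by omega, show 0 < B by omega, rfl, rfl⟩
        · by_cases h3 : j = f
          · refine ⟨(0, 1, 0, 0), ?_⟩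
            rw [mem_letters, if_neg h0, if_neg h1, if_neg h2, if_pos h3]
            exact ⟨show 0 < B by omega, show 0 < B by omega, show 0 < B - 1 by omega, rfl⟩
          · refine ⟨(0, 0, 0, 0), ?_⟩
            rw [mem_letters, if_neg h0, if_neg h1, if_neg h2, if_neg h3]
            exact ⟨show 0 < B by omega, show 0 < B by omega, show 0 < B by omega, rfl⟩
  obtain ⟨q, hq⟩ := this
  exact List.ne_nil_of_mem hq

/-! ### Contents and numbers -/

/-- the content of a quadruple of numbers -/
def qc (q : ℕ × ℕ × ℕ × ℕ) (j : ℕ) : Let :=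
  if j = 0 ∨ D < j then (0, 0, 0, 0) else
    (dg B q.1 (j - 1), dg B q.2.1 (j - 1), dg B q.2.2.1 (j - 1), dg B q.2.2.2 (j - 1))

theorem sel_dg (c i : ℕ) (q : ℕ × ℕ × ℕ × ℕ) :
    sel c (dg B q.1 i, dg B q.2.1 i, dg B q.2.2.1 i, dg B q.2.2.2 i) = dg B (sel c q) i := by
  unfold sel
  split_ifs
  · rfl
  · rfl
  · rfl
  · rfl
  · exact (dg_of_zero B i).symm

theorem proj_qc (c d : ℕ) (q : ℕ × ℕ × ℕ × ℕ) (j : ℕ) :
    ((sel c (qc B D q j), sel d (qc B D q j), 0, 0) : Let) = dig B D (sel c q) (sel d q) j := by
  unfold qc dig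
  split_ifs
  · rw [sel_zero', sel_zero']
  · rw [sel_dg, sel_dg]

variable {rs B D}

theorem exists_mark (hB : 2 ≤ B) {r : Rule} (hr : r ∈ rs) {t s s' : ℕ}
    (ht' : Rule.usesT r = true → t + 1 < B ^ D) :
    ∃ f, (r, f) ∈ gads0 rs D ∧
      ∀ j, qc B D (t, if Rule.usesT r then t + 1 else 0, s, s') j ∈ letters B D f j := by
  by_cases hu : Rule.usesT r = true
  · obtain ⟨f, hf, h1, h2, h3⟩ := digits_of_incr hB D t (ht' hu)
    refine ⟨f + 1, ?_, ?_⟩
    · rw [mem_gads0]
      refine ⟨hr, ?_⟩
      rw [if_pos hu]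
      exact ⟨f, hf, rfl⟩
    · intro j
      rw [mem_letters]
      unfold qc
      by_cases h0 : j = 0 ∨ D < j
      · rw [if_pos h0, if_pos h0]
      · rw [if_neg h0, if_neg h0, if_pos hu]
        refine ⟨dg_lt hB _ _, dg_lt hB _ _, ?_⟩
        rw [if_neg (by omega)]
        split_ifs with h4 h5
        · exact h1 (j - 1) (by omega)
        · have h6 : j - 1 = f := by omega
          simp only [h6]
          refine ⟨?_, h2⟩
          have := dg_lt hB (t + 1) f
          omega
        · exact ⟨dg_lt hB _ _, h3 (j - 1) (by omega)⟩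
  · refine ⟨0, ?_, ?_⟩
    · rw [mem_gads0]
      refine ⟨hr, ?_⟩
      rw [if_neg hu]
    · intro j
      rw [mem_letters]
      unfold qc
      by_cases h0 : j = 0 ∨ D < j
      · rw [if_pos h0, if_pos h0]
      · rw [if_neg h0, if_neg h0, if_neg hu, if_pos rfl]
        exact ⟨dg_lt hB _ _, dg_lt hB _ _, dg_lt hB _ _, dg_of_zero _ _⟩

theorem decode (hB : 2 ≤ B) {f : ℕ} (hf : f ≤ D) {x : ℕ → Let} (hx : ∀ j, x j ∈ letters B D f j) :
    ∃ t t' s s', t < B ^ D ∧ t' < B ^ D ∧ s < B ^ D ∧ s' < B ^ D ∧
      (t' = if f = 0 then 0 else t + 1) ∧ ∀ j, x j = qc B D (t, t', s, s') j := by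
  have hlt : ∀ i < D, (x (i + 1)).1 < B ∧ (x (i + 1)).2.1 < B ∧ (x (i + 1)).2.2.1 < B ∧
      (x (i + 1)).2.2.2 < B := by
    intro i hi
    have h := hx (i + 1)
    rw [mem_letters, if_neg (by omega)] at h
    obtain ⟨h1, h2, h3⟩ := h
    split_ifs at h3 <;> omega
  obtain ⟨t, ht, ht1⟩ := exists_num hB D (fun i => (x (i + 1)).1) (fun i hi => (hlt i hi).1)
  obtain ⟨t', ht', ht1'⟩ := exists_num hB D (fun i => (x (i + 1)).2.1)
    (fun i hi => (hlt i hi).2.1)
  obtain ⟨s, hs, hs1⟩ := exists_num hB D (fun i => (x (i + 1)).2.2.1)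
    (fun i hi => (hlt i hi).2.2.1)
  obtain ⟨s', hs', hs1'⟩ := exists_num hB D (fun i => (x (i + 1)).2.2.2)
    (fun i hi => (hlt i hi).2.2.2)
  refine ⟨t, t', s, s', ht, ht', hs, hs', ?_, ?_⟩
  · split_ifs with hf0
    · apply dg_inj hB ht' (by positivity)
      intro i hi
      rw [ht1' i hi, dg_of_zero]
      have h := hx (i + 1)
      rw [mem_letters, if_neg (by omega), if_pos hf0] at h
      exact h.2.2.2
    · apply incr_of_digits hB (f - 1) D t t' (by omega) ht ht'
      · intro i hi
        rw [ht1 i (by omega), ht1' i (by omega)]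
        have h := hx (i + 1)
        rw [mem_letters, if_neg (by omega), if_neg hf0, if_pos (by omega)] at h
        exact h.2.2
      · rw [ht1 _ (by omega), ht1' _ (by omega), show f - 1 + 1 = f by omega]
        have h := hx f
        rw [mem_letters, if_neg (by omega), if_neg hf0, if_neg (by omega), if_pos rfl] at h
        exact h.2.2.2
      · intro i hi hiD
        rw [ht1 i (by omega), ht1' i (by omega)]
        have h := hx (i + 1)
        rw [mem_letters, if_neg (by omega), if_neg hf0, if_neg (by omega), if_neg (by omega)] at h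
        exact h.2.2.2.symm
  · intro j
    unfold qc
    split_ifs with h0
    · have h := hx j
      rw [mem_letters, if_pos h0] at h
      exact h
    · have e := ht1 (j - 1) (by omega)
      have e' := ht1' (j - 1) (by omega)
      have e2 := hs1 (j - 1) (by omega)
      have e2' := hs1' (j - 1) (by omega)
      rw [show j - 1 + 1 = j by omega] at e e' e2 e2'
      simp only [e, e', e2, e2']

theorem dig_inj (hB : 2 ≤ B) {a c a' c' : ℕ} (ha : a < B ^ D) (hc : c < B ^ D) (ha' : a' < B ^ D)
    (hc' : c' < B ^ D) (h : dig B D a c = dig B D a' c') : a = a' ∧ c = c' := by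
  have key : ∀ i < D, dg B a i = dg B a' i ∧ dg B c i = dg B c' i := by
    intro i hi
    have := congrFun h (i + 1)
    unfold dig at this
    rw [if_neg (by omega), if_neg (by omega)] at this
    simp only [Prod.mk.injEq, Nat.add_sub_cancel] at this
    exact ⟨this.1, this.2.1⟩
  exact ⟨dg_inj hB ha ha' fun i hi => (key i hi).1, dg_inj hB hc hc' fun i hi => (key i hi).2⟩

theorem sel_lt {M c : ℕ} {q : ℕ × ℕ × ℕ × ℕ} (h0 : 0 < M) (h1 : q.1 < M) (h2 : q.2.1 < M)
    (h3 : q.2.2.1 < M) (h4 : q.2.2.2 < M) : sel c q < M := by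
  unfold sel; split_ifs <;> assumption

end Rules

open Rules

theorem ruleNet_OK (rs : List Rule) (B D : ℕ) (hB : 2 ≤ B) (hD : 1 ≤ D) : (ruleNet rs B D).OK where
  two_le := by rw [ruleNet_m]; omega
  gt_lt := by rw [ruleNet_gt, ruleNet_nG]; omega
  narm_gt := by
    rw [ruleNet_narm, ruleNet_gt, RM_gt]; rfl
  narm_odd := by
    intro g _
    rw [ruleNet_narm]
    exact ⟨_, rfl⟩
  lett_triv := by
    intro g _ j hj
    rw [ruleNet_lett, ruleNet_o]
    unfold letters
    rw [if_pos]
    rw [ruleNet_m] at hj
    omega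
  proj_o := by
    intro g a
    rw [ruleNet_proj, ruleNet_o, sel_zero', sel_zero']
  lett_nodup := by
    intro g j
    rw [ruleNet_lett]
    exact letters_nodup _ _ _ _
  lett_ne := by
    intro g j
    rw [ruleNet_lett]
    exact letters_ne B D hB _ _

theorem ruleNet_der (rs : List Rule) (B D : ℕ) (hB : 2 ≤ B) (hD : 1 ≤ D) {h : Hub} {a c : ℕ}
    (hd : RDer rs (B ^ D) h a c) : (ruleNet rs B D).Der h (dig B D a c) := by
  induction hd with
  | mk r t s s' hr ht hs hs' ht' h ih =>
    obtain ⟨f, hf, hx⟩ := exists_mark (s := s) (s' := s') hB hr ht'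
    obtain ⟨g, hg, hRM⟩ := exists_RM rs D hf
    set q : ℕ × ℕ × ℕ × ℕ := (t, if Rule.usesT r then t + 1 else 0, s, s') with hq
    have hlast : armOf rs D g (2 * r.1.length) = r.2 := by
      have := armOf_last rs D g
      rw [hRM] at this
      exact this
    have hn : (ruleNet rs B D).narm g = 2 * r.1.length + 1 := by rw [ruleNet_narm, hRM]
    have key := Net.Der.mk (N := ruleNet rs B D) g (qc B D q) (2 * r.1.length)
      (by rw [ruleNet_nG]; omega) (by rw [ruleNet_gt]; omega)
      (by intro j; rw [ruleNet_lett, hRM]; exact hx j)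
      (by rw [hn]; omega) ?_
    · rw [ruleNet_hub, hlast] at key
      have e : (fun j => (ruleNet rs B D).proj g (2 * r.1.length) (qc B D q j)) =
          dig B D (sel r.2.2.1 q) (sel r.2.2.2 q) := by
        funext j
        rw [ruleNet_proj, hlast]
        exact proj_qc B D _ _ _ _
      rw [e] at key
      exact key
    · intro a' ha' hne
      rw [hn] at ha'
      have ha2 : a' < 2 * (RM rs D g).1.1.length := by
        rw [hRM]; show a' < 2 * r.1.length; omega
      have hidx : a' / 2 < r.1.length := by omega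
      have harm : armOf rs D g a' = r.1[a' / 2] := by
        rw [armOf_dbl rs D ha2, hRM, List.getD_eq_getElem _ _ hidx]
      have := ih (r.1[a' / 2]) (List.getElem_mem _)
      rw [ruleNet_hub, harm]
      have e : (fun j => (ruleNet rs B D).proj g a' (qc B D q j)) =
          dig B D (sel (r.1[a' / 2]).2.1 q) (sel (r.1[a' / 2]).2.2 q) := by
        funext j
        rw [ruleNet_proj, harm]
        exact proj_qc B D _ _ _ _
      rw [e]
      exact this

namespace Rules

theorem mem_unlock {acc : Hub} {rs : List Rule} {r : Rule} : r ∈ unlock acc rs ↔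
    ∃ h, (h ∈ hubsOf rs ∨ h = acc ∨ h = (4, 0)) ∧ r = ([(acc, 1, 0)], (h, 3, 4)) := by
  unfold unlock
  rw [List.mem_map]
  constructor
  · rintro ⟨h, hh, rfl⟩
    rw [List.mem_append] at hh
    refine ⟨h, ?_, rfl⟩
    rcases hh with hh | hh
    · exact Or.inl hh
    · simp only [List.mem_cons, List.not_mem_nil, or_false] at hh
      exact Or.inr hh
  · rintro ⟨h, hh, rfl⟩
    refine ⟨h, ?_, rfl⟩
    rw [List.mem_append]
    rcases hh with hh | hh
    · exact Or.inl hh
    · right
      simp only [List.mem_cons, List.not_mem_nil, or_false]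
      exact hh

/-- the gadgets are either the twisted one or given by a rule, and their contents by numbers -/
theorem gadget_cases (rs : List Rule) {B D : ℕ} (hB : 2 ≤ B) {g : ℕ}
    (hg : g < (gads0 rs D).length) {x : ℕ → Let} (hx : (ruleNet rs B D).Content g x) :
    ∃ r ∈ rs, ∃ t s s', t < B ^ D ∧ s < B ^ D ∧ s' < B ^ D ∧
      (Rule.usesT r = true → t + 1 < B ^ D) ∧ (ruleNet rs B D).narm g = 2 * r.1.length + 1 ∧
      (∀ a (ha : a / 2 < r.1.length), (ruleNet rs B D).hub g a = (r.1[a / 2]).1 ∧
        (fun j => (ruleNet rs B D).proj g a (x j)) =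
          dig B D (sel (r.1[a / 2]).2.1 (t, if Rule.usesT r then t + 1 else 0, s, s'))
            (sel (r.1[a / 2]).2.2 (t, if Rule.usesT r then t + 1 else 0, s, s'))) ∧
      ((ruleNet rs B D).hub g (2 * r.1.length) = r.2.1 ∧
        (fun j => (ruleNet rs B D).proj g (2 * r.1.length) (x j)) =
          dig B D (sel r.2.2.1 (t, if Rule.usesT r then t + 1 else 0, s, s'))
            (sel r.2.2.2 (t, if Rule.usesT r then t + 1 else 0, s, s'))) := by
  obtain ⟨⟨r, f⟩, hRM⟩ : ∃ y, RM rs D g = y := ⟨_, rfl⟩
  have hmem := RM_mem rs D hg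
  rw [hRM, mem_gads0] at hmem
  obtain ⟨hr, hf⟩ := hmem
  simp only at hr hf
  have hfD : f ≤ D := by
    split_ifs at hf
    · obtain ⟨f', h1, h2⟩ := hf; omega
    · omega
  obtain ⟨t, t', s, s', ht, ht', hs, hs', htt, hxq⟩ := decode (x := x) hB hfD (by
    intro j
    have := hx j
    rw [ruleNet_lett, hRM] at this
    exact this)
  have htt' : t' = if Rule.usesT r then t + 1 else 0 := by
    split_ifs at hf ⊢ with hu
    · obtain ⟨f', h1, h2⟩ := hf
      rw [htt, if_neg (by omega)]
    · rw [htt, if_pos hf]
  refine ⟨r, hr, t, s, s', ht, hs, hs', ?_, ?_, ?_, ?_, ?_⟩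
  · intro hu
    rw [if_pos hu] at htt'
    omega
  · rw [ruleNet_narm, hRM]
  · intro a ha
    have ha2 : a < 2 * (RM rs D g).1.1.length := by
      rw [hRM]; show a < 2 * r.1.length; omega
    have harm : armOf rs D g a = r.1[a / 2] := by
      rw [armOf_dbl rs D ha2, hRM, List.getD_eq_getElem _ _ ha]
    refine ⟨by rw [ruleNet_hub, harm], ?_⟩
    funext j
    rw [ruleNet_proj, harm, hxq j, proj_qc, htt']
  · have := armOf_last rs D g
    rw [hRM] at this
    rw [ruleNet_hub]
    exact congrArg Prod.fst this
  · have := armOf_last rs D g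
    rw [hRM] at this
    have h2 : armOf rs D g (2 * r.1.length) = r.2 := this
    funext j
    rw [ruleNet_proj, h2, hxq j, proj_qc, htt']

theorem gt_hub (rs : List Rule) (B D : ℕ) : (ruleNet rs B D).hub (gads0 rs D).length 0 = (4, 0) := by
  rw [ruleNet_hub]
  unfold armOf
  have := RM_gt rs D
  unfold RM at this
  rw [this]
  rfl

theorem sum_false {α : Type} (l : List α) (f : α → Bool) (h : ∀ a ∈ l, f a = false) :
    (l.map f).sum = false := by
  induction l with
  | nil => rfl
  | cons a l ih =>
    rw [List.map_cons, List.sum_cons, h a (by simp), ih fun b hb => h b (by simp [hb])]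
    rfl

end Rules

open Rules

/-- Closed number-level facts not containing `acc` give a closed network (with unlocking rules). -/
theorem ruleNet_closed (rs : List Rule) (B D : ℕ) (hB : 2 ≤ B) (hD : 1 ≤ D) (acc : Hub)
    (hacc : acc ≠ (4, 0)) (hrs : ∀ r ∈ rs, r.2.1 ≠ (4, 0) ∧ ∀ a ∈ r.1, a.1 ≠ (4, 0))
    (Tr : Hub → ℕ → ℕ → Prop) (hTr : HornClosed rs (B ^ D) Tr) (hno : ∀ t, ¬ Tr acc t 0) :
    ∃ (Kn : Hub → (ℕ → Let) → Prop) (val : Hub → (ℕ → Let) → Bool),
      (ruleNet (rs ++ unlock acc rs) B D).Closed Kn val := by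
  have hM : 0 < B ^ D := by positivity
  refine ⟨fun h z => h = (4, 0) ∨ ∃ a c, a < B ^ D ∧ c < B ^ D ∧ z = dig B D a c ∧ Tr h a c,
    fun h _ => decide (h = (4, 0)), ?_, ?_⟩
  · intro g hg x hx a ha hall
    rw [ruleNet_nG] at hg
    by_cases hgt : g = (gads0 (rs ++ unlock acc rs) D).length
    · subst hgt
      have : (ruleNet (rs ++ unlock acc rs) B D).narm
          (gads0 (rs ++ unlock acc rs) D).length = 1 := by
        rw [ruleNet_narm, RM_gt]; rfl
      have ha0 : a = 0 := by omega
      subst ha0
      exact Or.inl (gt_hub _ _ _)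
    · obtain ⟨r, hr, t, s, s', ht, hs, hs', hu, hn, harm, hhead, hheadp⟩ :=
        gadget_cases _ hB (show g < (gads0 (rs ++ unlock acc rs) D).length by omega) hx
      rw [hn] at ha hall
      by_cases hal : a / 2 < r.1.length
      · -- the twin arm
        obtain ⟨a', ha', hne, hdiv⟩ : ∃ a', a' < 2 * r.1.length + 1 ∧ a' ≠ a ∧ a' / 2 = a / 2 := by
          rcases Nat.even_or_odd a with h | h
          · obtain ⟨k, hk⟩ := h
            exact ⟨a + 1, by omega, by omega, by omega⟩
          · obtain ⟨k, hk⟩ := h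
            exact ⟨a - 1, by omega, by omega, by omega⟩
        have h1 := hall a' ha' hne
        obtain ⟨e1, e2⟩ := harm a hal
        obtain ⟨e1', e2'⟩ := harm a' (by rw [hdiv]; exact hal)
        simp only [hdiv] at e1' e2'
        rw [e1', e2'] at h1
        rw [e1, e2]
        exact h1
      · have hal' : a = 2 * r.1.length := by omega
        subst hal'
        rw [List.mem_append] at hr
        rcases hr with hr | hr
        · -- an ordinary rule
          rw [hhead, hheadp]
          right
          have hq2 : (if Rule.usesT r = true then t + 1 else 0) < B ^ D := by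
            split_ifs with h
            · exact hu h
            · exact hM
          refine ⟨_, _, sel_lt hM ht hq2 hs hs', sel_lt hM ht hq2 hs hs', rfl, ?_⟩
          apply hTr r hr t s s' ht hs hs' hu
          intro b hb
          obtain ⟨i, hi, rfl⟩ := List.getElem_of_mem hb
          have h1 := hall (2 * i) (by omega) (by omega)
          have hdiv : 2 * i / 2 = i := by omega
          obtain ⟨e1, e2⟩ := harm (2 * i) (by rw [hdiv]; exact hi)
          simp only [hdiv] at e1 e2
          rw [e1, e2] at h1
          rcases h1 with h1 | ⟨a1, c1, ha1, hc1, hz, hT⟩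
          · exact absurd h1 ((hrs r hr).2 _ hb)
          · obtain ⟨z1, z2⟩ := dig_inj hB (sel_lt hM ht hq2 hs hs') (sel_lt hM ht hq2 hs hs')
              ha1 hc1 hz
            rw [← z1, ← z2] at hT
            exact hT
        · -- an unlocking rule
          exfalso
          rw [mem_unlock] at hr
          obtain ⟨h, -, rfl⟩ := hr
          have h1 := hall 0 (by simp) (by simp)
          obtain ⟨e1, e2⟩ := harm 0 (by simp)
          rw [e1, e2] at h1
          rcases h1 with h1 | ⟨a1, c1, ha1, hc1, hz, hT⟩
          · exact hacc h1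
          · obtain ⟨z1, z2⟩ := dig_inj hB (a := t) (c := 0) ht hM ha1 hc1 hz
            rw [← z1, ← z2] at hT
            exact hno _ hT
  · intro g hg x hx hall
    rw [ruleNet_nG] at hg
    rw [ruleNet_gt]
    by_cases hgt : g = (gads0 (rs ++ unlock acc rs) D).length
    · subst hgt
      have : (ruleNet (rs ++ unlock acc rs) B D).narm
          (gads0 (rs ++ unlock acc rs) D).length = 1 := by
        rw [ruleNet_narm, RM_gt]; rfl
      rw [this]
      have e0 : List.range 1 = [0] := rfl
      rw [e0, List.map_cons, List.map_nil, List.sum_cons, List.sum_nil, add_zero]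
      exact (decide_eq_true (gt_hub _ _ _)).trans (decide_eq_true rfl).symm
    · obtain ⟨r, hr, t, s, s', ht, hs, hs', hu, hn, harm, hhead, hheadp⟩ :=
        gadget_cases _ hB (show g < (gads0 (rs ++ unlock acc rs) D).length by omega) hx
      rw [hn] at hall ⊢
      rw [List.mem_append] at hr
      rcases hr with hr | hr
      · rw [decide_eq_false hgt]
        apply sum_false
        intro a ha
        rw [List.mem_range] at ha
        apply decide_eq_false
        by_cases hal : a / 2 < r.1.length
        · rw [(harm a hal).1]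
          exact (hrs r hr).2 _ (List.getElem_mem _)
        · have hal' : a = 2 * r.1.length := by omega
          subst hal'
          rw [hhead]
          exact (hrs r hr).1
      · exfalso
        rw [mem_unlock] at hr
        obtain ⟨h, -, rfl⟩ := hr
        have h1 := hall 0 (by simp)
        obtain ⟨e1, e2⟩ := harm 0 (by simp)
        rw [e1, e2] at h1
        rcases h1 with h1 | ⟨a1, c1, ha1, hc1, hz, hT⟩
        · exact hacc h1
        · obtain ⟨z1, z2⟩ := dig_inj hB (a := t) (c := 0) ht hM ha1 hc1 hz
          rw [← z1, ← z2] at hT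
          exact hno _ hT

namespace Rules

theorem RDer.mono {rs rs' : List Rule} (hsub : ∀ r ∈ rs, r ∈ rs') {M : ℕ} {h : Hub} {a c : ℕ}
    (hd : RDer rs M h a c) : RDer rs' M h a c := by
  induction hd with
  | mk r t s s' hr ht hs hs' ht' h ih => exact RDer.mk r t s s' (hsub r hr) ht hs hs' ht' ih

/-- the unlocking rule of a hub -/
abbrev ur (acc h : Hub) : Rule := ([(acc, 1, 0)], (h, 3, 4))

theorem ur_usesT (acc h : Hub) : Rule.usesT (ur acc h) = false := rfl

theorem hub_mem (acc : Hub) (rs : List Rule) (B D : ℕ) {g a : ℕ}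
    (hg : g < (ruleNet (rs ++ unlock acc rs) B D).nG)
    (ha : a < (ruleNet (rs ++ unlock acc rs) B D).narm g) :
    (ruleNet (rs ++ unlock acc rs) B D).hub g a ∈ hubsOf rs ∨
      (ruleNet (rs ++ unlock acc rs) B D).hub g a = acc ∨
      (ruleNet (rs ++ unlock acc rs) B D).hub g a = (4, 0) := by
  rw [ruleNet_nG] at hg
  rw [ruleNet_narm] at ha
  rw [ruleNet_hub]
  by_cases hgt : g = (gads0 (rs ++ unlock acc rs) D).length
  · right; right
    subst hgt
    rw [RM_gt] at ha
    have ha0 : a = 0 := by
      have h1 : a < 2 * tgtRule.1.length + 1 := ha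
      have : 2 * tgtRule.1.length + 1 = 1 := rfl
      omega
    subst ha0
    exact gt_hub (rs ++ unlock acc rs) B D
  · have hmem := RM_mem (rs ++ unlock acc rs) D
      (show g < (gads0 (rs ++ unlock acc rs) D).length by omega)
    rw [mem_gads0] at hmem
    have hin : ∃ b, (b ∈ (RM (rs ++ unlock acc rs) D g).1.1 ++ [(RM (rs ++ unlock acc rs) D g).1.2]) ∧
        armOf (rs ++ unlock acc rs) D g a = b := by
      by_cases hal : a < 2 * (RM (rs ++ unlock acc rs) D g).1.1.length
      · have hidx : a / 2 < (RM (rs ++ unlock acc rs) D g).1.1.length := by omega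
        refine ⟨_, ?_, armOf_dbl _ D hal⟩
        rw [List.getD_eq_getElem _ _ hidx]
        exact List.mem_append_left _ (List.getElem_mem _)
      · have hal' : a = 2 * (RM (rs ++ unlock acc rs) D g).1.1.length := by omega
        refine ⟨_, ?_, hal' ▸ armOf_last _ D g⟩
        exact List.mem_append_right _ (List.mem_singleton.mpr rfl)
    obtain ⟨b, hb, harm⟩ := hin
    rw [harm]
    have h1 := hmem.1
    rw [List.mem_append] at h1
    rcases h1 with h1 | h1
    · left
      unfold hubsOf
      rw [List.mem_flatMap]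
      exact ⟨_, h1, List.mem_map.mpr ⟨b, hb, rfl⟩⟩
    · rw [mem_unlock] at h1
      obtain ⟨h, hh, hr⟩ := h1
      rw [hr] at hb
      simp only [List.cons_append, List.nil_append, List.mem_cons, List.not_mem_nil, or_false] at hb
      rcases hb with rfl | rfl
      · right; left; rfl
      · exact hh

theorem exists_ug (acc : Hub) (rs : List Rule) (D : ℕ) {h : Hub}
    (hh : h ∈ hubsOf rs ∨ h = acc ∨ h = (4, 0)) :
    ∃ g < (gads0 (rs ++ unlock acc rs) D).length,
      RM (rs ++ unlock acc rs) D g = (ur acc h, 0) := by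
  apply exists_RM
  rw [mem_gads0]
  refine ⟨List.mem_append_right _ (mem_unlock.mpr ⟨h, hh, rfl⟩), ?_⟩
  rw [if_neg]
  rw [ur_usesT]
  simp

theorem ur_arms (acc h : Hub) (rs : List Rule) (D : ℕ) {g : ℕ}
    (hg : RM (rs ++ unlock acc rs) D g = (ur acc h, 0)) :
    armOf (rs ++ unlock acc rs) D g 0 = (acc, 1, 0) ∧
    armOf (rs ++ unlock acc rs) D g 1 = (acc, 1, 0) ∧
    armOf (rs ++ unlock acc rs) D g 2 = (h, 3, 4) := by
  refine ⟨?_, ?_, ?_⟩
  · rw [armOf_dbl _ D (by rw [hg]; simp), hg]; rfl
  · rw [armOf_dbl _ D (by rw [hg]; simp), hg]; rfl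
  · have := armOf_last (rs ++ unlock acc rs) D g
    rw [hg] at this
    exact this

theorem fst_lt {B D f j c d : ℕ} {q : Let} (hB : 2 ≤ B) (hj : ¬ (j = 0 ∨ D < j))
    (hq : q ∈ letters B D f j) : sel c q < B := by
  rw [mem_letters, if_neg hj] at hq
  have h0 : 0 < B := by omega
  obtain ⟨h1, h2, h3⟩ := hq
  apply sel_lt h0 _ _ h1 h2
  · split_ifs at h3 <;> omega
  · split_ifs at h3 <;> omega

end Rules

open Rules

theorem ruleNet_unlocked (rs : List Rule) (B D : ℕ) (hB : 2 ≤ B) (hD : 1 ≤ D) (acc : Hub)
    (t : ℕ) (ht : t < B ^ D) (hd : RDer rs (B ^ D) acc t 0) :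
    ∃ ug lift, (ruleNet (rs ++ unlock acc rs) B D).Unlocked ug lift := by
  classical
  have H := fun h (hh : h ∈ hubsOf rs ∨ h = acc ∨ h = (4, 0)) => exists_ug acc rs D hh
  choose! ug hug1 hug2 using H
  have hder : (ruleNet (rs ++ unlock acc rs) B D).Der acc (dig B D t 0) :=
    ruleNet_der _ B D hB hD (RDer.mono (fun r hr => List.mem_append_left _ hr) hd)
  refine ⟨ug, fun _ j q => if j = 0 ∨ D < j then (0, 0, 0, 0) else (dg B t (j - 1), 0, q.1, q.2.1),
    ?_, ?_, ?_, ?_, ?_, ?_, ?_, ?_, ?_⟩
  · intro g hg a ha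
    have := hug1 _ (hub_mem acc rs B D hg ha)
    rw [ruleNet_nG]; omega
  · intro g hg a ha
    have := hug1 _ (hub_mem acc rs B D hg ha)
    rw [ruleNet_gt]; omega
  · intro g hg a ha
    rw [ruleNet_narm, hug2 _ (hub_mem acc rs B D hg ha)]; rfl
  · intro g hg a ha
    have := ur_arms acc _ rs D (hug2 _ (hub_mem acc rs B D hg ha))
    rw [ruleNet_hub, this.2.2]
  · intro g hg a ha
    have := ur_arms acc _ rs D (hug2 _ (hub_mem acc rs B D hg ha))
    rw [ruleNet_hub (a := 0), ruleNet_hub (a := 1), this.1, this.2.1]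
  · intro g hg a ha
    have := ur_arms acc _ rs D (hug2 _ (hub_mem acc rs B D hg ha))
    funext q
    rw [ruleNet_proj, ruleNet_proj, this.1, this.2.1]
  · intro g hg a ha j x hx
    rw [ruleNet_lett, hug2 _ (hub_mem acc rs B D hg ha), mem_letters]
    by_cases hj : j = 0 ∨ D < j
    · rw [if_pos hj, if_pos hj]
    · rw [if_neg hj, if_neg hj, if_pos rfl]
      rw [ruleNet_lett] at hx
      exact ⟨fst_lt (d := 0) hB hj hx, fst_lt (d := 0) hB hj hx, dg_lt hB _ _, rfl⟩
  · intro g hg a ha j x hx
    have := ur_arms acc _ rs D (hug2 _ (hub_mem acc rs B D hg ha))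
    rw [ruleNet_proj (g := ug _) (a := 2), this.2.2]
    by_cases hj : j = 0 ∨ D < j
    · rw [if_pos hj]
      rw [ruleNet_lett, mem_letters, if_pos hj] at hx
      rw [hx, ruleNet_proj, sel_zero', sel_zero', sel_zero', sel_zero']
    · rw [if_neg hj]
      rfl
  · intro g hg a ha x hx
    have := ur_arms acc _ rs D (hug2 _ (hub_mem acc rs B D hg ha))
    rw [ruleNet_hub (g := ug _) (a := 0), this.1]
    convert hder using 1
    funext j
    rw [ruleNet_proj (g := ug _) (a := 0), this.1]
    unfold dig
    split_ifs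
    · rfl
    · show (_, _, _, _) = (_, _, _, _)
      rw [Nat.zero_div, Nat.zero_mod]
      rfl

/-- the twisted fact is derivable when `acc` is -/
theorem ruleNet_der_tgt (rs : List Rule) (B D : ℕ) (hB : 2 ≤ B) (hD : 1 ≤ D) (acc : Hub)
    (t : ℕ) (ht : t < B ^ D) (hd : RDer rs (B ^ D) acc t 0) :
    ∃ x, (ruleNet (rs ++ unlock acc rs) B D).Content (ruleNet (rs ++ unlock acc rs) B D).gt x ∧
      (ruleNet (rs ++ unlock acc rs) B D).Der
        ((ruleNet (rs ++ unlock acc rs) B D).hub (ruleNet (rs ++ unlock acc rs) B D).gt 0)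
        (fun j => (ruleNet (rs ++ unlock acc rs) B D).proj
          (ruleNet (rs ++ unlock acc rs) B D).gt 0 (x j)) := by
  have hM : 0 < B ^ D := by positivity
  refine ⟨fun _ => (0, 0, 0, 0), ?_, ?_⟩
  · intro j
    rw [ruleNet_gt, ruleNet_lett, RM_gt, mem_letters]
    split_ifs with h
    · rfl
    · exact ⟨by show 0 < B; omega, by show 0 < B; omega, by show 0 < B; omega, rfl⟩
    · exact absurd rfl ‹¬ _›
    · exact absurd rfl ‹¬ _›
    · exact absurd rfl ‹¬ _›
  · rw [ruleNet_gt, gt_hub]
    have h1 : RDer (rs ++ unlock acc rs) (B ^ D) acc t 0 :=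
      RDer.mono (fun r hr => List.mem_append_left _ hr) hd
    have h2 : RDer (rs ++ unlock acc rs) (B ^ D) (4, 0) 0 0 := by
      have := RDer.mk (rs := rs ++ unlock acc rs) (M := B ^ D) (ur acc (4, 0)) t 0 0
        (List.mem_append_right _ (mem_unlock.mpr ⟨(4, 0), by simp, rfl⟩)) ht hM hM
        (by rw [ur_usesT]; simp) (by
          intro a ha
          rw [List.mem_singleton] at ha
          subst ha
          exact h1)
      exact this
    have h3 := ruleNet_der _ B D hB hD h2
    convert h3 using 1
    funext j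
    rw [ruleNet_proj, sel_zero', sel_zero']
    unfold dig
    split_ifs
    · rfl
    · rw [Nat.zero_div, Nat.zero_mod]

end Crest.Agent.R290
end

-- ▼ part R290/RulesUnl
section

/-!
# Row 290, module RULES: unlocking (`ruleNet_unlocked`, `ruleNet_der_tgt`), relative to `ruleNet_der`
-/

set_option autoImplicit false

namespace Crest.Agent.R290

namespace RulesUnl


/-- the unlocking rule of `h` -/
def ur (acc h : Hub) : Rule := ([(acc, 1, 0)], (h, 3, 4))






/-- the unlocking gadget of `h` -/
def ug (acc : Hub) (rs : List Rule) (D : ℕ) (h : Hub) : ℕ :=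
  (gadgets (rs ++ unlock acc rs) D).idxOf (ur acc h, 0)











/-- lifting a hub letter to the unlocking gadget -/
def lift (B D t : ℕ) (_h : Hub) (j : ℕ) (y : Let) : Let :=
  if j = 0 ∨ D < j then (0, 0, 0, 0) else (t / B ^ (j - 1) % B, 0, y.1, y.2.1)




end RulesUnl

end Crest.Agent.R290
end

-- ▼ part R290/RulesNS
section

/-!
# Row 290, module RULES: no global solution of the twisted instance
-/

set_option autoImplicit false
set_option linter.unusedVariables false

namespace Crest.Agent.R290

open Rules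

theorem ruleNet_no_solution (rs : List Rule) (B D : ℕ) (hB : 2 ≤ B) (hD : 1 ≤ D) (acc : Hub) :
    ¬ ∃ s : NVar Hub Let → Bool, IsSol (ruleNet (rs ++ unlock acc rs) B D).objs
      (ruleNet (rs ++ unlock acc rs) B D).ports (ruleNet (rs ++ unlock acc rs) B D).beta s := by
  obtain ⟨g, hg, hRM⟩ := exists_ug acc rs D (h := (4, 0)) (Or.inr (Or.inr rfl))
  have harms := ur_arms acc _ rs D hRM
  refine Net.no_solution _ (ruleNet_OK _ B D hB hD) g (by rw [ruleNet_nG]; omega)
    (by rw [ruleNet_gt]; omega) (by rw [ruleNet_narm, hRM]; rfl) ?_ ?_ ?_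
    (fun _ => (0, 0, 0, 0)) (fun _ => (0, 0, 0, 0)) ?_ ?_ ?_
  · rw [ruleNet_hub, ruleNet_hub, harms.1, harms.2.1]
  · funext q
    rw [ruleNet_proj, ruleNet_proj, harms.1, harms.2.1]
  · rw [ruleNet_gt, gt_hub, ruleNet_hub, harms.2.2]
  · intro j
    rw [ruleNet_lett, hRM, mem_letters]
    split_ifs with h
    · rfl
    · exact ⟨by show 0 < B; omega, by show 0 < B; omega, by show 0 < B; omega, rfl⟩
    · exact absurd rfl ‹¬ _›
    · exact absurd rfl ‹¬ _›
    · exact absurd rfl ‹¬ _›
  · intro j
    rw [ruleNet_gt, ruleNet_lett, RM_gt, mem_letters]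
    split_ifs with h
    · rfl
    · exact ⟨by show 0 < B; omega, by show 0 < B; omega, by show 0 < B; omega, rfl⟩
    · exact absurd rfl ‹¬ _›
    · exact absurd rfl ‹¬ _›
    · exact absurd rfl ‹¬ _›
  · intro j
    rw [ruleNet_proj, ruleNet_proj, sel_zero', sel_zero', sel_zero', sel_zero']

end Crest.Agent.R290
end

-- ▼ part R290/Prog
section

/-!
# Row 290, module PROG: Horn rules of a flat program

* `rder_of_halts` : a halting run gives a Horn derivation of the halting fact.
* `closed_of_runsForever` : if the program never halts, the true facts are closed under the rules and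
  contain no halting fact.
* `progRules_hubs`.
-/

set_option autoImplicit false

namespace Crest.Agent.R290

open Function

namespace Prog

/-- stacks with creation times -/
abbrev XS : Type := ℕ → List (ℕ × Bool)

/-- configurations with creation times -/
structure XCfg : Type where
  /-- program counter -/
  pc : ℕ
  /-- stacks -/
  st : XS

/-- effect of one instruction at time `t` -/
def xexec (t : ℕ) (i : FInstr) (s : XS) : XCfg :=
  match i with
  | .push k b j => ⟨j, update s k ((t + 1, b) :: s k)⟩
  | .pop k e tt f =>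
      match s k with
      | [] => ⟨e, s⟩
      | (_, true) :: l => ⟨tt, update s k l⟩
      | (_, false) :: l => ⟨f, update s k l⟩

/-- run with creation times -/
def xrun (p : Flat) : ℕ → XCfg
  | 0 => ⟨0, fun _ => []⟩
  | t + 1 =>
      match p[(xrun p t).pc]? with
      | none => xrun p t
      | some i => xexec t i (xrun p t).st

theorem xrun_succ {p : Flat} {t : ℕ} {i : FInstr} (h : p[(xrun p t).pc]? = some i) :
    xrun p (t + 1) = xexec t i (xrun p t).st := by
  conv_lhs => unfold xrun
  rw [h]

theorem xrun_erase (p : Flat) (t : ℕ) :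
    (xrun p t).pc = (frun p t).pc ∧
      ∀ k, ((xrun p t).st k).map Prod.snd = (frun p t).st k := by
  induction t with
  | zero => exact ⟨rfl, fun k => rfl⟩
  | succ t ih =>
    obtain ⟨ih1, ih2⟩ := ih
    rw [frun_succ]
    cases hi : p[(xrun p t).pc]? with
    | none =>
      have h1 : xrun p (t + 1) = xrun p t := by
        conv_lhs => unfold xrun
        rw [hi]
      have h2 : fstep p (frun p t) = frun p t := by
        unfold fstep
        rw [← ih1, hi]
      rw [h1, h2]
      exact ⟨ih1, ih2⟩
    | some i =>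
      rw [xrun_succ hi, fstep_getElem (by rw [← ih1]; exact hi)]
      cases i with
      | push k b j =>
        refine ⟨rfl, fun k' => ?_⟩
        simp only [xexec, FInstr.exec]
        by_cases hk : k' = k
        · subst hk
          simp [ih2]
        · simp [hk, ih2]
      | pop k e tt f =>
        have hk := ih2 k
        simp only [xexec, FInstr.exec]
        cases hs : (xrun p t).st k with
        | nil =>
          rw [hs] at hk
          simp only [List.map_nil] at hk
          rw [← hk]
          exact ⟨rfl, ih2⟩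
        | cons a l =>
          obtain ⟨s, b⟩ := a
          rw [hs] at hk
          simp only [List.map_cons] at hk
          rw [← hk]
          cases b
          · refine ⟨rfl, fun k' => ?_⟩
            by_cases hk' : k' = k
            · subst hk'
              simp
            · simp [hk', ih2]
          · refine ⟨rfl, fun k' => ?_⟩
            by_cases hk' : k' = k
            · subst hk'
              simp
            · simp [hk', ih2]

/-- creation time of the top cell (`0` if empty) -/
def top : List (ℕ × Bool) → ℕ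
  | [] => 0
  | (s, _) :: _ => s

@[simp] theorem top_nil : top [] = 0 := rfl
@[simp] theorem top_cons (s : ℕ) (b : Bool) (l : List (ℕ × Bool)) : top ((s, b) :: l) = s := rfl

/-- every cell was created by a push, on top of what is below it now -/
def Good (p : Flat) : List (ℕ × Bool) → Prop
  | [] => True
  | (s, b) :: l =>
      (∃ t k j, s = t + 1 ∧ p[(xrun p t).pc]? = some (.push k b j) ∧
        top ((xrun p t).st k) = top l) ∧ Good p l

theorem good_xrun (p : Flat) (t k : ℕ) : Good p ((xrun p t).st k) := by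
  induction t generalizing k with
  | zero => exact trivial
  | succ t ih =>
    cases hi : p[(xrun p t).pc]? with
    | none =>
      have h1 : xrun p (t + 1) = xrun p t := by
        conv_lhs => unfold xrun
        rw [hi]
      rw [h1]
      exact ih k
    | some i =>
      rw [xrun_succ hi]
      cases i with
      | push k' b j =>
        simp only [xexec]
        by_cases hk : k = k'
        · subst hk
          rw [update_self]
          exact ⟨⟨t, k, j, rfl, hi, rfl⟩, ih k⟩
        · rw [update_of_ne hk]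
          exact ih k
      | pop k' e tt f =>
        simp only [xexec]
        cases hs : (xrun p t).st k' with
        | nil => exact ih k
        | cons a l =>
          obtain ⟨s, b⟩ := a
          have hl : Good p l := by
            have := ih k'
            rw [hs] at this
            exact this.2
          cases b
          · by_cases hk : k = k'
            · subst hk
              simpa using hl
            · simpa [hk] using ih k
          · by_cases hk : k = k'
            · subst hk
              simpa using hl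
            · simpa [hk] using ih k

/-! ### the true facts -/

/-- true facts -/
def Tr (p : Flat) : Hub → ℕ → ℕ → Prop
  | (0, i), a, c => c = 0 ∧ min (xrun p a).pc p.length = i
  | (1, k), a, c => top ((xrun p a).st k) = c
  | (2, b), a, c => c = 0 ∧ ∃ t k b' j, a = t + 1 ∧ p[(xrun p t).pc]? = some (.push k b' j) ∧
      b'.toNat = b
  | (3, _), a, c => ∃ t k b' j, a = t + 1 ∧ p[(xrun p t).pc]? = some (.push k b' j) ∧
      top ((xrun p t).st k) = c
  | _, _, _ => False

theorem mem_persist {Ks i k : ℕ} {r : Rule} (h : r ∈ persist Ks i k) :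
    ∃ k', k' < Ks ∧ k' ≠ k ∧ r = ([((0, i), 1, 0), ((1, k'), 1, 3)], ((1, k'), 2, 3)) := by
  unfold persist at h
  obtain ⟨k', hk', rfl⟩ := List.mem_map.1 h
  obtain ⟨h1, h2⟩ := List.mem_filter.1 hk'
  exact ⟨k', List.mem_range.1 h1, of_decide_eq_true h2, rfl⟩

end Prog

theorem progRules_hubs (p : Flat) (Ks : ℕ) :
    ∀ r ∈ progRules p Ks, r.2.1 ≠ (4, 0) ∧ ∀ a ∈ r.1, a.1 ≠ (4, 0) := by
  intro r hr
  unfold progRules at hr
  rcases List.mem_append.1 hr with hr | hr
  · rcases List.mem_append.1 hr with hr | hr
    · rw [List.mem_singleton] at hr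
      subst hr
      simp
    · obtain ⟨k, hk, rfl⟩ := List.mem_map.1 hr
      simp
  · obtain ⟨ci, hci, hr⟩ := List.mem_flatMap.1 hr
    obtain ⟨c, i⟩ := ci
    cases c with
    | push k b j =>
      simp only [instrRules] at hr
      rcases List.mem_append.1 hr with hr | hr
      · simp only [List.mem_cons, List.not_mem_nil, or_false] at hr
        rcases hr with rfl | rfl | rfl | rfl <;> simp
      · obtain ⟨k', -, -, rfl⟩ := Prog.mem_persist hr
        simp
    | pop k e t f =>
      simp only [instrRules] at hr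
      rcases List.mem_append.1 hr with hr | hr
      · simp only [List.mem_cons, List.not_mem_nil, or_false] at hr
        rcases hr with rfl | rfl | rfl | rfl | rfl <;> simp
      · obtain ⟨k', -, -, rfl⟩ := Prog.mem_persist hr
        simp

theorem closed_of_runsForever (p : Flat) (Ks : ℕ) (_hp : WF p Ks) (h : RunsForever p) (M : ℕ) :
    ∃ Tr, HornClosed (progRules p Ks) M Tr ∧ ∀ t, ¬ Tr (0, p.length) t 0 := by
  have hpc : ∀ t, (Prog.xrun p t).pc < p.length := by
    intro t
    have := h t
    unfold FHalts at this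
    rw [(Prog.xrun_erase p t).1]
    omega
  refine ⟨Prog.Tr p, ?_, ?_⟩
  swap
  · intro t ht
    have h1 : min (Prog.xrun p t).pc p.length = p.length := ht.2
    have := hpc t
    omega
  intro r hr t s s' _ _ _ _ hprem
  unfold progRules at hr
  rcases List.mem_append.1 hr with hr | hr
  · rcases List.mem_append.1 hr with hr | hr
    · rw [List.mem_singleton] at hr
      subst hr
      exact ⟨rfl, by simp [sel, Prog.xrun]⟩
    · obtain ⟨k, hk, rfl⟩ := List.mem_map.1 hr
      show Prog.top ((Prog.xrun p _).st k) = _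
      simp [sel, Prog.xrun]
  · obtain ⟨ci, hci, hr⟩ := List.mem_flatMap.1 hr
    obtain ⟨c, i⟩ := ci
    have hci' : p[i]? = some c := by
      have := List.mem_zipIdx_iff_getElem?.1 hci
      exact this
    have hil : i < p.length := by
      by_contra hcon
      rw [List.getElem?_eq_none (by omega)] at hci'
      simp at hci'
    -- the state premise
    have hSt : ∀ {t : ℕ}, Prog.Tr p (0, i) t 0 → (Prog.xrun p t).pc = i := by
      intro t ht
      have h1 : min (Prog.xrun p t).pc p.length = i := ht.2
      have := hpc t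
      omega
    cases c with
    | push k b j =>
      simp only [instrRules] at hr
      have key : Prog.Tr p (0, i) t 0 → Prog.xrun p (t + 1) =
          ⟨j, update (Prog.xrun p t).st k ((t + 1, b) :: (Prog.xrun p t).st k)⟩ := by
        intro ht
        have h1 := hSt ht
        rw [Prog.xrun_succ (i := .push k b j) (by rw [h1]; exact hci')]
        rfl
      have key2 : Prog.Tr p (0, i) t 0 → p[(Prog.xrun p t).pc]? = some (.push k b j) := by
        intro ht
        rw [hSt ht]
        exact hci'
      rcases List.mem_append.1 hr with hr | hr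
      · simp only [List.mem_cons, List.not_mem_nil, or_false] at hr
        rcases hr with rfl | rfl | rfl | rfl
        · have h1 := hprem _ (List.mem_cons_self ..)
          simp only [Rule.usesT, Atom.usesT, sel] at h1 ⊢
          simp at h1 ⊢
          refine ⟨rfl, ?_⟩
          rw [key h1]
        · have h1 := hprem _ (List.mem_cons_self ..)
          simp only [Rule.usesT, Atom.usesT, sel] at h1 ⊢
          simp at h1 ⊢
          show Prog.top ((Prog.xrun p (t + 1)).st k) = t + 1
          rw [key h1]
          simp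
        · have h1 := hprem _ (List.mem_cons_self ..)
          have h2 := hprem _ (List.mem_cons_of_mem _ (List.mem_cons_self ..))
          simp only [Rule.usesT, Atom.usesT, sel] at h1 h2 ⊢
          simp at h1 h2 ⊢
          exact ⟨t, k, b, j, rfl, key2 h1, h2⟩
        · have h1 := hprem _ (List.mem_cons_self ..)
          simp only [Rule.usesT, Atom.usesT, sel] at h1 ⊢
          simp at h1 ⊢
          exact ⟨rfl, t, k, b, j, rfl, key2 h1, rfl⟩
      · obtain ⟨k', -, hk', rfl⟩ := Prog.mem_persist hr
        have h1 := hprem _ (List.mem_cons_self ..)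
        have h2 := hprem _ (List.mem_cons_of_mem _ (List.mem_cons_self ..))
        simp only [Rule.usesT, Atom.usesT, sel] at h1 h2 ⊢
        simp at h1 h2 ⊢
        show Prog.top ((Prog.xrun p (t + 1)).st k') = s
        rw [key h1]
        simp only [update_of_ne hk']
        exact h2
    | pop k e tt f =>
      simp only [instrRules] at hr
      have key : Prog.Tr p (0, i) t 0 → Prog.xrun p (t + 1) =
          Prog.xexec t (.pop k e tt f) (Prog.xrun p t).st := by
        intro ht
        have h1 := hSt ht
        rw [Prog.xrun_succ (i := .pop k e tt f) (by rw [h1]; exact hci')]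
      have keyk : ∀ k' ≠ k, Prog.Tr p (0, i) t 0 →
          (Prog.xrun p (t + 1)).st k' = (Prog.xrun p t).st k' := by
        intro k' hk' ht
        rw [key ht]
        simp only [Prog.xexec]
        cases hs : (Prog.xrun p t).st k with
        | nil => rfl
        | cons a l =>
          obtain ⟨s, b⟩ := a
          cases b <;> simp [hk']
      have hgood := Prog.good_xrun p t k
      -- empty stack
      have hemp : Prog.Tr p (1, k) t 0 → (Prog.xrun p t).st k = [] := by
        intro h2
        have h2' : Prog.top ((Prog.xrun p t).st k) = 0 := h2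
        cases hs : (Prog.xrun p t).st k with
        | nil => rfl
        | cons a l =>
          obtain ⟨s, b⟩ := a
          rw [hs] at h2' hgood
          obtain ⟨⟨t0, k0, j0, h3, -, -⟩, -⟩ := hgood
          simp only [Prog.top_cons] at h2'
          omega
      -- nonempty stack
      have hcell : Prog.Tr p (1, k) t s → s ≠ 0 → ∃ b l, (Prog.xrun p t).st k = (s, b) :: l ∧
          ∃ t0 k0 j0, s = t0 + 1 ∧ p[(Prog.xrun p t0).pc]? = some (.push k0 b j0) ∧
            Prog.top ((Prog.xrun p t0).st k0) = Prog.top l := by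
        intro h2 hs0
        have h2' : Prog.top ((Prog.xrun p t).st k) = s := h2
        cases hs : (Prog.xrun p t).st k with
        | nil =>
          rw [hs] at h2'
          simp only [Prog.top_nil] at h2'
          omega
        | cons a l =>
          obtain ⟨s1, b⟩ := a
          rw [hs] at h2' hgood
          simp only [Prog.top_cons] at h2'
          subst h2'
          exact ⟨b, l, rfl, hgood.1⟩
      rcases List.mem_append.1 hr with hr | hr
      · simp only [List.mem_cons, List.not_mem_nil, or_false] at hr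
        rcases hr with rfl | rfl | rfl | rfl | rfl
        · have h1 := hprem _ (List.mem_cons_self ..)
          have h2 := hprem _ (List.mem_cons_of_mem _ (List.mem_cons_self ..))
          simp only [Rule.usesT, Atom.usesT, sel] at h1 h2 ⊢
          simp at h1 h2 ⊢
          refine ⟨rfl, ?_⟩
          rw [key h1]
          simp only [Prog.xexec, hemp h2]
        · have h1 := hprem _ (List.mem_cons_self ..)
          have h2 := hprem _ (List.mem_cons_of_mem _ (List.mem_cons_self ..))
          simp only [Rule.usesT, Atom.usesT, sel] at h1 h2 ⊢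
          simp at h1 h2 ⊢
          show Prog.top ((Prog.xrun p (t + 1)).st k) = 0
          rw [key h1]
          simp only [Prog.xexec, hemp h2, Prog.top_nil]
        · have h1 := hprem _ (List.mem_cons_self ..)
          have h2 := hprem _ (List.mem_cons_of_mem _ (List.mem_cons_self ..))
          have h3 := hprem _ (List.mem_cons_of_mem _ (List.mem_cons_of_mem _
            (List.mem_cons_self ..)))
          simp only [Rule.usesT, Atom.usesT, sel] at h1 h2 h3 ⊢
          simp at h1 h2 h3 ⊢
          obtain ⟨-, t1, k1, b1, j1, h4, h5, h6⟩ := h3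
          obtain ⟨b, l, h7, t0, k0, j0, h8, h9, h10⟩ := hcell h2 (by omega)
          have ht01 : t1 = t0 := by omega
          subst ht01
          rw [h5] at h9
          simp only [Option.some.injEq, FInstr.push.injEq] at h9
          have hb : b = true := by
            rw [← h9.2.1]
            cases b1
            · simp at h6
            · rfl
          subst hb
          refine ⟨rfl, ?_⟩
          rw [key h1]
          simp only [Prog.xexec, h7]
        · have h1 := hprem _ (List.mem_cons_self ..)
          have h2 := hprem _ (List.mem_cons_of_mem _ (List.mem_cons_self ..))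
          have h3 := hprem _ (List.mem_cons_of_mem _ (List.mem_cons_of_mem _
            (List.mem_cons_self ..)))
          simp only [Rule.usesT, Atom.usesT, sel] at h1 h2 h3 ⊢
          simp at h1 h2 h3 ⊢
          obtain ⟨-, t1, k1, b1, j1, h4, h5, h6⟩ := h3
          obtain ⟨b, l, h7, t0, k0, j0, h8, h9, h10⟩ := hcell h2 (by omega)
          have ht01 : t1 = t0 := by omega
          subst ht01
          rw [h5] at h9
          simp only [Option.some.injEq, FInstr.push.injEq] at h9
          have hb : b = false := by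
            rw [← h9.2.1]
            cases b1
            · rfl
            · simp at h6
          subst hb
          refine ⟨rfl, ?_⟩
          rw [key h1]
          simp only [Prog.xexec, h7]
        · have h1 := hprem _ (List.mem_cons_self ..)
          have h2 := hprem _ (List.mem_cons_of_mem _ (List.mem_cons_self ..))
          have h3 := hprem _ (List.mem_cons_of_mem _ (List.mem_cons_of_mem _
            (List.mem_cons_self ..)))
          simp only [Rule.usesT, Atom.usesT, sel] at h1 h2 h3 ⊢
          simp at h1 h2 h3 ⊢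
          obtain ⟨t1, k1, b1, j1, h4, h5, h6⟩ := h3
          obtain ⟨b, l, h7, t0, k0, j0, h8, h9, h10⟩ := hcell h2 (by omega)
          have ht01 : t1 = t0 := by omega
          subst ht01
          rw [h5] at h9
          simp only [Option.some.injEq, FInstr.push.injEq] at h9
          obtain ⟨hk1, hb1, -⟩ := h9
          subst hk1
          show Prog.top ((Prog.xrun p (t + 1)).st k) = s'
          rw [key h1]
          have : Prog.top l = s' := by rw [← h10, h6]
          cases b <;> simp [Prog.xexec, h7, this]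
      · obtain ⟨k', -, hk', rfl⟩ := Prog.mem_persist hr
        have h1 := hprem _ (List.mem_cons_self ..)
        have h2 := hprem _ (List.mem_cons_of_mem _ (List.mem_cons_self ..))
        simp only [Rule.usesT, Atom.usesT, sel] at h1 h2 ⊢
        simp at h1 h2 ⊢
        show Prog.top ((Prog.xrun p (t + 1)).st k') = s
        rw [keyk k' hk' h1]
        exact h2

namespace Prog

theorem RDer.step {rs : List Rule} {M : ℕ} (r : Rule) (t s s' : ℕ) (hr : r ∈ rs)
    (hu : Rule.usesT r = true) (ht : t + 1 < M) (hs : s < M) (hs' : s' < M)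
    (h : ∀ a ∈ r.1, RDer rs M a.1 (sel a.2.1 (t, t + 1, s, s')) (sel a.2.2 (t, t + 1, s, s'))) :
    RDer rs M r.2.1 (sel r.2.2.1 (t, t + 1, s, s')) (sel r.2.2.2 (t, t + 1, s, s')) := by
  have := RDer.mk (rs := rs) (M := M) r t s s' hr (by omega) hs hs' (fun _ => ht)
    (by rw [if_pos hu]; exact h)
  rw [if_pos hu] at this
  exact this

/-- the cells of a stack are derived -/
def DGood (rs : List Rule) (M : ℕ) : List (ℕ × Bool) → Prop
  | [] => True
  | (s, b) :: l => s < M ∧ RDer rs M (2, b.toNat) s 0 ∧ RDer rs M (3, 0) s (top l) ∧ DGood rs M l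

theorem DGood.top_lt {rs : List Rule} {M : ℕ} (hM : 0 < M) {l : List (ℕ × Bool)}
    (h : DGood rs M l) : top l < M := by
  cases l with
  | nil => exact hM
  | cons a l =>
    obtain ⟨s, b⟩ := a
    exact h.1

theorem mem_progRules {p : Flat} {Ks i : ℕ} {c : FInstr} {r : Rule} (hi : p[i]? = some c)
    (hr : r ∈ instrRules Ks p.length i c) : r ∈ progRules p Ks := by
  unfold progRules
  refine List.mem_append_right _ (List.mem_flatMap.2 ⟨(c, i), ?_, hr⟩)
  exact List.mem_zipIdx_iff_getElem?.2 hi

theorem mem_persist' {Ks i k k' : ℕ} (h1 : k' < Ks) (h2 : k' ≠ k) :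
    (([((0, i), 1, 0), ((1, k'), 1, 3)], ((1, k'), 2, 3)) : Rule) ∈ persist Ks i k := by
  unfold persist
  refine List.mem_map.2 ⟨k', List.mem_filter.2 ⟨List.mem_range.2 h1, decide_eq_true h2⟩, rfl⟩

/-- all facts about the configuration at time `t` are derived -/
structure DAt (p : Flat) (Ks M t : ℕ) : Prop where
  st : RDer (progRules p Ks) M (0, min (xrun p t).pc p.length) t 0
  top : ∀ k < Ks, RDer (progRules p Ks) M (1, k) t (top ((xrun p t).st k))
  good : ∀ k, DGood (progRules p Ks) M ((xrun p t).st k)

theorem dat_zero (p : Flat) (Ks M : ℕ) (hM : 0 < M) : DAt p Ks M 0 := by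
  refine ⟨?_, ?_, fun k => trivial⟩
  · have h := RDer.mk (rs := progRules p Ks) (M := M) ([], ((0, 0), 0, 0)) 0 0 0
      (by unfold progRules; simp) hM hM hM (by simp [Rule.usesT, Atom.usesT]) (by simp)
    simpa [sel, xrun] using h
  · intro k hk
    have h := RDer.mk (rs := progRules p Ks) (M := M) ([], ((1, k), 0, 0)) 0 0 0
      (by
        unfold progRules
        refine List.mem_append_left _ (List.mem_append_right _ ?_)
        exact List.mem_map.2 ⟨k, List.mem_range.2 hk, rfl⟩) hM hM hM
      (by simp [Rule.usesT, Atom.usesT]) (by simp)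
    simpa [sel, xrun] using h

theorem dat_succ (p : Flat) (Ks : ℕ) (hp : WF p Ks) (M t : ℕ) (ht : t + 1 < M)
    (hpc : (xrun p t).pc < p.length) (h : DAt p Ks M t) : DAt p Ks M (t + 1) := by
  obtain ⟨c, hc⟩ : ∃ c, p[(xrun p t).pc]? = some c := ⟨_, List.getElem?_eq_getElem hpc⟩
  have hM : 0 < M := by omega
  have hst : RDer (progRules p Ks) M (0, (xrun p t).pc) t 0 := by
    have := h.st
    rwa [min_eq_left hpc.le] at this
  have hcp : c ∈ p := List.mem_of_getElem? hc
  have hpers : ∀ k k', k' < Ks → k' ≠ k → persist Ks (xrun p t).pc k ⊆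
      progRules p Ks → RDer (progRules p Ks) M (1, k') (t + 1) (Prog.top ((xrun p t).st k')) := by
    intro k k' hk1 hk2 hsub
    have := RDer.step (rs := progRules p Ks) (M := M)
      ([((0, (xrun p t).pc), 1, 0), ((1, k'), 1, 3)], ((1, k'), 2, 3)) t
      (Prog.top ((xrun p t).st k')) 0 (hsub (mem_persist' hk1 hk2)) rfl ht
      ((h.good k').top_lt hM) hM (by
        intro a ha
        simp only [List.mem_cons, List.not_mem_nil, or_false] at ha
        rcases ha with rfl | rfl
        · exact hst
        · exact h.top k' hk1)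
    exact this
  cases c with
  | push k b j =>
    have hk : k < Ks := hp _ hcp
    have hx : xrun p (t + 1) = ⟨j, update (xrun p t).st k ((t + 1, b) :: (xrun p t).st k)⟩ := by
      rw [xrun_succ hc]
      rfl
    have hmem : ∀ r, r ∈ instrRules Ks p.length (xrun p t).pc (.push k b j) →
        r ∈ progRules p Ks := fun r hr => mem_progRules hc hr
    have hsub : persist Ks (xrun p t).pc k ⊆ progRules p Ks := by
      intro r hr
      exact hmem r (by simp only [instrRules]; exact List.mem_append_right _ hr)
    refine ⟨?_, ?_, ?_⟩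
    · rw [hx]
      exact RDer.step (rs := progRules p Ks) (M := M)
        ([((0, (xrun p t).pc), 1, 0)], ((0, min j p.length), 2, 0)) t 0 0
        (hmem _ (by simp [instrRules])) rfl ht hM hM (by
          intro a ha
          simp only [List.mem_cons, List.not_mem_nil, or_false] at ha
          subst ha
          exact hst)
    · intro k' hk'
      rw [hx]
      by_cases hkk : k' = k
      · subst hkk
        have := RDer.step (rs := progRules p Ks) (M := M)
          ([((0, (xrun p t).pc), 1, 0)], ((1, k'), 2, 2)) t 0 0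
          (hmem _ (by simp [instrRules])) rfl ht hM hM (by
            intro a ha
            simp only [List.mem_cons, List.not_mem_nil, or_false] at ha
            subst ha
            exact hst)
        simpa [sel] using this
      · simp only [update_of_ne hkk]
        exact hpers k k' hk' hkk hsub
    · intro k'
      rw [hx]
      by_cases hkk : k' = k
      · subst hkk
        simp only [update_self]
        refine ⟨ht, ?_, ?_, h.good k'⟩
        · exact RDer.step (rs := progRules p Ks) (M := M)
            ([((0, (xrun p t).pc), 1, 0)], ((2, b.toNat), 2, 0)) t 0 0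
            (hmem _ (by simp [instrRules])) rfl ht hM hM (by
              intro a ha
              simp only [List.mem_cons, List.not_mem_nil, or_false] at ha
              subst ha
              exact hst)
        · exact RDer.step (rs := progRules p Ks) (M := M)
            ([((0, (xrun p t).pc), 1, 0), ((1, k'), 1, 3)], ((3, 0), 2, 3)) t
            (Prog.top ((xrun p t).st k')) 0
            (hmem _ (by simp [instrRules])) rfl ht ((h.good k').top_lt hM) hM (by
              intro a ha
              simp only [List.mem_cons, List.not_mem_nil, or_false] at ha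
              rcases ha with rfl | rfl
              · exact hst
              · exact h.top k' hk)
      · simp only [update_of_ne hkk]
        exact h.good k'
  | pop k e tt f =>
    have hk : k < Ks := hp _ hcp
    have hmem : ∀ r, r ∈ instrRules Ks p.length (xrun p t).pc (.pop k e tt f) →
        r ∈ progRules p Ks := fun r hr => mem_progRules hc hr
    have hsub : persist Ks (xrun p t).pc k ⊆ progRules p Ks := by
      intro r hr
      exact hmem r (by simp only [instrRules]; exact List.mem_append_right _ hr)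
    have htop := h.top k hk
    cases hs : (xrun p t).st k with
    | nil =>
      rw [hs] at htop
      have hx : xrun p (t + 1) = ⟨e, (xrun p t).st⟩ := by
        rw [xrun_succ hc]
        simp only [xexec, hs]
      refine ⟨?_, ?_, ?_⟩
      · rw [hx]
        exact RDer.step (rs := progRules p Ks) (M := M)
          ([((0, (xrun p t).pc), 1, 0), ((1, k), 1, 0)], ((0, min e p.length), 2, 0)) t 0 0
          (hmem _ (by simp [instrRules])) rfl ht hM hM (by
            intro a ha
            simp only [List.mem_cons, List.not_mem_nil, or_false] at ha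
            rcases ha with rfl | rfl
            · exact hst
            · exact htop)
      · intro k' hk'
        rw [hx]
        by_cases hkk : k' = k
        · subst hkk
          have := RDer.step (rs := progRules p Ks) (M := M)
            ([((0, (xrun p t).pc), 1, 0), ((1, k'), 1, 0)], ((1, k'), 2, 0)) t 0 0
            (hmem _ (by simp [instrRules])) rfl ht hM hM (by
              intro a ha
              simp only [List.mem_cons, List.not_mem_nil, or_false] at ha
              rcases ha with rfl | rfl
              · exact hst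
              · exact htop)
          simpa [sel, hs] using this
        · exact hpers k k' hk' hkk hsub
      · intro k'
        rw [hx]
        exact h.good k'
    | cons a l =>
      obtain ⟨s, b⟩ := a
      rw [hs] at htop
      have hg := h.good k
      rw [hs] at hg
      obtain ⟨hsM, hsym, hnxt, hgl⟩ := hg
      have hx : xrun p (t + 1) = ⟨if b then tt else f, update (xrun p t).st k l⟩ := by
        rw [xrun_succ hc]
        cases b <;> simp [xexec, hs]
      refine ⟨?_, ?_, ?_⟩
      · rw [hx]
        cases b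
        · exact RDer.step (rs := progRules p Ks) (M := M)
            ([((0, (xrun p t).pc), 1, 0), ((1, k), 1, 3), ((2, 0), 3, 0)],
              ((0, min f p.length), 2, 0)) t s 0
            (hmem _ (by simp [instrRules])) rfl ht hsM hM (by
              intro a ha
              simp only [List.mem_cons, List.not_mem_nil, or_false] at ha
              rcases ha with rfl | rfl | rfl
              · exact hst
              · exact htop
              · exact hsym)
        · exact RDer.step (rs := progRules p Ks) (M := M)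
            ([((0, (xrun p t).pc), 1, 0), ((1, k), 1, 3), ((2, 1), 3, 0)],
              ((0, min tt p.length), 2, 0)) t s 0
            (hmem _ (by simp [instrRules])) rfl ht hsM hM (by
              intro a ha
              simp only [List.mem_cons, List.not_mem_nil, or_false] at ha
              rcases ha with rfl | rfl | rfl
              · exact hst
              · exact htop
              · exact hsym)
      · intro k' hk'
        rw [hx]
        by_cases hkk : k' = k
        · subst hkk
          have := RDer.step (rs := progRules p Ks) (M := M)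
            ([((0, (xrun p t).pc), 1, 0), ((1, k'), 1, 3), ((3, 0), 3, 4)], ((1, k'), 2, 4)) t s
            (Prog.top l) (hmem _ (by simp [instrRules])) rfl ht hsM (hgl.top_lt hM) (by
              intro a ha
              simp only [List.mem_cons, List.not_mem_nil, or_false] at ha
              rcases ha with rfl | rfl | rfl
              · exact hst
              · exact htop
              · exact hnxt)
          simpa [sel] using this
        · simp only [update_of_ne hkk]
          exact hpers k k' hk' hkk hsub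
      · intro k'
        rw [hx]
        by_cases hkk : k' = k
        · subst hkk
          simpa using hgl
        · simp only [update_of_ne hkk]
          exact h.good k'

end Prog

theorem rder_of_halts (p : Flat) (Ks : ℕ) (hp : WF p Ks) (M n : ℕ) (hn : n < M)
    (h : FHalts p n) : ∃ t < M, RDer (progRules p Ks) M (0, p.length) t 0 := by
  classical
  have hex : ∃ T, FHalts p T := ⟨n, h⟩
  have hT : FHalts p (Nat.find hex) := Nat.find_spec hex
  have hTn : Nat.find hex ≤ n := Nat.find_min' hex h
  have hmin : ∀ t < Nat.find hex, (Prog.xrun p t).pc < p.length := by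
    intro t ht
    have := Nat.find_min hex ht
    unfold FHalts at this
    rw [(Prog.xrun_erase p t).1]
    omega
  have hind : ∀ t, t ≤ Nat.find hex → Prog.DAt p Ks M t := by
    intro t
    induction t with
    | zero => intro _; exact Prog.dat_zero p Ks M (by omega)
    | succ t ih =>
      intro ht
      exact Prog.dat_succ p Ks hp M t (by omega) (hmin t (by omega)) (ih (by omega))
  refine ⟨Nat.find hex, by omega, ?_⟩
  have h1 := (hind _ le_rfl).st
  have h2 : p.length ≤ (Prog.xrun p (Nat.find hex)).pc := by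
    rw [(Prog.xrun_erase p _).1]
    exact hT
  rwa [min_eq_right h2] at h1

end Crest.Agent.R290
private theorem rz_f04af28eeb : type_of% @_root_.Crest.Agent.R290.Prog.xexec.eq_1 := @_root_.Crest.Agent.R290.Prog.xexec.eq_1 -- L31
private theorem rz_7c9cc12abb : type_of% @_root_.Crest.Agent.R290.Prog.xrun.eq_def := @_root_.Crest.Agent.R290.Prog.xrun.eq_def -- L41
private theorem rz_fea43175bd : type_of% @_root_.Crest.Agent.R290.Prog.xrun.eq_1 := @_root_.Crest.Agent.R290.Prog.xrun.eq_1 -- L41
end

-- ▼ part R290/Core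

/-!
# Row 290: assembly of the combinatorial part, anchor encoding (`coreA`).
-/

set_option autoImplicit false

namespace Crest.Agent.R290

open Crest.WLRefine
open Crest.Agent.R290.WL (PEquiv)

/-- transport of a matrix along an equality of orders -/
def castG {k n : ℕ} (h : k = n) (G : Fin k → Fin k → Bool) : Fin n → Fin n → Bool :=
  fun i j => G (Fin.cast h.symm i) (Fin.cast h.symm j)


theorem castG_code {k n : ℕ} (h : k = n) (G : Fin k → Fin k → Bool) :
    adjMatrixCode (castG h G) = adjMatrixCode G := by subst h; rfl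

theorem castG_diam {k n : ℕ} (h : k = n) (G : Fin k → Fin k → Bool)
    (hG : SimpleConnDiamTwo G) : SimpleConnDiamTwo (castG h G) := by subst h; exact hG

theorem castG_sub {k n : ℕ} (h : k = n) (G : Fin k → Fin k → Bool)
    (hG : SimpleConnSubcubic G) : SimpleConnSubcubic (castG h G) := by subst h; exact hG

theorem castG_pequiv {k n k' n' K : ℕ} (h : k = n) (h' : k' = n') (G : Fin k → Fin k → Bool)
    (G' : Fin k' → Fin k' → Bool) :
    PEquiv K (castG h G) (castG h' G') ↔ PEquiv K G G' := by subst h; subst h'; exact Iff.rfl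

theorem castG_pequiv_right {k k' n' K : ℕ} (h' : k' = n') (G : Fin k → Fin k → Bool)
    (G' : Fin k' → Fin k' → Bool) :
    PEquiv K G (castG h' G') ↔ PEquiv K G G' := by subst h'; exact Iff.rfl

theorem castG_iso {k n k' n' : ℕ} (h : k = n) (h' : k' = n') (G : Fin k → Fin k → Bool)
    (G' : Fin k' → Fin k' → Bool) :
    AdjIso (castG h G) (castG h' G') ↔ AdjIso G G' := by subst h; subst h'; exact Iff.rfl

theorem castG_ident {k n K : ℕ} (h : k = n) (G : Fin k → Fin k → Bool) :
    Identifies K (castG h G) ↔ Identifies K G := by subst h; exact Iff.rfl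

theorem AdjIso.trans' {n m l : ℕ} {A : Fin n → Fin n → Bool} {B : Fin m → Fin m → Bool}
    {C : Fin l → Fin l → Bool} (h : AdjIso A B) (h' : AdjIso B C) : AdjIso A C := by
  obtain ⟨e, he⟩ := h
  obtain ⟨f, hf⟩ := h'
  exact ⟨e.trans f, fun v w => by rw [Equiv.trans_apply, Equiv.trans_apply, hf, he]⟩

theorem AdjIso.symm' {n m : ℕ} {A : Fin n → Fin n → Bool} {B : Fin m → Fin m → Bool}
    (h : AdjIso A B) : AdjIso B A := by
  obtain ⟨e, he⟩ := h
  exact ⟨e.symm, fun v w => by rw [← he, Equiv.apply_symm_apply, Equiv.apply_symm_apply]⟩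

section

variable (p : Flat) (Ks B D : ℕ)

theorem progNet_OK (hB : 2 ≤ B) (hD : 1 ≤ D) : (progNet p Ks B D).OK := ruleNet_OK _ B D hB hD

theorem progXI_OK (hB : 2 ≤ B) (hD : 1 ≤ D) : (progXI p Ks B D).OK :=
  Net.xi_OK _ (progNet_OK p Ks B D hB hD)

/-- halting case: no shift system for the twist -/
theorem prog_not_shiftEquiv (hp : WF p Ks) (hB : 2 ≤ B) (hD : 1 ≤ D)
    (h : ∃ t < B ^ D, FHalts p t) :
    ¬ ShiftEquiv (progXI p Ks B D).objs (progXI p Ks B D).ports (progNet p Ks B D).beta (D + 2) := by
  obtain ⟨t, ht, hh⟩ := h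
  obtain ⟨t', ht', hd⟩ := rder_of_halts p Ks hp (B ^ D) t ht hh
  obtain ⟨x, hx, hder⟩ := ruleNet_der_tgt (progRules p Ks) B D hB hD (0, p.length) t' ht' hd
  exact Net.not_shiftEquiv_of_der _ (progNet_OK p Ks B D hB hD) x hx hder

/-- halting case: every consistent parity function is a coboundary -/
theorem prog_solution (hp : WF p Ks) (hB : 2 ≤ B) (hD : 1 ≤ D)
    (h : ∃ t < B ^ D, FHalts p t) (b : NObj Let → Bool)
    (hb : ShiftEquiv (progXI p Ks B D).objs (progXI p Ks B D).ports b (D + 2)) :
    ∃ s, IsSol (progXI p Ks B D).objs (progXI p Ks B D).ports b s := by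
  obtain ⟨t, ht, hh⟩ := h
  obtain ⟨t', ht', hd⟩ := rder_of_halts p Ks hp (B ^ D) t ht hh
  obtain ⟨ug, lift, hu⟩ := ruleNet_unlocked (progRules p Ks) B D hB hD (0, p.length) t' ht' hd
  exact Net.solution_of_unlocked _ (progNet_OK p Ks B D hB hD) hu b hb

/-- running case: a shift system for the twist -/
theorem prog_shiftEquiv (hp : WF p Ks) (hB : 2 ≤ B) (hD : 1 ≤ D) (h : RunsForever p) :
    ShiftEquiv (progXI p Ks B D).objs (progXI p Ks B D).ports (progNet p Ks B D).beta (D + 2) := by
  obtain ⟨Tr, hTr, hno⟩ := closed_of_runsForever p Ks hp h (B ^ D)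
  obtain ⟨Kn, val, hcl⟩ := ruleNet_closed (progRules p Ks) B D hB hD (0, p.length)
    (by simp) (progRules_hubs p Ks) Tr hTr hno
  exact Net.shiftEquiv_of_closed _ (progNet_OK p Ks B D hB hD) hcl

theorem prog_no_solution (hB : 2 ≤ B) (hD : 1 ≤ D) :
    ¬ ∃ s, IsSol (progXI p Ks B D).objs (progXI p Ks B D).ports (progNet p Ks B D).beta s :=
  ruleNet_no_solution (progRules p Ks) B D hB hD (0, p.length)

end

/-- isomorphic lifts have a global solution -/
theorem solution_of_encA_iso {O X : Type} [DecidableEq O] [DecidableEq X] (I : XI O X) (hI : I.OK)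
    (D : ℕ) (hD : (encA I 0).order (fun _ => false) + 2 ≤ D) (b : O → Bool)
    (h : AdjIso ((encA I D).mat fun _ => false) ((encA I D).mat (bA b))) :
    ∃ s : X → Bool, IsSol I.objs I.ports b s :=
  sol_of_adjIso_of_shift hI.ports_nodup
    (fun K hK hP => shift_of_encA_pequiv I hI D hD b K hK hP) h

theorem coreA (p : Flat) (Ks B D pad : ℕ) (hp : WF p Ks) (hB : 2 ≤ B) (hD : 1 ≤ D)
    (hpad : baseOrder p Ks B D + 2 ≤ pad) :
    ∃ (n : ℕ) (G0 G1 : Fin n → Fin n → Bool), n = baseOrder p Ks B D + pad ∧
      SimpleConnDiamTwo G0 ∧ SimpleConnDiamTwo G1 ∧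
      adjMatrixCode G0 = graphA p Ks B D pad false ∧ adjMatrixCode G1 = graphA p Ks B D pad true ∧
      ((∃ t < B ^ D, FHalts p t) →
        ¬ JEquiv (D + 1) G0 G1 ∧ ¬ SEquiv (D + 2) G0 G1 ∧ Identifies (D + 1) G0) ∧
      (RunsForever p → JEquiv (D + 1) G0 G1 ∧ SEquiv (D + 2) G0 G1 ∧
        ∀ k', 1 ≤ k' → k' ≤ D + 1 → ¬ Identifies k' G0) := by
  have hI := progXI_OK p Ks B D hB hD
  have h0 : (encA (progXI p Ks B D) pad).order (fun _ => false) = baseOrder p Ks B D + pad := by
    have := encA_order (progXI p Ks B D) hI pad (fun _ => false)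
    rw [bA_false] at this
    exact this
  have h1 : (encA (progXI p Ks B D) pad).order (bA (progNet p Ks B D).beta) =
      baseOrder p Ks B D + pad := encA_order (progXI p Ks B D) hI pad _
  have hG0 : SimpleConnDiamTwo ((encA (progXI p Ks B D) pad).mat fun _ => false) := by
    have := encA_simple (progXI p Ks B D) hI pad (fun _ => false)
    rwa [bA_false] at this
  have hG1 := encA_simple (progXI p Ks B D) hI pad (progNet p Ks B D).beta
  refine ⟨_, castG h0 ((encA (progXI p Ks B D) pad).mat fun _ => false),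
    castG h1 ((encA (progXI p Ks B D) pad).mat (bA (progNet p Ks B D).beta)), rfl,
    castG_diam h0 _ hG0, castG_diam h1 _ hG1, ?_, ?_, ?_, ?_⟩
  · rw [castG_code, AG.adjMatrixCode_mat]
    unfold graphA
    simp only [Bool.false_and]
    rw [bA_false]
  · rw [castG_code, AG.adjMatrixCode_mat]
    unfold graphA
    simp only [Bool.true_and]
  · intro hh
    have hnp : ¬ PEquiv (D + 2) ((encA (progXI p Ks B D) pad).mat fun _ => false)
        ((encA (progXI p Ks B D) pad).mat (bA (progNet p Ks B D).beta)) := fun hP =>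
      prog_not_shiftEquiv p Ks B D hp hB hD hh
        (shift_of_encA_pequiv _ hI pad hpad _ (D + 2) (by omega) hP)
    refine ⟨fun hJ => ?_, fun hS => ?_, ?_⟩
    · exact hnp ((castG_pequiv h0 h1 _ _).1 ((WL.jequiv_iff (by omega)).1 hJ))
    · exact hnp ((castG_pequiv h0 h1 _ _).1 ((WL.sequiv_iff (by omega)).1 hS))
    · rw [castG_ident]
      intro m H hH hWL
      unfold WLEquiv at hWL
      rw [if_neg (by omega)] at hWL
      have hP := (WL.jequiv_iff (by omega)).1 hWL
      obtain ⟨b, hb⟩ := encA_reconstruct _ hI pad hpad (D + 2) (by omega) H hH hP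
      have hP2 : PEquiv (D + 2) ((encA (progXI p Ks B D) pad).mat fun _ => false)
          ((encA (progXI p Ks B D) pad).mat (bA b)) :=
        hP.trans (WL.AdjIso.pequiv (D + 2) (AdjIso.symm' hb))
      have hS := shift_of_encA_pequiv _ hI pad hpad b (D + 2) (by omega) hP2
      obtain hs := prog_solution p Ks B D hp hB hD hh b hS
      exact AdjIso.trans' (encA_iso_of_solution _ hI pad b hs) hb
  · intro hr
    have hP := encA_pequiv_of_shift _ hI pad _ (D + 2) (prog_shiftEquiv p Ks B D hp hB hD hr)
    have hP' := (castG_pequiv h0 h1 _ _).2 hP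
    refine ⟨(WL.jequiv_iff (by omega)).2 hP', (WL.sequiv_iff (by omega)).2 hP', ?_⟩
    intro k' hk1 hk2 hid
    have hiso := hid _ _ (castG_diam h1 _ hG1).1 (WL.PEquiv.wlEquiv (k := D + 1) hk1 hk2 hP')
    rw [castG_iso] at hiso
    exact prog_no_solution p Ks B D hB hD (solution_of_encA_iso _ hI pad hpad _ hiso)

end Crest.Agent.R290
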