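import Crest.Agent.R290.Subdiv
import Crest.Agent.R290.AGModel
import Crest.Agent.R290.AGBridge
import Crest.Agent.R290.NetWF
import Crest.Agent.R290.Defs
import Crest.Agent.R290.Core

-- ▼ part R290/BaseGood
section

/-!
# Row 290, module ENCS-1b: the base graph `baseS I` of the subcubic encoding (helper217)

`BE I c c'`: inductive description of the oriented edges; `mem_es_iff`.
`baseS_good'`: `BG.Good (baseS I)` from nodup of the edge list and the two-edges property.
`baseS_meet`: two objects sharing the variable `x` have a common lower class with variables `[x]`.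
-/

set_option autoImplicit false
set_option linter.unusedSectionVars false

namespace Crest.Agent.R290

namespace BaseGood

section baseS

variable {O X : Type} [DecidableEq O] [DecidableEq X] (I : XI O X)

/-- edges of the base graph -/
inductive BE : CB O X → CB O X → Prop
  | spine (u : O) (i : ℕ) : u ∈ I.objs → i + 1 < (I.ports u).length →
      BE (Sum.inl (u, i, 0)) (Sum.inl (u, i + 1, 0))
  | down (u : O) (i l : ℕ) : u ∈ I.objs → i < (I.ports u).length → l + 1 < (I.ports u).length →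
      BE (Sum.inl (u, i, l)) (Sum.inl (u, i, l + 1))
  | last (u : O) (i : ℕ) : u ∈ I.objs → i < (I.ports u).length →
      BE (Sum.inl (u, i, (I.ports u).length - 1)) (Sum.inr (Sum.inl (u, i)))
  | chain (x : X) (j : ℕ) (o o' : O × ℕ) : x ∈ I.vl → (I.occ x)[j]? = some o →
      (I.occ x)[j + 1]? = some o' → BE (Sum.inr (Sum.inl o)) (Sum.inr (Sum.inl o'))
  | join (x : X) (o : O × ℕ) : x ∈ I.vl → (I.occ x)[0]? = some o →
      BE (Sum.inr (Sum.inl o)) (Sum.inr (Sum.inr (Sum.inl x)))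
  | bus (x : X) : x ∈ I.vl → BE (Sum.inr (Sum.inr (Sum.inl x))) (Sum.inr (Sum.inr (Sum.inr x)))
  | line (j : ℕ) (x x' : X) : I.vl[j]? = some x → I.vl[j + 1]? = some x' →
      BE (Sum.inr (Sum.inr (Sum.inr x))) (Sum.inr (Sum.inr (Sum.inr x')))

theorem mem_zip_tail {α : Type} {l : List α} {p : α × α} :
    p ∈ l.zip l.tail ↔ ∃ j : ℕ, l[j]? = some p.1 ∧ l[j + 1]? = some p.2 := by
  rw [List.mem_iff_getElem?]
  constructor
  · rintro ⟨j, hj⟩
    rw [List.getElem?_zip_eq_some, List.getElem?_tail] at hj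
    exact ⟨j, hj⟩
  · rintro ⟨j, hj⟩
    refine ⟨j, ?_⟩
    rw [List.getElem?_zip_eq_some, List.getElem?_tail]
    exact hj

theorem mem_take_one {α : Type} {l : List α} {a : α} : a ∈ l.take 1 ↔ l[0]? = some a := by
  cases l with
  | nil => simp
  | cons b l => simp [eq_comm]

theorem mem_es_iff (c c' : CB O X) : (c, c') ∈ (baseS I).es ↔ BE I c c' := by
  unfold baseS
  simp only [List.mem_append, List.mem_flatMap, List.mem_map, List.mem_range, Prod.mk.injEq,
    mem_zip_tail, mem_take_one]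
  constructor
  · rintro ((((((⟨u, hu, i, hi, rfl, rfl⟩ | ⟨u, hu, i, hi, l, hl, rfl, rfl⟩) |
      ⟨u, hu, i, hi, rfl, rfl⟩) | ⟨x, hx, o, ⟨j, h1, h2⟩, rfl, rfl⟩) | ⟨x, hx, o, h1, rfl, rfl⟩) |
      ⟨x, hx, rfl, rfl⟩) | ⟨p, ⟨j, h1, h2⟩, rfl, rfl⟩)
    · exact BE.spine u i hu (by omega)
    · exact BE.down u i l hu hi (by omega)
    · exact BE.last u i hu hi
    · exact BE.chain x j _ _ hx h1 h2
    · exact BE.join x _ hx h1
    · exact BE.bus x hx
    · exact BE.line j _ _ h1 h2
  · intro h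
    cases h with
    | spine u i hu hi =>
      exact Or.inl (Or.inl (Or.inl (Or.inl (Or.inl (Or.inl ⟨u, hu, i, by omega, rfl, rfl⟩)))))
    | down u i l hu hi hl =>
      exact Or.inl (Or.inl (Or.inl (Or.inl (Or.inl (Or.inr ⟨u, hu, i, hi, l, by omega, rfl, rfl⟩)))))
    | last u i hu hi =>
      exact Or.inl (Or.inl (Or.inl (Or.inl (Or.inr ⟨u, hu, i, hi, rfl, rfl⟩))))
    | chain x j o o' hx h1 h2 =>
      exact Or.inl (Or.inl (Or.inl (Or.inr ⟨x, hx, (o, o'), ⟨j, h1, h2⟩, rfl, rfl⟩)))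
    | join x o hx h1 =>
      exact Or.inl (Or.inl (Or.inr ⟨x, hx, o, h1, rfl, rfl⟩))
    | bus x hx =>
      exact Or.inl (Or.inr ⟨x, hx, rfl, rfl⟩)
    | line j x x' h1 h2 =>
      exact Or.inr ⟨(x, x'), ⟨j, h1, h2⟩, rfl, rfl⟩

theorem mem_baseS_cls (c : CB O X) : c ∈ (baseS I).cls ↔
    (∃ u ∈ I.objs, ∃ i l, i < (I.ports u).length ∧ l < (I.ports u).length ∧
      c = Sum.inl (u, i, l)) ∨
    (∃ u ∈ I.objs, ∃ i, i < (I.ports u).length ∧ c = Sum.inr (Sum.inl (u, i))) ∨
    (∃ x ∈ I.vl, c = Sum.inr (Sum.inr (Sum.inl x))) ∨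
    (∃ x ∈ I.vl, c = Sum.inr (Sum.inr (Sum.inr x))) := by
  unfold baseS
  simp only [List.mem_append, List.mem_flatMap, List.mem_map, List.mem_range]
  constructor
  · rintro (((⟨u, hu, i, hi, l, hl, rfl⟩ | ⟨u, hu, i, hi, rfl⟩) | ⟨x, hx, rfl⟩) | ⟨x, hx, rfl⟩)
    · exact Or.inl ⟨u, hu, i, l, hi, hl, rfl⟩
    · exact Or.inr (Or.inl ⟨u, hu, i, hi, rfl⟩)
    · exact Or.inr (Or.inr (Or.inl ⟨x, hx, rfl⟩))
    · exact Or.inr (Or.inr (Or.inr ⟨x, hx, rfl⟩))
  · rintro (⟨u, hu, i, l, hi, hl, rfl⟩ | ⟨u, hu, i, hi, rfl⟩ | ⟨x, hx, rfl⟩ | ⟨x, hx, rfl⟩)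
    · exact Or.inl (Or.inl (Or.inl ⟨u, hu, i, hi, l, hl, rfl⟩))
    · exact Or.inl (Or.inl (Or.inr ⟨u, hu, i, hi, rfl⟩))
    · exact Or.inl (Or.inr ⟨x, hx, rfl⟩)
    · exact Or.inr ⟨x, hx, rfl⟩

theorem mem_cls_inl {u : O} {i l : ℕ} : Sum.inl (u, i, l) ∈ (baseS I).cls ↔
    u ∈ I.objs ∧ i < (I.ports u).length ∧ l < (I.ports u).length := by
  rw [mem_baseS_cls]
  constructor
  · rintro (⟨u', hu, i', l', hi, hl, h⟩ | ⟨u', hu, i', hi, h⟩ | ⟨x, hx, h⟩ | ⟨x, hx, h⟩)
    · cases h; exact ⟨hu, hi, hl⟩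
    all_goals cases h
  · rintro ⟨hu, hi, hl⟩
    exact Or.inl ⟨u, hu, i, l, hi, hl, rfl⟩

theorem mem_cls_chain {u : O} {i : ℕ} : Sum.inr (Sum.inl (u, i)) ∈ (baseS I).cls ↔
    u ∈ I.objs ∧ i < (I.ports u).length := by
  rw [mem_baseS_cls]
  constructor
  · rintro (⟨u', hu, i', l', hi, hl, h⟩ | ⟨u', hu, i', hi, h⟩ | ⟨x, hx, h⟩ | ⟨x, hx, h⟩)
    · cases h
    · cases h; exact ⟨hu, hi⟩
    all_goals cases h
  · rintro ⟨hu, hi⟩
    exact Or.inr (Or.inl ⟨u, hu, i, hi, rfl⟩)

theorem mem_cls_join {x : X} : Sum.inr (Sum.inr (Sum.inl x)) ∈ (baseS I).cls ↔ x ∈ I.vl := by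
  rw [mem_baseS_cls]
  constructor
  · rintro (⟨u', hu, i', l', hi, hl, h⟩ | ⟨u', hu, i', hi, h⟩ | ⟨x, hx, h⟩ | ⟨x, hx, h⟩)
    · cases h
    · cases h
    · cases h; exact hx
    · cases h
  · intro hx
    exact Or.inr (Or.inr (Or.inl ⟨x, hx, rfl⟩))

theorem mem_cls_bus {x : X} : Sum.inr (Sum.inr (Sum.inr x)) ∈ (baseS I).cls ↔ x ∈ I.vl := by
  rw [mem_baseS_cls]
  constructor
  · rintro (⟨u', hu, i', l', hi, hl, h⟩ | ⟨u', hu, i', hi, h⟩ | ⟨x, hx, h⟩ | ⟨x, hx, h⟩)
    · cases h
    · cases h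
    · cases h
    · cases h; exact hx
  · intro hx
    exact Or.inr (Or.inr (Or.inr ⟨x, hx, rfl⟩))

theorem mem_occ {x : X} {o : O × ℕ} : o ∈ I.occ x ↔
    o.1 ∈ I.objs ∧ (I.ports o.1)[o.2]? = some x := by
  unfold XI.occ
  simp only [List.mem_flatMap, List.mem_map, List.mem_filter, List.mem_range, decide_eq_true_eq]
  constructor
  · rintro ⟨u, hu, i, ⟨hi, h⟩, rfl⟩
    exact ⟨hu, h⟩
  · rintro ⟨h1, h2⟩
    exact ⟨o.1, h1, o.2, ⟨(List.getElem?_eq_some_iff.1 h2).1, h2⟩, rfl⟩

variable {I}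

theorem occ_nodup (hI : I.OK) (x : X) : (I.occ x).Nodup := by
  unfold XI.occ
  rw [List.nodup_flatMap]
  constructor
  · intro u _
    refine List.Nodup.map ?_ (List.nodup_range.filter _)
    intro i j h
    exact (Prod.mk.inj h).2
  · refine hI.objs_nodup.imp ?_
    intro u u' hne
    simp only [Function.onFun]
    intro o h1 h2
    simp only [List.mem_map] at h1 h2
    obtain ⟨i, -, rfl⟩ := h1
    obtain ⟨j, -, h⟩ := h2
    exact hne (Prod.mk.inj h).1.symm


/-! ### variables of the classes -/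

theorem vars_top (u : O) (i : ℕ) : (baseS I).vars (Sum.inl (u, i, 0)) = I.ports u := rfl

theorem vars_low {u : O} {i l : ℕ} (hl : 1 ≤ l) {x : X} (hx : (I.ports u)[i]? = some x) :
    (baseS I).vars (Sum.inl (u, i, l)) = x :: ((I.ports u).eraseIdx i).drop l := by
  have h : (baseS I).vars (Sum.inl (u, i, l)) = if l = 0 then I.ports u else I.mvars u i l := rfl
  rw [h, if_neg (by omega)]
  unfold XI.mvars
  rw [hx]

theorem vars_chain {u : O} {i : ℕ} {x : X} (hx : (I.ports u)[i]? = some x) :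
    (baseS I).vars (Sum.inr (Sum.inl (u, i))) = [x] := by
  have h : (baseS I).vars (Sum.inr (Sum.inl (u, i))) = match (I.ports u)[i]? with
    | some x => [x]
    | none => [] := rfl
  rw [h, hx]

theorem vars_join (x : X) : (baseS I).vars (Sum.inr (Sum.inr (Sum.inl x))) = [] := rfl
theorem vars_bus (x : X) : (baseS I).vars (Sum.inr (Sum.inr (Sum.inr x))) = [] := rfl

theorem con_inl (u : O) (i l : ℕ) : (baseS I).con (Sum.inl (u, i, l)) = decide (l = 0) := rfl
theorem con_inr (c : (O × ℕ) ⊕ (X ⊕ X)) : (baseS I).con (Sum.inr c) = false := rfl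

theorem getElem?_of_lt {u : O} {i : ℕ} (hi : i < (I.ports u).length) :
    ∃ x, (I.ports u)[i]? = some x := ⟨(I.ports u)[i], by simp [hi]⟩

theorem eraseIdx_subset' {l : List X} {i : ℕ} : l.eraseIdx i ⊆ l := fun _ h =>
  List.mem_of_mem_eraseIdx h

theorem notMem_eraseIdx {l : List X} (hl : l.Nodup) {i : ℕ} {x : X} (hx : l[i]? = some x) :
    x ∉ l.eraseIdx i := by
  intro h
  rw [List.mem_eraseIdx_iff_getElem?] at h
  obtain ⟨j, hj, hjx⟩ := h
  obtain ⟨h1, h1'⟩ := List.getElem?_eq_some_iff.1 hx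
  obtain ⟨h2, h2'⟩ := List.getElem?_eq_some_iff.1 hjx
  exact hj ((List.Nodup.getElem_inj_iff hl).1 (h2'.trans h1'.symm))

theorem vars_low_subset {u : O} {i l : ℕ} (hi : i < (I.ports u).length) :
    (baseS I).vars (Sum.inl (u, i, l)) ⊆ I.ports u := by
  rcases Nat.eq_zero_or_pos l with rfl | hl
  · rw [vars_top]; exact fun _ h => h
  · obtain ⟨x, hx⟩ := getElem?_of_lt hi
    rw [vars_low hl hx]
    intro y hy
    rcases List.mem_cons.1 hy with rfl | hy
    · exact List.mem_of_getElem? hx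
    · exact eraseIdx_subset' (List.mem_of_mem_drop hy)

theorem port_mem_vars {u : O} {i l : ℕ} {x : X} (hx : (I.ports u)[i]? = some x) :
    x ∈ (baseS I).vars (Sum.inl (u, i, l)) := by
  rcases Nat.eq_zero_or_pos l with rfl | hl
  · rw [vars_top]; exact List.mem_of_getElem? hx
  · rw [vars_low hl hx]; exact List.mem_cons_self

theorem BE.sub {c c' : CB O X} (h : BE I c c') : (baseS I).vars c' ⊆ (baseS I).vars c := by
  cases h with
  | spine u i hu hi => rw [vars_top, vars_top]; exact fun _ h => h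
  | down u i l hu hi hl =>
    obtain ⟨x, hx⟩ := getElem?_of_lt hi
    rcases Nat.eq_zero_or_pos l with rfl | hl'
    · rw [vars_top]; exact vars_low_subset hi
    · rw [vars_low (by omega) hx, vars_low hl' hx]
      refine List.cons_subset_cons x ?_
      exact List.drop_subset_drop_left _ (by omega)
  | last u i hu hi =>
    obtain ⟨x, hx⟩ := getElem?_of_lt hi
    rw [vars_chain hx]
    intro y hy
    rw [List.mem_singleton.1 hy]
    exact port_mem_vars hx
  | chain x j o o' hx h1 h2 =>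
    have h1' := ((mem_occ I).1 (List.mem_of_getElem? h1)).2
    have h2' := ((mem_occ I).1 (List.mem_of_getElem? h2)).2
    rw [show o = (o.1, o.2) from rfl, show o' = (o'.1, o'.2) from rfl, vars_chain h1',
      vars_chain h2']
    exact fun _ h => h
  | join x o hx h1 => rw [vars_join]; exact List.nil_subset _
  | bus x hx => rw [vars_bus]; exact List.nil_subset _
  | line j x x' h1 h2 => rw [vars_bus]; exact List.nil_subset _

/-! ### orientation -/

variable (I) in
/-- kind of a base class -/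
def kind : CB O X → ℕ
  | .inl _ => 0
  | .inr (.inl _) => 1
  | .inr (.inr (.inl _)) => 2
  | .inr (.inr (.inr _)) => 3

variable (I) in
/-- rank inside a kind -/
def rk : CB O X → ℕ
  | .inl (_, i, l) => i + l
  | .inr (.inl o) => match (I.ports o.1)[o.2]? with
    | some x => (I.occ x).idxOf o
    | none => 0
  | .inr (.inr (.inl _)) => 0
  | .inr (.inr (.inr x)) => I.vl.idxOf x

theorem idxOf_of_getElem? {α : Type} [BEq α] [LawfulBEq α] {l : List α} (hl : l.Nodup) {j : ℕ} {a : α}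
    (h : l[j]? = some a) : l.idxOf a = j := by
  obtain ⟨h1, h2⟩ := List.getElem?_eq_some_iff.1 h
  rw [← h2]
  exact List.Nodup.idxOf_getElem hl j h1

theorem BE.lt (hI : I.OK) {c c' : CB O X} (h : BE I c c') :
    kind c < kind c' ∨ (kind c = kind c' ∧ rk I c < rk I c') := by
  cases h with
  | spine u i hu hi => right; exact ⟨rfl, by simp [rk]⟩
  | down u i l hu hi hl => right; exact ⟨rfl, by simp only [rk]; omega⟩
  | last u i hu hi => left; simp [kind]
  | chain x j o o' hx h1 h2 =>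
    right
    refine ⟨rfl, ?_⟩
    have h1' := ((mem_occ I).1 (List.mem_of_getElem? h1)).2
    have h2' := ((mem_occ I).1 (List.mem_of_getElem? h2)).2
    simp only [rk, h1', h2']
    rw [idxOf_of_getElem? (occ_nodup hI x) h1, idxOf_of_getElem? (occ_nodup hI x) h2]
    omega
  | join x o hx h1 => left; simp [kind]
  | bus x hx => left; simp [kind]
  | line j x x' h1 h2 =>
    right
    refine ⟨rfl, ?_⟩
    simp only [rk]
    rw [idxOf_of_getElem? hI.vl_nodup h1, idxOf_of_getElem? hI.vl_nodup h2]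
    omega

theorem BE.mem1 (hI : I.OK) {c c' : CB O X} (h : BE I c c') : c ∈ (baseS I).cls := by
  cases h with
  | spine u i hu hi => rw [mem_cls_inl]; exact ⟨hu, by omega, by omega⟩
  | down u i l hu hi hl => rw [mem_cls_inl]; exact ⟨hu, by omega, by omega⟩
  | last u i hu hi => rw [mem_cls_inl]; exact ⟨hu, by omega, by omega⟩
  | chain x j o o' hx h1 h2 =>
    have h1' := (mem_occ I).1 (List.mem_of_getElem? h1)
    rw [show o = (o.1, o.2) from rfl, mem_cls_chain]
    exact ⟨h1'.1, (List.getElem?_eq_some_iff.1 h1'.2).1⟩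
  | join x o hx h1 =>
    have h1' := (mem_occ I).1 (List.mem_of_getElem? h1)
    rw [show o = (o.1, o.2) from rfl, mem_cls_chain]
    exact ⟨h1'.1, (List.getElem?_eq_some_iff.1 h1'.2).1⟩
  | bus x hx => rw [mem_cls_join]; exact hx
  | line j x x' h1 h2 => rw [mem_cls_bus]; exact List.mem_of_getElem? h1

theorem BE.mem2 (hI : I.OK) {c c' : CB O X} (h : BE I c c') : c' ∈ (baseS I).cls := by
  cases h with
  | spine u i hu hi => rw [mem_cls_inl]; exact ⟨hu, by omega, by omega⟩
  | down u i l hu hi hl => rw [mem_cls_inl]; exact ⟨hu, by omega, by omega⟩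
  | last u i hu hi => rw [mem_cls_chain]; exact ⟨hu, hi⟩
  | chain x j o o' hx h1 h2 =>
    have h1' := (mem_occ I).1 (List.mem_of_getElem? h2)
    rw [show o' = (o'.1, o'.2) from rfl, mem_cls_chain]
    exact ⟨h1'.1, (List.getElem?_eq_some_iff.1 h1'.2).1⟩
  | join x o hx h1 => rw [mem_cls_join]; exact hx
  | bus x hx => rw [mem_cls_bus]; exact hx
  | line j x x' h1 h2 => rw [mem_cls_bus]; exact List.mem_of_getElem? h2

/-- `BG.Good` from the two remaining facts. -/
theorem baseS_good' (hI : I.OK) (hes : (baseS I).es.Nodup)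
    (htwo : ∀ c ∈ (baseS I).cls, ∃ (e e' : CB O X × CB O X), e ≠ e' ∧ e ∈ (baseS I).es ∧
      e' ∈ (baseS I).es ∧ (e.1 = c ∨ e.2 = c) ∧ (e'.1 = c ∨ e'.2 = c)) : (baseS I).Good where
  mem1 e he := ((mem_es_iff I _ _).1 he).mem1 hI
  mem2 e he := ((mem_es_iff I _ _).1 he).mem2 hI
  ne e he h := by
    have := ((mem_es_iff I _ _).1 he).lt hI
    rw [h] at this
    omega
  sub e he := ((mem_es_iff I _ _).1 he).sub
  con e he hc := by
    have h := (mem_es_iff I _ _).1 he
    obtain ⟨c, c'⟩ := e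
    dsimp only at h hc ⊢
    cases h with
    | spine u i hu hi => exact ⟨rfl, rfl⟩
    | down u i l hu hi hl => simp [con_inl] at hc
    | last u i hu hi => simp [con_inr] at hc
    | chain x j o o' hx h1 h2 => simp [con_inr] at hc
    | join x o hx h1 => simp [con_inr] at hc
    | bus x hx => simp [con_inr] at hc
    | line j x x' h1 h2 => simp [con_inr] at hc
  more e he hc hc' := by
    have h := (mem_es_iff I _ _).1 he
    obtain ⟨c, c'⟩ := e
    dsimp only at h hc hc' ⊢
    cases h with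
    | spine u i hu hi => simp [con_inl] at hc'
    | down u i l hu hi hl =>
      obtain rfl : l = 0 := by simpa [con_inl] using hc
      obtain ⟨x, hx⟩ := getElem?_of_lt hi
      have hnd := hI.ports_nodup u hu
      have hlen : ((I.ports u).eraseIdx i).length = (I.ports u).length - 1 :=
        List.length_eraseIdx_of_lt hi
      have hnd' : ((I.ports u).eraseIdx i).Nodup := hnd.eraseIdx i
      have hx' := notMem_eraseIdx hnd hx
      rw [vars_top, vars_low (by omega) hx]
      rcases hcase : (I.ports u).eraseIdx i with _ | ⟨y, l'⟩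
      · rw [hcase] at hlen
        simp at hlen
        omega
      · have hy : y ∈ (I.ports u).eraseIdx i := by rw [hcase]; exact List.mem_cons_self
        refine ⟨y, eraseIdx_subset' hy, ?_⟩
        rw [hcase] at hnd'
        simp only [zero_add, List.drop_succ_cons, List.drop_zero, List.mem_cons, not_or]
        refine ⟨?_, (List.nodup_cons.1 hnd').1⟩
        rintro rfl
        exact hx' hy
    | last u i hu hi =>
      have := hI.two_le u hu
      have h0 : (I.ports u).length - 1 = 0 := by simpa [con_inl] using hc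
      omega
    | chain x j o o' hx h1 h2 => simp [con_inr] at hc
    | join x o hx h1 => simp [con_inr] at hc
    | bus x hx => simp [con_inr] at hc
    | line j x x' h1 h2 => simp [con_inr] at hc
  nodup c hc := by
    rcases (mem_baseS_cls I c).1 hc with ⟨u, hu, i, l, hi, hl, rfl⟩ | ⟨u, hu, i, hi, rfl⟩ |
      ⟨x, hx, rfl⟩ | ⟨x, hx, rfl⟩
    · have hnd := hI.ports_nodup u hu
      rcases Nat.eq_zero_or_pos l with rfl | hl'
      · rw [vars_top]; exact hnd
      · obtain ⟨x, hx⟩ := getElem?_of_lt hi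
        rw [vars_low hl' hx, List.nodup_cons]
        exact ⟨fun h => notMem_eraseIdx hnd hx (List.mem_of_mem_drop h),
          (hnd.eraseIdx i).sublist (List.drop_sublist _ _)⟩
    · obtain ⟨x, hx⟩ := getElem?_of_lt hi
      rw [vars_chain hx]
      exact List.nodup_singleton x
    · rw [vars_join]; exact List.nodup_nil
    · rw [vars_bus]; exact List.nodup_nil
  simple k k' e e' he he' c c' hne h1 h2 h3 h4 := by
    have hm := List.mem_of_getElem? he
    have hm' := List.mem_of_getElem? he'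
    have hlt := ((mem_es_iff I _ _).1 hm).lt hI
    have hlt' := ((mem_es_iff I _ _).1 hm').lt hI
    have key : e = e' := by
      rcases h1 with h1 | h1 <;> rcases h2 with h2 | h2 <;> rcases h3 with h3 | h3 <;>
        rcases h4 with h4 | h4
      all_goals first
        | exact absurd (h1.symm.trans h2) hne
        | exact absurd (h3.symm.trans h4) hne
        | exact Prod.ext (h1.trans h3.symm) (h2.trans h4.symm)
        | exact Prod.ext (h2.trans h4.symm) (h1.trans h3.symm)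
        | (exfalso
           rw [h1, h2] at hlt
           rw [h3, h4] at hlt'
           omega)
    subst key
    obtain ⟨a1, a2⟩ := List.getElem?_eq_some_iff.1 he
    obtain ⟨b1, b2⟩ := List.getElem?_eq_some_iff.1 he'
    exact (List.Nodup.getElem_inj_iff hes).1 (a2.trans b2.symm)
  two c hc := by
    obtain ⟨e, e', hne, he, he', h1, h2⟩ := htwo c hc
    obtain ⟨k, hk⟩ := List.mem_iff_getElem?.1 he
    obtain ⟨k', hk'⟩ := List.mem_iff_getElem?.1 he'
    refine ⟨k, k', e, e', ?_, hk, hk', h1, h2⟩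
    rintro rfl
    rw [hk] at hk'
    exact hne (Option.some.inj hk')

theorem baseS_parOK (b : O → Bool) : (baseS I).ParOK (bB b) := by
  intro e he hc
  have h := (mem_es_iff I _ _).1 he
  obtain ⟨c, c'⟩ := e
  dsimp only at h hc ⊢
  cases h with
  | spine u i hu hi => rfl
  | down u i l hu hi hl => simp [con_inl] at hc
  | last u i hu hi => simp [con_inr] at hc
  | chain x j o o' hx h1 h2 => simp [con_inr] at hc
  | join x o hx h1 => simp [con_inr] at hc
  | bus x hx => simp [con_inr] at hc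
  | line j x x' h1 h2 => simp [con_inr] at hc

/-! ### common lower classes -/

theorem reach_spine (hI : I.OK) {u : O} (hu : u ∈ I.objs) (i : ℕ)
    (hi : i < (I.ports u).length) :
    (baseS I).Reach (Sum.inl (u, 0, 0)) (Sum.inl (u, i, 0)) := by
  induction i with
  | zero => exact BG.Reach.refl ((mem_cls_inl I).2 ⟨hu, hi, hi⟩)
  | succ i ih => exact BG.Reach.step (ih (by omega)) ((mem_es_iff I _ _).2 (BE.spine u i hu hi))

theorem reach_low (hI : I.OK) {u : O} (hu : u ∈ I.objs) {i : ℕ} (hi : i < (I.ports u).length)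
    (l : ℕ) (hl : l < (I.ports u).length) :
    (baseS I).Reach (Sum.inl (u, 0, 0)) (Sum.inl (u, i, l)) := by
  induction l with
  | zero => exact reach_spine hI hu i hi
  | succ l ih => exact BG.Reach.step (ih (by omega)) ((mem_es_iff I _ _).2 (BE.down u i l hu hi hl))

theorem reach_chain (hI : I.OK) {u : O} (hu : u ∈ I.objs) {i : ℕ}
    (hi : i < (I.ports u).length) :
    (baseS I).Reach (Sum.inl (u, 0, 0)) (Sum.inr (Sum.inl (u, i))) :=
  BG.Reach.step (reach_low hI hu hi _ (by omega)) ((mem_es_iff I _ _).2 (BE.last u i hu hi))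

theorem reach_occ {c₀ : CB O X} {x : X} (hx : x ∈ I.vl) {j : ℕ} {o : O × ℕ}
    (ho : (I.occ x)[j]? = some o) (h : (baseS I).Reach c₀ (Sum.inr (Sum.inl o))) (d : ℕ) :
    ∀ o', (I.occ x)[j + d]? = some o' → (baseS I).Reach c₀ (Sum.inr (Sum.inl o')) := by
  induction d with
  | zero =>
    intro o' ho'
    rw [Nat.add_zero, ho] at ho'
    cases ho'
    exact h
  | succ d ih =>
    intro o' ho'
    have h1 : j + d < (I.occ x).length := by
      have := (List.getElem?_eq_some_iff.1 ho').1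
      omega
    refine BG.Reach.step (ih (I.occ x)[j + d] (by simp [h1])) ?_
    rw [mem_es_iff]
    exact BE.chain x (j + d) _ _ hx (by simp [h1]) ho'

theorem baseS_meet (hI : I.OK) {u v : O} (hu : u ∈ I.objs) (hv : v ∈ I.objs) {x : X}
    (hxu : x ∈ I.ports u) (hxv : x ∈ I.ports v) :
    ∃ c, (baseS I).Reach (Sum.inl (u, 0, 0)) c ∧ (baseS I).Reach (Sum.inl (v, 0, 0)) c ∧
      (baseS I).vars c = [x] := by
  have hx : x ∈ I.vl := (hI.mem_vl x).2 ⟨u, hu, hxu⟩
  obtain ⟨i, hi⟩ := List.mem_iff_getElem?.1 hxu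
  obtain ⟨i', hi'⟩ := List.mem_iff_getElem?.1 hxv
  have h1 := reach_chain hI hu (List.getElem?_eq_some_iff.1 hi).1
  have h2 := reach_chain hI hv (List.getElem?_eq_some_iff.1 hi').1
  obtain ⟨j, hj⟩ := List.mem_iff_getElem?.1 ((mem_occ I (o := (u, i))).2 ⟨hu, hi⟩)
  obtain ⟨j', hj'⟩ := List.mem_iff_getElem?.1 ((mem_occ I (o := (v, i'))).2 ⟨hv, hi'⟩)
  rcases Nat.le_total j j' with h | h
  · obtain ⟨d, rfl⟩ := Nat.exists_eq_add_of_le h
    exact ⟨_, reach_occ hx hj h1 d _ hj', h2, vars_chain hi'⟩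
  · obtain ⟨d, rfl⟩ := Nat.exists_eq_add_of_le h
    exact ⟨_, h1, reach_occ hx hj' h2 d _ hj, vars_chain hi⟩

end baseS

end BaseGood

end Crest.Agent.R290
private theorem rz_3e4b91c894 : type_of% @_root_.Crest.Agent.R290.BaseGood.kind.eq_1 := @_root_.Crest.Agent.R290.BaseGood.kind.eq_1 -- L270
private theorem rz_a63dd17a02 : type_of% @_root_.Crest.Agent.R290.BaseGood.rk.eq_1 := @_root_.Crest.Agent.R290.BaseGood.rk.eq_1 -- L278
end

-- ▼ part R290/EncS2
section

/-!
# Row 290, ENCS-2: order and Duplicator side of the subcubic encoding `encS`.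
-/

set_option autoImplicit false
set_option linter.unusedSectionVars false

namespace Crest.Agent.R290

open Crest.WLRefine
open Crest.Agent.R290.WL (PEquiv)

namespace EncS2

section subdiv

variable {C X : Type} [DecidableEq C] [DecidableEq X] (G : BG C X)

theorem mem_cls {c : C ⊕ (ℕ × ℕ)} : c ∈ (subdiv G).cls ↔
    (∃ c' ∈ G.cls, c = Sum.inl c') ∨
      ∃ k j, k < G.es.length ∧ j < k + 2 ∧ c = Sum.inr (k, j) := by
  simp only [subdiv, List.mem_append, List.mem_map, List.mem_flatMap, List.mem_range]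
  constructor
  · rintro (⟨c', h, rfl⟩ | ⟨k, hk, j, hj, rfl⟩)
    · exact Or.inl ⟨c', h, rfl⟩
    · exact Or.inr ⟨k, j, hk, hj, rfl⟩
  · rintro (⟨c', h, rfl⟩ | ⟨k, j, hk, hj, rfl⟩)
    · exact Or.inl ⟨c', h, rfl⟩
    · exact Or.inr ⟨k, hk, j, hj, rfl⟩

theorem cls_nodup (h : G.cls.Nodup) : (subdiv G).cls.Nodup := by
  change (G.cls.map Sum.inl ++
    (List.range G.es.length).flatMap fun k =>
      (List.range (k + 2)).map fun j => (Sum.inr (k, j) : C ⊕ (ℕ × ℕ))).Nodup
  rw [List.nodup_append']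
  refine ⟨h.map Sum.inl_injective, ?_, ?_⟩
  · refine nodup_flatMap_key (fun c => Sum.elim (fun _ => 0) (fun p => p.1) c) List.nodup_range ?_ ?_
    · intro k _
      refine List.nodup_range.map ?_
      intro a b hab
      simpa using hab
    · intro k _ c hc
      rw [List.mem_map] at hc
      obtain ⟨j, _, rfl⟩ := hc
      rfl
  · intro c hc hc'
    rw [List.mem_map] at hc
    rw [List.mem_flatMap] at hc'
    obtain ⟨c1, _, rfl⟩ := hc
    obtain ⟨k, _, hc'⟩ := hc'
    rw [List.mem_map] at hc'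
    obtain ⟨j, _, hj⟩ := hc'
    exact absurd hj (by simp)

@[simp] theorem vars_inl (c : C) : (subdiv G).vars (Sum.inl c) = G.vars c := rfl

@[simp] theorem con_inl (c : C) : (subdiv G).con (Sum.inl c) = G.con c := rfl

theorem vars_inr {k : ℕ} (j : ℕ) (hk : k < G.es.length) :
    (subdiv G).vars (Sum.inr (k, j)) = G.vars (G.es[k]).1 := by
  change (match G.es[k]? with
      | some e => G.vars e.1
      | none => []) = _
  rw [List.getElem?_eq_getElem hk]

theorem con_inr {k : ℕ} (j : ℕ) (hk : k < G.es.length) :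
    (subdiv G).con (Sum.inr (k, j)) = G.con (G.es[k]).1 := by
  change (match G.es[k]? with
      | some e => G.con e.1
      | none => false) = _
  rw [List.getElem?_eq_getElem hk]

@[simp] theorem bSub_inl (b : C → Bool) (c : C) : bSub G b (Sum.inl c) = b c := rfl

theorem bSub_inr (b : C → Bool) {k : ℕ} (j : ℕ) (hk : k < G.es.length) :
    bSub G b (Sum.inr (k, j)) = b (G.es[k]).1 := by
  change (match G.es[k]? with
      | some e => b e.1
      | none => false) = _
  rw [List.getElem?_eq_getElem hk]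

/-- The base class of a class of the subdivision (an end class of the edge). -/
def bcl (c : C ⊕ (ℕ × ℕ)) (d : C) : C :=
  match c with
  | .inl c => c
  | .inr (k, _) => match G.es[k]? with
    | some e => e.1
    | none => d

/-- Every class of the subdivision copies variables, constraint and parity of a base class. -/
theorem bcl_spec (hes : ∀ e ∈ G.es, e.1 ∈ G.cls) (d : C) {c : C ⊕ (ℕ × ℕ)}
    (hc : c ∈ (subdiv G).cls) :
    bcl G c d ∈ G.cls ∧ (subdiv G).vars c = G.vars (bcl G c d) ∧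
      (subdiv G).con c = G.con (bcl G c d) ∧ ∀ b, bSub G b c = b (bcl G c d) := by
  rcases (mem_cls G).1 hc with ⟨c', hc', rfl⟩ | ⟨k, j, hk, _, rfl⟩
  · exact ⟨hc', rfl, rfl, fun _ => rfl⟩
  · have e : bcl G (Sum.inr (k, j)) d = (G.es[k]).1 := by
      change (match G.es[k]? with
          | some e => e.1
          | none => d) = _
      rw [List.getElem?_eq_getElem hk]
    rw [e]
    exact ⟨hes _ (List.getElem_mem hk), vars_inr G j hk, con_inr G j hk, fun b => bSub_inr G b j hk⟩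

end subdiv

section base

variable {O X : Type} [DecidableEq O] [DecidableEq X] (I : XI O X)

theorem mem_base_cls {c : CB O X} : c ∈ (baseS I).cls ↔
    (∃ u ∈ I.objs, ∃ i < (I.ports u).length, ∃ l < (I.ports u).length, c = Sum.inl (u, i, l)) ∨
    (∃ u ∈ I.objs, ∃ i < (I.ports u).length, c = Sum.inr (Sum.inl (u, i))) ∨
    (∃ x ∈ I.vl, c = Sum.inr (Sum.inr (Sum.inl x))) ∨
    ∃ x ∈ I.vl, c = Sum.inr (Sum.inr (Sum.inr x)) := by
  simp only [baseS, List.mem_append, List.mem_map, List.mem_flatMap, List.mem_range]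
  constructor
  · rintro (((⟨u, hu, i, hi, l, hl, rfl⟩ | ⟨u, hu, i, hi, rfl⟩) | ⟨x, hx, rfl⟩) | ⟨x, hx, rfl⟩)
    · exact Or.inl ⟨u, hu, i, hi, l, hl, rfl⟩
    · exact Or.inr (Or.inl ⟨u, hu, i, hi, rfl⟩)
    · exact Or.inr (Or.inr (Or.inl ⟨x, hx, rfl⟩))
    · exact Or.inr (Or.inr (Or.inr ⟨x, hx, rfl⟩))
  · rintro (⟨u, hu, i, hi, l, hl, rfl⟩ | ⟨u, hu, i, hi, rfl⟩ | ⟨x, hx, rfl⟩ | ⟨x, hx, rfl⟩)
    · exact Or.inl (Or.inl (Or.inl ⟨u, hu, i, hi, l, hl, rfl⟩))
    · exact Or.inl (Or.inl (Or.inr ⟨u, hu, i, hi, rfl⟩))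
    · exact Or.inl (Or.inr ⟨x, hx, rfl⟩)
    · exact Or.inr ⟨x, hx, rfl⟩

theorem mem_occ {x : X} {o : O × ℕ} :
    o ∈ I.occ x ↔ o.1 ∈ I.objs ∧ (I.ports o.1)[o.2]? = some x := by
  obtain ⟨u, i⟩ := o
  simp only [XI.occ, List.mem_flatMap, List.mem_map, List.mem_filter, List.mem_range,
    decide_eq_true_eq, Prod.mk.injEq]
  constructor
  · rintro ⟨u', hu', i', ⟨hi', h⟩, rfl, rfl⟩
    exact ⟨hu', h⟩
  · rintro ⟨hu, h⟩
    exact ⟨u, hu, i, ⟨(List.getElem?_eq_some_iff.1 h).1, h⟩, rfl, rfl⟩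

theorem mem_base_es {e : CB O X × CB O X} : e ∈ (baseS I).es ↔
    (∃ u ∈ I.objs, ∃ i, i + 1 < (I.ports u).length ∧
      e = (Sum.inl (u, i, 0), Sum.inl (u, i + 1, 0))) ∨
    (∃ u ∈ I.objs, ∃ i < (I.ports u).length, ∃ l, l + 1 < (I.ports u).length ∧
      e = (Sum.inl (u, i, l), Sum.inl (u, i, l + 1))) ∨
    (∃ u ∈ I.objs, ∃ i < (I.ports u).length,
      e = (Sum.inl (u, i, (I.ports u).length - 1), Sum.inr (Sum.inl (u, i)))) ∨
    (∃ x ∈ I.vl, ∃ o ∈ (I.occ x).zip (I.occ x).tail,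
      e = (Sum.inr (Sum.inl o.1), Sum.inr (Sum.inl o.2))) ∨
    (∃ x ∈ I.vl, ∃ o ∈ (I.occ x).take 1,
      e = (Sum.inr (Sum.inl o), Sum.inr (Sum.inr (Sum.inl x)))) ∨
    (∃ x ∈ I.vl, e = (Sum.inr (Sum.inr (Sum.inl x)), Sum.inr (Sum.inr (Sum.inr x)))) ∨
    (∃ p ∈ I.vl.zip I.vl.tail,
      e = (Sum.inr (Sum.inr (Sum.inr p.1)), Sum.inr (Sum.inr (Sum.inr p.2)))) := by
  simp only [baseS, List.mem_append, List.mem_map, List.mem_flatMap, List.mem_range]
  constructor
  · rintro ((((((⟨u, hu, i, hi, rfl⟩ | ⟨u, hu, i, hi, l, hl, rfl⟩) | ⟨u, hu, i, hi, rfl⟩) |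
      ⟨x, hx, o, ho, rfl⟩) | ⟨x, hx, o, ho, rfl⟩) | ⟨x, hx, rfl⟩) | ⟨p, hp, rfl⟩)
    · exact Or.inl ⟨u, hu, i, by omega, rfl⟩
    · exact Or.inr (Or.inl ⟨u, hu, i, hi, l, by omega, rfl⟩)
    · exact Or.inr (Or.inr (Or.inl ⟨u, hu, i, hi, rfl⟩))
    · exact Or.inr (Or.inr (Or.inr (Or.inl ⟨x, hx, o, ho, rfl⟩)))
    · exact Or.inr (Or.inr (Or.inr (Or.inr (Or.inl ⟨x, hx, o, ho, rfl⟩))))
    · exact Or.inr (Or.inr (Or.inr (Or.inr (Or.inr (Or.inl ⟨x, hx, rfl⟩)))))
    · exact Or.inr (Or.inr (Or.inr (Or.inr (Or.inr (Or.inr ⟨p, hp, rfl⟩)))))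
  · rintro (⟨u, hu, i, hi, rfl⟩ | ⟨u, hu, i, hi, l, hl, rfl⟩ | ⟨u, hu, i, hi, rfl⟩ |
      ⟨x, hx, o, ho, rfl⟩ | ⟨x, hx, o, ho, rfl⟩ | ⟨x, hx, rfl⟩ | ⟨p, hp, rfl⟩)
    · exact Or.inl (Or.inl (Or.inl (Or.inl (Or.inl (Or.inl ⟨u, hu, i, by omega, rfl⟩)))))
    · exact Or.inl (Or.inl (Or.inl (Or.inl (Or.inl (Or.inr ⟨u, hu, i, hi, l, by omega, rfl⟩)))))
    · exact Or.inl (Or.inl (Or.inl (Or.inl (Or.inr ⟨u, hu, i, hi, rfl⟩))))
    · exact Or.inl (Or.inl (Or.inl (Or.inr ⟨x, hx, o, ho, rfl⟩)))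
    · exact Or.inl (Or.inl (Or.inr ⟨x, hx, o, ho, rfl⟩))
    · exact Or.inl (Or.inr ⟨x, hx, rfl⟩)
    · exact Or.inr ⟨p, hp, rfl⟩

theorem base_cls_nodup (hI : I.OK) : (baseS I).cls.Nodup := by
  change ((I.objs.flatMap fun u => (List.range (I.ports u).length).flatMap fun i =>
      (List.range (I.ports u).length).map fun l => (Sum.inl (u, i, l) : CB O X)) ++
    (I.objs.flatMap fun u => (List.range (I.ports u).length).map fun i =>
      (Sum.inr (Sum.inl (u, i)) : CB O X)) ++
    (I.vl.map fun x => (Sum.inr (Sum.inr (Sum.inl x)) : CB O X)) ++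
    (I.vl.map fun x => (Sum.inr (Sum.inr (Sum.inr x)) : CB O X))).Nodup
  rw [List.nodup_append', List.nodup_append', List.nodup_append']
  obtain ⟨u0, _⟩ : ∃ u0, u0 ∈ I.objs := List.exists_mem_of_ne_nil _ hI.objs_ne
  refine ⟨⟨⟨?_, ?_, ?_⟩, ?_, ?_⟩, ?_, ?_⟩
  · refine nodup_flatMap_key (fun c => Sum.elim (fun p => p.1) (fun _ => u0) c) hI.objs_nodup ?_ ?_
    · intro u _
      refine nodup_flatMap_key (fun c => Sum.elim (fun p => p.2.1) (fun _ => 0) c)
        List.nodup_range ?_ ?_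
      · intro i _
        refine List.nodup_range.map ?_
        intro a b hab
        simpa using hab
      · intro i _ c hc
        obtain ⟨l, _, rfl⟩ := List.mem_map.1 hc
        rfl
    · intro u _ c hc
      obtain ⟨i, _, hc⟩ := List.mem_flatMap.1 hc
      obtain ⟨l, _, rfl⟩ := List.mem_map.1 hc
      rfl
  · refine nodup_flatMap_key
      (fun c => Sum.elim (fun _ => u0) (fun q => Sum.elim (fun p => p.1) (fun _ => u0) q) c)
      hI.objs_nodup ?_ ?_
    · intro u _
      refine List.nodup_range.map ?_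
      intro a b hab
      simpa using hab
    · intro u _ c hc
      obtain ⟨i, _, rfl⟩ := List.mem_map.1 hc
      rfl
  · intro c hc hc'
    obtain ⟨u, _, hc⟩ := List.mem_flatMap.1 hc
    obtain ⟨i, _, hc⟩ := List.mem_flatMap.1 hc
    obtain ⟨l, _, rfl⟩ := List.mem_map.1 hc
    obtain ⟨u', _, hc'⟩ := List.mem_flatMap.1 hc'
    obtain ⟨i', _, hc'⟩ := List.mem_map.1 hc'
    exact absurd hc' (by simp)
  · refine hI.vl_nodup.map ?_
    intro a b hab
    simpa using hab
  · intro c hc hc'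
    obtain ⟨x, _, rfl⟩ := List.mem_map.1 hc'
    rcases List.mem_append.1 hc with hc | hc
    · obtain ⟨u, _, hc⟩ := List.mem_flatMap.1 hc
      obtain ⟨i, _, hc⟩ := List.mem_flatMap.1 hc
      obtain ⟨l, _, hc⟩ := List.mem_map.1 hc
      exact absurd hc (by simp)
    · obtain ⟨u, _, hc⟩ := List.mem_flatMap.1 hc
      obtain ⟨i, _, hc⟩ := List.mem_map.1 hc
      exact absurd hc (by simp)
  · refine hI.vl_nodup.map ?_
    intro a b hab
    simpa using hab
  · intro c hc hc'
    obtain ⟨x, _, rfl⟩ := List.mem_map.1 hc'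
    rcases List.mem_append.1 hc with hc | hc
    · rcases List.mem_append.1 hc with hc | hc
      · obtain ⟨u, _, hc⟩ := List.mem_flatMap.1 hc
        obtain ⟨i, _, hc⟩ := List.mem_flatMap.1 hc
        obtain ⟨l, _, hc⟩ := List.mem_map.1 hc
        exact absurd hc (by simp)
      · obtain ⟨u, _, hc⟩ := List.mem_flatMap.1 hc
        obtain ⟨i, _, hc⟩ := List.mem_map.1 hc
        exact absurd hc (by simp)
    · obtain ⟨y, _, hc⟩ := List.mem_map.1 hc
      exact absurd hc (by simp)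

/-- ends of base edges are classes, and the variables of the second end are variables of the
first one -/
theorem base_es_fst {e : CB O X × CB O X} (he : e ∈ (baseS I).es) :
    e.1 ∈ (baseS I).cls := by
  rw [mem_base_cls]
  rcases (mem_base_es I).1 he with ⟨u, hu, i, hi, rfl⟩ | ⟨u, hu, i, hi, l, hl, rfl⟩ |
      ⟨u, hu, i, hi, rfl⟩ | ⟨x, hx, o, ho, rfl⟩ | ⟨x, hx, o, ho, rfl⟩ | ⟨x, hx, rfl⟩ | ⟨p, hp, rfl⟩
  · exact Or.inl ⟨u, hu, i, by omega, 0, by omega, rfl⟩
  · exact Or.inl ⟨u, hu, i, hi, l, by omega, rfl⟩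
  · exact Or.inl ⟨u, hu, i, hi, _, by omega, rfl⟩
  · have h := (mem_occ I).1 (List.of_mem_zip ho).1
    exact Or.inr (Or.inl ⟨o.1.1, h.1, o.1.2, (List.getElem?_eq_some_iff.1 h.2).1, rfl⟩)
  · have h := (mem_occ I).1 (List.mem_of_mem_take ho)
    exact Or.inr (Or.inl ⟨o.1, h.1, o.2, (List.getElem?_eq_some_iff.1 h.2).1, rfl⟩)
  · exact Or.inr (Or.inr (Or.inl ⟨x, hx, rfl⟩))
  · exact Or.inr (Or.inr (Or.inr ⟨_, (List.of_mem_zip hp).1, rfl⟩))

theorem base_es_snd {e : CB O X × CB O X} (he : e ∈ (baseS I).es) :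
    e.2 ∈ (baseS I).cls := by
  rw [mem_base_cls]
  rcases (mem_base_es I).1 he with ⟨u, hu, i, hi, rfl⟩ | ⟨u, hu, i, hi, l, hl, rfl⟩ |
      ⟨u, hu, i, hi, rfl⟩ | ⟨x, hx, o, ho, rfl⟩ | ⟨x, hx, o, ho, rfl⟩ | ⟨x, hx, rfl⟩ | ⟨p, hp, rfl⟩
  · exact Or.inl ⟨u, hu, i + 1, by omega, 0, by omega, rfl⟩
  · exact Or.inl ⟨u, hu, i, hi, l + 1, by omega, rfl⟩
  · exact Or.inr (Or.inl ⟨u, hu, i, hi, rfl⟩)
  · have h := (mem_occ I).1 (List.mem_of_mem_tail (List.of_mem_zip ho).2)
    exact Or.inr (Or.inl ⟨o.2.1, h.1, o.2.2, (List.getElem?_eq_some_iff.1 h.2).1, rfl⟩)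
  · exact Or.inr (Or.inr (Or.inl ⟨x, hx, rfl⟩))
  · exact Or.inr (Or.inr (Or.inr ⟨x, hx, rfl⟩))
  · exact Or.inr (Or.inr (Or.inr ⟨_, List.mem_of_mem_tail (List.of_mem_zip hp).2, rfl⟩))

/-- the dominating object of a base class -/
def domB (u0 : O) : CB O X → O
  | .inl (u, _, _) => u
  | .inr (.inl (u, _)) => u
  | .inr (.inr _) => u0

theorem domB_mem {u0 : O} (h0 : u0 ∈ I.objs) {c : CB O X} (hc : c ∈ (baseS I).cls) :
    domB u0 c ∈ I.objs := by
  rcases (mem_base_cls I).1 hc with ⟨u, hu, i, hi, l, hl, rfl⟩ | ⟨u, hu, i, hi, rfl⟩ |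
    ⟨x, hx, rfl⟩ | ⟨x, hx, rfl⟩
  · exact hu
  · exact hu
  · exact h0
  · exact h0

theorem mvars_eq {u : O} {i : ℕ} (l : ℕ) (hi : i < (I.ports u).length) :
    I.mvars u i l = (I.ports u)[i] :: ((I.ports u).eraseIdx i).drop l := by
  unfold XI.mvars
  rw [List.getElem?_eq_getElem hi]

theorem vars_base_subset (u0 : O) {c : CB O X} (hc : c ∈ (baseS I).cls) :
    (baseS I).vars c ⊆ I.ports (domB u0 c) := by
  rcases (mem_base_cls I).1 hc with ⟨u, hu, i, hi, l, hl, rfl⟩ | ⟨u, hu, i, hi, rfl⟩ |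
    ⟨x, hx, rfl⟩ | ⟨x, hx, rfl⟩
  · change (if l = 0 then I.ports u else I.mvars u i l) ⊆ I.ports u
    split_ifs with h
    · exact List.Subset.refl _
    · rw [mvars_eq I l hi]
      intro x hx
      rcases List.mem_cons.1 hx with rfl | hx
      · exact List.getElem_mem hi
      · exact List.mem_of_mem_eraseIdx (List.mem_of_mem_drop hx)
  · change (match (I.ports u)[i]? with
      | some x => [x]
      | none => []) ⊆ I.ports u
    rw [List.getElem?_eq_getElem hi]
    intro x hx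
    rw [List.mem_singleton] at hx
    rw [hx]
    exact List.getElem_mem hi
  · exact List.nil_subset _
  · exact List.nil_subset _

theorem vars_base_nodup (hI : I.OK) {c : CB O X} (hc : c ∈ (baseS I).cls) :
    ((baseS I).vars c).Nodup := by
  rcases (mem_base_cls I).1 hc with ⟨u, hu, i, hi, l, hl, rfl⟩ | ⟨u, hu, i, hi, rfl⟩ |
    ⟨x, hx, rfl⟩ | ⟨x, hx, rfl⟩
  · change (if l = 0 then I.ports u else I.mvars u i l).Nodup
    split_ifs with h
    · exact hI.ports_nodup u hu
    · rw [mvars_eq I l hi, List.nodup_cons]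
      have hn := hI.ports_nodup u hu
      constructor
      · intro hx
        have hx := List.mem_of_mem_drop hx
        rw [List.mem_eraseIdx_iff_getElem?] at hx
        obtain ⟨j, hj, hx⟩ := hx
        obtain ⟨hj', hx⟩ := List.getElem?_eq_some_iff.1 hx
        exact hj ((hn.getElem_inj_iff (hi := hj') (hj := hi)).1 hx)
      · exact ((hn.eraseIdx i)).sublist (List.drop_sublist _ _)
  · change (match (I.ports u)[i]? with
      | some x => [x]
      | none => []).Nodup
    rw [List.getElem?_eq_getElem hi]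
    exact List.nodup_singleton _
  · exact List.nodup_nil
  · exact List.nodup_nil

theorem con_base (u0 : O) (b : O → Bool) {c : CB O X} (h : (baseS I).con c = true) :
    (baseS I).vars c = I.ports (domB u0 c) ∧ bB b c = b (domB u0 c) := by
  rcases c with ⟨u, i, l⟩ | _
  · have hl : l = 0 := of_decide_eq_true h
    subst hl
    exact ⟨rfl, rfl⟩
  · exact absurd h (by simp [baseS])

end base

end EncS2

section encs

variable {O X : Type} [DecidableEq O] [DecidableEq X]

theorem encS_order_eq (I : XI O X) (hI : I.OK) (b : O → Bool) :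
    (encS I).order (bS I b) = (encS I).order (fun _ => false) := by
  obtain ⟨u0, h0⟩ : ∃ u0, u0 ∈ I.objs := List.exists_mem_of_ne_nil _ hI.objs_ne
  refine AG.order_eq _ _ _ fun c hc hcon => ?_
  obtain ⟨h1, h2, h3, -⟩ := EncS2.bcl_spec (baseS I) (fun e he => EncS2.base_es_fst I he)
    (Sum.inl (u0, 0, 0)) hc
  unfold encS at hcon ⊢
  rw [h2, (EncS2.con_base I u0 b (h3 ▸ hcon)).1]
  intro h
  have := hI.two_le _ (EncS2.domB_mem I h0 h1)
  rw [h] at this
  exact absurd this (by simp)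

theorem encS_pequiv_of_shift (I : XI O X) (hI : I.OK) (b : O → Bool) (K : ℕ)
    (h : ShiftEquiv I.objs I.ports b K) :
    PEquiv K ((encS I).mat fun _ => false) ((encS I).mat (bS I b)) := by
  obtain ⟨u0, h0⟩ : ∃ u0, u0 ∈ I.objs := List.exists_mem_of_ne_nil _ hI.objs_ne
  have key := fun {c} hc => EncS2.bcl_spec (c := c) (baseS I)
    (fun e he => EncS2.base_es_fst I he) (Sum.inl (u0, 0, 0)) hc
  refine AG.pequiv_of_shiftEquiv (encS I) (bS I b) I.objs I.ports b
    (fun c => EncS2.domB u0 (EncS2.bcl (baseS I) c (Sum.inl (u0, 0, 0)))) K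
    (EncS2.cls_nodup _ (EncS2.base_cls_nodup I hI)) hI.ports_nodup ?_ ?_ ?_ h
  · intro c hc
    unfold encS at hc ⊢
    rw [(key hc).2.1]
    exact EncS2.vars_base_nodup I hI (key hc).1
  · intro c hc
    unfold encS at hc ⊢
    rw [(key hc).2.1]
    exact ⟨EncS2.domB_mem I h0 (key hc).1, EncS2.vars_base_subset I u0 (key hc).1⟩
  · intro c hc hcon
    unfold encS at hc hcon ⊢
    obtain ⟨h1, h2, h3, h4⟩ := key hc
    rw [h2]
    have := EncS2.con_base I u0 b (h3 ▸ hcon)
    exact ⟨this.1, (h4 _).trans this.2⟩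

end encs

end Crest.Agent.R290
end

-- ▼ part R290/BaseNodup
section

/-!
# Row 290: the edges of the base graph of `encS` are listed without repetition
-/

set_option autoImplicit false
set_option linter.unusedSectionVars false

namespace Crest.Agent.R290

namespace BaseNodup

theorem nodup_flatMap_rel {α β : Type*} {l : List α} {f : α → List β} (R : β → α → Prop)
    (hR : ∀ b x y, R b x → R b y → x = y) (hl : l.Nodup) (h1 : ∀ x ∈ l, (f x).Nodup)
    (h2 : ∀ x ∈ l, ∀ y ∈ f x, R y x) : (l.flatMap f).Nodup := by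
  induction l with
  | nil => simp
  | cons a l ih =>
    rw [List.flatMap_cons, List.nodup_append']
    rw [List.nodup_cons] at hl
    refine ⟨h1 a (by simp), ih hl.2 (fun x hx => h1 x (by simp [hx]))
      (fun x hx => h2 x (by simp [hx])), ?_⟩
    intro y hy hy'
    rw [List.mem_flatMap] at hy'
    obtain ⟨x, hx, hyx⟩ := hy'
    have e1 := h2 a (by simp) y hy
    have e2 := h2 x (by simp [hx]) y hyx
    exact hl.1 (by rw [hR _ _ _ e1 e2]; exact hx)

theorem nodup_zip {α β : Type*} {l : List α} (l' : List β) (h : l.Nodup) : (l.zip l').Nodup := by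
  induction l generalizing l' with
  | nil => simp
  | cons a l ih =>
    cases l' with
    | nil => simp
    | cons b l' =>
      rw [List.nodup_cons] at h
      rw [List.zip_cons_cons, List.nodup_cons]
      exact ⟨fun hm => h.1 (List.of_mem_zip hm).1, ih l' h.2⟩

theorem nodup_app {α : Type*} {l l' : List α} (f : α → ℕ) (k : ℕ) (h : l.Nodup) (h' : l'.Nodup)
    (hl : ∀ a ∈ l, f a ≤ k) (hl' : ∀ a ∈ l', k < f a) : (l ++ l').Nodup := by
  rw [List.nodup_append']
  refine ⟨h, h', fun a ha ha' => ?_⟩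
  have := hl a ha
  have := hl' a ha'
  omega

end BaseNodup

open BaseNodup EncS2

section

variable {O X : Type} [DecidableEq O] [DecidableEq X] (I : XI O X)

theorem occ_nodup (hI : I.OK) (x : X) : (I.occ x).Nodup := by
  refine nodup_flatMap_key Prod.fst hI.objs_nodup ?_ ?_
  · intro u _
    refine (List.nodup_range.filter _).map ?_
    intro a b hab
    simpa using hab
  · intro u _ c hc
    obtain ⟨i, _, rfl⟩ := List.mem_map.1 hc
    rfl

/-- number of the list in which an edge occurs -/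
def esTag : CB O X × CB O X → ℕ
  | (.inl _, .inl (_, _, 0)) => 1
  | (.inl _, .inl (_, _, _ + 1)) => 2
  | (.inl _, .inr _) => 3
  | (.inr (.inl _), .inr (.inl _)) => 4
  | (.inr (.inl _), _) => 5
  | (.inr (.inr (.inl _)), _) => 6
  | (.inr (.inr (.inr _)), _) => 7

theorem baseS_es_nodup (hI : I.OK) : (baseS I).es.Nodup := by
  change (((((((I.objs.flatMap fun u => (List.range ((I.ports u).length - 1)).map fun i =>
      ((Sum.inl (u, i, 0), Sum.inl (u, i + 1, 0)) : CB O X × CB O X)) ++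
    (I.objs.flatMap fun u => (List.range (I.ports u).length).flatMap fun i =>
      (List.range ((I.ports u).length - 1)).map fun l => (Sum.inl (u, i, l), Sum.inl (u, i, l + 1)))) ++
    (I.objs.flatMap fun u => (List.range (I.ports u).length).map fun i =>
      (Sum.inl (u, i, (I.ports u).length - 1), Sum.inr (Sum.inl (u, i))))) ++
    (I.vl.flatMap fun x => ((I.occ x).zip (I.occ x).tail).map fun (o : (O × ℕ) × (O × ℕ)) =>
      (Sum.inr (Sum.inl o.1), Sum.inr (Sum.inl o.2)))) ++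
    (I.vl.flatMap fun x => ((I.occ x).take 1).map fun (o : O × ℕ) =>
      (Sum.inr (Sum.inl o), Sum.inr (Sum.inr (Sum.inl x))))) ++
    (I.vl.map fun x => (Sum.inr (Sum.inr (Sum.inl x)), Sum.inr (Sum.inr (Sum.inr x))))) ++
    ((I.vl.zip I.vl.tail).map fun (p : X × X) =>
      (Sum.inr (Sum.inr (Sum.inr p.1)), Sum.inr (Sum.inr (Sum.inr p.2))))).Nodup
  have t1 : ∀ e ∈ (I.objs.flatMap fun u => (List.range ((I.ports u).length - 1)).map fun i =>
      ((Sum.inl (u, i, 0), Sum.inl (u, i + 1, 0)) : CB O X × CB O X)), esTag e = 1 := by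
    intro e he
    obtain ⟨u, _, he⟩ := List.mem_flatMap.1 he
    obtain ⟨i, _, rfl⟩ := List.mem_map.1 he
    rfl
  have t2 : ∀ e ∈ (I.objs.flatMap fun u => (List.range (I.ports u).length).flatMap fun i =>
      (List.range ((I.ports u).length - 1)).map fun l =>
        ((Sum.inl (u, i, l), Sum.inl (u, i, l + 1)) : CB O X × CB O X)), esTag e = 2 := by
    intro e he
    obtain ⟨u, _, he⟩ := List.mem_flatMap.1 he
    obtain ⟨i, _, he⟩ := List.mem_flatMap.1 he
    obtain ⟨l, _, rfl⟩ := List.mem_map.1 he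
    rfl
  have t3 : ∀ e ∈ (I.objs.flatMap fun u => (List.range (I.ports u).length).map fun i =>
      ((Sum.inl (u, i, (I.ports u).length - 1), Sum.inr (Sum.inl (u, i))) : CB O X × CB O X)),
      esTag e = 3 := by
    intro e he
    obtain ⟨u, _, he⟩ := List.mem_flatMap.1 he
    obtain ⟨i, _, rfl⟩ := List.mem_map.1 he
    rfl
  have t4 : ∀ e ∈ (I.vl.flatMap fun x => ((I.occ x).zip (I.occ x).tail).map fun o =>
      ((Sum.inr (Sum.inl o.1), Sum.inr (Sum.inl o.2)) : CB O X × CB O X)), esTag e = 4 := by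
    intro e he
    obtain ⟨x, _, he⟩ := List.mem_flatMap.1 he
    obtain ⟨o, _, rfl⟩ := List.mem_map.1 he
    rfl
  have t5 : ∀ e ∈ (I.vl.flatMap fun x => ((I.occ x).take 1).map fun o =>
      ((Sum.inr (Sum.inl o), Sum.inr (Sum.inr (Sum.inl x))) : CB O X × CB O X)), esTag e = 5 := by
    intro e he
    obtain ⟨x, _, he⟩ := List.mem_flatMap.1 he
    obtain ⟨o, _, rfl⟩ := List.mem_map.1 he
    rfl
  have t6 : ∀ e ∈ (I.vl.map fun x => ((Sum.inr (Sum.inr (Sum.inl x)),
      Sum.inr (Sum.inr (Sum.inr x))) : CB O X × CB O X)), esTag e = 6 := by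
    intro e he
    obtain ⟨x, _, rfl⟩ := List.mem_map.1 he
    rfl
  have t7 : ∀ e ∈ ((I.vl.zip I.vl.tail).map fun p =>
      ((Sum.inr (Sum.inr (Sum.inr p.1)), Sum.inr (Sum.inr (Sum.inr p.2))) : CB O X × CB O X)),
      esTag e = 7 := by
    intro e he
    obtain ⟨x, _, rfl⟩ := List.mem_map.1 he
    rfl
  obtain ⟨u0, _⟩ : ∃ u0, u0 ∈ I.objs := List.exists_mem_of_ne_nil _ hI.objs_ne
  have n1 : (I.objs.flatMap fun u => (List.range ((I.ports u).length - 1)).map fun i =>
      ((Sum.inl (u, i, 0), Sum.inl (u, i + 1, 0)) : CB O X × CB O X)).Nodup := by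
    refine nodup_flatMap_key (fun c => Sum.elim (fun p => p.1) (fun _ => u0) c.1)
      hI.objs_nodup ?_ ?_
    · intro u _
      refine List.nodup_range.map ?_
      intro a b hab
      simpa using hab
    · intro u _ c hc
      obtain ⟨i, _, rfl⟩ := List.mem_map.1 hc
      rfl
  have n2 : (I.objs.flatMap fun u => (List.range (I.ports u).length).flatMap fun i =>
      (List.range ((I.ports u).length - 1)).map fun l =>
        ((Sum.inl (u, i, l), Sum.inl (u, i, l + 1)) : CB O X × CB O X)).Nodup := by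
    refine nodup_flatMap_key (fun c => Sum.elim (fun p => p.1) (fun _ => u0) c.1)
      hI.objs_nodup ?_ ?_
    · intro u _
      refine nodup_flatMap_key (fun c => Sum.elim (fun p => p.2.1) (fun _ => 0) c.1)
        List.nodup_range ?_ ?_
      · intro i _
        refine List.nodup_range.map ?_
        intro a b hab
        simpa using hab
      · intro i _ c hc
        obtain ⟨l, _, rfl⟩ := List.mem_map.1 hc
        rfl
    · intro u _ c hc
      obtain ⟨i, _, hc⟩ := List.mem_flatMap.1 hc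
      obtain ⟨l, _, rfl⟩ := List.mem_map.1 hc
      rfl
  have n3 : (I.objs.flatMap fun u => (List.range (I.ports u).length).map fun i =>
      ((Sum.inl (u, i, (I.ports u).length - 1), Sum.inr (Sum.inl (u, i))) :
        CB O X × CB O X)).Nodup := by
    refine nodup_flatMap_key (fun c => Sum.elim (fun p => p.1) (fun _ => u0) c.1)
      hI.objs_nodup ?_ ?_
    · intro u _
      refine List.nodup_range.map ?_
      intro a b hab
      simpa using hab
    · intro u _ c hc
      obtain ⟨i, _, rfl⟩ := List.mem_map.1 hc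
      rfl
  have n4 : (I.vl.flatMap fun x => ((I.occ x).zip (I.occ x).tail).map fun o =>
      ((Sum.inr (Sum.inl o.1), Sum.inr (Sum.inl o.2)) : CB O X × CB O X)).Nodup := by
    refine nodup_flatMap_rel
      (fun c x => ∃ o : O × ℕ, c.1 = Sum.inr (Sum.inl o) ∧ (I.ports o.1)[o.2]? = some x) ?_
      hI.vl_nodup ?_ ?_
    · rintro c x y ⟨o, h1, h2⟩ ⟨o', h3, h4⟩
      rw [h1] at h3
      simp only [Sum.inr.injEq, Sum.inl.injEq] at h3
      subst h3
      rw [h2] at h4
      simpa using h4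
    · intro x _
      refine (nodup_zip _ (occ_nodup I hI x)).map ?_
      intro a b hab
      simp only [Prod.mk.injEq, Sum.inr.injEq, Sum.inl.injEq] at hab
      exact Prod.ext hab.1 hab.2
    · intro x _ c hc
      obtain ⟨o, ho, rfl⟩ := List.mem_map.1 hc
      exact ⟨o.1, rfl, ((mem_occ I).1 (List.of_mem_zip ho).1).2⟩
  have n5 : (I.vl.flatMap fun x => ((I.occ x).take 1).map fun o =>
      ((Sum.inr (Sum.inl o), Sum.inr (Sum.inr (Sum.inl x))) : CB O X × CB O X)).Nodup := by
    refine nodup_flatMap_rel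
      (fun c x => ∃ o : O × ℕ, c.1 = Sum.inr (Sum.inl o) ∧ (I.ports o.1)[o.2]? = some x) ?_
      hI.vl_nodup ?_ ?_
    · rintro c x y ⟨o, h1, h2⟩ ⟨o', h3, h4⟩
      rw [h1] at h3
      simp only [Sum.inr.injEq, Sum.inl.injEq] at h3
      subst h3
      rw [h2] at h4
      simpa using h4
    · intro x _
      refine ((occ_nodup I hI x).sublist (List.take_sublist _ _)).map ?_
      intro a b hab
      simpa using hab
    · intro x _ c hc
      obtain ⟨o, ho, rfl⟩ := List.mem_map.1 hc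
      exact ⟨o, rfl, ((mem_occ I).1 (List.mem_of_mem_take ho)).2⟩
  have n6 : (I.vl.map fun x => ((Sum.inr (Sum.inr (Sum.inl x)),
      Sum.inr (Sum.inr (Sum.inr x))) : CB O X × CB O X)).Nodup := by
    refine hI.vl_nodup.map ?_
    intro a b hab
    simpa using hab
  have n7 : ((I.vl.zip I.vl.tail).map fun p =>
      ((Sum.inr (Sum.inr (Sum.inr p.1)), Sum.inr (Sum.inr (Sum.inr p.2))) :
        CB O X × CB O X)).Nodup := by
    refine (nodup_zip _ hI.vl_nodup).map ?_
    intro a b hab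
    simp only [Prod.mk.injEq, Sum.inr.injEq] at hab
    exact Prod.ext hab.1 hab.2
  have s2 := nodup_app esTag 1 n1 n2 (fun a ha => (t1 a ha).le) (fun a ha => by rw [t2 a ha]; omega)
  have b2 : ∀ a ∈ _, esTag a ≤ 2 := fun a ha =>
    (List.mem_append.1 ha).elim (fun h => by rw [t1 a h]; omega) (fun h => (t2 a h).le)
  have s3 := nodup_app esTag 2 s2 n3 b2 (fun a ha => by rw [t3 a ha]; omega)
  have b3 : ∀ a ∈ _, esTag a ≤ 3 := fun a ha =>
    (List.mem_append.1 ha).elim (fun h => (b2 a h).trans (by omega)) (fun h => (t3 a h).le)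
  have s4 := nodup_app esTag 3 s3 n4 b3 (fun a ha => by rw [t4 a ha]; omega)
  have b4 : ∀ a ∈ _, esTag a ≤ 4 := fun a ha =>
    (List.mem_append.1 ha).elim (fun h => (b3 a h).trans (by omega)) (fun h => (t4 a h).le)
  have s5 := nodup_app esTag 4 s4 n5 b4 (fun a ha => by rw [t5 a ha]; omega)
  have b5 : ∀ a ∈ _, esTag a ≤ 5 := fun a ha =>
    (List.mem_append.1 ha).elim (fun h => (b4 a h).trans (by omega)) (fun h => (t5 a h).le)
  have s6 := nodup_app esTag 5 s5 n6 b5 (fun a ha => by rw [t6 a ha]; omega)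
  have b6 : ∀ a ∈ _, esTag a ≤ 6 := fun a ha =>
    (List.mem_append.1 ha).elim (fun h => (b5 a h).trans (by omega)) (fun h => (t6 a h).le)
  exact nodup_app esTag 6 s6 n7 b6 (fun a ha => by rw [t7 a ha]; omega)

end

end Crest.Agent.R290
end

-- ▼ part R290/BaseTwo
section

/-!
# Row 290: every class of `baseS I` lies on two edges
-/

set_option autoImplicit false
set_option linter.unusedSectionVars false

namespace Crest.Agent.R290

namespace BaseTwo

variable {α : Type}

theorem first_or_prev {l : List α} {a : α} (h : a ∈ l) :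
    a ∈ l.take 1 ∨ ∃ a', (a', a) ∈ l.zip l.tail := by
  induction l with
  | nil => simp at h
  | cons b l ih =>
    rcases List.mem_cons.mp h with rfl | h
    · left; simp
    · right
      rcases ih h with h1 | ⟨a', h1⟩
      · cases l with
        | nil => simp at h
        | cons c l =>
          simp at h1
          subst h1
          exact ⟨b, by simp⟩
      · cases l with
        | nil => simp at h
        | cons c l =>
          refine ⟨a', ?_⟩
          simp only [List.tail_cons] at h1 ⊢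
          rw [List.zip_cons_cons]
          exact List.mem_cons_of_mem _ h1

theorem next_or_prev {l : List α} {a : α} (h : a ∈ l) (h2 : 2 ≤ l.length) :
    (∃ b, (a, b) ∈ l.zip l.tail) ∨ ∃ b, (b, a) ∈ l.zip l.tail := by
  rcases first_or_prev h with h1 | h1
  · left
    match l, h1, h2 with
    | b :: c :: l, h1, _ =>
      simp at h1
      subst h1
      exact ⟨c, by simp⟩
  · exact Or.inr h1

variable {O X : Type} [DecidableEq O] [DecidableEq X] (I : XI O X)

theorem mE1 {u : O} (hu : u ∈ I.objs) {i : ℕ} (hi : i + 1 < (I.ports u).length) :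
    ((Sum.inl (u, i, 0), Sum.inl (u, i + 1, 0)) : CB O X × CB O X) ∈ (baseS I).es := by
  simp only [baseS, List.mem_append]
  left; left; left; left; left; left
  exact List.mem_flatMap.mpr ⟨u, hu, List.mem_map.mpr ⟨i, List.mem_range.mpr (by omega), rfl⟩⟩

theorem mE2 {u : O} (hu : u ∈ I.objs) {i l : ℕ} (hi : i < (I.ports u).length)
    (hl : l + 1 < (I.ports u).length) :
    ((Sum.inl (u, i, l), Sum.inl (u, i, l + 1)) : CB O X × CB O X) ∈ (baseS I).es := by
  simp only [baseS, List.mem_append]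
  left; left; left; left; left; right
  exact List.mem_flatMap.mpr ⟨u, hu, List.mem_flatMap.mpr ⟨i, List.mem_range.mpr hi,
    List.mem_map.mpr ⟨l, List.mem_range.mpr (by omega), rfl⟩⟩⟩

theorem mE3 {u : O} (hu : u ∈ I.objs) {i : ℕ} (hi : i < (I.ports u).length) :
    ((Sum.inl (u, i, (I.ports u).length - 1), Sum.inr (Sum.inl (u, i))) : CB O X × CB O X) ∈
      (baseS I).es := by
  simp only [baseS, List.mem_append]
  left; left; left; left; right
  exact List.mem_flatMap.mpr ⟨u, hu, List.mem_map.mpr ⟨i, List.mem_range.mpr hi, rfl⟩⟩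

theorem mE4 {x : X} (hx : x ∈ I.vl) {o o' : O × ℕ} (h : (o, o') ∈ (I.occ x).zip (I.occ x).tail) :
    ((Sum.inr (Sum.inl o), Sum.inr (Sum.inl o')) : CB O X × CB O X) ∈ (baseS I).es := by
  simp only [baseS, List.mem_append]
  left; left; left; right
  exact List.mem_flatMap.mpr ⟨x, hx, List.mem_map.mpr ⟨(o, o'), h, rfl⟩⟩

theorem mE5 {x : X} (hx : x ∈ I.vl) {o : O × ℕ} (h : o ∈ (I.occ x).take 1) :
    ((Sum.inr (Sum.inl o), Sum.inr (Sum.inr (Sum.inl x))) : CB O X × CB O X) ∈ (baseS I).es := by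
  simp only [baseS, List.mem_append]
  left; left; right
  exact List.mem_flatMap.mpr ⟨x, hx, List.mem_map.mpr ⟨o, h, rfl⟩⟩

theorem mE6 {x : X} (hx : x ∈ I.vl) :
    ((Sum.inr (Sum.inr (Sum.inl x)), Sum.inr (Sum.inr (Sum.inr x))) : CB O X × CB O X) ∈
      (baseS I).es := by
  simp only [baseS, List.mem_append]
  left; right
  exact List.mem_map.mpr ⟨x, hx, rfl⟩

theorem mE7 {x y : X} (h : (x, y) ∈ I.vl.zip I.vl.tail) :
    ((Sum.inr (Sum.inr (Sum.inr x)), Sum.inr (Sum.inr (Sum.inr y))) : CB O X × CB O X) ∈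
      (baseS I).es := by
  simp only [baseS, List.mem_append]
  right
  exact List.mem_map.mpr ⟨(x, y), h, rfl⟩

theorem mem_occ {x : X} {u : O} {i : ℕ} :
    (u, i) ∈ I.occ x ↔ u ∈ I.objs ∧ (I.ports u)[i]? = some x := by
  simp only [XI.occ, List.mem_flatMap, List.mem_map, List.mem_filter, List.mem_range,
    decide_eq_true_eq, Prod.mk.injEq]
  constructor
  · rintro ⟨v, hv, j, ⟨_, h⟩, rfl, rfl⟩
    exact ⟨hv, h⟩
  · rintro ⟨hu, h⟩
    refine ⟨u, hu, i, ⟨?_, h⟩, rfl, rfl⟩
    by_contra hcon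
    rw [List.getElem?_eq_none (by omega)] at h
    cases h

end BaseTwo

open BaseTwo in
theorem baseS_two {O X : Type} [DecidableEq O] [DecidableEq X] (I : XI O X) (hI : I.OK) :
    ∀ c ∈ (baseS I).cls, ∃ (e e' : CB O X × CB O X), e ≠ e' ∧ e ∈ (baseS I).es ∧
      e' ∈ (baseS I).es ∧ (e.1 = c ∨ e.2 = c) ∧ (e'.1 = c ∨ e'.2 = c) := by
  intro c hc
  simp only [baseS, List.mem_append] at hc
  rcases hc with ((hc | hc) | hc) | hc
  · -- object classes
    simp only [List.mem_flatMap, List.mem_map, List.mem_range] at hc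
    obtain ⟨u, hu, i, hi, l, hl, rfl⟩ := hc
    have h2 := hI.two_le u hu
    rcases Nat.eq_zero_or_pos l with rfl | hl0
    · by_cases h : i + 1 < (I.ports u).length
      · refine ⟨_, _, ?_, mE2 I hu hi (l := 0) (by omega), mE1 I hu h, Or.inl rfl, Or.inl rfl⟩
        simp
      · obtain ⟨j, rfl⟩ : ∃ j, i = j + 1 := ⟨i - 1, by omega⟩
        refine ⟨_, _, ?_, mE2 I hu hi (l := 0) (by omega), mE1 I hu (i := j) hi, Or.inl rfl,
          Or.inr rfl⟩
        simp
    · obtain ⟨k, rfl⟩ : ∃ k, l = k + 1 := ⟨l - 1, by omega⟩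
      by_cases h : k + 1 + 1 < (I.ports u).length
      · refine ⟨_, _, ?_, mE2 I hu hi (l := k) hl, mE2 I hu hi (l := k + 1) h, Or.inr rfl,
          Or.inl rfl⟩
        simp
      · have e : (I.ports u).length - 1 = k + 1 := by omega
        refine ⟨_, _, ?_, mE2 I hu hi (l := k) hl, mE3 I hu hi, Or.inr rfl, Or.inl ?_⟩
        · simp
        · simp [e]
  · -- chain classes
    simp only [List.mem_flatMap, List.mem_map, List.mem_range] at hc
    obtain ⟨u, hu, i, hi, rfl⟩ := hc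
    have hx : (I.ports u)[i]? = some (I.ports u)[i] := List.getElem?_eq_getElem hi
    have hocc : (u, i) ∈ I.occ (I.ports u)[i] := (mem_occ I).mpr ⟨hu, hx⟩
    have hvl : (I.ports u)[i] ∈ I.vl := (hI.mem_vl _).mpr ⟨u, hu, List.getElem_mem hi⟩
    rcases first_or_prev hocc with h | ⟨o, h⟩
    · refine ⟨_, _, ?_, mE3 I hu hi, mE5 I hvl h, Or.inr rfl, Or.inl rfl⟩
      simp
    · refine ⟨_, _, ?_, mE3 I hu hi, mE4 I hvl h, Or.inr rfl, Or.inr rfl⟩
      simp
  · -- joins
    simp only [List.mem_map] at hc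
    obtain ⟨x, hx, rfl⟩ := hc
    obtain ⟨u, hu, hxu⟩ := (hI.mem_vl x).mp hx
    obtain ⟨i, hi, hix⟩ := List.getElem_of_mem hxu
    have hocc : (u, i) ∈ I.occ x := (mem_occ I).mpr ⟨hu, by rw [List.getElem?_eq_getElem hi, hix]⟩
    obtain ⟨o, ho⟩ : ∃ o, o ∈ (I.occ x).take 1 := by
      cases hl : I.occ x with
      | nil => rw [hl] at hocc; simp at hocc
      | cons a l => exact ⟨a, by simp⟩
    refine ⟨_, _, ?_, mE5 I hx ho, mE6 I hx, Or.inr rfl, Or.inl rfl⟩
    simp
  · -- bus
    simp only [List.mem_map] at hc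
    obtain ⟨x, hx, rfl⟩ := hc
    obtain ⟨u, hu, hxu⟩ := (hI.mem_vl x).mp hx
    have h2 := hI.two_le u hu
    have hlen : 2 ≤ I.vl.length := by
      have hnd := hI.ports_nodup u hu
      have hsub : I.ports u ⊆ I.vl := fun y hy => (hI.mem_vl y).mpr ⟨u, hu, hy⟩
      have := (hnd.subperm hsub).length_le
      omega
    rcases next_or_prev hx hlen with ⟨y, h⟩ | ⟨y, h⟩
    · refine ⟨_, _, ?_, mE6 I hx, mE7 I h, Or.inr rfl, Or.inl rfl⟩
      simp
    · refine ⟨_, _, ?_, mE6 I hx, mE7 I h, Or.inr rfl, Or.inr rfl⟩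
      simp

end Crest.Agent.R290
end

-- ▼ part R290/EncS
section

/-!
# Row 290, module ENCS: `shift_of_encS_pequiv` (helper217)

`encS_pequiv_of_shift` and `encS_order_eq` are in `EncS2.lean` (helper119).
-/

set_option autoImplicit false

namespace Crest.Agent.R290

open Crest.Agent.R290.WL (PEquiv PSys)

section encs
variable {O X : Type} [DecidableEq O] [DecidableEq X]

theorem baseS_good (I : XI O X) (hI : I.OK) : (baseS I).Good :=
  BaseGood.baseS_good' hI (baseS_es_nodup I hI) (baseS_two I hI)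

/-- `Model` gives `AGModel` -/
theorem Model.toAGModel {C V : Type} {G : AG C X} {b : C → Bool} {A : V → V → Bool} {cl : V → C}
    {as : V → X → ZMod 2} (hv : ∀ c ∈ G.cls, (G.vars c).Nodup) (h : Model G b A cl as) :
    AGModel G b A cl as where
  cl_mem := h.cl_mem
  adj_iff := h.adj_iff
  ext := h.ext
  exist c hc α hα := h.exists_v c hc α fun hcon => by
    rw [List.sum_toFinset _ (hv c hc)]
    exact hα hcon
  par v hcon := by
    rw [← List.sum_toFinset _ (hv _ (h.cl_mem v))]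
    exact h.parity v hcon

theorem subdiv_vars_nodup {C : Type} [DecidableEq C] {G : BG C X} (hG : G.Good) :
    ∀ c ∈ (subdiv G).cls, ((subdiv G).vars c).Nodup := by
  rintro (c | ⟨k, j⟩) hc
  · exact hG.nodup c (mem_subdiv_cls_inl.1 hc)
  · have hk := (mem_subdiv_cls_inr.1 hc).1
    have he : G.es[k]? = some G.es[k] := by simp [hk]
    rw [subdiv_vars_inr he]
    exact hG.nodup _ (hG.mem1 _ (List.getElem_mem hk))

theorem shift_of_encS_pequiv (I : XI O X) (hI : I.OK) (b : O → Bool) (K : ℕ) (hK : 3 ≤ K)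
    (h : PEquiv K ((encS I).mat fun _ => false) ((encS I).mat (bS I b))) :
    ShiftEquiv I.objs I.ports b K := by
  have hG := baseS_good I hI
  have hnd : (encS I).cls.Nodup := EncS2.cls_nodup _ (EncS2.base_cls_nodup I hI)
  have hvn : ∀ c ∈ (encS I).cls, ((encS I).vars c).Nodup := subdiv_vars_nodup hG
  have hb0 : (bSub (baseS I) fun _ => false) = fun _ => false := by
    funext c
    rcases c with c | ⟨k, j⟩
    · rfl
    · simp only [bSub]
      cases (baseS I).es[k]? <;> rfl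
  have hm0 : AGModel (subdiv (baseS I)) (bSub (baseS I) fun _ => false)
      ((encS I).mat (bSub (baseS I) fun _ => false)) _ _ :=
    Model.toAGModel hvn (AG.model_mat (G := encS I) (b := bSub (baseS I) fun _ => false) hnd hvn)
  have hm' : AGModel (subdiv (baseS I)) (bSub (baseS I) (bB b)) ((encS I).mat (bS I b)) _ _ :=
    Model.toAGModel hvn (AG.model_mat (G := encS I) (b := bS I b) hnd hvn)
  have h' : PEquiv K ((encS I).mat (bSub (baseS I) fun _ => false)) ((encS I).mat (bS I b)) := by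
    rw [hb0]
    exact h
  obtain ⟨R, hR⟩ := h'
  refine shift_of_psys hG (BaseGood.baseS_parOK b) hm' (top := fun u => Sum.inl (u, 0, 0)) hm0
    ?_ ?_ hR hK
  · intro u hu
    have h2 := hI.two_le u hu
    exact ⟨(BaseGood.mem_cls_inl I).2 ⟨hu, by omega, by omega⟩, rfl, rfl, rfl⟩
  · intro u hu v hv x hxu hxv
    exact BaseGood.baseS_meet hI hu hv hxu hxv

end encs

end Crest.Agent.R290
end

-- ▼ part R290/EncS3C
section

/-!
# Row 290, ENCS-3: connectivity of the subcubic encoding `encS`.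
-/

set_option autoImplicit false

namespace Crest.Agent.R290.EncS3

open Crest.WLRefine

section abstract_

variable {C X : Type} [DecidableEq C] [DecidableEq X] {G : BG C X} {b : C → Bool} {n : ℕ}
  {A : Fin n → Fin n → Bool} {cl : Fin n → C ⊕ (ℕ × ℕ)} {as : Fin n → X → ZMod 2}

theorem reach_of_adj {v w : Fin n} (h : A v w = true) : (adjGraph A).Reachable v w := by
  by_cases hvw : v = w
  · subst hvw
    exact SimpleGraph.Reachable.refl _
  · refine SimpleGraph.Adj.reachable ?_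
    unfold adjGraph
    rw [SimpleGraph.fromRel_adj]
    exact ⟨hvw, Or.inl h⟩

/-- vertices at the two ends of a subdivided edge which agree are connected -/
theorem reach_edge (m : AGModel (subdiv G) (bSub G b) A cl as) {k : ℕ} {e : C × C}
    (he : G.es[k]? = some e) {v w : Fin n} (hv : cl v = Sum.inl e.1) (hw : cl w = Sum.inl e.2)
    (h : ∀ x ∈ G.vars e.2, as v x = as w x) : (adjGraph A).Reachable v w := by
  have hk : k < G.es.length := (List.getElem?_eq_some_iff.1 he).1
  obtain ⟨z, hz, hza⟩ := m.exist (Sum.inr (k, 0)) (mem_subdiv_cls_inr.2 ⟨hk, by omega⟩) (as v) (by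
    rw [subdiv_con_inr he, subdiv_vars_inr he, bSub_inr he]
    intro hc
    have := m.par v (by rw [hv]; exact hc)
    rw [hv] at this
    exact this)
  rw [subdiv_vars_inr he] at hza
  have h1 : A v z = true := by
    rw [m.adj_iff, hv, hz, ES_inl_inr]
    refine ⟨⟨rfl, e, he, Or.inl rfl⟩, fun x _ hx => ?_⟩
    rw [subdiv_vars_inr he] at hx
    exact (hza x hx).symm
  have h2 : A z w = true := by
    rw [m.adj_iff, hw, hz, ES_inr_inl]
    refine ⟨⟨rfl, e, he, Or.inr rfl⟩, fun x hx hx' => ?_⟩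
    rw [subdiv_vars_inr he] at hx
    rw [hza x hx]
    exact h x hx'
  exact (reach_of_adj h1).trans (reach_of_adj h2)

/-- from a vertex of the first end of an edge one reaches a vertex of the second end -/
theorem reach_down (hG : G.Good) (hp : G.ParOK b) (m : AGModel (subdiv G) (bSub G b) A cl as)
    {e : C × C} (he : e ∈ G.es) {v : Fin n} (hv : cl v = Sum.inl e.1) :
    ∃ w, cl w = Sum.inl e.2 ∧ (adjGraph A).Reachable v w := by
  obtain ⟨k, hk⟩ := List.mem_iff_getElem?.1 he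
  obtain ⟨w, hw, hwa⟩ := m.exist (Sum.inl e.2) (mem_subdiv_cls_inl.2 (hG.mem2 e he)) (as v) (by
    intro hc
    obtain ⟨h1, h2⟩ := hG.con e he hc
    have := m.par v (by rw [hv]; exact h1)
    rw [hv] at this
    change ((G.vars e.1).map (as v)).sum = bz (b e.1) at this
    change ((G.vars e.2).map (as v)).sum = bz (b e.2)
    rw [← h2, this, hp e he hc])
  exact ⟨w, hw, reach_edge m hk hv hw fun x hx => (hwa x hx).symm⟩

/-- from a vertex of the second end of an edge with unconstrained first end one reaches a vertex of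
the first end -/
theorem reach_up (hG : G.Good) (m : AGModel (subdiv G) (bSub G b) A cl as)
    {e : C × C} (he : e ∈ G.es) (hc : G.con e.1 = false) {w : Fin n} (hw : cl w = Sum.inl e.2) :
    ∃ v, cl v = Sum.inl e.1 ∧ (adjGraph A).Reachable w v := by
  obtain ⟨k, hk⟩ := List.mem_iff_getElem?.1 he
  obtain ⟨v, hv, hva⟩ := m.exist (Sum.inl e.1) (mem_subdiv_cls_inl.2 (hG.mem1 e he)) (as w) (by
    intro hc'
    change G.con e.1 = true at hc'
    rw [hc] at hc'
    exact absurd hc' (by decide))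
  exact ⟨v, hv, (reach_edge m hk hv hw fun x hx => hva x (hG.sub e he hx)).symm⟩

/-- from a vertex of a pendant path one reaches a base vertex -/
theorem reach_pendant (hG : G.Good) (m : AGModel (subdiv G) (bSub G b) A cl as) {k : ℕ}
    {e : C × C} (he : G.es[k]? = some e) (j : ℕ) (hj : j < k + 2) :
    ∀ v : Fin n, cl v = Sum.inr (k, j) → ∃ w, cl w = Sum.inl e.1 ∧ (adjGraph A).Reachable v w := by
  have hk : k < G.es.length := (List.getElem?_eq_some_iff.1 he).1
  have hpar : ∀ v : Fin n, ∀ j, cl v = Sum.inr (k, j) → G.con e.1 = true →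
      ((G.vars e.1).map (as v)).sum = bz (b e.1) := by
    intro v j hv hc
    have := m.par v (by rw [hv, subdiv_con_inr he]; exact hc)
    rw [hv, subdiv_vars_inr he, bSub_inr he] at this
    exact this
  induction j with
  | zero =>
    intro v hv
    obtain ⟨w, hw, hwa⟩ := m.exist (Sum.inl e.1)
      (mem_subdiv_cls_inl.2 (hG.mem1 e (List.mem_of_getElem? he))) (as v)
      (fun hc => hpar v 0 hv hc)
    refine ⟨w, hw, reach_of_adj ?_⟩
    rw [m.adj_iff, hv, hw, ES_inr_inl]
    exact ⟨⟨rfl, e, he, Or.inl rfl⟩, fun x _ hx => (hwa x hx).symm⟩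
  | succ j ih =>
    intro v hv
    obtain ⟨z, hz, hza⟩ := m.exist (Sum.inr (k, j))
      (mem_subdiv_cls_inr.2 ⟨hk, by omega⟩) (as v) (by
        rw [subdiv_con_inr he, subdiv_vars_inr he, bSub_inr he]
        exact fun hc => hpar v _ hv hc)
    obtain ⟨w, hw, hzw⟩ := ih (by omega) z hz
    refine ⟨w, hw, SimpleGraph.Reachable.trans (reach_of_adj ?_) hzw⟩
    rw [m.adj_iff, hv, hz, ES_inr_inr]
    exact ⟨⟨rfl, Or.inr rfl⟩, fun x _ hx => (hza x hx).symm⟩

end abstract_

section concrete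

variable {O X : Type} [DecidableEq O] [DecidableEq X] {I : XI O X} {b : O → Bool} {n : ℕ}
  {A : Fin n → Fin n → Bool} {cl : Fin n → CB O X ⊕ (ℕ × ℕ)} {as : Fin n → X → ZMod 2}

theorem reach_bus (hI : I.OK) (m : AGModel (subdiv (baseS I)) (bSub (baseS I) (bB b)) A cl as)
    {x0 : X} (h0 : I.vl[0]? = some x0) (j : ℕ) : ∀ (x : X), I.vl[j]? = some x → ∀ v : Fin n,
      cl v = Sum.inl (Sum.inr (Sum.inr (Sum.inr x))) →
        ∃ w, cl w = Sum.inl (Sum.inr (Sum.inr (Sum.inr x0))) ∧ (adjGraph A).Reachable v w := by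
  induction j with
  | zero =>
    intro x hx v hv
    rw [h0] at hx
    cases hx
    exact ⟨v, hv, SimpleGraph.Reachable.refl _⟩
  | succ j ih =>
    intro x hx v hv
    obtain ⟨y, hy⟩ : ∃ y, I.vl[j]? = some y := by
      have := (List.getElem?_eq_some_iff.1 hx).1
      exact ⟨I.vl[j], by simp⟩
    have he : ((Sum.inr (Sum.inr (Sum.inr y)), Sum.inr (Sum.inr (Sum.inr x))) : CB O X × CB O X) ∈
        (baseS I).es := by
      rw [EncS2.mem_base_es]
      exact Or.inr (Or.inr (Or.inr (Or.inr (Or.inr (Or.inr ⟨(y, x),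
        BaseGood.mem_zip_tail.2 ⟨j, hy, hx⟩, rfl⟩)))))
    obtain ⟨w, hw, hvw⟩ := reach_up (baseS_good I hI) m he rfl hv
    obtain ⟨w', hw', hww'⟩ := ih y hy w hw
    exact ⟨w', hw', hvw.trans hww'⟩

theorem reach_join (hI : I.OK) (m : AGModel (subdiv (baseS I)) (bSub (baseS I) (bB b)) A cl as)
    {x0 : X} (h0 : I.vl[0]? = some x0) {x : X} (hx : x ∈ I.vl) {v : Fin n}
    (hv : cl v = Sum.inl (Sum.inr (Sum.inr (Sum.inl x)))) :
    ∃ w, cl w = Sum.inl (Sum.inr (Sum.inr (Sum.inr x0))) ∧ (adjGraph A).Reachable v w := by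
  have he : ((Sum.inr (Sum.inr (Sum.inl x)), Sum.inr (Sum.inr (Sum.inr x))) : CB O X × CB O X) ∈
      (baseS I).es := by
    rw [EncS2.mem_base_es]
    exact Or.inr (Or.inr (Or.inr (Or.inr (Or.inr (Or.inl ⟨x, hx, rfl⟩)))))
  obtain ⟨w, hw, hvw⟩ := reach_down (baseS_good I hI) (BaseGood.baseS_parOK b) m he hv
  obtain ⟨j, hj⟩ := List.mem_iff_getElem?.1 hx
  obtain ⟨w', hw', hww'⟩ := reach_bus hI m h0 j x hj w hw
  exact ⟨w', hw', hvw.trans hww'⟩

theorem reach_chain (hI : I.OK) (m : AGModel (subdiv (baseS I)) (bSub (baseS I) (bB b)) A cl as)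
    {x0 : X} (h0 : I.vl[0]? = some x0) {x : X} (hx : x ∈ I.vl) (j : ℕ) :
    ∀ (o : O × ℕ), (I.occ x)[j]? = some o → ∀ v : Fin n,
      cl v = Sum.inl (Sum.inr (Sum.inl o)) →
        ∃ w, cl w = Sum.inl (Sum.inr (Sum.inr (Sum.inr x0))) ∧ (adjGraph A).Reachable v w := by
  induction j with
  | zero =>
    intro o ho v hv
    have he : ((Sum.inr (Sum.inl o), Sum.inr (Sum.inr (Sum.inl x))) : CB O X × CB O X) ∈
        (baseS I).es := by
      rw [EncS2.mem_base_es]
      exact Or.inr (Or.inr (Or.inr (Or.inr (Or.inl ⟨x, hx, o, BaseGood.mem_take_one.2 ho, rfl⟩))))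
    obtain ⟨w, hw, hvw⟩ := reach_down (baseS_good I hI) (BaseGood.baseS_parOK b) m he hv
    obtain ⟨w', hw', hww'⟩ := reach_join hI m h0 hx hw
    exact ⟨w', hw', hvw.trans hww'⟩
  | succ j ih =>
    intro o ho v hv
    obtain ⟨o', ho'⟩ : ∃ o', (I.occ x)[j]? = some o' := by
      have := (List.getElem?_eq_some_iff.1 ho).1
      exact ⟨(I.occ x)[j], by simp⟩
    have he : ((Sum.inr (Sum.inl o'), Sum.inr (Sum.inl o)) : CB O X × CB O X) ∈
        (baseS I).es := by
      rw [EncS2.mem_base_es]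
      exact Or.inr (Or.inr (Or.inr (Or.inl ⟨x, hx, (o', o),
        BaseGood.mem_zip_tail.2 ⟨j, ho', ho⟩, rfl⟩)))
    obtain ⟨w, hw, hvw⟩ := reach_up (baseS_good I hI) m he rfl hv
    obtain ⟨w', hw', hww'⟩ := ih o' ho' w hw
    exact ⟨w', hw', hvw.trans hww'⟩

theorem reach_chain' (hI : I.OK) (m : AGModel (subdiv (baseS I)) (bSub (baseS I) (bB b)) A cl as)
    {x0 : X} (h0 : I.vl[0]? = some x0) {u : O} (hu : u ∈ I.objs) {i : ℕ}
    (hi : i < (I.ports u).length) {v : Fin n} (hv : cl v = Sum.inl (Sum.inr (Sum.inl (u, i)))) :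
    ∃ w, cl w = Sum.inl (Sum.inr (Sum.inr (Sum.inr x0))) ∧ (adjGraph A).Reachable v w := by
  obtain ⟨x, hx⟩ : ∃ x, (I.ports u)[i]? = some x := ⟨(I.ports u)[i], by simp [hi]⟩
  have hocc : (u, i) ∈ I.occ x := (EncS2.mem_occ I).2 ⟨hu, hx⟩
  obtain ⟨j, hj⟩ := List.mem_iff_getElem?.1 hocc
  exact reach_chain hI m h0 ((hI.mem_vl x).2 ⟨u, hu, List.mem_of_getElem? hx⟩) j (u, i) hj v hv

theorem reach_inl (hI : I.OK) (m : AGModel (subdiv (baseS I)) (bSub (baseS I) (bB b)) A cl as)
    {x0 : X} (h0 : I.vl[0]? = some x0) {u : O} (hu : u ∈ I.objs) {i : ℕ}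
    (hi : i < (I.ports u).length) (d : ℕ) : ∀ (l : ℕ), l + d + 1 = (I.ports u).length →
    ∀ v : Fin n, cl v = Sum.inl (Sum.inl (u, i, l)) →
    ∃ w, cl w = Sum.inl (Sum.inr (Sum.inr (Sum.inr x0))) ∧ (adjGraph A).Reachable v w := by
  induction d with
  | zero =>
    intro l hl v hv
    have he : ((Sum.inl (u, i, l), Sum.inr (Sum.inl (u, i))) : CB O X × CB O X) ∈
        (baseS I).es := by
      rw [EncS2.mem_base_es]
      refine Or.inr (Or.inr (Or.inl ⟨u, hu, i, hi, ?_⟩))
      rw [show (I.ports u).length - 1 = l by omega]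
    obtain ⟨w, hw, hvw⟩ := reach_down (baseS_good I hI) (BaseGood.baseS_parOK b) m he hv
    obtain ⟨w', hw', hww'⟩ := reach_chain' hI m h0 hu hi hw
    exact ⟨w', hw', hvw.trans hww'⟩
  | succ d ih =>
    intro l hl v hv
    have he : ((Sum.inl (u, i, l), Sum.inl (u, i, l + 1)) : CB O X × CB O X) ∈
        (baseS I).es := by
      rw [EncS2.mem_base_es]
      exact Or.inr (Or.inl ⟨u, hu, i, hi, l, by omega, rfl⟩)
    obtain ⟨w, hw, hvw⟩ := reach_down (baseS_good I hI) (BaseGood.baseS_parOK b) m he hv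
    obtain ⟨w', hw', hww'⟩ := ih (l + 1) (by omega) w hw
    exact ⟨w', hw', hvw.trans hww'⟩

theorem reach_base (hI : I.OK) (m : AGModel (subdiv (baseS I)) (bSub (baseS I) (bB b)) A cl as)
    {x0 : X} (h0 : I.vl[0]? = some x0) {c : CB O X} (hc : c ∈ (baseS I).cls) {v : Fin n}
    (hv : cl v = Sum.inl c) :
    ∃ w, cl w = Sum.inl (Sum.inr (Sum.inr (Sum.inr x0))) ∧ (adjGraph A).Reachable v w := by
  rcases (EncS2.mem_base_cls I).1 hc with ⟨u, hu, i, hi, l, hl, rfl⟩ | ⟨u, hu, i, hi, rfl⟩ |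
    ⟨x, hx, rfl⟩ | ⟨x, hx, rfl⟩
  · exact reach_inl hI m h0 hu hi ((I.ports u).length - 1 - l) l (by omega) v hv
  · exact reach_chain' hI m h0 hu hi hv
  · exact reach_join hI m h0 hx hv
  · obtain ⟨j, hj⟩ := List.mem_iff_getElem?.1 hx
    exact reach_bus hI m h0 j x hj v hv

/-- the graph of the subcubic encoding is connected -/
theorem conn_model (hI : I.OK)
    (m : AGModel (subdiv (baseS I)) (bSub (baseS I) (bB b)) A cl as) :
    (adjGraph A).Connected := by
  obtain ⟨x0, h0⟩ : ∃ x0, I.vl[0]? = some x0 := by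
    obtain ⟨u0, hu0⟩ : ∃ u0, u0 ∈ I.objs := List.exists_mem_of_ne_nil _ hI.objs_ne
    have h2 := hI.two_le u0 hu0
    have hx : (I.ports u0)[0] ∈ I.vl := (hI.mem_vl _).2 ⟨u0, hu0, List.getElem_mem _⟩
    have := List.length_pos_of_mem hx
    exact ⟨I.vl[0], by simp [this]⟩
  have hmem : (Sum.inr (Sum.inr (Sum.inr x0)) : CB O X) ∈ (baseS I).cls :=
    (EncS2.mem_base_cls I).2 (Or.inr (Or.inr (Or.inr ⟨x0, List.mem_of_getElem? h0, rfl⟩)))
  obtain ⟨t, ht, -⟩ := m.exist (Sum.inl (Sum.inr (Sum.inr (Sum.inr x0))))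
    (mem_subdiv_cls_inl.2 hmem) (fun _ => 0) (fun h => absurd h Bool.false_ne_true)
  have huniq : ∀ w, cl w = Sum.inl (Sum.inr (Sum.inr (Sum.inr x0))) → w = t := by
    intro w hw
    refine m.ext w t (hw.trans ht.symm) fun x hx => ?_
    rw [hw] at hx
    exact absurd hx (List.not_mem_nil)
  rw [SimpleGraph.connected_iff_exists_forall_reachable]
  refine ⟨t, fun v => ?_⟩
  have key : ∃ c ∈ (baseS I).cls, ∃ v', cl v' = Sum.inl c ∧ (adjGraph A).Reachable v v' := by
    have hv := m.cl_mem v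
    rcases hcl : cl v with c | ⟨k, j⟩
    · rw [hcl] at hv
      exact ⟨c, mem_subdiv_cls_inl.1 hv, v, hcl, SimpleGraph.Reachable.refl _⟩
    · rw [hcl] at hv
      obtain ⟨hk, hj⟩ := mem_subdiv_cls_inr.1 hv
      have he : (baseS I).es[k]? = some (baseS I).es[k] := by simp [hk]
      obtain ⟨w, hw, hvw⟩ := reach_pendant (baseS_good I hI) m he j hj v hcl
      exact ⟨_, (baseS_good I hI).mem1 _ (List.getElem_mem hk), w, hw, hvw⟩
  obtain ⟨c, hc, v', hv', hvv'⟩ := key
  obtain ⟨w, hw, hvw⟩ := reach_base hI m h0 hc hv'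
  rw [huniq w hw] at hvw
  exact (hvv'.trans hvw).symm

end concrete

section final

variable {O X : Type} [DecidableEq O] [DecidableEq X]

theorem model (I : XI O X) (hI : I.OK) (b : O → Bool) : ∃ cl as,
    AGModel (subdiv (baseS I)) (bSub (baseS I) (bB b)) ((encS I).mat (bS I b)) cl as := by
  have hG := baseS_good I hI
  have hnd : (encS I).cls.Nodup := EncS2.cls_nodup _ (EncS2.base_cls_nodup I hI)
  have hvn : ∀ c ∈ (encS I).cls, ((encS I).vars c).Nodup := subdiv_vars_nodup hG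
  exact ⟨_, _, Model.toAGModel hvn (AG.model_mat (G := encS I) (b := bS I b) hnd hvn)⟩

theorem conn (I : XI O X) (hI : I.OK) (b : O → Bool) :
    (adjGraph ((encS I).mat (bS I b))).Connected := by
  obtain ⟨cl, as, m⟩ := model I hI b
  exact conn_model hI m

end final

end Crest.Agent.R290.EncS3
end

-- ▼ part R290/EncS3D
section

/-!
# Row 290, ENCS-3: `encS_simple` (simple, connected, maximum degree at most three)
-/

set_option autoImplicit false
set_option linter.unusedSectionVars false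

namespace Crest.Agent.R290

open Crest.WLRefine

namespace EncS3

/-! ### at most `n` elements -/

section few

variable {τ : Type*}

/-- at most `n` elements satisfy `S` -/
def Few (n : ℕ) (S : τ → Prop) : Prop := ∃ L : List τ, L.length ≤ n ∧ ∀ s, S s → s ∈ L

theorem Few.mono {n m : ℕ} {S T : τ → Prop} (h : Few n S) (hnm : n ≤ m) (hST : ∀ s, T s → S s) :
    Few m T := by
  obtain ⟨L, h1, h2⟩ := h
  exact ⟨L, h1.trans hnm, fun s hs => h2 s (hST s hs)⟩

theorem Few.or {n m : ℕ} {S T : τ → Prop} (h : Few n S) (h' : Few m T) :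
    Few (n + m) (fun s => S s ∨ T s) := by
  obtain ⟨L, h1, h2⟩ := h
  obtain ⟨L', h1', h2'⟩ := h'
  refine ⟨L ++ L', by rw [List.length_append]; omega, ?_⟩
  rintro s (hs | hs)
  · exact List.mem_append.2 (Or.inl (h2 s hs))
  · exact List.mem_append.2 (Or.inr (h2' s hs))

theorem Few.one {S : τ → Prop} (h : ∀ s t, S s → S t → s = t) : Few 1 S := by
  by_cases hS : ∃ s, S s
  · obtain ⟨s, hs⟩ := hS
    exact ⟨[s], le_rfl, fun t ht => by rw [List.mem_singleton]; exact h t s ht hs⟩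
  · exact ⟨[], Nat.zero_le _, fun t ht => (hS ⟨t, ht⟩).elim⟩

theorem Few.two {S : τ → Prop} (a b : τ) (h : ∀ s, S s → s = a ∨ s = b) : Few 2 S :=
  ⟨[a, b], le_rfl, fun s hs => by simpa using h s hs⟩

end few

/-! ### agreement graphs -/

section ag

variable {C X : Type} [DecidableEq X] (G : AG C X) (b : C → Bool)

theorem maxDeg_of_few (hcls : G.cls.Nodup)
    (h : ∀ p ∈ G.items b, Few 3 (fun q => q ∈ G.items b ∧ G.adj p q = true)) :
    MaxDegLeThree (G.mat b) := by
  classical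
  intro v
  obtain ⟨L, hL, h2⟩ := h ((G.items b).get v) (List.get_mem _ _)
  have h3 : (Finset.univ.filter fun w => G.mat b v w = true).card ≤ L.toFinset.card := by
    refine Finset.card_le_card_of_injOn (fun w => (G.items b).get w) ?_ ?_
    · intro w hw
      have hw' : G.mat b v w = true := by simpa using hw
      simp only [Finset.mem_coe, List.mem_toFinset]
      exact h2 _ ⟨List.get_mem _ _, hw'⟩
    · intro w _ w' _ hww
      exact (List.nodup_iff_injective_get.1 (AGB.items_nodup G b hcls)) hww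
  exact h3.trans ((List.toFinset_card_le L).trans hL)

/-- the assignment of the smaller class is determined -/
theorem det {l l' : List X} (hl : l.Nodup) (hl' : l'.Nodup) (hs : l' ⊆ l) {α β : List Bool}
    (hα : α.length = l.length) (hβ : β.length = l'.length) (h : agree l α l' β = true) :
    β = l'.map (AGB.val l α) := by
  rw [← AGB.map_val hl' hβ]
  apply List.map_congr_left
  intro x hx
  exact ((AGB.agree_iff hl hl' hα hβ).1 h x (hs hx) hx).symm


end ag

/-! ### the subdivision -/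

section subdiv

variable {C X : Type} [DecidableEq C] [DecidableEq X] (G : BG C X) (b : C → Bool)

/-- hypotheses on the base graph -/
structure Hyp : Prop where
  cls : G.cls.Nodup
  es : G.es.Nodup
  fst : ∀ e ∈ G.es, e.1 ∈ G.cls
  snd : ∀ e ∈ G.es, e.2 ∈ G.cls
  vars : ∀ c ∈ G.cls, (G.vars c).Nodup
  sub : ∀ e ∈ G.es, G.vars e.2 ⊆ G.vars e.1

/-- the assignments `β` of the edge `e` agreeing with `(c, α)` -/
def Bet (c : C) (α : List Bool) (e : C × C) (β : List Bool) : Prop :=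
  β.length = (G.vars e.1).length ∧ (G.con e.1 = true → β.sum = b e.1) ∧
    agree (G.vars c) α (G.vars e.1) β = true

/-- the neighbours on edges with `P` -/
def NS (c : C) (α : List Bool) (P : C × C → Prop) (q : (C ⊕ (ℕ × ℕ)) × List Bool) : Prop :=
  ∃ (e : C × C) (k : ℕ) (β : List Bool), P e ∧ G.es[k]? = some e ∧ q = (Sum.inr (k, 0), β) ∧
    Bet G b c α e β

theorem few_NS {n : ℕ} (hes : G.es.Nodup) {c : C} {α : List Bool} {P : C × C → Prop}
    (hP : ∀ e e', P e → P e' → e = e') (hB : ∀ e, P e → Few n (Bet G b c α e)) :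
    Few n (NS G b c α P) := by
  by_cases h : ∃ (e : C × C) (k : ℕ), P e ∧ G.es[k]? = some e
  · obtain ⟨e, k, he, hk⟩ := h
    obtain ⟨L, hL, h2⟩ := hB e he
    refine ⟨L.map fun β => (Sum.inr (k, 0), β), by simpa using hL, ?_⟩
    rintro q ⟨e', k', β, he', hk', rfl, hβ⟩
    obtain rfl := hP e e' he he'
    have hkk : k' = k := by
      obtain ⟨h1, h1'⟩ := List.getElem?_eq_some_iff.1 hk
      obtain ⟨h3, h3'⟩ := List.getElem?_eq_some_iff.1 hk'
      exact (hes.getElem_inj_iff (hi := h3) (hj := h1)).1 (h3'.trans h1'.symm)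
    subst hkk
    exact List.mem_map.2 ⟨β, h2 β hβ, rfl⟩
  · refine ⟨[], Nat.zero_le _, ?_⟩
    rintro q ⟨e', k', β, he', hk', -⟩
    exact (h ⟨e', k', he', hk'⟩).elim

/-- neighbours of a base vertex -/
theorem nbr_base {c : C} {α : List Bool} {q : (C ⊕ (ℕ × ℕ)) × List Bool}
    (hq : q ∈ (subdiv G).items (bSub G b)) (h : (subdiv G).adj (Sum.inl c, α) q = true) :
    NS G b c α (fun e => e ∈ G.es ∧ (e.1 = c ∨ e.2 = c)) q := by
  obtain ⟨c', β⟩ := q
  obtain ⟨h1, h2, h3⟩ := (AGB.mem_items _ _).1 hq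
  simp only [AG.adj, Bool.and_eq_true] at h
  obtain ⟨hE, ha⟩ := h
  rcases c' with c' | ⟨k, j⟩
  · rw [ES_inl_inl] at hE
    exact absurd hE (by simp)
  · obtain ⟨rfl, e, he, hc⟩ := (ES_inl_inr).1 hE
    simp only at h1 h2 h3
    rw [subdiv_vars_inr he] at h2 ha
    rw [subdiv_con_inr he, bSub_inr he] at h3
    exact ⟨e, k, β, ⟨List.mem_of_getElem? he, hc⟩, he, rfl, h2, h3, ha⟩

variable {G b}

/-- outgoing edges and edges with the same variables: one neighbour -/
theorem bet_one (hG : Hyp G) {c : C} {α : List Bool} (hc : c ∈ G.cls)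
    (hα : α.length = (G.vars c).length) {e : C × C} (he : e ∈ G.es) (hs : G.vars e.1 ⊆ G.vars c) :
    Few 1 (Bet G b c α e) := by
  refine Few.one ?_
  rintro β β' ⟨h1, -, h3⟩ ⟨h1', -, h3'⟩
  rw [det (hG.vars c hc) (hG.vars _ (hG.fst e he)) hs hα h1 h3,
    det (hG.vars c hc) (hG.vars _ (hG.fst e he)) hs hα h1' h3']

/-- one more variable: two neighbours -/
theorem bet_two (hG : Hyp G) {c : C} {α : List Bool} (hc : c ∈ G.cls)
    (hα : α.length = (G.vars c).length) {e : C × C} (he : e ∈ G.es) (y : X)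
    (hs : ∀ x ∈ G.vars e.1, x = y ∨ x ∈ G.vars c) : Few 2 (Bet G b c α e) := by
  have hc' := hG.vars c hc
  have he' := hG.vars _ (hG.fst e he)
  refine Few.two ((G.vars e.1).map (Function.update (AGB.val (G.vars c) α) y true))
    ((G.vars e.1).map (Function.update (AGB.val (G.vars c) α) y false)) ?_
  rintro β ⟨h1, -, h3⟩
  rw [AGB.agree_iff hc' he' hα h1] at h3
  have key : ∀ v, AGB.val (G.vars e.1) β y = v →
      β = (G.vars e.1).map (Function.update (AGB.val (G.vars c) α) y v) := by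
    intro v hv
    conv_lhs => rw [← AGB.map_val he' h1]
    apply List.map_congr_left
    intro x hx
    by_cases hxy : x = y
    · subst hxy
      rw [Function.update_self, hv]
    · rw [Function.update_of_ne hxy]
      exact (h3 x ((hs x hx).resolve_left hxy) hx).symm
  cases hv : AGB.val (G.vars e.1) β y
  · exact Or.inr (key _ hv)
  · exact Or.inl (key _ hv)



/-- neighbours in a fixed smaller class -/
theorem few_class {C' : Type} (H : AG C' X) (b' : C' → Bool) {p : C' × List Bool}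
    (hp : p ∈ H.items b') (c' : C') (hn : (H.vars p.1).Nodup) (hn' : (H.vars c').Nodup)
    (hs : H.vars c' ⊆ H.vars p.1) :
    Few 1 (fun q => (q ∈ H.items b' ∧ H.adj p q = true) ∧ q.1 = c') := by
  refine Few.one ?_
  rintro ⟨c1, β⟩ ⟨c2, β'⟩ ⟨⟨h1, h2⟩, rfl⟩ ⟨⟨h1', h2'⟩, h3⟩
  simp only at h3
  subst h3
  have hα := ((AGB.mem_items _ _).1 hp).2.1
  have hβ := ((AGB.mem_items _ _).1 h1).2.1
  have hβ' := ((AGB.mem_items _ _).1 h1').2.1
  simp only [AG.adj, Bool.and_eq_true] at h2 h2'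
  have e1 : β = _ := det hn hn' hs hα hβ h2.2
  have e2 : β' = _ := det hn hn' hs hα hβ' h2'.2
  rw [e1, e2]

/-- degree of the subdivision and pendant vertices -/
theorem few_inr (hG : Hyp G) {k j : ℕ} {α : List Bool}
    (hp : (Sum.inr (k, j), α) ∈ (subdiv G).items (bSub G b)) :
    Few 3 (fun q => q ∈ (subdiv G).items (bSub G b) ∧ (subdiv G).adj (Sum.inr (k, j), α) q = true) := by
  have hk := mem_subdiv_cls_inr.1 ((AGB.mem_items _ _).1 hp).1
  obtain ⟨e, he⟩ : ∃ e, G.es[k]? = some e := ⟨_, List.getElem?_eq_getElem hk.1⟩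
  have hem := List.mem_of_getElem? he
  have hv : ∀ j', (subdiv G).vars (Sum.inr (k, j')) = G.vars e.1 := fun j' => subdiv_vars_inr he
  have hn1 := hG.vars _ (hG.fst e hem)
  have hn2 := hG.vars _ (hG.snd e hem)
  have hp1 : ((subdiv G).vars (Sum.inr (k, j))).Nodup := by rw [hv]; exact hn1
  have F1 := few_class (subdiv G) (bSub G b) hp (Sum.inl e.1) hp1 (by rw [subdiv_vars_inl]; exact hn1)
    (by rw [subdiv_vars_inl]; simp only [hv]; exact List.Subset.refl _)
  have F2 := few_class (subdiv G) (bSub G b) hp (Sum.inl e.2) hp1 (by rw [subdiv_vars_inl]; exact hn2)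
    (by rw [subdiv_vars_inl]; simp only [hv]; exact hG.sub e hem)
  have F3 := fun j' => few_class (subdiv G) (bSub G b) hp (Sum.inr (k, j')) hp1
    (by rw [hv]; exact hn1) (by simp only [hv]; exact List.Subset.refl _)
  by_cases hj : j = 0
  · subst hj
    refine ((F1.or F2).or (F3 1)).mono le_rfl ?_
    rintro ⟨c', β⟩ ⟨hq, ha⟩
    have ha' := ha
    simp only [AG.adj, Bool.and_eq_true] at ha'
    obtain ⟨hE, -⟩ := ha'
    rcases c' with c' | ⟨k', j'⟩
    · obtain ⟨-, e', he', h⟩ := ES_inr_inl.1 hE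
      rw [he] at he'
      obtain rfl := Option.some.inj he'
      rcases h with rfl | rfl
      · exact Or.inl (Or.inl ⟨⟨hq, ha⟩, rfl⟩)
      · exact Or.inl (Or.inr ⟨⟨hq, ha⟩, rfl⟩)
    · obtain ⟨rfl, h⟩ := ES_inr_inr.1 hE
      have : j' = 1 := by omega
      subst this
      exact Or.inr ⟨⟨hq, ha⟩, rfl⟩
  · refine ((F3 (j + 1)).or (F3 (j - 1))).mono (by norm_num) ?_
    rintro ⟨c', β⟩ ⟨hq, ha⟩
    have ha' := ha
    simp only [AG.adj, Bool.and_eq_true] at ha'
    obtain ⟨hE, -⟩ := ha'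
    rcases c' with c' | ⟨k', j'⟩
    · exact absurd (ES_inr_inl.1 hE).1 hj
    · obtain ⟨rfl, h⟩ := ES_inr_inr.1 hE
      rcases h with rfl | h
      · exact Or.inl ⟨⟨hq, ha⟩, rfl⟩
      · have : j' = j - 1 := by omega
        subst this
        exact Or.inr ⟨⟨hq, ha⟩, rfl⟩

end subdiv

/-! ### the base graph -/

section base

variable {O X : Type} [DecidableEq O] [DecidableEq X] {I : XI O X} {b : CB O X → Bool}

open BaseGood (BE mem_es_iff)

theorem hyp_base (hI : I.OK) : Hyp (baseS I) where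
  cls := EncS2.base_cls_nodup I hI
  es := baseS_es_nodup I hI
  fst _ he := EncS2.base_es_fst I he
  snd _ he := EncS2.base_es_snd I he
  vars _ hc := EncS2.vars_base_nodup I hI hc
  sub _ he := ((mem_es_iff I _ _).1 he).sub

/-- three groups of edges, one neighbour on each -/
theorem three (hI : I.OK) {c : CB O X} {α : List Bool} (hc : c ∈ (baseS I).cls)
    (hα : α.length = ((baseS I).vars c).length) (P Q R : CB O X × CB O X → Prop)
    (hP : ∀ e e', P e → P e' → e = e') (hQ : ∀ e e', Q e → Q e' → e = e')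
    (hR : ∀ e e', R e → R e' → e = e')
    (hs : ∀ e, P e ∨ Q e ∨ R e → e ∈ (baseS I).es → (baseS I).vars e.1 ⊆ (baseS I).vars c)
    (hcov : ∀ e ∈ (baseS I).es, e.1 = c ∨ e.2 = c → P e ∨ Q e ∨ R e) :
    Few 3 (NS (baseS I) b c α (fun e => e ∈ (baseS I).es ∧ (e.1 = c ∨ e.2 = c))) := by
  have F : ∀ P : CB O X × CB O X → Prop, (∀ e e', P e → P e' → e = e') →
      (∀ e, P e → e ∈ (baseS I).es → (baseS I).vars e.1 ⊆ (baseS I).vars c) →
      Few 1 (NS (baseS I) b c α fun e => P e ∧ e ∈ (baseS I).es) := by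
    intro P hP hs
    refine few_NS _ _ (hyp_base hI).es (fun e e' h h' => hP e e' h.1 h'.1) ?_
    rintro e ⟨h1, h2⟩
    exact bet_one (hyp_base hI) hc hα h2 (hs e h1 h2)
  refine (((F P hP fun e h => hs e (Or.inl h)).or (F Q hQ fun e h => hs e (Or.inr (Or.inl h)))).or
    (F R hR fun e h => hs e (Or.inr (Or.inr h)))).mono le_rfl ?_
  rintro q ⟨e, k, β, ⟨h1, h2⟩, h3⟩
  rcases hcov e h1 h2 with h | h | h
  · exact Or.inl (Or.inl ⟨e, k, β, ⟨h, h1⟩, h3⟩)
  · exact Or.inl (Or.inr ⟨e, k, β, ⟨h, h1⟩, h3⟩)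
  · exact Or.inr ⟨e, k, β, ⟨h, h1⟩, h3⟩

/-- two groups of edges, one neighbour on the first and two on the second -/
theorem onetwo (hI : I.OK) {c : CB O X} {α : List Bool} (hc : c ∈ (baseS I).cls)
    (hα : α.length = ((baseS I).vars c).length) (P Q : CB O X × CB O X → Prop)
    (hP : ∀ e e', P e → P e' → e = e') (hQ : ∀ e e', Q e → Q e' → e = e')
    (hs : ∀ e, P e → e ∈ (baseS I).es → (baseS I).vars e.1 ⊆ (baseS I).vars c) (y : X)
    (hs2 : ∀ e, Q e → e ∈ (baseS I).es → ∀ x ∈ (baseS I).vars e.1, x = y ∨ x ∈ (baseS I).vars c)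
    (hcov : ∀ e ∈ (baseS I).es, e.1 = c ∨ e.2 = c → P e ∨ Q e) :
    Few 3 (NS (baseS I) b c α (fun e => e ∈ (baseS I).es ∧ (e.1 = c ∨ e.2 = c))) := by
  have F1 : Few 1 (NS (baseS I) b c α fun e => P e ∧ e ∈ (baseS I).es) := by
    refine few_NS _ _ (hyp_base hI).es (fun e e' h h' => hP e e' h.1 h'.1) ?_
    rintro e ⟨h1, h2⟩
    exact bet_one (hyp_base hI) hc hα h2 (hs e h1 h2)
  have F2 : Few 2 (NS (baseS I) b c α fun e => Q e ∧ e ∈ (baseS I).es) := by
    refine few_NS _ _ (hyp_base hI).es (fun e e' h h' => hQ e e' h.1 h'.1) ?_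
    rintro e ⟨h1, h2⟩
    exact bet_two (hyp_base hI) hc hα h2 y (hs2 e h1 h2)
  refine (F1.or F2).mono le_rfl ?_
  rintro q ⟨e, k, β, ⟨h1, h2⟩, h3⟩
  rcases hcov e h1 h2 with h | h
  · exact Or.inl ⟨e, k, β, ⟨h, h1⟩, h3⟩
  · exact Or.inr ⟨e, k, β, ⟨h, h1⟩, h3⟩

theorem deg_top (hI : I.OK) {u : O} {i : ℕ} {α : List Bool}
    (hc : (Sum.inl (u, i, 0) : CB O X) ∈ (baseS I).cls)
    (hα : α.length = ((baseS I).vars (Sum.inl (u, i, 0))).length) :
    Few 3 (NS (baseS I) b (Sum.inl (u, i, 0)) α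
      (fun e => e ∈ (baseS I).es ∧ (e.1 = Sum.inl (u, i, 0) ∨ e.2 = Sum.inl (u, i, 0)))) := by
  obtain ⟨hu, hi, -⟩ := BaseGood.mem_cls_inl I |>.1 hc
  have h2 := hI.two_le u hu
  refine three hI hc hα (fun e => e = (Sum.inl (u, i, 0), Sum.inl (u, i + 1, 0)))
    (fun e => e = (Sum.inl (u, i, 0), Sum.inl (u, i, 1)))
    (fun e => ∃ i', i' + 1 = i ∧ e = (Sum.inl (u, i', 0), Sum.inl (u, i, 0)))
    (by rintro e e' rfl rfl; rfl) (by rintro e e' rfl rfl; rfl) ?_ ?_ ?_
  · rintro e e' ⟨i1, h1, rfl⟩ ⟨i2, h2, rfl⟩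
    obtain rfl : i1 = i2 := by omega
    rfl
  · rintro e (rfl | rfl | ⟨i', -, rfl⟩) he
    · exact List.Subset.refl _
    · exact List.Subset.refl _
    · exact List.Subset.refl _
  · rintro ⟨c1, c2⟩ he hcc
    simp only at hcc
    have he := (mem_es_iff I _ _).1 he
    cases he with
    | spine u' i' hu' hi' =>
      simp only [Sum.inl.injEq, Prod.mk.injEq] at hcc
      rcases hcc with ⟨rfl, rfl, -⟩ | ⟨rfl, rfl, -⟩
      · exact Or.inl rfl
      · exact Or.inr (Or.inr ⟨i', rfl, rfl⟩)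
    | down u' i' l' hu' hi' hl' =>
      simp only [Sum.inl.injEq, Prod.mk.injEq] at hcc
      rcases hcc with ⟨rfl, rfl, rfl⟩ | ⟨-, -, h⟩
      · exact Or.inr (Or.inl rfl)
      · omega
    | last u' i' hu' hi' =>
      simp only [Sum.inl.injEq, Prod.mk.injEq, reduceCtorEq, or_false] at hcc
      obtain ⟨rfl, rfl, h⟩ := hcc
      omega
    | chain x j o o' hx h1 h2 => simp at hcc
    | join x o hx h1 => simp at hcc
    | bus x hx => simp at hcc
    | line j x x' h1 h2 => simp at hcc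

theorem deg_low (hI : I.OK) {u : O} {i l : ℕ} {α : List Bool} (hl1 : 1 ≤ l)
    (hc : (Sum.inl (u, i, l) : CB O X) ∈ (baseS I).cls)
    (hα : α.length = ((baseS I).vars (Sum.inl (u, i, l))).length) :
    Few 3 (NS (baseS I) b (Sum.inl (u, i, l)) α
      (fun e => e ∈ (baseS I).es ∧ (e.1 = Sum.inl (u, i, l) ∨ e.2 = Sum.inl (u, i, l)))) := by
  obtain ⟨hu, hi, hl⟩ := BaseGood.mem_cls_inl I |>.1 hc
  have h2 := hI.two_le u hu
  obtain ⟨x, hx⟩ := BaseGood.getElem?_of_lt hi
  have hlen : ((I.ports u).eraseIdx i).length = (I.ports u).length - 1 :=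
    List.length_eraseIdx_of_lt hi
  have hll : l - 1 < ((I.ports u).eraseIdx i).length := by omega
  refine onetwo hI hc hα
    (fun e => (l + 1 < (I.ports u).length ∧ e = (Sum.inl (u, i, l), Sum.inl (u, i, l + 1))) ∨
      (l + 1 = (I.ports u).length ∧ e = (Sum.inl (u, i, l), Sum.inr (Sum.inl (u, i)))))
    (fun e => e = (Sum.inl (u, i, l - 1), Sum.inl (u, i, l)))
    ?_ (by rintro e e' rfl rfl; rfl) ?_ ((I.ports u).eraseIdx i)[l - 1] ?_ ?_
  · rintro e e' (⟨h1, rfl⟩ | ⟨h1, rfl⟩) (⟨h2, rfl⟩ | ⟨h2, rfl⟩)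
    · rfl
    · omega
    · omega
    · rfl
  · rintro e (⟨-, rfl⟩ | ⟨-, rfl⟩) he
    · exact List.Subset.refl _
    · exact List.Subset.refl _
  · rintro e rfl he z hz
    rw [BaseGood.vars_low hl1 hx]
    have hz' : z = x ∨ z ∈ ((I.ports u).eraseIdx i).drop (l - 1) := by
      by_cases hl0 : l = 1
      · subst hl0
        rw [show 1 - 1 = 0 from rfl, BaseGood.vars_top] at hz
        by_cases hzx : z = x
        · exact Or.inl hzx
        · refine Or.inr ?_
          rw [show 1 - 1 = 0 from rfl, List.drop_zero, List.mem_eraseIdx_iff_getElem?]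
          obtain ⟨j, hj⟩ := List.getElem?_of_mem hz
          refine ⟨j, ?_, hj⟩
          rintro rfl
          rw [hx] at hj
          exact hzx (Option.some.inj hj).symm
      · rw [BaseGood.vars_low (by omega) hx] at hz
        exact List.mem_cons.1 hz
    rcases hz' with rfl | hz'
    · exact Or.inr List.mem_cons_self
    · rw [List.drop_eq_getElem_cons hll] at hz'
      rcases List.mem_cons.1 hz' with h | h
      · exact Or.inl h
      · rw [show l - 1 + 1 = l by omega] at h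
        exact Or.inr (List.mem_cons_of_mem _ h)
  · rintro ⟨c1, c2⟩ he hcc
    simp only at hcc
    have he := (mem_es_iff I _ _).1 he
    cases he with
    | spine u' i' hu' hi' =>
      simp only [Sum.inl.injEq, Prod.mk.injEq] at hcc
      rcases hcc with ⟨rfl, rfl, h⟩ | ⟨rfl, rfl, h⟩
      · omega
      · omega
    | down u' i' l' hu' hi' hl' =>
      simp only [Sum.inl.injEq, Prod.mk.injEq] at hcc
      rcases hcc with ⟨rfl, rfl, rfl⟩ | ⟨rfl, rfl, rfl⟩
      · exact Or.inl (Or.inl ⟨hl', rfl⟩)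
      · exact Or.inr rfl
    | last u' i' hu' hi' =>
      simp only [Sum.inl.injEq, Prod.mk.injEq, reduceCtorEq, or_false] at hcc
      obtain ⟨rfl, rfl, rfl⟩ := hcc
      exact Or.inl (Or.inr ⟨by omega, rfl⟩)
    | chain x j o o' hx h1 h2 => simp at hcc
    | join x o hx h1 => simp at hcc
    | bus x hx => simp at hcc
    | line j x x' h1 h2 => simp at hcc

theorem nodup_idx {α : Type} {l : List α} (hl : l.Nodup) {j j' : ℕ} {a : α} (h : l[j]? = some a)
    (h' : l[j']? = some a) : j = j' := by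
  obtain ⟨h1, h1'⟩ := List.getElem?_eq_some_iff.1 h
  obtain ⟨h2, h2'⟩ := List.getElem?_eq_some_iff.1 h'
  exact (hl.getElem_inj_iff (hi := h1) (hj := h2)).1 (h1'.trans h2'.symm)

theorem deg_chain (hI : I.OK) {u : O} {i : ℕ} {α : List Bool}
    (hc : (Sum.inr (Sum.inl (u, i)) : CB O X) ∈ (baseS I).cls)
    (hα : α.length = ((baseS I).vars (Sum.inr (Sum.inl (u, i)))).length) :
    Few 3 (NS (baseS I) b (Sum.inr (Sum.inl (u, i))) α
      (fun e => e ∈ (baseS I).es ∧
        (e.1 = Sum.inr (Sum.inl (u, i)) ∨ e.2 = Sum.inr (Sum.inl (u, i))))) := by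
  obtain ⟨hu, hi⟩ := BaseGood.mem_cls_chain I |>.1 hc
  have h2 := hI.two_le u hu
  obtain ⟨x, hx⟩ := BaseGood.getElem?_of_lt hi
  have hocc := BaseGood.occ_nodup hI x
  refine three hI hc hα
    (fun e => e = (Sum.inl (u, i, (I.ports u).length - 1), Sum.inr (Sum.inl (u, i))))
    (fun e => ∃ j o', (I.occ x)[j]? = some (u, i) ∧ (I.occ x)[j + 1]? = some o' ∧
      e = (Sum.inr (Sum.inl (u, i)), Sum.inr (Sum.inl o')))
    (fun e => (∃ j o, (I.occ x)[j]? = some o ∧ (I.occ x)[j + 1]? = some (u, i) ∧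
      e = (Sum.inr (Sum.inl o), Sum.inr (Sum.inl (u, i)))) ∨
      ((I.occ x)[0]? = some (u, i) ∧
        e = (Sum.inr (Sum.inl (u, i)), Sum.inr (Sum.inr (Sum.inl x)))))
    (by rintro e e' rfl rfl; rfl) ?_ ?_ ?_ ?_
  · rintro e e' ⟨j, o, h1, h1', rfl⟩ ⟨j', o', h3, h3', rfl⟩
    obtain rfl := nodup_idx hocc h1 h3
    rw [h1'] at h3'
    rw [Option.some.inj h3']
  · rintro e e' (⟨j, o, h1, h1', rfl⟩ | ⟨h1, rfl⟩) (⟨j', o', h3, h3', rfl⟩ | ⟨h3, rfl⟩)
    · have := nodup_idx hocc h1' h3'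
      obtain rfl : j = j' := by omega
      rw [h1] at h3
      rw [Option.some.inj h3]
    · have := nodup_idx hocc h1' h3
      omega
    · have := nodup_idx hocc h3' h1
      omega
    · rfl
  · rw [BaseGood.vars_chain hx]
    rintro e (rfl | ⟨j, o', -, -, rfl⟩ | ⟨j, o, h1, -, rfl⟩ | ⟨-, rfl⟩) he
    · have hlen : ((I.ports u).eraseIdx i).length = (I.ports u).length - 1 :=
        List.length_eraseIdx_of_lt hi
      simp only
      rw [BaseGood.vars_low (by omega) hx, List.drop_eq_nil_of_le (by omega)]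
      exact List.Subset.refl _
    · simp only
      rw [BaseGood.vars_chain hx]
      exact List.Subset.refl _
    · have h1' := ((BaseGood.mem_occ I).1 (List.mem_of_getElem? h1)).2
      simp only
      rw [show o = (o.1, o.2) from rfl, BaseGood.vars_chain h1']
      exact List.Subset.refl _
    · simp only
      rw [BaseGood.vars_chain hx]
      exact List.Subset.refl _
  · rintro ⟨c1, c2⟩ he hcc
    simp only at hcc
    have he := (mem_es_iff I _ _).1 he
    cases he with
    | spine u' i' hu' hi' => simp at hcc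
    | down u' i' l' hu' hi' hl' => simp at hcc
    | last u' i' hu' hi' =>
      simp only [Sum.inr.injEq, Sum.inl.injEq, Prod.mk.injEq, reduceCtorEq, false_or] at hcc
      obtain ⟨rfl, rfl⟩ := hcc
      exact Or.inl rfl
    | chain x' j o o' hx' h1 h2 =>
      have h1x := ((BaseGood.mem_occ I).1 (List.mem_of_getElem? h1)).2
      have h2x := ((BaseGood.mem_occ I).1 (List.mem_of_getElem? h2)).2
      simp only [Sum.inr.injEq, Sum.inl.injEq] at hcc
      rcases hcc with rfl | rfl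
      · rw [hx] at h1x
        obtain rfl := Option.some.inj h1x
        exact Or.inr (Or.inl ⟨j, o', h1, h2, rfl⟩)
      · rw [hx] at h2x
        obtain rfl := Option.some.inj h2x
        exact Or.inr (Or.inr (Or.inl ⟨j, o, h1, h2, rfl⟩))
    | join x' o hx' h1 =>
      have h1x := ((BaseGood.mem_occ I).1 (List.mem_of_getElem? h1)).2
      simp only [Sum.inr.injEq, Sum.inl.injEq, reduceCtorEq, or_false] at hcc
      subst hcc
      rw [hx] at h1x
      obtain rfl := Option.some.inj h1x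
      exact Or.inr (Or.inr (Or.inr ⟨h1, rfl⟩))
    | bus x hx => simp at hcc
    | line j x x' h1 h2 => simp at hcc

theorem deg_join (hI : I.OK) {x : X} {α : List Bool}
    (hc : (Sum.inr (Sum.inr (Sum.inl x)) : CB O X) ∈ (baseS I).cls)
    (hα : α.length = ((baseS I).vars (Sum.inr (Sum.inr (Sum.inl x)))).length) :
    Few 3 (NS (baseS I) b (Sum.inr (Sum.inr (Sum.inl x))) α
      (fun e => e ∈ (baseS I).es ∧
        (e.1 = Sum.inr (Sum.inr (Sum.inl x)) ∨ e.2 = Sum.inr (Sum.inr (Sum.inl x))))) := by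
  refine onetwo hI hc hα
    (fun e => e = (Sum.inr (Sum.inr (Sum.inl x)), Sum.inr (Sum.inr (Sum.inr x))))
    (fun e => ∃ o, (I.occ x)[0]? = some o ∧ e = (Sum.inr (Sum.inl o), Sum.inr (Sum.inr (Sum.inl x))))
    (by rintro e e' rfl rfl; rfl) ?_ ?_ x ?_ ?_
  · rintro e e' ⟨o, h1, rfl⟩ ⟨o', h2, rfl⟩
    rw [h1] at h2
    rw [Option.some.inj h2]
  · rintro e rfl he
    exact List.Subset.refl _
  · rintro e ⟨o, h1, rfl⟩ he z hz
    have h1x := ((BaseGood.mem_occ I).1 (List.mem_of_getElem? h1)).2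
    simp only at hz
    rw [show o = (o.1, o.2) from rfl, BaseGood.vars_chain h1x] at hz
    exact Or.inl (List.mem_singleton.1 hz)
  · rintro ⟨c1, c2⟩ he hcc
    simp only at hcc
    have he := (mem_es_iff I _ _).1 he
    cases he with
    | spine u' i' hu' hi' => simp at hcc
    | down u' i' l' hu' hi' hl' => simp at hcc
    | last u' i' hu' hi' => simp at hcc
    | chain x' j o o' hx' h1 h2 => simp at hcc
    | join x' o hx' h1 =>
      simp only [Sum.inr.injEq, Sum.inl.injEq, reduceCtorEq, false_or] at hcc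
      subst hcc
      exact Or.inr ⟨o, h1, rfl⟩
    | bus x' hx' =>
      simp only [Sum.inr.injEq, Sum.inl.injEq, reduceCtorEq, or_false] at hcc
      subst hcc
      exact Or.inl rfl
    | line j x x' h1 h2 => simp at hcc

theorem deg_bus (hI : I.OK) {x : X} {α : List Bool}
    (hc : (Sum.inr (Sum.inr (Sum.inr x)) : CB O X) ∈ (baseS I).cls)
    (hα : α.length = ((baseS I).vars (Sum.inr (Sum.inr (Sum.inr x)))).length) :
    Few 3 (NS (baseS I) b (Sum.inr (Sum.inr (Sum.inr x))) α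
      (fun e => e ∈ (baseS I).es ∧
        (e.1 = Sum.inr (Sum.inr (Sum.inr x)) ∨ e.2 = Sum.inr (Sum.inr (Sum.inr x))))) := by
  have hvl := hI.vl_nodup
  refine three hI hc hα
    (fun e => e = (Sum.inr (Sum.inr (Sum.inl x)), Sum.inr (Sum.inr (Sum.inr x))))
    (fun e => ∃ j x', I.vl[j]? = some x ∧ I.vl[j + 1]? = some x' ∧
      e = (Sum.inr (Sum.inr (Sum.inr x)), Sum.inr (Sum.inr (Sum.inr x'))))
    (fun e => ∃ j x', I.vl[j]? = some x' ∧ I.vl[j + 1]? = some x ∧
      e = (Sum.inr (Sum.inr (Sum.inr x')), Sum.inr (Sum.inr (Sum.inr x))))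
    (by rintro e e' rfl rfl; rfl) ?_ ?_ ?_ ?_
  · rintro e e' ⟨j, o, h1, h1', rfl⟩ ⟨j', o', h3, h3', rfl⟩
    obtain rfl := nodup_idx hvl h1 h3
    rw [h1'] at h3'
    rw [Option.some.inj h3']
  · rintro e e' ⟨j, o, h1, h1', rfl⟩ ⟨j', o', h3, h3', rfl⟩
    have := nodup_idx hvl h1' h3'
    obtain rfl : j = j' := by omega
    rw [h1] at h3
    rw [Option.some.inj h3]
  · rintro e (rfl | ⟨j, o', -, -, rfl⟩ | ⟨j, o, h1, -, rfl⟩) he
    · exact List.Subset.refl _
    · exact List.Subset.refl _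
    · exact List.Subset.refl _
  · rintro ⟨c1, c2⟩ he hcc
    simp only at hcc
    have he := (mem_es_iff I _ _).1 he
    cases he with
    | spine u' i' hu' hi' => simp at hcc
    | down u' i' l' hu' hi' hl' => simp at hcc
    | last u' i' hu' hi' => simp at hcc
    | chain x' j o o' hx' h1 h2 => simp at hcc
    | join x' o hx' h1 => simp at hcc
    | bus x' hx' =>
      simp only [Sum.inr.injEq, reduceCtorEq, false_or] at hcc
      subst hcc
      exact Or.inl rfl
    | line j x1 x2 h1 h2 =>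
      simp only [Sum.inr.injEq] at hcc
      rcases hcc with rfl | rfl
      · exact Or.inr (Or.inl ⟨j, x2, h1, h2, rfl⟩)
      · exact Or.inr (Or.inr ⟨j, x1, h1, h2, rfl⟩)

theorem maxDeg (I : XI O X) (hI : I.OK) (b : O → Bool) : MaxDegLeThree ((encS I).mat (bS I b)) := by
  refine maxDeg_of_few _ _ (EncS2.cls_nodup _ (EncS2.base_cls_nodup I hI)) ?_
  rintro ⟨c, α⟩ hp
  rcases c with c | ⟨k, j⟩
  · obtain ⟨h1, h2, -⟩ := (AGB.mem_items _ _).1 hp
    have h1 := (mem_subdiv_cls_inl).1 h1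
    simp only at h2
    have h2 : α.length = ((baseS I).vars c).length := h2
    have key : Few 3 (NS (baseS I) (bB b) c α (fun e => e ∈ (baseS I).es ∧ (e.1 = c ∨ e.2 = c))) := by
      rcases c with ⟨u, i, l⟩ | ⟨u, i⟩ | x | x
      · rcases Nat.eq_zero_or_pos l with rfl | hl
        · exact deg_top hI h1 h2
        · exact deg_low hI hl h1 h2
      · exact deg_chain hI h1 h2
      · exact deg_join hI h1 h2
      · exact deg_bus hI h1 h2
    refine key.mono le_rfl ?_
    rintro q ⟨hq, ha⟩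
    exact nbr_base (baseS I) (bB b) hq ha
  · exact few_inr (hyp_base hI) hp

theorem isSimple (I : XI O X) (b : O → Bool) : IsSimple ((encS I).mat (bS I b)) := by
  refine AG.isSimple_mat _ _ ?_ ?_
  · rintro (c | ⟨k, j⟩) (c' | ⟨k', j'⟩)
    · rfl
    · rfl
    · rfl
    · show decide _ = decide _
      congr 1
      apply propext
      constructor
      · rintro ⟨rfl, h⟩; exact ⟨rfl, h.symm⟩
      · rintro ⟨rfl, h⟩; exact ⟨rfl, h.symm⟩
  · rintro (c | ⟨k, j⟩)
    · rfl
    · show decide _ = false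
      rw [decide_eq_false_iff_not]
      rintro ⟨-, h⟩
      omega

end base

end EncS3

end Crest.Agent.R290
end

-- ▼ part R290/EncS3
section

/-!
# Row 290, ENCS-3: `encS_simple`
-/

set_option autoImplicit false

namespace Crest.Agent.R290

open Crest.WLRefine

theorem encS_simple {O X : Type} [DecidableEq O] [DecidableEq X] (I : XI O X) (hI : I.OK)
    (b : O → Bool) : SimpleConnSubcubic ((encS I).mat (bS I b)) :=
  ⟨EncS3.isSimple I b, EncS3.conn I hI b, EncS3.maxDeg I hI b⟩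

end Crest.Agent.R290
end

-- ▼ part R290/CoreS

/-!
# Row 290: assembly of the combinatorial part, subcubic encoding (`coreS`).
-/

set_option autoImplicit false

namespace Crest.Agent.R290

open Crest.WLRefine
open Crest.Agent.R290.WL (PEquiv)

theorem bS_false {O X : Type} [DecidableEq O] [DecidableEq X] (I : XI O X) :
    bS I (fun _ : O => false) = fun _ => false := by
  funext c
  rcases c with ((⟨u, i, l⟩ | c) | ⟨k, j⟩)
  · rfl
  · rfl
  · unfold bS bSub
    simp only
    split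
    · rename_i e _
      rcases e.1 with (⟨u, i, l⟩ | c) <;> rfl
    · rfl

theorem coreS (p : Flat) (Ks B D : ℕ) (hp : WF p Ks) (hB : 2 ≤ B) (hD : 1 ≤ D) :
    ∃ (n : ℕ) (G0 G1 : Fin n → Fin n → Bool), 0 < n ∧
      SimpleConnSubcubic G0 ∧ SimpleConnSubcubic G1 ∧
      adjMatrixCode G0 = graphS p Ks B D false ∧ adjMatrixCode G1 = graphS p Ks B D true ∧
      ((∃ t < B ^ D, FHalts p t) → ¬ JEquiv (D + 1) G0 G1) ∧
      (RunsForever p → JEquiv (D + 1) G0 G1) := by
  have hI := progXI_OK p Ks B D hB hD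
  have h1 : (encS (progXI p Ks B D)).order (bS (progXI p Ks B D) (progNet p Ks B D).beta) =
      (encS (progXI p Ks B D)).order (fun _ => false) := encS_order_eq _ hI _
  have hG0 : SimpleConnSubcubic ((encS (progXI p Ks B D)).mat fun _ => false) := by
    have := encS_simple (progXI p Ks B D) hI (fun _ => false)
    rwa [bS_false] at this
  have hG1 := encS_simple (progXI p Ks B D) hI (progNet p Ks B D).beta
  have hn : 0 < (encS (progXI p Ks B D)).order (fun _ => false) := by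
    have := hG0.2.1.nonempty
    exact Fin.pos_iff_nonempty.2 this
  refine ⟨_, (encS (progXI p Ks B D)).mat fun _ => false,
    castG h1 ((encS (progXI p Ks B D)).mat (bS _ (progNet p Ks B D).beta)), hn,
    hG0, castG_sub h1 _ hG1, ?_, ?_, ?_, ?_⟩
  · rw [AG.adjMatrixCode_mat]
    unfold graphS
    simp only [Bool.false_and]
    rw [bS_false]
  · rw [castG_code, AG.adjMatrixCode_mat]
    unfold graphS
    simp only [Bool.true_and]
  · intro hh hJ
    have hP := (castG_pequiv_right h1 _ _).1 ((WL.jequiv_iff (by omega)).1 hJ)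
    exact prog_not_shiftEquiv p Ks B D hp hB hD hh
      (shift_of_encS_pequiv _ hI _ (D + 2) (by omega) hP)
  · intro hr
    have hP := encS_pequiv_of_shift _ hI _ (D + 2) (prog_shiftEquiv p Ks B D hp hB hD hr)
    exact (WL.jequiv_iff (by omega)).2 ((castG_pequiv_right h1 _ _).2 hP)

end Crest.Agent.R290
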