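import Crest.Agent.R290.GenAG

-- ▼ part R290/GenEnc
section

/-!
# Row 290, module GEN: the two encodings are poly-time
-/

set_option autoImplicit false
set_option linter.dupNamespace false

namespace Crest.Agent.R290

open Crest.Agent.Lib.PT Crest.Enc

section elim

variable {γ α β α' β' δ : Type} [PTCode γ] [PTCode α] [PTCode β] [PTCode α'] [PTCode β']
  [PTCode δ]

/-- elimination of a sum argument -/
theorem ptf_sum {f : γ → α ⊕ β → δ} (h1 : PTF (fun p : γ × α => f p.1 (Sum.inl p.2)))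
    (h2 : PTF (fun p : γ × β => f p.1 (Sum.inr p.2))) :
    PTF (fun p : γ × (α ⊕ β) => f p.1 p.2) := by
  refine (PTF.sumCasesOn (s := fun p : γ × (α ⊕ β) => p.2)
    (f := fun p a => f p.1 (Sum.inl a)) (g := fun p b => f p.1 (Sum.inr b)) PTF.snd ?_ ?_).of_eq
    fun p => ?_
  · show PTF (fun q : (γ × (α ⊕ β)) × α => f q.1.1 (Sum.inl q.2))
    exact PTF.comp (g := fun p : γ × α => f p.1 (Sum.inl p.2))
      (f := fun q : (γ × (α ⊕ β)) × α => (q.1.1, q.2)) h1 (by fun_prop)
  · show PTF (fun q : (γ × (α ⊕ β)) × β => f q.1.1 (Sum.inr q.2))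
    exact PTF.comp (g := fun p : γ × β => f p.1 (Sum.inr p.2))
      (f := fun q : (γ × (α ⊕ β)) × β => (q.1.1, q.2)) h2 (by fun_prop)
  · rcases p with ⟨c, a | b⟩ <;> rfl


/-- elimination of the second argument -/
theorem ptf_x_sum {f : γ → δ → α ⊕ β → α'}
    (h1 : PTF (fun p : γ × δ × α => f p.1 p.2.1 (Sum.inl p.2.2)))
    (h2 : PTF (fun p : γ × δ × β => f p.1 p.2.1 (Sum.inr p.2.2))) :
    PTF (fun p : γ × δ × (α ⊕ β) => f p.1 p.2.1 p.2.2) := by
  have h : PTF (fun p : (γ × δ) × (α ⊕ β) => f p.1.1 p.1.2 p.2) := by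
    refine ptf_sum (f := fun (q : γ × δ) (a : α ⊕ β) => f q.1 q.2 a) ?_ ?_
    · exact PTF.comp (g := fun p : γ × δ × α => f p.1 p.2.1 (Sum.inl p.2.2))
        (f := fun p : (γ × δ) × α => (p.1.1, p.1.2, p.2)) h1 (by fun_prop)
    · exact PTF.comp (g := fun p : γ × δ × β => f p.1 p.2.1 (Sum.inr p.2.2))
        (f := fun p : (γ × δ) × β => (p.1.1, p.1.2, p.2)) h2 (by fun_prop)
  exact PTF.comp (g := fun p : (γ × δ) × (α ⊕ β) => f p.1.1 p.1.2 p.2)
    (f := fun p : γ × δ × (α ⊕ β) => ((p.1, p.2.1), p.2.2)) h (by fun_prop)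

/-- elimination of the first argument -/
theorem ptf_sum_x {f : γ → α ⊕ β → δ → α'}
    (h1 : PTF (fun p : γ × α × δ => f p.1 (Sum.inl p.2.1) p.2.2))
    (h2 : PTF (fun p : γ × β × δ => f p.1 (Sum.inr p.2.1) p.2.2)) :
    PTF (fun p : γ × (α ⊕ β) × δ => f p.1 p.2.1 p.2.2) := by
  have h : PTF (fun p : (γ × δ) × (α ⊕ β) => f p.1.1 p.2 p.1.2) := by
    refine ptf_sum (f := fun (q : γ × δ) (a : α ⊕ β) => f q.1 a q.2) ?_ ?_
    · exact PTF.comp (g := fun p : γ × α × δ => f p.1 (Sum.inl p.2.1) p.2.2)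
        (f := fun p : (γ × δ) × α => (p.1.1, p.2, p.1.2)) h1 (by fun_prop)
    · exact PTF.comp (g := fun p : γ × β × δ => f p.1 (Sum.inr p.2.1) p.2.2)
        (f := fun p : (γ × δ) × β => (p.1.1, p.2, p.1.2)) h2 (by fun_prop)
  exact PTF.comp (g := fun p : (γ × δ) × (α ⊕ β) => f p.1.1 p.2 p.1.2)
    (f := fun p : γ × (α ⊕ β) × δ => ((p.1, p.2.2), p.2.1)) h (by fun_prop)

end elim

section encA

variable {γ O X : Type} [PTCode γ] [PTCode O] [PTCode X] [DecidableEq O] [DecidableEq X]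
  {I : γ → XI O X}

omit [DecidableEq O] [DecidableEq X] in
theorem ptf_base (hobjs : PTF (fun d => (I d).objs)) (hvl : PTF (fun d => (I d).vl)) :
    PTF (fun d => (I d).base) := by
  unfold XI.base
  refine PTF.append (PTF.map hobjs ?_) (PTF.map hvl ?_)
  · show PTF (fun q : γ × O => (Sum.inl q.2 : O ⊕ X))
    exact PTF.inl PTF.snd
  · show PTF (fun q : γ × X => (Sum.inr q.2 : O ⊕ X))
    exact PTF.inr PTF.snd

theorem ptf_EA (hobjs : PTF (fun d => (I d).objs)) (hvl : PTF (fun d => (I d).vl))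
    (hports : PTF (fun p : γ × O => (I p.1).ports p.2)) :
    PTF (fun p : γ × CA O X × CA O X => (I p.1).EA p.2.1 p.2.2) := by
  have hbase := ptf_base hobjs hvl
  have hmem : PTF (fun p : γ × O × X => decide (p.2.2 ∈ (I p.1).ports p.2.1)) := by
    refine ptf_decideMem (a := fun p : γ × O × X => p.2.2)
      (l := fun p : γ × O × X => (I p.1).ports p.2.1) (by fun_prop) ?_
    exact PTF.comp (g := fun p : γ × O => (I p.1).ports p.2)
      (f := fun p : γ × O × X => (p.1, p.2.1)) hports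
      (PTF.prodMk PTF.fst (PTF.comp PTF.fst PTF.snd))
  have hidx : PTF (fun p : γ × (O ⊕ X) × ℕ => decide (p.2.2 ≤ (I p.1).base.idxOf p.2.1)) := by
    have h1 : PTF (fun p : γ × (O ⊕ X) × ℕ => (I p.1).base) :=
      PTF.comp (g := fun d => (I d).base) hbase PTF.fst
    have h2 : PTF (fun p : γ × (O ⊕ X) × ℕ => (I p.1).base.idxOf p.2.1) :=
      ptf_idxOf (a := fun p : γ × (O ⊕ X) × ℕ => p.2.1) h1 (by fun_prop)
    exact (PTPred.natLe (by fun_prop) h2).toPTF
  refine ptf_sum_x (f := fun (d : γ) (c c' : CA O X) => (I d).EA c c') ?_ ?_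
  · refine ptf_x_sum (f := fun (d : γ) (c : O ⊕ X) (c' : CA O X) => (I d).EA (Sum.inl c) c') ?_ ?_
    · refine ptf_sum_x (f := fun (d : γ) (c c' : O ⊕ X) =>
        (I d).EA (Sum.inl c) (Sum.inl c')) ?_ ?_
      · refine ptf_x_sum (f := fun (d : γ) (u : O) (c' : O ⊕ X) =>
          (I d).EA (Sum.inl (Sum.inl u)) (Sum.inl c')) ?_ ?_
        · exact PTF.const false
        · exact hmem
      · refine ptf_x_sum (f := fun (d : γ) (x : X) (c' : O ⊕ X) =>
          (I d).EA (Sum.inl (Sum.inr x)) (Sum.inl c')) ?_ ?_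
        · exact PTF.comp (g := fun p : γ × O × X => decide (p.2.2 ∈ (I p.1).ports p.2.1))
            (f := fun p : γ × X × O => (p.1, p.2.2, p.2.1)) hmem (by fun_prop)
        · exact PTF.const false
    · refine ptf_x_sum (f := fun (d : γ) (c : O ⊕ X) (a : ℕ ⊕ ℕ) =>
        (I d).EA (Sum.inl c) (Sum.inr a)) ?_ ?_
      · refine hidx.of_eq fun p => ?_
        rcases p with ⟨d, c | c, i⟩ <;> rfl
      · refine (PTF.const false).of_eq fun p => ?_
        rcases p with ⟨d, c | c, i⟩ <;> rfl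
  · refine ptf_sum_x (f := fun (d : γ) (a : ℕ ⊕ ℕ) (c' : CA O X) => (I d).EA (Sum.inr a) c') ?_ ?_
    · refine ptf_x_sum (f := fun (d : γ) (i : ℕ) (c' : CA O X) =>
        (I d).EA (Sum.inr (Sum.inl i)) c') ?_ ?_
      · refine PTF.of_eq (PTF.comp
          (g := fun p : γ × (O ⊕ X) × ℕ => decide (p.2.2 ≤ (I p.1).base.idxOf p.2.1))
          (f := fun p : γ × ℕ × (O ⊕ X) => (p.1, p.2.2, p.2.1)) hidx (by fun_prop)) fun p => ?_
        rfl
      · refine ptf_x_sum (f := fun (d : γ) (i : ℕ) (a : ℕ ⊕ ℕ) =>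
          (I d).EA (Sum.inr (Sum.inl i)) (Sum.inr a)) ?_ ?_
        · show PTF (fun p : γ × ℕ × ℕ => decide (p.2.1 ≠ p.2.2))
          exact (PTPred.not (PTPred.natEq (by fun_prop) (by fun_prop))).toPTF
        · exact PTF.const true
    · refine ptf_x_sum (f := fun (d : γ) (i : ℕ) (c' : CA O X) =>
        (I d).EA (Sum.inr (Sum.inr i)) c') ?_ ?_
      · exact PTF.const false
      · refine ptf_x_sum (f := fun (d : γ) (i : ℕ) (a : ℕ ⊕ ℕ) =>
          (I d).EA (Sum.inr (Sum.inr i)) (Sum.inr a)) ?_ ?_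
        · exact PTF.const true
        · exact PTF.const false

/-- the vertex list of the anchor encoding -/
theorem ptf_encA_items (K : ℕ) (hK : 1 ≤ K) {D : γ → ℕ} {b : γ → O → Bool}
    (hb' : ∀ d, ∀ u ∈ (I d).objs, ((I d).ports u).length ≤ K)
    (hobjs : PTF (fun d => (I d).objs)) (hvl : PTF (fun d => (I d).vl))
    (hports : PTF (fun p : γ × O => (I p.1).ports p.2)) (hD : PTU D)
    (hb : PTF (fun p : γ × O => b p.1 p.2)) :
    PTF (fun d => (encA (I d) (D d)).items (bA (b d))) := by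
  have hbase := ptf_base hobjs hvl
  refine ptf_items K (G := fun d => encA (I d) (D d)) (b := fun d => bA (b d)) ?_ ?_ ?_ ?_ ?_
  · intro d c hc
    rcases c with (u | x) | (i | i)
    · simp only [encA, XI.base, List.map_append, List.map_map, List.mem_append, List.mem_map,
        Function.comp, Sum.inl.injEq, reduceCtorEq, and_false, exists_false, or_false,
        exists_eq_right] at hc ⊢
      exact hb' d u hc
    · exact hK
    · exact Nat.zero_le _
    · exact Nat.zero_le _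
  · refine PTF.append (PTF.append (PTF.map hbase ?_) (PTF.map (PTF.range ?_) ?_))
      (PTF.map (PTF.range hD) ?_)
    · show PTF (fun q : γ × (O ⊕ X) => (Sum.inl q.2 : CA O X))
      exact PTF.inl PTF.snd
    · exact PTU.add (PTU.length hbase) (PTU.const 1)
    · show PTF (fun q : γ × ℕ => (Sum.inr (Sum.inl q.2) : CA O X))
      exact PTF.inr (PTF.inl PTF.snd)
    · show PTF (fun q : γ × ℕ => (Sum.inr (Sum.inr q.2) : CA O X))
      exact PTF.inr (PTF.inr PTF.snd)
  · refine ptf_sum (f := fun (d : γ) (c : CA O X) => (encA (I d) (D d)).vars c) ?_ ?_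
    · refine ptf_sum (f := fun (d : γ) (c : O ⊕ X) => (encA (I d) (D d)).vars (Sum.inl c)) ?_ ?_
      · exact hports
      · show PTF (fun p : γ × X => [p.2])
        exact PTF.listCons PTF.snd (PTF.const [])
    · exact PTF.const []
  · refine ptf_sum (f := fun (d : γ) (c : CA O X) => (encA (I d) (D d)).con c) ?_ ?_
    · refine ptf_sum (f := fun (d : γ) (c : O ⊕ X) => (encA (I d) (D d)).con (Sum.inl c)) ?_ ?_
      · exact PTF.const true
      · exact PTF.const false
    · exact PTF.const false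
  · refine ptf_sum (f := fun (d : γ) (c : CA O X) => bA (b d) c) ?_ ?_
    · refine ptf_sum (f := fun (d : γ) (c : O ⊕ X) => bA (b d) (Sum.inl c)) ?_ ?_
      · exact hb
      · exact PTF.const false
    · exact PTF.const false


/-- the anchor encoding -/
theorem ptf_encA (K : ℕ) (hK : 1 ≤ K) {D : γ → ℕ} {b : γ → O → Bool}
    (hb' : ∀ d, ∀ u ∈ (I d).objs, ((I d).ports u).length ≤ K)
    (hobjs : PTF (fun d => (I d).objs)) (hvl : PTF (fun d => (I d).vl))
    (hports : PTF (fun p : γ × O => (I p.1).ports p.2)) (hD : PTU D)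
    (hb : PTF (fun p : γ × O => b p.1 p.2)) :
    PTF (fun d => (encA (I d) (D d)).code (bA (b d))) := by
  have hbase := ptf_base hobjs hvl
  refine ptf_agCode K (G := fun d => encA (I d) (D d)) (b := fun d => bA (b d)) ?_ ?_ ?_ ?_ ?_ ?_
  · intro d c hc
    rcases c with (u | x) | (i | i)
    · simp only [encA, XI.base, List.map_append, List.map_map, List.mem_append, List.mem_map,
        Function.comp, Sum.inl.injEq, reduceCtorEq, and_false, exists_false, or_false,
        exists_eq_right] at hc ⊢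
      exact hb' d u hc
    · exact hK
    · exact Nat.zero_le _
    · exact Nat.zero_le _
  · refine PTF.append (PTF.append (PTF.map hbase ?_) (PTF.map (PTF.range ?_) ?_))
      (PTF.map (PTF.range hD) ?_)
    · show PTF (fun q : γ × (O ⊕ X) => (Sum.inl q.2 : CA O X))
      exact PTF.inl PTF.snd
    · exact PTU.add (PTU.length hbase) (PTU.const 1)
    · show PTF (fun q : γ × ℕ => (Sum.inr (Sum.inl q.2) : CA O X))
      exact PTF.inr (PTF.inl PTF.snd)
    · show PTF (fun q : γ × ℕ => (Sum.inr (Sum.inr q.2) : CA O X))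
      exact PTF.inr (PTF.inr PTF.snd)
  · refine ptf_sum (f := fun (d : γ) (c : CA O X) => (encA (I d) (D d)).vars c) ?_ ?_
    · refine ptf_sum (f := fun (d : γ) (c : O ⊕ X) => (encA (I d) (D d)).vars (Sum.inl c)) ?_ ?_
      · exact hports
      · show PTF (fun p : γ × X => [p.2])
        exact PTF.listCons PTF.snd (PTF.const [])
    · exact PTF.const []
  · refine ptf_sum (f := fun (d : γ) (c : CA O X) => (encA (I d) (D d)).con c) ?_ ?_
    · refine ptf_sum (f := fun (d : γ) (c : O ⊕ X) => (encA (I d) (D d)).con (Sum.inl c)) ?_ ?_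
      · exact PTF.const true
      · exact PTF.const false
    · exact PTF.const false
  · exact ptf_EA hobjs hvl hports
  · refine ptf_sum (f := fun (d : γ) (c : CA O X) => bA (b d) c) ?_ ?_
    · refine ptf_sum (f := fun (d : γ) (c : O ⊕ X) => bA (b d) (Sum.inl c)) ?_ ?_
      · exact hb
      · exact PTF.const false
    · exact PTF.const false

end encA

end Crest.Agent.R290
end

-- ▼ part R290/GenEncS
section

/-!
# Row 290, module GEN: the subcubic encoding is poly-time
-/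

set_option autoImplicit false
set_option linter.dupNamespace false

namespace Crest.Agent.R290

open Crest.Agent.Lib.PT Crest.Enc

section subdiv

variable {γ C X : Type} [PTCode γ] [PTCode C] [DecidableEq C] {G : γ → BG C X}

theorem decide_exists_option {α : Type} (o : Option α) (p : Prop) (q : α → Prop) [Decidable p]
    [DecidablePred q] [Decidable (p ∧ ∃ e ∈ o, q e)] :
    decide (p ∧ ∃ e ∈ o, q e) = (decide p && (o.map fun e => decide (q e)).getD false) := by
  rw [Bool.eq_iff_iff]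
  cases o <;> simp

theorem ptf_ES (hes : PTF (fun d => (G d).es)) :
    PTF (fun p : γ × (C ⊕ (ℕ × ℕ)) × (C ⊕ (ℕ × ℕ)) => (G p.1).ES p.2.1 p.2.2) := by
  have h1 : PTF (fun p : γ × C × (ℕ × ℕ) =>
      decide (p.2.2.2 = 0 ∧ ∃ e ∈ (G p.1).es[p.2.2.1]?, e.1 = p.2.1 ∨ e.2 = p.2.1)) := by
    have h2 : PTF (fun p : γ × C × (ℕ × ℕ) => (G p.1).es[p.2.2.1]?) := by
      refine ptf_getElemB (n := fun p : γ × C × (ℕ × ℕ) => p.2.2.1)
        (l := fun p : γ × C × (ℕ × ℕ) => (G p.1).es) (by fun_prop) ?_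
      exact PTF.comp (g := fun d => (G d).es) hes PTF.fst
    have h3 : PTF (fun p : γ × C × (ℕ × ℕ) => (((G p.1).es[p.2.2.1]?).map
        fun e => decide (e.1 = p.2.1 ∨ e.2 = p.2.1)).getD false) := by
      refine PTF.optionGetD (PTF.optionMap h2 ?_) (PTF.const false)
      show PTF (fun q : (γ × C × (ℕ × ℕ)) × (C × C) =>
        decide (q.2.1 = q.1.2.1 ∨ q.2.2 = q.1.2.1))
      exact (PTPred.or (PTPred.eq (by fun_prop) (by fun_prop))
        (PTPred.eq (by fun_prop) (by fun_prop))).toPTF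
    have h4 : PTF (fun p : γ × C × (ℕ × ℕ) => decide (p.2.2.2 = 0)) :=
      (PTPred.natEq (by fun_prop) (by fun_prop)).toPTF
    refine (PTF.and h4 h3).of_eq fun p => ?_
    rw [decide_exists_option]
  refine ptf_sum_x (f := fun (d : γ) (c c' : C ⊕ (ℕ × ℕ)) => (G d).ES c c') ?_ ?_
  · refine ptf_x_sum (f := fun (d : γ) (c : C) (c' : C ⊕ (ℕ × ℕ)) =>
      (G d).ES (Sum.inl c) c') ?_ ?_
    · exact PTF.const false
    · exact h1
  · refine ptf_x_sum (f := fun (d : γ) (a : ℕ × ℕ) (c' : C ⊕ (ℕ × ℕ)) =>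
      (G d).ES (Sum.inr a) c') ?_ ?_
    · exact PTF.comp (g := fun p : γ × C × (ℕ × ℕ) =>
          decide (p.2.2.2 = 0 ∧ ∃ e ∈ (G p.1).es[p.2.2.1]?, e.1 = p.2.1 ∨ e.2 = p.2.1))
        (f := fun p : γ × (ℕ × ℕ) × C => (p.1, p.2.2, p.2.1)) h1 (by fun_prop)
    · show PTF (fun p : γ × (ℕ × ℕ) × (ℕ × ℕ) =>
        decide (p.2.1.1 = p.2.2.1 ∧ (p.2.2.2 = p.2.1.2 + 1 ∨ p.2.1.2 = p.2.2.2 + 1)))
      exact (PTPred.and (PTPred.natEq (by fun_prop) (by fun_prop))
        (PTPred.or (PTPred.natEq (by fun_prop) (by fun_prop))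
          (PTPred.natEq (by fun_prop) (by fun_prop)))).toPTF

theorem ptf_subdiv [PTCode X] [DecidableEq X] (K : ℕ) {b : γ → C → Bool}
    (hK : ∀ d c, ((G d).vars c).length ≤ K)
    (hcls : PTF (fun d => (G d).cls)) (hvars : PTF (fun p : γ × C => (G p.1).vars p.2))
    (hcon : PTF (fun p : γ × C => (G p.1).con p.2)) (hes : PTF (fun d => (G d).es))
    (hb : PTF (fun p : γ × C => b p.1 p.2)) :
    PTF (fun d => (subdiv (G d)).code (bSub (G d) (b d))) := by
  have hget : PTF (fun p : γ × (ℕ × ℕ) => (G p.1).es[p.2.1]?) := by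
    refine ptf_getElemB (n := fun p : γ × (ℕ × ℕ) => p.2.1)
      (l := fun p : γ × (ℕ × ℕ) => (G p.1).es) (by fun_prop) ?_
    exact PTF.comp (g := fun d => (G d).es) hes PTF.fst
  refine ptf_agCode K (G := fun d => subdiv (G d)) (b := fun d => bSub (G d) (b d)) ?_ ?_ ?_ ?_ ?_ ?_
  · rintro d (c | ⟨k, j⟩) _
    · exact hK d c
    · show List.length (match (G d).es[k]? with
        | some e => (G d).vars e.1
        | none => []) ≤ K
      cases (G d).es[k]? with
      | none => exact Nat.zero_le _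
      | some e => exact hK d e.1
  · refine PTF.append (PTF.map hcls ?_) ?_
    · show PTF (fun q : γ × C => (Sum.inl q.2 : C ⊕ (ℕ × ℕ)))
      exact PTF.inl PTF.snd
    · have h5 : PTU (fun q : γ × ℕ => (G q.1).es.length) :=
        PTU.comp (n := fun d => (G d).es.length) (PTU.length hes) PTF.fst
      have h6 : PTU (fun q : γ × ℕ => min q.2 (G q.1).es.length + 2) :=
        PTU.add (PTF.natMinUn PTF.snd h5) (PTU.const 2)
      have h7 : PTF (fun q : γ × ℕ => (List.range (min q.2 (G q.1).es.length + 2)).map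
          fun j => (Sum.inr (q.2, j) : C ⊕ (ℕ × ℕ))) := by
        refine PTF.map (PTF.range h6) ?_
        show PTF (fun r : (γ × ℕ) × ℕ => (Sum.inr (r.1.2, r.2) : C ⊕ (ℕ × ℕ)))
        exact PTF.inr (by fun_prop)
      refine (PTF.flatMap (f := fun (d : γ) (k : ℕ) =>
        (List.range (min k (G d).es.length + 2)).map fun j => (Sum.inr (k, j) : C ⊕ (ℕ × ℕ)))
        (PTF.range (PTU.length hes)) h7).of_eq fun d => ?_
      refine List.flatMap_congr fun k hk => ?_
      rw [min_eq_left (List.mem_range.mp hk).le]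
  · refine ptf_sum (f := fun (d : γ) (c : C ⊕ (ℕ × ℕ)) => (subdiv (G d)).vars c) hvars ?_
    refine (PTF.optionCasesOn (s := fun p : γ × (ℕ × ℕ) => (G p.1).es[p.2.1]?)
      (f := fun p => ([] : List X)) (g := fun p e => (G p.1).vars e.1) hget (PTF.const []) ?_).of_eq
      fun p => ?_
    · exact PTF.comp (g := fun p : γ × C => (G p.1).vars p.2)
        (f := fun p : (γ × (ℕ × ℕ)) × (C × C) => (p.1.1, p.2.1)) hvars (by fun_prop)
    · show _ = (match (G p.1).es[p.2.1]? with
        | some e => (G p.1).vars e.1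
        | none => [])
      cases (G p.1).es[p.2.1]? <;> rfl
  · refine ptf_sum (f := fun (d : γ) (c : C ⊕ (ℕ × ℕ)) => (subdiv (G d)).con c) hcon ?_
    refine (PTF.optionCasesOn (s := fun p : γ × (ℕ × ℕ) => (G p.1).es[p.2.1]?)
      (f := fun p => false) (g := fun p e => (G p.1).con e.1) hget (PTF.const false) ?_).of_eq
      fun p => ?_
    · exact PTF.comp (g := fun p : γ × C => (G p.1).con p.2)
        (f := fun p : (γ × (ℕ × ℕ)) × (C × C) => (p.1.1, p.2.1)) hcon (by fun_prop)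
    · show _ = (match (G p.1).es[p.2.1]? with
        | some e => (G p.1).con e.1
        | none => false)
      cases (G p.1).es[p.2.1]? <;> rfl
  · exact ptf_ES hes
  · refine ptf_sum (f := fun (d : γ) (c : C ⊕ (ℕ × ℕ)) => bSub (G d) (b d) c) hb ?_
    refine (PTF.optionCasesOn (s := fun p : γ × (ℕ × ℕ) => (G p.1).es[p.2.1]?)
      (f := fun p => false) (g := fun p e => b p.1 e.1) hget (PTF.const false) ?_).of_eq
      fun p => ?_
    · exact PTF.comp (g := fun p : γ × C => b p.1 p.2)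
        (f := fun p : (γ × (ℕ × ℕ)) × (C × C) => (p.1.1, p.2.1)) hb (by fun_prop)
    · show _ = (match (G p.1).es[p.2.1]? with
        | some e => b p.1 e.1
        | none => false)
      cases (G p.1).es[p.2.1]? <;> rfl

end subdiv

section encS

variable {γ O X : Type} [PTCode γ] [PTCode O] [PTCode X] [DecidableEq O] [DecidableEq X]
  {I : γ → XI O X}

omit [PTCode X] [DecidableEq O] [DecidableEq X] in
theorem ptf_objMap {β : Type} [PTCode β] (hobjs : PTF (fun d => (I d).objs)) {n : γ → O → ℕ}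
    (hn : PTU (fun p : γ × O => n p.1 p.2)) {f : γ → O → ℕ → β}
    (hf : PTF (fun p : γ × O × ℕ => f p.1 p.2.1 p.2.2)) :
    PTF (fun d => (I d).objs.flatMap fun u => (List.range (n d u)).map fun i => f d u i) := by
  refine PTF.flatMap hobjs ?_
  show PTF (fun q : γ × O => (List.range (n q.1 q.2)).map fun i => f q.1 q.2 i)
  refine PTF.map (PTF.range hn) ?_
  exact PTF.comp (g := fun p : γ × O × ℕ => f p.1 p.2.1 p.2.2)
    (f := fun p : (γ × O) × ℕ => (p.1.1, p.1.2, p.2)) hf (by fun_prop)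

omit [PTCode X] [DecidableEq O] [DecidableEq X] in
theorem ptf_objMap2 {β : Type} [PTCode β] (hobjs : PTF (fun d => (I d).objs)) {n m : γ → O → ℕ}
    (hn : PTU (fun p : γ × O => n p.1 p.2)) (hm : PTU (fun p : γ × O => m p.1 p.2))
    {f : γ → O → ℕ → ℕ → β} (hf : PTF (fun p : γ × O × ℕ × ℕ => f p.1 p.2.1 p.2.2.1 p.2.2.2)) :
    PTF (fun d => (I d).objs.flatMap fun u => (List.range (n d u)).flatMap fun i =>
      (List.range (m d u)).map fun l => f d u i l) := by
  refine PTF.flatMap hobjs ?_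
  show PTF (fun q : γ × O => (List.range (n q.1 q.2)).flatMap fun i =>
      (List.range (m q.1 q.2)).map fun l => f q.1 q.2 i l)
  refine PTF.flatMap (PTF.range hn) ?_
  show PTF (fun r : (γ × O) × ℕ => (List.range (m r.1.1 r.1.2)).map fun l => f r.1.1 r.1.2 r.2 l)
  refine PTF.map (PTF.range (PTU.comp (n := fun q : γ × O => m q.1 q.2) hm PTF.fst)) ?_
  exact PTF.comp (g := fun p : γ × O × ℕ × ℕ => f p.1 p.2.1 p.2.2.1 p.2.2.2)
    (f := fun p : ((γ × O) × ℕ) × ℕ => (p.1.1.1, p.1.1.2, p.1.2, p.2)) hf (by fun_prop)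

omit [DecidableEq O] in
theorem ptf_occ (hobjs : PTF (fun d => (I d).objs))
    (hports : PTF (fun p : γ × O => (I p.1).ports p.2)) :
    PTF (fun p : γ × X => (I p.1).occ p.2) := by
  unfold XI.occ
  have h1 : PTF (fun p : γ × X => (I p.1).objs) := PTF.comp (g := fun d => (I d).objs) hobjs PTF.fst
  refine PTF.flatMap h1 ?_
  have h2 : PTF (fun q : (γ × X) × O => (I q.1.1).ports q.2) :=
    PTF.comp (g := fun p : γ × O => (I p.1).ports p.2)
      (f := fun q : (γ × X) × O => (q.1.1, q.2)) hports (by fun_prop)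
  have h3 : PTF (fun q : (γ × X) × O => ((List.range ((I q.1.1).ports q.2).length).filter
      fun i => decide (((I q.1.1).ports q.2)[i]? = some q.1.2))) := by
    refine PTF.filter (PTF.range (PTU.length h2)) ?_
    show PTF (fun r : ((γ × X) × O) × ℕ =>
      decide (((I r.1.1.1).ports r.1.2)[r.2]? = some r.1.1.2))
    have h4 : PTF (fun r : ((γ × X) × O) × ℕ => ((I r.1.1.1).ports r.1.2)[r.2]?) := by
      refine ptf_getElemB (n := fun r : ((γ × X) × O) × ℕ => r.2)
        (l := fun r : ((γ × X) × O) × ℕ => (I r.1.1.1).ports r.1.2) PTF.snd ?_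
      exact PTF.comp (g := fun q : (γ × X) × O => (I q.1.1).ports q.2) h2 PTF.fst
    exact (PTPred.eq h4 (PTF.optSome (by fun_prop))).toPTF
  show PTF (fun q : (γ × X) × O => ((List.range ((I q.1.1).ports q.2).length).filter
      fun i => decide (((I q.1.1).ports q.2)[i]? = some q.1.2)).map fun i => (q.2, i))
  refine PTF.map h3 ?_
  show PTF (fun r : ((γ × X) × O) × ℕ => (r.1.2, r.2))
  fun_prop

omit [DecidableEq O] [DecidableEq X] in
theorem ptf_mvars (hports : PTF (fun p : γ × O => (I p.1).ports p.2)) :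
    PTF (fun p : γ × O × ℕ × ℕ => (I p.1).mvars p.2.1 p.2.2.1 p.2.2.2) := by
  have h1 : PTF (fun p : γ × O × ℕ × ℕ => (I p.1).ports p.2.1) :=
    PTF.comp (g := fun p : γ × O => (I p.1).ports p.2)
      (f := fun p : γ × O × ℕ × ℕ => (p.1, p.2.1)) hports (by fun_prop)
  have h2 : PTF (fun p : γ × O × ℕ × ℕ => ((I p.1).ports p.2.1)[p.2.2.1]?) :=
    ptf_getElemB (n := fun p : γ × O × ℕ × ℕ => p.2.2.1)
      (l := fun p : γ × O × ℕ × ℕ => (I p.1).ports p.2.1) (by fun_prop) h1
  have h3 : PTF (fun p : γ × O × ℕ × ℕ =>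
      (((I p.1).ports p.2.1).eraseIdx p.2.2.1).drop p.2.2.2) :=
    ptf_dropB (n := fun p : γ × O × ℕ × ℕ => p.2.2.2) (by fun_prop)
      (ptf_eraseIdxB (n := fun p : γ × O × ℕ × ℕ => p.2.2.1) (by fun_prop) h1)
  refine (PTF.optionCasesOn (s := fun p : γ × O × ℕ × ℕ => ((I p.1).ports p.2.1)[p.2.2.1]?)
    (f := fun p => ([] : List X))
    (g := fun p x => x :: (((I p.1).ports p.2.1).eraseIdx p.2.2.1).drop p.2.2.2) h2
    (PTF.const []) ?_).of_eq fun p => ?_
  · refine PTF.listCons PTF.snd ?_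
    exact PTF.comp (g := fun p : γ × O × ℕ × ℕ =>
      (((I p.1).ports p.2.1).eraseIdx p.2.2.1).drop p.2.2.2) h3 PTF.fst
  · unfold XI.mvars
    cases ((I p.1).ports p.2.1)[p.2.2.1]? <;> rfl

variable (hobjs : PTF (fun d => (I d).objs)) (hvl : PTF (fun d => (I d).vl))
    (hports : PTF (fun p : γ × O => (I p.1).ports p.2))

omit [DecidableEq O] in
include hobjs hvl hports in
theorem ptf_baseS_cls : PTF (fun d => (baseS (I d)).cls) := by
  have hlen : PTU (fun p : γ × O => ((I p.1).ports p.2).length) := PTU.length hports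
  refine PTF.append (PTF.append (PTF.append ?_ ?_) ?_) ?_
  · refine ptf_objMap2 (n := fun d u => ((I d).ports u).length)
      (m := fun d u => ((I d).ports u).length)
      (f := fun d u i l => (Sum.inl (u, i, l) : CB O X)) hobjs hlen hlen ?_
    exact PTF.inl PTF.snd
  · refine ptf_objMap (n := fun d u => ((I d).ports u).length)
      (f := fun d u i => (Sum.inr (Sum.inl (u, i)) : CB O X)) hobjs hlen ?_
    exact PTF.inr (PTF.inl PTF.snd)
  · refine PTF.map hvl ?_
    show PTF (fun q : γ × X => (Sum.inr (Sum.inr (Sum.inl q.2)) : CB O X))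
    exact PTF.inr (PTF.inr (PTF.inl PTF.snd))
  · refine PTF.map hvl ?_
    show PTF (fun q : γ × X => (Sum.inr (Sum.inr (Sum.inr q.2)) : CB O X))
    exact PTF.inr (PTF.inr (PTF.inr PTF.snd))

omit [DecidableEq O] in
include hobjs hvl hports in
theorem ptf_baseS_es : PTF (fun d => (baseS (I d)).es) := by
  have hlen : PTU (fun p : γ × O => ((I p.1).ports p.2).length) := PTU.length hports
  have hlen1 : PTU (fun p : γ × O => ((I p.1).ports p.2).length - 1) :=
    PTU.sub hlen (PTU.const 1)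
  have hocc : PTF (fun p : γ × X => (I p.1).occ p.2) := ptf_occ hobjs hports
  refine PTF.append (PTF.append (PTF.append (PTF.append (PTF.append (PTF.append ?_ ?_) ?_) ?_) ?_)
    ?_) ?_
  · refine ptf_objMap (n := fun d u => ((I d).ports u).length - 1)
      (f := fun d u i => ((Sum.inl (u, i, 0), Sum.inl (u, i + 1, 0)) : CB O X × CB O X))
      hobjs hlen1 ?_
    exact PTF.prodMk (PTF.inl (by fun_prop)) (PTF.inl (by fun_prop))
  · refine ptf_objMap2 (n := fun d u => ((I d).ports u).length)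
      (m := fun d u => ((I d).ports u).length - 1)
      (f := fun d u i l => ((Sum.inl (u, i, l), Sum.inl (u, i, l + 1)) : CB O X × CB O X))
      hobjs hlen hlen1 ?_
    exact PTF.prodMk (PTF.inl (by fun_prop)) (PTF.inl (by fun_prop))
  · refine ptf_objMap (n := fun d u => ((I d).ports u).length)
      (f := fun d u i => ((Sum.inl (u, i, ((I d).ports u).length - 1), Sum.inr (Sum.inl (u, i))) :
        CB O X × CB O X)) hobjs hlen ?_
    have h1 : PTF (fun p : γ × O × ℕ => ((I p.1).ports p.2.1).length - 1) :=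
      PTF.comp (g := fun p : γ × O => ((I p.1).ports p.2).length - 1)
        (f := fun p : γ × O × ℕ => (p.1, p.2.1)) hlen1.toPTF (by fun_prop)
    exact PTF.prodMk (PTF.inl (PTF.prodMk (by fun_prop) (PTF.prodMk (by fun_prop) h1)))
      (PTF.inr (PTF.inl (by fun_prop)))
  · refine PTF.flatMap hvl ?_
    show PTF (fun q : γ × X => (((I q.1).occ q.2).zip ((I q.1).occ q.2).tail).map fun o =>
      ((Sum.inr (Sum.inl o.1), Sum.inr (Sum.inl o.2)) : CB O X × CB O X))
    refine PTF.map (PTF.zip hocc (PTF.tail hocc)) ?_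
    show PTF (fun q : (γ × X) × ((O × ℕ) × (O × ℕ)) =>
      ((Sum.inr (Sum.inl q.2.1), Sum.inr (Sum.inl q.2.2)) : CB O X × CB O X))
    exact PTF.prodMk (PTF.inr (PTF.inl (by fun_prop))) (PTF.inr (PTF.inl (by fun_prop)))
  · refine PTF.flatMap hvl ?_
    show PTF (fun q : γ × X => (((I q.1).occ q.2).take 1).map fun o =>
      ((Sum.inr (Sum.inl o), Sum.inr (Sum.inr (Sum.inl q.2))) : CB O X × CB O X))
    refine PTF.map (PTF.take (PTU.const 1) hocc) ?_
    show PTF (fun q : (γ × X) × (O × ℕ) =>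
      ((Sum.inr (Sum.inl q.2), Sum.inr (Sum.inr (Sum.inl q.1.2))) : CB O X × CB O X))
    exact PTF.prodMk (PTF.inr (PTF.inl (by fun_prop)))
      (PTF.inr (PTF.inr (PTF.inl (by fun_prop))))
  · refine PTF.map hvl ?_
    show PTF (fun q : γ × X =>
      ((Sum.inr (Sum.inr (Sum.inl q.2)), Sum.inr (Sum.inr (Sum.inr q.2))) : CB O X × CB O X))
    exact PTF.prodMk (PTF.inr (PTF.inr (PTF.inl (by fun_prop))))
      (PTF.inr (PTF.inr (PTF.inr (by fun_prop))))
  · refine PTF.map (PTF.zip hvl (PTF.tail hvl)) ?_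
    show PTF (fun q : γ × (X × X) =>
      ((Sum.inr (Sum.inr (Sum.inr q.2.1)), Sum.inr (Sum.inr (Sum.inr q.2.2))) :
        CB O X × CB O X))
    exact PTF.prodMk (PTF.inr (PTF.inr (PTF.inr (by fun_prop))))
      (PTF.inr (PTF.inr (PTF.inr (by fun_prop))))

omit [DecidableEq O] in
include hports in
theorem ptf_baseS_vars : PTF (fun p : γ × CB O X => (baseS (I p.1)).vars p.2) := by
  refine ptf_sum (f := fun (d : γ) (c : CB O X) => (baseS (I d)).vars c) ?_ ?_
  · show PTF (fun p : γ × (O × ℕ × ℕ) =>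
      if p.2.2.2 = 0 then (I p.1).ports p.2.1 else (I p.1).mvars p.2.1 p.2.2.1 p.2.2.2)
    refine PTF.ite (PTPred.natEq (by fun_prop) (by fun_prop)) ?_ (ptf_mvars hports)
    exact PTF.comp (g := fun p : γ × O => (I p.1).ports p.2)
      (f := fun p : γ × O × ℕ × ℕ => (p.1, p.2.1)) hports (by fun_prop)
  · refine ptf_sum (f := fun (d : γ) (c : (O × ℕ) ⊕ (X ⊕ X)) =>
      (baseS (I d)).vars (Sum.inr c)) ?_ ?_
    · have h1 : PTF (fun p : γ × (O × ℕ) => ((I p.1).ports p.2.1)[p.2.2]?) := by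
        refine ptf_getElemB (n := fun p : γ × (O × ℕ) => p.2.2)
          (l := fun p : γ × (O × ℕ) => (I p.1).ports p.2.1) (by fun_prop) ?_
        exact PTF.comp (g := fun p : γ × O => (I p.1).ports p.2)
          (f := fun p : γ × (O × ℕ) => (p.1, p.2.1)) hports (by fun_prop)
      refine (PTF.optionCasesOn (s := fun p : γ × (O × ℕ) => ((I p.1).ports p.2.1)[p.2.2]?)
        (f := fun p => ([] : List X)) (g := fun p x => [x]) h1 (PTF.const []) ?_).of_eq fun p => ?_
      · exact PTF.listCons PTF.snd (PTF.const [])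
      · show _ = (match ((I p.1).ports p.2.1)[p.2.2]? with
          | some x => [x]
          | none => [])
        cases ((I p.1).ports p.2.1)[p.2.2]? <;> rfl
    · exact PTF.const []

omit [DecidableEq O] in
theorem ptf_baseS_con : PTF (fun p : γ × CB O X => (baseS (I p.1)).con p.2) := by
  refine ptf_sum (f := fun (d : γ) (c : CB O X) => (baseS (I d)).con c) ?_ ?_
  · show PTF (fun p : γ × (O × ℕ × ℕ) => decide (p.2.2.2 = 0))
    exact (PTPred.natEq (by fun_prop) (by fun_prop)).toPTF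
  · exact PTF.const false

omit [PTCode O] [PTCode X] [DecidableEq O] in
theorem length_baseS_vars (K : ℕ) (hK : 1 ≤ K) (J : XI O X)
    (h : ∀ u, (J.ports u).length ≤ K) (c : CB O X) : ((baseS J).vars c).length ≤ K := by
  rcases c with ⟨u, i, l⟩ | ⟨u, i⟩ | x | x
  · show (if l = 0 then J.ports u else J.mvars u i l).length ≤ K
    split_ifs
    · exact h u
    · unfold XI.mvars
      cases hx : (J.ports u)[i]? with
      | none => exact Nat.zero_le _
      | some x =>
        have h1 : i < (J.ports u).length := by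
          by_contra hc
          rw [List.getElem?_eq_none (by omega)] at hx
          cases hx
        have h2 := h u
        simp only [List.length_cons, List.length_drop, List.length_eraseIdx, if_pos h1]
        omega
  · show (match (J.ports u)[i]? with
      | some x => [x]
      | none => []).length ≤ K
    cases (J.ports u)[i]? with
    | none => exact Nat.zero_le _
    | some x => exact hK
  · exact Nat.zero_le _
  · exact Nat.zero_le _

include hobjs hvl hports in
/-- the subcubic encoding -/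
theorem ptf_encS (K : ℕ) (hK : 1 ≤ K) {b : γ → O → Bool}
    (hb' : ∀ d u, ((I d).ports u).length ≤ K) (hb : PTF (fun p : γ × O => b p.1 p.2)) :
    PTF (fun d => (encS (I d)).code (bS (I d) (b d))) := by
  refine ptf_subdiv (G := fun d => baseS (I d)) (b := fun d => bB (b d)) K
    (fun d c => length_baseS_vars K hK (I d) (hb' d) c) (ptf_baseS_cls hobjs hvl hports)
    (ptf_baseS_vars hports) ptf_baseS_con (ptf_baseS_es hobjs hvl hports) ?_
  refine ptf_sum (f := fun (d : γ) (c : CB O X) => bB (b d) c) ?_ ?_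
  · show PTF (fun p : γ × (O × ℕ × ℕ) => b p.1 p.2.1)
    exact PTF.comp (g := fun p : γ × O => b p.1 p.2)
      (f := fun p : γ × O × ℕ × ℕ => (p.1, p.2.1)) hb (by fun_prop)
  · exact PTF.const false

end encS

end Crest.Agent.R290
end

-- ▼ part R290/GenNet
section

/-!
# Row 290, module GEN: objects, ports and variables of a network are poly-time
-/

set_option autoImplicit false
set_option linter.dupNamespace false

namespace Crest.Agent.R290

open Crest.Agent.Lib.PT

section net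

variable {γ H Λ : Type} [PTCode γ] [PTCode H] [PTCode Λ]

/-- poly-time presented networks -/
structure PTNet (N : γ → Net H Λ) : Prop where
  m : PTU (fun d => (N d).m)
  nG : PTU (fun d => (N d).nG)
  gt : PTF (fun d => (N d).gt)
  narm : PTU (fun p : γ × ℕ => (N p.1).narm p.2)
  hub : PTF (fun p : γ × ℕ × ℕ => (N p.1).hub p.2.1 p.2.2)
  proj : PTF (fun p : γ × ℕ × ℕ × Λ => (N p.1).proj p.2.1 p.2.2.1 p.2.2.2)
  lett : PTF (fun p : γ × ℕ × ℕ => (N p.1).lett p.2.1 p.2.2)

variable {N : γ → Net H Λ}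

theorem PTNet.L (h : PTNet N) : PTU (fun d => (N d).L) := PTU.add h.m (PTU.const 2)

theorem PTNet.cols (h : PTNet N) : PTF (fun p : γ × ℕ => (N p.1).cols p.2) := by
  unfold Net.cols
  refine PTF.listCons (by fun_prop) ?_
  refine PTF.flatMap (PTF.range h.narm) ?_
  show PTF (fun q : (γ × ℕ) × ℕ => (List.range (N q.1.1).L).map fun p => (q.1.2, q.2, p + 1))
  have hL : PTU (fun q : (γ × ℕ) × ℕ => (N q.1.1).L) :=
    PTU.comp (n := fun d => (N d).L) (f := fun q : (γ × ℕ) × ℕ => q.1.1) h.L (by fun_prop)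
  refine PTF.map (PTF.range hL) ?_
  show PTF (fun r : ((γ × ℕ) × ℕ) × ℕ => (r.1.1.2, r.1.2, r.2 + 1))
  fun_prop

theorem PTNet.edges (h : PTNet N) : PTF (fun p : γ × Col => (N p.1).edges p.2) := by
  unfold Net.edges
  refine PTF.ite (PTPred.natEq (by fun_prop) (by fun_prop)) ?_ ?_
  · have h1 : PTU (fun p : γ × Col => (N p.1).narm p.2.1) :=
      PTU.comp (n := fun p : γ × ℕ => (N p.1).narm p.2)
        (f := fun p : γ × Col => (p.1, p.2.1)) h.narm (by fun_prop)
    refine PTF.map (PTF.range h1) ?_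
    show PTF (fun q : (γ × Col) × ℕ => (Sum.inr (q.1.2.1, q.2, 1) : Edge H))
    exact PTF.inr (by fun_prop)
  · refine PTF.listCons (PTF.inr (by fun_prop)) (PTF.listCons ?_ (PTF.const []))
    have hL : PTF (fun q : γ × Col => (N q.1).L) :=
      (PTU.comp (n := fun d => (N d).L) (f := fun q : γ × Col => q.1) h.L (by fun_prop)).toPTF
    refine PTF.ite (PTPred.natLt (by fun_prop) hL) (PTF.inr (by fun_prop)) (PTF.inl ?_)
    exact PTF.comp (g := fun p : γ × ℕ × ℕ => (N p.1).hub p.2.1 p.2.2)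
      (f := fun p : γ × Col => (p.1, p.2.1, p.2.2.1)) h.hub (by fun_prop)

theorem PTNet.psi (h : PTNet N) :
    PTF (fun p : γ × (Col × Edge H × Λ) => (N p.1).psi p.2.1 p.2.2.1 p.2.2.2) := by
  refine (PTF.sumCasesOn (s := fun p : γ × (Col × Edge H × Λ) => p.2.2.1)
    (f := fun p _ => (N p.1).proj p.2.1.1 p.2.1.2.1 p.2.2.2) (g := fun p _ => p.2.2.2)
    (by fun_prop) ?_ ?_).of_eq fun p => ?_
  · exact PTF.comp (g := fun p : γ × ℕ × ℕ × Λ => (N p.1).proj p.2.1 p.2.2.1 p.2.2.2)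
      (f := fun q : (γ × (Col × Edge H × Λ)) × H =>
        (q.1.1, q.1.2.1.1, q.1.2.1.2.1, q.1.2.2.2)) h.proj (by fun_prop)
  · show PTF (fun q : (γ × (Col × Edge H × Λ)) × (ℕ × ℕ × ℕ) => q.1.2.2.2)
    fun_prop
  · rcases p with ⟨d, κ, e | e, x⟩ <;> rfl

theorem PTNet.ports (h : PTNet N) : PTF (fun p : γ × NObj Λ => (N p.1).ports p.2) := by
  unfold Net.ports
  have h1 : PTF (fun p : γ × NObj Λ => (N p.1).edges p.2.1) :=
    PTF.comp (g := fun p : γ × Col => (N p.1).edges p.2)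
      (f := fun p : γ × NObj Λ => (p.1, p.2.1)) h.edges (by fun_prop)
  have hm : PTF (fun p : γ × NObj Λ => (N p.1).m) :=
    (PTU.comp (n := fun d => (N d).m) (f := fun q : γ × NObj Λ => q.1) h.m PTF.fst).toPTF
  refine PTF.append (PTF.map h1 ?_) (PTF.append ?_ ?_)
  · show PTF (fun q : (γ × NObj Λ) × Edge H => (Sum.inl (q.2, q.1.2.2.1,
      (N q.1.1).psi q.1.2.1 q.2 q.1.2.2.2.1, (N q.1.1).psi q.1.2.1 q.2 q.1.2.2.2.2) : NVar H Λ))
    have h2 : PTF (fun q : (γ × NObj Λ) × Edge H =>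
        (N q.1.1).psi q.1.2.1 q.2 q.1.2.2.2.1) :=
      PTF.comp (g := fun p : γ × (Col × Edge H × Λ) => (N p.1).psi p.2.1 p.2.2.1 p.2.2.2)
        (f := fun q : (γ × NObj Λ) × Edge H => (q.1.1, q.1.2.1, q.2, q.1.2.2.2.1)) h.psi
        (by fun_prop)
    have h3 : PTF (fun q : (γ × NObj Λ) × Edge H =>
        (N q.1.1).psi q.1.2.1 q.2 q.1.2.2.2.2) :=
      PTF.comp (g := fun p : γ × (Col × Edge H × Λ) => (N p.1).psi p.2.1 p.2.2.1 p.2.2.2)
        (f := fun q : (γ × NObj Λ) × Edge H => (q.1.1, q.1.2.1, q.2, q.1.2.2.2.2)) h.psi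
        (by fun_prop)
    exact PTF.inl (PTF.prodMk (by fun_prop) (PTF.prodMk (by fun_prop) (PTF.prodMk h2 h3)))
  · refine PTF.ite (PTPred.natLt (by fun_prop) (by fun_prop)) ?_ (PTF.const [])
    exact PTF.listCons (PTF.inr (by fun_prop)) (PTF.const [])
  · refine PTF.ite (PTPred.natLt (by fun_prop) hm) ?_ (PTF.const [])
    exact PTF.listCons (PTF.inr (by fun_prop)) (PTF.const [])

theorem PTNet.objs (h : PTNet N) : PTF (fun d => (N d).objs) := by
  unfold Net.objs
  refine PTF.flatMap (PTF.range h.nG) ?_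
  show PTF (fun q : γ × ℕ => ((N q.1).cols q.2).flatMap fun κ =>
    (List.range (N q.1).m).flatMap fun i => ((N q.1).lett q.2 i).flatMap fun x =>
      ((N q.1).lett q.2 (i + 1)).map fun y => (κ, i, x, y))
  refine PTF.flatMap h.cols ?_
  show PTF (fun q : (γ × ℕ) × Col =>
    (List.range (N q.1.1).m).flatMap fun i => ((N q.1.1).lett q.1.2 i).flatMap fun x =>
      ((N q.1.1).lett q.1.2 (i + 1)).map fun y => (q.2, i, x, y))
  have hm : PTU (fun q : (γ × ℕ) × Col => (N q.1.1).m) :=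
    PTU.comp (n := fun d => (N d).m) (f := fun q : (γ × ℕ) × Col => q.1.1) h.m (by fun_prop)
  refine PTF.flatMap (PTF.range hm) ?_
  show PTF (fun r : ((γ × ℕ) × Col) × ℕ => ((N r.1.1.1).lett r.1.1.2 r.2).flatMap fun x =>
      ((N r.1.1.1).lett r.1.1.2 (r.2 + 1)).map fun y => (r.1.2, r.2, x, y))
  have hl1 : PTF (fun r : ((γ × ℕ) × Col) × ℕ => (N r.1.1.1).lett r.1.1.2 r.2) :=
    PTF.comp (g := fun p : γ × ℕ × ℕ => (N p.1).lett p.2.1 p.2.2)
      (f := fun r : ((γ × ℕ) × Col) × ℕ => (r.1.1.1, r.1.1.2, r.2)) h.lett (by fun_prop)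
  refine PTF.flatMap hl1 ?_
  show PTF (fun s : (((γ × ℕ) × Col) × ℕ) × Λ =>
      ((N s.1.1.1.1).lett s.1.1.1.2 (s.1.2 + 1)).map fun y => (s.1.1.2, s.1.2, s.2, y))
  have hl2 : PTF (fun s : (((γ × ℕ) × Col) × ℕ) × Λ =>
      (N s.1.1.1.1).lett s.1.1.1.2 (s.1.2 + 1)) :=
    PTF.comp (g := fun p : γ × ℕ × ℕ => (N p.1).lett p.2.1 p.2.2)
      (f := fun s : (((γ × ℕ) × Col) × ℕ) × Λ => (s.1.1.1.1, s.1.1.1.2, s.1.2 + 1)) h.lett
      (by fun_prop)
  refine PTF.map hl2 ?_
  show PTF (fun t : ((((γ × ℕ) × Col) × ℕ) × Λ) × Λ => (t.1.1.1.2, t.1.1.2, t.1.2, t.2))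
  fun_prop

theorem PTNet.vl [DecidableEq H] [DecidableEq Λ] (h : PTNet N) :
    PTF (fun d => (N d).xi.vl) := by
  show PTF (fun d => Net.dd ((N d).objs.flatMap (N d).ports))
  exact ptf_dd (PTF.flatMap h.objs h.ports)

theorem PTNet.beta [DecidableEq H] [DecidableEq Λ] (h : PTNet N) :
    PTF (fun p : γ × NObj Λ => (N p.1).beta p.2) := by
  unfold Net.beta
  have hgt : PTF (fun p : γ × NObj Λ => (N p.1).gt) :=
    PTF.comp (g := fun d => (N d).gt) h.gt PTF.fst
  have hm : PTF (fun p : γ × NObj Λ => (N p.1).m) :=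
    (PTU.comp (n := fun d => (N d).m) (f := fun q : γ × NObj Λ => q.1) h.m PTF.fst).toPTF
  refine (PTPred.and (PTPred.eq (by fun_prop) (PTF.prodMk hgt (PTF.const (0, 0))))
    (PTPred.natEq (by fun_prop) hm)).toPTF

end net

end Crest.Agent.R290
end

-- ▼ part R290/GenRules
section

/-!
# Row 290, module GEN: rule networks and the rules of flat programs are poly-time
-/

set_option autoImplicit false
set_option linter.dupNamespace false

namespace Crest.Agent.R290

open Crest.Agent.Lib.PT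

section rules

variable {γ : Type} [PTCode γ]

theorem ptf_sel {c : γ → ℕ} {q : γ → ℕ × ℕ × ℕ × ℕ} (hc : PTF c) (hq : PTF q) :
    PTF (fun d => sel (c d) (q d)) := by
  unfold sel
  refine PTF.ite (PTPred.natEq hc (PTF.const 1)) (by fun_prop) ?_
  refine PTF.ite (PTPred.natEq hc (PTF.const 2)) (by fun_prop) ?_
  refine PTF.ite (PTPred.natEq hc (PTF.const 3)) (by fun_prop) ?_
  exact PTF.ite (PTPred.natEq hc (PTF.const 4)) (by fun_prop) (PTF.const 0)

theorem ptf_atomUsesT : PTF Atom.usesT := by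
  unfold Atom.usesT
  exact (PTPred.or (PTPred.natEq (by fun_prop) (by fun_prop))
    (PTPred.natEq (by fun_prop) (by fun_prop))).toPTF

theorem ptf_ruleUsesT : PTF Rule.usesT := by
  unfold Rule.usesT
  refine PTF.or (PTF.any PTF.fst ?_) (PTF.comp ptf_atomUsesT PTF.snd)
  exact PTF.comp ptf_atomUsesT PTF.snd

theorem ptf_arms : PTF Rule.arms := by
  unfold Rule.arms
  refine PTF.append (PTF.flatMap PTF.fst ?_) (PTF.listCons PTF.snd (PTF.const []))
  show PTF (fun q : Rule × Atom => [q.2, q.2])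
  fun_prop

theorem ptf_gadgets {rs : γ → List Rule} {D : γ → ℕ} (hrs : PTF rs) (hD : PTU D) :
    PTF (fun d => gadgets (rs d) (D d)) := by
  unfold gadgets
  refine PTF.append (PTF.flatMap hrs ?_) (PTF.const _)
  show PTF (fun q : γ × Rule => if Rule.usesT q.2 = true then
    (List.range (D q.1)).map (fun f => (q.2, f + 1)) else [(q.2, 0)])
  refine PTF.ite (PTF.toPTPred (PTF.comp ptf_ruleUsesT PTF.snd)) ?_ ?_
  · refine PTF.map (PTF.range (PTU.comp hD PTF.fst)) ?_
    show PTF (fun q : (γ × Rule) × ℕ => (q.1.2, q.2 + 1))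
    fun_prop
  · exact PTF.listCons (PTF.prodMk PTF.snd (PTF.const 0)) (PTF.const [])

theorem ptf_letters {B D : γ → ℕ} {f j : γ → ℕ} (hB : PTU B) (hD : PTU D) (hf : PTF f)
    (hj : PTF j) : PTF (fun d => letters (B d) (D d) (f d) (j d)) := by
  unfold letters
  refine PTF.ite (PTPred.or (PTPred.natEq hj (PTF.const 0)) (PTPred.natLt hD.toPTF hj))
    (PTF.const _) ?_
  have h1 : PTF (fun d => if f d = 0 then (List.range (B d)).map fun d => (d, 0)
      else if j d < f d then [(B d - 1, 0)]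
      else if j d = f d then (List.range (B d - 1)).map fun d => (d, d + 1)
      else (List.range (B d)).map fun d => (d, d)) := by
    refine PTF.ite (PTPred.natEq hf (PTF.const 0)) (PTF.map (PTF.range hB) ?_) ?_
    · show PTF (fun q : γ × ℕ => (q.2, 0))
      fun_prop
    refine PTF.ite (PTPred.natLt hj hf)
      (PTF.listCons (PTF.prodMk (PTF.natSub hB.toPTF (PTF.const 1)) (PTF.const 0)) (PTF.const []))
      ?_
    refine PTF.ite (PTPred.natEq hj hf)
      (PTF.map (PTF.range (PTU.sub hB (PTU.const 1))) ?_) (PTF.map (PTF.range hB) ?_)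
    · show PTF (fun q : γ × ℕ => (q.2, q.2 + 1))
      fun_prop
    · show PTF (fun q : γ × ℕ => (q.2, q.2))
      fun_prop
  refine PTF.flatMap h1 ?_
  show PTF (fun q : γ × (ℕ × ℕ) => (List.range (B q.1)).flatMap fun a =>
    (List.range (B q.1)).map fun c => (q.2.1, q.2.2, a, c))
  refine PTF.flatMap (PTF.range (PTU.comp hB PTF.fst)) ?_
  show PTF (fun r : (γ × (ℕ × ℕ)) × ℕ =>
    (List.range (B r.1.1)).map fun c => (r.1.2.1, r.1.2.2, r.2, c))
  have h2 : PTU (fun r : (γ × (ℕ × ℕ)) × ℕ => B r.1.1) :=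
    PTU.comp (n := B) (f := fun r : (γ × (ℕ × ℕ)) × ℕ => r.1.1) hB (by fun_prop)
  refine PTF.map (PTF.range h2) ?_
  show PTF (fun s : ((γ × (ℕ × ℕ)) × ℕ) × ℕ => (s.1.1.2.1, s.1.1.2.2, s.1.2, s.2))
  fun_prop

theorem ptNet_ruleNet {rs : γ → List Rule} {B D : γ → ℕ} (hrs : PTF rs) (hB : PTU B)
    (hD : PTU D) : PTNet (fun d => ruleNet (rs d) (B d) (D d)) := by
  have hg := ptf_gadgets hrs hD
  have hget : PTF (fun p : γ × ℕ => (gadgets (rs p.1) (D p.1)).getD p.2 (tgtRule, 0)) :=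
    ptf_getDB PTF.snd (PTF.comp (g := fun d => gadgets (rs d) (D d)) hg PTF.fst) (PTF.const _)
  have harms : PTF (fun p : γ × ℕ =>
      Rule.arms ((gadgets (rs p.1) (D p.1)).getD p.2 (tgtRule, 0)).1) :=
    PTF.comp ptf_arms (PTF.comp PTF.fst hget)
  have harm : PTF (fun p : γ × ℕ × ℕ => armOf (rs p.1) (D p.1) p.2.1 p.2.2) := by
    unfold armOf
    refine ptf_getDB (n := fun p : γ × ℕ × ℕ => p.2.2) (by fun_prop) ?_ (PTF.const _)
    exact PTF.comp (g := fun p : γ × ℕ =>
      Rule.arms ((gadgets (rs p.1) (D p.1)).getD p.2 (tgtRule, 0)).1)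
      (f := fun p : γ × ℕ × ℕ => (p.1, p.2.1)) harms (by fun_prop)
  refine ⟨PTU.add hD (PTU.const 1), PTU.length hg,
    PTF.natSub (PTU.length hg).toPTF (PTF.const 1), PTU.length harms, PTF.comp PTF.fst harm,
    ?_, ?_⟩
  · have h1 : PTF (fun p : γ × ℕ × ℕ × Let => armOf (rs p.1) (D p.1) p.2.1 p.2.2.1) :=
      PTF.comp (g := fun p : γ × ℕ × ℕ => armOf (rs p.1) (D p.1) p.2.1 p.2.2)
        (f := fun p : γ × ℕ × ℕ × Let => (p.1, p.2.1, p.2.2.1)) harm (by fun_prop)
    have h2 : PTF (fun p : γ × ℕ × ℕ × Let => (armOf (rs p.1) (D p.1) p.2.1 p.2.2.1).2.1) :=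
      PTF.comp (g := fun a : Atom => a.2.1) (by fun_prop) h1
    have h3 : PTF (fun p : γ × ℕ × ℕ × Let => (armOf (rs p.1) (D p.1) p.2.1 p.2.2.1).2.2) :=
      PTF.comp (g := fun a : Atom => a.2.2) (by fun_prop) h1
    exact PTF.prodMk (ptf_sel h2 (by fun_prop))
      (PTF.prodMk (ptf_sel h3 (by fun_prop)) (PTF.const (0, 0)))
  · have h1 : PTF (fun p : γ × ℕ × ℕ =>
        ((gadgets (rs p.1) (D p.1)).getD p.2.1 (tgtRule, 0)).2) :=
      PTF.comp (g := fun p : γ × ℕ => ((gadgets (rs p.1) (D p.1)).getD p.2 (tgtRule, 0)).2)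
        (f := fun p : γ × ℕ × ℕ => (p.1, p.2.1)) (PTF.comp PTF.snd hget) (by fun_prop)
    exact ptf_letters (PTU.comp hB PTF.fst) (PTU.comp hD PTF.fst) h1 (by fun_prop)

/-! ### rules of flat programs -/

theorem ptf_toSum : PTF FInstr.toSum := ⟨_, PT.id, fun _ => rfl⟩

theorem ptf_finstr {δ : Type} [PTCode δ] {F : γ → FInstr → δ}
    (h1 : PTF (fun p : γ × (ℕ × Bool × ℕ) => F p.1 (.push p.2.1 p.2.2.1 p.2.2.2)))
    (h2 : PTF (fun p : γ × (ℕ × ℕ × ℕ × ℕ) => F p.1 (.pop p.2.1 p.2.2.1 p.2.2.2.1 p.2.2.2.2))) :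
    PTF (fun p : γ × FInstr => F p.1 p.2) := by
  refine (PTF.sumCasesOn (s := fun p : γ × FInstr => p.2.toSum)
    (f := fun p t => F p.1 (.push t.1 t.2.1 t.2.2))
    (g := fun p t => F p.1 (.pop t.1 t.2.1 t.2.2.1 t.2.2.2)) (PTF.comp ptf_toSum PTF.snd)
    ?_ ?_).of_eq fun p => ?_
  · exact PTF.comp (g := fun p : γ × (ℕ × Bool × ℕ) => F p.1 (.push p.2.1 p.2.2.1 p.2.2.2))
      (f := fun q : (γ × FInstr) × (ℕ × Bool × ℕ) => (q.1.1, q.2)) h1 (by fun_prop)
  · exact PTF.comp
      (g := fun p : γ × (ℕ × ℕ × ℕ × ℕ) => F p.1 (.pop p.2.1 p.2.2.1 p.2.2.2.1 p.2.2.2.2))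
      (f := fun q : (γ × FInstr) × (ℕ × ℕ × ℕ × ℕ) => (q.1.1, q.2)) h2 (by fun_prop)
  · rcases p with ⟨d, _ | _⟩ <;> rfl

theorem ptf_persist {Ks i k : γ → ℕ} (hKs : PTU Ks) (hi : PTF i) (hk : PTF k) :
    PTF (fun d => persist (Ks d) (i d) (k d)) := by
  unfold persist
  have h1 : PTF (fun d => (List.range (Ks d)).filter fun k' => decide (k' ≠ k d)) := by
    refine PTF.filter (PTF.range hKs) ?_
    show PTF (fun q : γ × ℕ => decide (q.2 ≠ k q.1))
    exact (PTPred.not (PTPred.natEq PTF.snd (PTF.comp hk PTF.fst))).toPTF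
  refine PTF.map h1 ?_
  show PTF (fun q : γ × ℕ =>
    (([((0, i q.1), 1, 0), ((1, q.2), 1, 3)], ((1, q.2), 2, 3)) : Rule))
  have h2 : PTF (fun q : γ × ℕ => i q.1) := PTF.comp hi PTF.fst
  fun_prop

theorem ptf_instrRules {Ks n i : γ → ℕ} (hKs : PTU Ks) (hn : PTF n) (hi : PTF i) :
    PTF (fun p : γ × FInstr => instrRules (Ks p.1) (n p.1) (i p.1) p.2) := by
  refine ptf_finstr (F := fun d c => instrRules (Ks d) (n d) (i d) c) ?_ ?_
  · show PTF (fun p : γ × (ℕ × Bool × ℕ) =>
      [([((0, i p.1), 1, 0)], ((0, min p.2.2.2 (n p.1)), 2, 0)),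
        ([((0, i p.1), 1, 0)], ((1, p.2.1), 2, 2)),
        ([((0, i p.1), 1, 0), ((1, p.2.1), 1, 3)], ((3, 0), 2, 3)),
        ([((0, i p.1), 1, 0)], ((2, p.2.2.1.toNat), 2, 0))] ++ persist (Ks p.1) (i p.1) p.2.1)
    have h1 : PTF (fun p : γ × (ℕ × Bool × ℕ) => i p.1) := PTF.comp hi PTF.fst
    have h2 : PTF (fun p : γ × (ℕ × Bool × ℕ) => n p.1) := PTF.comp hn PTF.fst
    have h3 : PTF (fun p : γ × (ℕ × Bool × ℕ) => p.2.2.1.toNat) :=
      PTF.comp (g := fun b : Bool => b.toNat) (PTF.of_finite _) (by fun_prop)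
    have h4 : PTF (fun p : γ × (ℕ × Bool × ℕ) => min p.2.2.2 (n p.1)) :=
      PTF.natMin (by fun_prop) h2
    refine PTF.append ?_ (ptf_persist (PTU.comp hKs PTF.fst) h1 (by fun_prop))
    fun_prop
  · show PTF (fun p : γ × (ℕ × ℕ × ℕ × ℕ) =>
      [([((0, i p.1), 1, 0), ((1, p.2.1), 1, 0)], ((0, min p.2.2.1 (n p.1)), 2, 0)),
     ([((0, i p.1), 1, 0), ((1, p.2.1), 1, 0)], ((1, p.2.1), 2, 0)),
     ([((0, i p.1), 1, 0), ((1, p.2.1), 1, 3), ((2, 1), 3, 0)],
        ((0, min p.2.2.2.1 (n p.1)), 2, 0)),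
     ([((0, i p.1), 1, 0), ((1, p.2.1), 1, 3), ((2, 0), 3, 0)],
        ((0, min p.2.2.2.2 (n p.1)), 2, 0)),
     ([((0, i p.1), 1, 0), ((1, p.2.1), 1, 3), ((3, 0), 3, 4)], ((1, p.2.1), 2, 4))] ++
        persist (Ks p.1) (i p.1) p.2.1)
    have h1 : PTF (fun p : γ × (ℕ × ℕ × ℕ × ℕ) => i p.1) := PTF.comp hi PTF.fst
    have h2 : PTF (fun p : γ × (ℕ × ℕ × ℕ × ℕ) => n p.1) := PTF.comp hn PTF.fst
    have h4 : PTF (fun p : γ × (ℕ × ℕ × ℕ × ℕ) => min p.2.2.1 (n p.1)) :=
      PTF.natMin (by fun_prop) h2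
    have h5 : PTF (fun p : γ × (ℕ × ℕ × ℕ × ℕ) => min p.2.2.2.1 (n p.1)) :=
      PTF.natMin (by fun_prop) h2
    have h6 : PTF (fun p : γ × (ℕ × ℕ × ℕ × ℕ) => min p.2.2.2.2 (n p.1)) :=
      PTF.natMin (by fun_prop) h2
    refine PTF.append ?_ (ptf_persist (PTU.comp hKs PTF.fst) h1 (by fun_prop))
    fun_prop

theorem ptf_progRules {p : γ → Flat} {Ks : γ → ℕ} (hp : PTF p) (hKs : PTU Ks) :
    PTF (fun d => progRules (p d) (Ks d)) := by
  unfold progRules
  refine PTF.append (PTF.append (PTF.const _) (PTF.map (PTF.range hKs) ?_))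
    (PTF.flatMap (ptf_zipIdx hp) ?_)
  · show PTF (fun q : γ × ℕ => (([], ((1, q.2), 0, 0)) : Rule))
    fun_prop
  · show PTF (fun q : γ × (FInstr × ℕ) =>
      instrRules (Ks q.1) (p q.1).length q.2.2 q.2.1)
    have h1 : PTF (fun r : (γ × (FInstr × ℕ)) × FInstr =>
        instrRules (Ks r.1.1) (p r.1.1).length r.1.2.2 r.2) :=
      ptf_instrRules (γ := γ × (FInstr × ℕ)) (Ks := fun q => Ks q.1)
        (n := fun q => (p q.1).length) (i := fun q => q.2.2) (PTU.comp hKs PTF.fst)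
        (PTU.comp (n := fun d => (p d).length) (PTU.length hp) PTF.fst).toPTF (by fun_prop)
    exact PTF.comp (g := fun r : (γ × (FInstr × ℕ)) × FInstr =>
        instrRules (Ks r.1.1) (p r.1.1).length r.1.2.2 r.2)
      (f := fun q : γ × (FInstr × ℕ) => (q, q.2.1)) h1 (by fun_prop)

theorem ptf_unlock {acc : γ → Hub} {rs : γ → List Rule} (ha : PTF acc) (hrs : PTF rs) :
    PTF (fun d => unlock (acc d) (rs d)) := by
  unfold unlock hubsOf
  refine PTF.map (PTF.append (PTF.flatMap hrs ?_)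
    (PTF.listCons ha (PTF.listCons (PTF.const _) (PTF.const [])))) ?_
  · show PTF (fun q : γ × Rule => (q.2.1 ++ [q.2.2]).map fun a => a.1)
    refine PTF.map (PTF.append (by fun_prop) (by fun_prop)) ?_
    show PTF (fun q : (γ × Rule) × Atom => q.2.1)
    fun_prop
  · show PTF (fun q : γ × Hub => (([(acc q.1, 1, 0)], (q.2, 3, 4)) : Rule))
    have h1 : PTF (fun q : γ × Hub => acc q.1) := PTF.comp ha PTF.fst
    fun_prop

theorem ptf_allRules {p : γ → Flat} {Ks : γ → ℕ} (hp : PTF p) (hKs : PTU Ks) :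
    PTF (fun d => allRules (p d) (Ks d)) := by
  unfold allRules
  have h1 := ptf_progRules hp hKs
  exact PTF.append h1 (ptf_unlock (PTF.prodMk (PTF.const 0) (PTU.length hp).toPTF) h1)

theorem ptNet_progNet {p : γ → Flat} {Ks B D : γ → ℕ} (hp : PTF p) (hKs : PTU Ks) (hB : PTU B)
    (hD : PTU D) : PTNet (fun d => progNet (p d) (Ks d) (B d) (D d)) :=
  ptNet_ruleNet (ptf_allRules hp hKs) hB hD

end rules

end Crest.Agent.R290
end

-- ▼ part R290/Gen

/-!
# Row 290, module GEN: the generators are poly-time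
-/

set_option autoImplicit false
set_option linter.dupNamespace false

namespace Crest.Agent.R290

open Crest.Agent.Lib.PT

/-! ### port lists have length at most 9 -/

theorem length_arms (r : Rule) : (Rule.arms r).length = 2 * r.1.length + 1 := by
  simp [Rule.arms, List.length_flatMap, mul_comm]

theorem gadgets_le {rs : List Rule} (h : ∀ r ∈ rs, r.1.length ≤ 3) (D : ℕ) :
    ∀ g ∈ gadgets rs D, g.1.1.length ≤ 3 := by
  intro g hg
  simp only [gadgets, List.mem_append, List.mem_flatMap, List.mem_singleton] at hg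
  rcases hg with ⟨r, hr, hg⟩ | hg
  · split_ifs at hg
    · simp only [List.mem_map] at hg
      obtain ⟨f, _, rfl⟩ := hg
      exact h r hr
    · simp only [List.mem_singleton] at hg
      subst hg
      exact h r hr
  · subst hg
    simp [tgtRule]

theorem narm_le {rs : List Rule} (h : ∀ r ∈ rs, r.1.length ≤ 3) (B D g : ℕ) :
    (ruleNet rs B D).narm g ≤ 7 := by
  show (Rule.arms ((gadgets rs D).getD g (tgtRule, 0)).1).length ≤ 7
  rw [length_arms]
  have h1 : ((gadgets rs D).getD g (tgtRule, 0)).1.1.length ≤ 3 := by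
    rw [List.getD_eq_getElem?_getD]
    cases hg : (gadgets rs D)[g]? with
    | none => simp [tgtRule]
    | some x => exact gadgets_le h D x (List.mem_of_getElem? hg)
  omega

theorem length_ports_le {rs : List Rule} (h : ∀ r ∈ rs, r.1.length ≤ 3) (B D : ℕ) (u : NObj Let) :
    ((ruleNet rs B D).ports u).length ≤ 9 := by
  have h1 : ((ruleNet rs B D).edges u.1).length ≤ 7 := by
    unfold Net.edges
    split_ifs
    · simpa using narm_le h B D u.1.1
    · simp
    · simp
  unfold Net.ports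
  simp only [List.length_append, List.length_map]
  have h2 : (if 0 < u.2.1 then [Net.U (H := Hub) u.1 u.2.1 u.2.2.1] else []).length ≤ 1 := by
    split_ifs <;> simp
  have h3 : (if u.2.1 + 1 < (ruleNet rs B D).m then
      [Net.U (H := Hub) u.1 (u.2.1 + 1) u.2.2.2] else []).length ≤ 1 := by
    split_ifs <;> simp
  omega

theorem progRules_le (p : Flat) (Ks : ℕ) : ∀ r ∈ progRules p Ks, r.1.length ≤ 3 := by
  have hper : ∀ i k, ∀ r ∈ persist Ks i k, r.1.length ≤ 3 := by
    intro i k r hr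
    simp only [persist, List.mem_map] at hr
    obtain ⟨_, _, rfl⟩ := hr
    simp
  intro r hr
  simp only [progRules, List.mem_append, List.mem_singleton, List.mem_map, List.mem_flatMap] at hr
  rcases hr with (rfl | ⟨_, _, rfl⟩) | ⟨⟨c, i⟩, _, hr⟩
  · simp
  · simp
  · cases c with
    | push k b j =>
      simp only [instrRules, List.mem_append, List.mem_cons, List.not_mem_nil, or_false] at hr
      rcases hr with (rfl | rfl | rfl | rfl) | hr
      · simp
      · simp
      · simp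
      · simp
      · exact hper _ _ r hr
    | pop k e t f =>
      simp only [instrRules, List.mem_append, List.mem_cons, List.not_mem_nil, or_false] at hr
      rcases hr with (rfl | rfl | rfl | rfl | rfl) | hr
      · simp
      · simp
      · simp
      · simp
      · simp
      · exact hper _ _ r hr

theorem allRules_le (p : Flat) (Ks : ℕ) : ∀ r ∈ allRules p Ks, r.1.length ≤ 3 := by
  intro r hr
  simp only [allRules, List.mem_append] at hr
  rcases hr with hr | hr
  · exact progRules_le p Ks r hr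
  · simp only [unlock, List.mem_map] at hr
    obtain ⟨_, _, rfl⟩ := hr
    simp

/-- port lists of program networks have length at most 9 -/
theorem progXI_ports_le (p : Flat) (Ks B D : ℕ) (u : NObj Let) :
    ((progXI p Ks B D).ports u).length ≤ 9 :=
  length_ports_le (allRules_le p Ks) B D u

/-! ### the generators -/

section gen

variable {γ : Type} [PTCode γ]

theorem ptf_graphA' {p : γ → Flat} {Ks B D pad : γ → ℕ} (hp : PTF p) (hKs : PTU Ks) (hB : PTU B)
    (hD : PTU D) (hpad : PTU pad) (tw : Bool) :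
    PTF (fun d => graphA (p d) (Ks d) (B d) (D d) (pad d) tw) := by
  have hN := ptNet_progNet hp hKs hB hD
  unfold graphA
  refine ptf_encA (I := fun d => progXI (p d) (Ks d) (B d) (D d)) 9 (by norm_num)
    (b := fun d u => tw && (progNet (p d) (Ks d) (B d) (D d)).beta u)
    (fun d u _ => progXI_ports_le _ _ _ _ u) hN.objs hN.vl hN.ports hpad ?_
  exact PTF.and (PTF.const tw) hN.beta

theorem ptf_graphS' {p : γ → Flat} {Ks B D : γ → ℕ} (hp : PTF p) (hKs : PTU Ks) (hB : PTU B)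
    (hD : PTU D) (tw : Bool) :
    PTF (fun d => graphS (p d) (Ks d) (B d) (D d) tw) := by
  have hN := ptNet_progNet hp hKs hB hD
  unfold graphS
  refine ptf_encS (I := fun d => progXI (p d) (Ks d) (B d) (D d)) hN.objs hN.vl hN.ports 9
    (by norm_num) (b := fun d u => tw && (progNet (p d) (Ks d) (B d) (D d)).beta u)
    (fun d u => progXI_ports_le _ _ _ _ u) ?_
  exact PTF.and (PTF.const tw) hN.beta

theorem ptu_baseOrder' {p : γ → Flat} {Ks B D : γ → ℕ} (hp : PTF p) (hKs : PTU Ks) (hB : PTU B)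
    (hD : PTU D) : PTU (fun d => baseOrder (p d) (Ks d) (B d) (D d)) := by
  have hN := ptNet_progNet hp hKs hB hD
  have h1 : PTF (fun d => (encA (progXI (p d) (Ks d) (B d) (D d)) 0).items
      (bA fun _ : NObj Let => false)) :=
    ptf_encA_items (I := fun d => progXI (p d) (Ks d) (B d) (D d)) 9 (by norm_num)
      (D := fun _ => 0) (b := fun _ _ => false) (fun d u _ => progXI_ports_le _ _ _ _ u)
      hN.objs hN.vl hN.ports (PTU.const 0) (PTF.const false)
  refine (PTU.length h1).of_eq fun d => ?_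
  have h2 : (bA fun _ : NObj Let => false) = (fun _ : CA (NObj Let) (NVar Hub Let) => false) := by
    funext c
    rcases c with (c | c) | c <;> rfl
  rw [h2]
  rfl

theorem ptf_graphA (tw : Bool) : PTF (fun d : Flat × Un × Un × Un × Un =>
    graphA d.1 d.2.1.val d.2.2.1.val d.2.2.2.1.val d.2.2.2.2.val tw) :=
  ptf_graphA' (by fun_prop) (PTU.val (by fun_prop)) (PTU.val (by fun_prop))
    (PTU.val (by fun_prop)) (PTU.val (by fun_prop)) tw

theorem ptf_graphS (tw : Bool) : PTF (fun d : Flat × Un × Un × Un =>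
    graphS d.1 d.2.1.val d.2.2.1.val d.2.2.2.val tw) :=
  ptf_graphS' (by fun_prop) (PTU.val (by fun_prop)) (PTU.val (by fun_prop))
    (PTU.val (by fun_prop)) tw

theorem ptu_baseOrder : PTU (fun d : Flat × Un × Un × Un =>
    baseOrder d.1 d.2.1.val d.2.2.1.val d.2.2.2.val) :=
  ptu_baseOrder' (by fun_prop) (PTU.val (by fun_prop)) (PTU.val (by fun_prop))
    (PTU.val (by fun_prop))

end gen

end Crest.Agent.R290
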