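import Crest.Agent.R290.Defs
import Crest.Agent.Lib.PT.ListFns2

-- ▼ part R290/GenLib
section

/-!
# Row 290, module GEN: auxiliary poly-time list functions
-/

set_option autoImplicit false
set_option linter.dupNamespace false

namespace Crest.Agent.R290

open Crest.Agent.Lib.PT

instance lawfulBEqSum {O X : Type} [DecidableEq O] [DecidableEq X] : LawfulBEq (O ⊕ X) where
  eq_of_beq {a b} h := by
    rcases a with a | a <;> rcases b with b | b
    · have h' : (a == b) = true := h
      rw [eq_of_beq h']
    · exact absurd h (by intro h; cases h)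
    · exact absurd h (by intro h; cases h)
    · have h' : (a == b) = true := h
      rw [eq_of_beq h']
  rfl {a} := by
    rcases a with a | a
    · show (a == a) = true
      simp
    · show (a == a) = true
      simp

section lib

variable {γ α β δ : Type} [PTCode γ] [PTCode α] [PTCode β] [PTCode δ]

/-- element access, binary index -/
theorem ptf_getElemB {n : γ → ℕ} {l : γ → List α} (hn : PTF n) (hl : PTF l) :
    PTF (fun c => (l c)[n c]?) := by
  refine (PTF.getElem? (PTF.natMinUn hn (PTU.length hl)) hl).of_eq fun c => ?_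
  rcases le_total (n c) (l c).length with h | h
  · rw [min_eq_left h]
  · rw [min_eq_right h, List.getElem?_eq_none le_rfl, List.getElem?_eq_none h]

theorem ptf_getDB {n : γ → ℕ} {l : γ → List α} {d : γ → α} (hn : PTF n) (hl : PTF l)
    (hd : PTF d) : PTF (fun c => (l c).getD (n c) (d c)) := by
  refine PTF.of_eq (PTF.optionGetD (ptf_getElemB hn hl) hd) (fun c => ?_)
  rw [List.getD_eq_getElem?_getD]

theorem ptf_dropB {n : γ → ℕ} {l : γ → List α} (hn : PTF n) (hl : PTF l) :
    PTF (fun c => (l c).drop (n c)) := by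
  refine (PTF.drop (PTF.natMinUn hn (PTU.length hl)) hl).of_eq fun c => ?_
  rcases le_total (n c) (l c).length with h | h
  · rw [min_eq_left h]
  · rw [min_eq_right h, List.drop_of_length_le le_rfl, List.drop_of_length_le h]

theorem ptf_takeB {n : γ → ℕ} {l : γ → List α} (hn : PTF n) (hl : PTF l) :
    PTF (fun c => (l c).take (n c)) := by
  refine (PTF.take (PTF.natMinUn hn (PTU.length hl)) hl).of_eq fun c => ?_
  rcases le_total (n c) (l c).length with h | h
  · rw [min_eq_left h]
  · rw [min_eq_right h, List.take_of_length_le le_rfl, List.take_of_length_le h]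

theorem ptf_eraseIdxB {n : γ → ℕ} {l : γ → List α} (hn : PTF n) (hl : PTF l) :
    PTF (fun c => (l c).eraseIdx (n c)) := by
  refine (PTF.append (ptf_takeB hn hl)
    (ptf_dropB (PTF.natAdd hn (PTF.const 1)) hl)).of_eq fun c => ?_
  rw [List.eraseIdx_eq_take_drop_succ]

omit [PTCode α] in
theorem idxOf_eq_takeWhile [BEq α] (a : α) (l : List α) :
    l.idxOf a = (l.takeWhile (fun x => !(x == a))).length := by
  induction l with
  | nil => rfl
  | cons b l ih =>
    rw [List.idxOf_cons, List.takeWhile_cons]
    cases h : (b == a) <;> simp [ih]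

theorem ptu_idxOf [BEq α] [LawfulBEq α] {l : γ → List α} {a : γ → α} (hl : PTF l) (ha : PTF a) :
    PTU (fun c => (l c).idxOf (a c)) := by
  classical
  have h1 : PTF (fun c => (l c).takeWhile (fun x => !(decide (x = a c)))) := by
    refine PTF.takeWhile hl ?_
    show PTF (fun q : γ × α => !(decide (q.2 = a q.1)))
    exact PTF.not (PTPred.eq PTF.snd (PTF.comp ha PTF.fst)).toPTF
  refine (PTU.length h1).of_eq fun c => ?_
  rw [idxOf_eq_takeWhile]
  congr 2
  funext x
  rw [Bool.eq_iff_iff]
  simp

theorem ptf_idxOf [BEq α] [LawfulBEq α] {l : γ → List α} {a : γ → α} (hl : PTF l) (ha : PTF a) :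
    PTF (fun c => (l c).idxOf (a c)) := (ptu_idxOf hl ha).toPTF

theorem ptf_decideMem [DecidableEq α] {l : γ → List α} {a : γ → α} (ha : PTF a) (hl : PTF l) :
    PTF (fun c => decide (a c ∈ l c)) := (PTPred.mem ha hl).toPTF

theorem ptf_boolSum {l : γ → List Bool} (hl : PTF l) : PTF (fun c => (l c).sum) := by
  have h1 : PTF (fun c => (l c).foldl (fun b a => Bool.xor b a) false) := by
    refine PTF.foldl_bdd (f := fun _ a b => Bool.xor a b) (G := fun _ => 1) hl ?_ (PTF.const false)
      (PB.const 1) ?_ ?_
    · fun_prop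
    · intro c b a _ _; simp
    · intro c; simp
  refine h1.of_eq fun c => ?_
  have key : ∀ (l : List Bool) (b : Bool), l.foldl (fun b a => Bool.xor b a) b = b + l.sum := by
    intro l
    induction l with
    | nil => intro b; simp
    | cons a l ih => intro b; rw [List.foldl_cons, ih, List.sum_cons, ← add_assoc]; rfl
  rw [key, zero_add_bool]
where
  zero_add_bool {b : Bool} : false + b = b := by cases b <;> rfl

theorem ptf_dd [DecidableEq α] {l : γ → List α} (hl : PTF l) : PTF (fun c => Net.dd (l c)) := by
  unfold Net.dd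
  refine PTF.foldr_add (f := fun (_ : γ) (a : α) (acc : List α) => if a ∈ acc then acc else a :: acc)
    (b := fun _ => []) (G := fun c => 2 * sz (l c) + 1) hl ?_ (PTF.const []) ?_ ?_
  · show PTF (fun p : γ × α × List α => if p.2.1 ∈ p.2.2 then p.2.2 else p.2.1 :: p.2.2)
    exact PTF.ite (PTPred.mem (by fun_prop) (by fun_prop)) (by fun_prop) (by fun_prop)
  · have := hl.sz
    fun_prop
  · intro c b a ha
    have := sz_mem_le ha
    split_ifs
    · omega
    · rw [sz_cons]; omega

theorem ptf_zipIdx {l : γ → List α} (hl : PTF l) : PTF (fun c => (l c).zipIdx) := by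
  refine (PTF.zip hl (PTF.range (PTU.length hl))).of_eq fun c => ?_
  rw [List.zipIdx_eq_zip_range', List.range_eq_range']

/-- `bools` up to a constant length -/
theorem ptf_bools (K : ℕ) {n : γ → ℕ} (hn : PTU n) :
    PTF (fun c => if n c ≤ K then bools (n c) else []) := by
  refine (PTF.getD (n := n) (l := fun _ => (List.range (K + 1)).map bools) (d := fun _ => []) hn
    (PTF.const _) (PTF.const _)).of_eq fun c => ?_
  rw [List.getD_eq_getElem?_getD]
  split_ifs with h
  · simp [List.getElem?_range (Nat.lt_succ_of_le h)]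
  · rw [List.getElem?_eq_none (by simp; omega)]
    rfl

end lib

end Crest.Agent.R290
end

-- ▼ part R290/GenAG

/-!
# Row 290, module GEN: the code of an agreement graph is poly-time
-/

set_option autoImplicit false
set_option linter.dupNamespace false

namespace Crest.Agent.R290

open Crest.Agent.Lib.PT Crest.Enc

section ag

variable {γ C X : Type} [PTCode γ] [PTCode C] [PTCode X]

theorem ptf_natCode {f : γ → ℕ} (hf : PTF f) : PTF (fun c => natCode (f c)) := by
  have h1 : PTF (fun c => (f c).bits) := PTF.natBits hf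
  have h2 : PTF (fun c => ((f c).bits.map (fun b => [true, b]))) :=
    PTF.map h1 (f := fun (_ : γ) (b : Bool) => [true, b])
      (by show PTF (fun q : γ × Bool => [true, q.2]); fun_prop)
  have h3 := PTF.append (PTF.flatten h2) (PTF.const (α := γ) [false, false])
  exact h3.of_eq (fun c => rfl)

theorem ptf_agree [DecidableEq X] {vs vs' : γ → List X} {b b' : γ → List Bool} (hvs : PTF vs)
    (hvs' : PTF vs') (hb : PTF b) (hb' : PTF b') :
    PTF (fun c => agree (vs c) (b c) (vs' c) (b' c)) := by
  unfold agree
  refine PTF.all (PTF.zip hvs hb) ?_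
  have h2 : PTF (fun q : γ × (X × Bool) => (vs' q.1).zip (b' q.1)) :=
    PTF.comp (PTF.zip hvs' hb') PTF.fst
  refine PTF.all h2 ?_
  show PTF (fun r : (γ × (X × Bool)) × (X × Bool) =>
    (!decide (r.1.2.1 = r.2.1)) || (r.1.2.2 == r.2.2))
  refine PTF.or (PTF.not (PTPred.eq (by fun_prop) (by fun_prop)).toPTF) ?_
  exact PTF.beq (by fun_prop) (by fun_prop)

/-- the vertex list is poly-time when all port lists have length at most `K` -/
theorem ptf_items (K : ℕ) {G : γ → AG C X} {b : γ → C → Bool}
    (hK : ∀ d, ∀ c ∈ (G d).cls, ((G d).vars c).length ≤ K)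
    (hcls : PTF (fun d => (G d).cls)) (hvars : PTF (fun p : γ × C => (G p.1).vars p.2))
    (hcon : PTF (fun p : γ × C => (G p.1).con p.2)) (hb : PTF (fun p : γ × C => b p.1 p.2)) :
    PTF (fun d => (G d).items (b d)) := by
  have h1 : PTF (fun p : γ × C =>
      (if ((G p.1).vars p.2).length ≤ K then bools ((G p.1).vars p.2).length else []).filter
        (fun α => !((G p.1).con p.2) || (α.sum == b p.1 p.2))) := by
    refine PTF.filter (ptf_bools K (PTU.length hvars)) ?_
    show PTF (fun q : (γ × C) × List Bool =>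
      !((G q.1.1).con q.1.2) || (q.2.sum == b q.1.1 q.1.2))
    refine PTF.or (PTF.not (PTF.comp hcon PTF.fst)) (PTF.beq (ptf_boolSum PTF.snd) ?_)
    exact PTF.comp hb PTF.fst
  have h2 : PTF (fun p : γ × C =>
      ((if ((G p.1).vars p.2).length ≤ K then bools ((G p.1).vars p.2).length else []).filter
        (fun α => !((G p.1).con p.2) || (α.sum == b p.1 p.2))).map (fun α => (p.2, α))) := by
    refine PTF.map h1 ?_
    show PTF (fun q : (γ × C) × List Bool => (q.1.2, q.2))
    fun_prop
  refine (PTF.flatMap (f := fun (d : γ) (c : C) =>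
      ((if ((G d).vars c).length ≤ K then bools ((G d).vars c).length else []).filter
        (fun α => !((G d).con c) || (α.sum == b d c))).map (fun α => (c, α))) hcls h2).of_eq
    fun d => ?_
  unfold AG.items AG.fibre
  refine List.flatMap_congr fun c hc => ?_
  rw [if_pos (hK d c hc)]

theorem ptf_adj [DecidableEq X] {G : γ → AG C X}
    (hvars : PTF (fun p : γ × C => (G p.1).vars p.2))
    (hE : PTF (fun p : γ × C × C => (G p.1).E p.2.1 p.2.2)) :
    PTF (fun p : γ × (C × List Bool) × (C × List Bool) => (G p.1).adj p.2.1 p.2.2) := by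
  unfold AG.adj
  have h1 : PTF (fun p : γ × (C × List Bool) × (C × List Bool) => (p.1, p.2.1.1, p.2.2.1)) := by
    fun_prop
  have h2 : PTF (fun p : γ × (C × List Bool) × (C × List Bool) => (p.1, p.2.1.1)) := by
    fun_prop
  have h3 : PTF (fun p : γ × (C × List Bool) × (C × List Bool) => (p.1, p.2.2.1)) := by
    fun_prop
  refine PTF.and (PTF.comp hE h1) (ptf_agree ?_ ?_ (by fun_prop) (by fun_prop))
  · exact PTF.comp hvars h2
  · exact PTF.comp hvars h3

/-- **The code of an agreement graph is a poly-time function of its description.** -/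
theorem ptf_agCode [DecidableEq X] (K : ℕ) {G : γ → AG C X} {b : γ → C → Bool}
    (hK : ∀ d, ∀ c ∈ (G d).cls, ((G d).vars c).length ≤ K)
    (hcls : PTF (fun d => (G d).cls)) (hvars : PTF (fun p : γ × C => (G p.1).vars p.2))
    (hcon : PTF (fun p : γ × C => (G p.1).con p.2))
    (hE : PTF (fun p : γ × C × C => (G p.1).E p.2.1 p.2.2))
    (hb : PTF (fun p : γ × C => b p.1 p.2)) :
    PTF (fun d => (G d).code (b d)) := by
  unfold AG.code
  have hi := ptf_items K hK hcls hvars hcon hb
  refine PTF.append (ptf_natCode (PTU.toPTF (PTU.length hi))) (PTF.flatMap hi ?_)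
  have hj : PTF (fun p : γ × (C × List Bool) => (G p.1).items (b p.1)) :=
    PTF.comp (g := fun d => (G d).items (b d)) hi PTF.fst
  refine PTF.map hj ?_
  show PTF (fun q : (γ × (C × List Bool)) × (C × List Bool) => (G q.1.1).adj q.1.2 q.2)
  have h4 : PTF (fun q : (γ × (C × List Bool)) × (C × List Bool) => (q.1.1, q.1.2, q.2)) := by
    fun_prop
  exact PTF.comp (ptf_adj hvars hE) h4

end ag

end Crest.Agent.R290
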