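import Crest.Agent.R290.Defs
import Crest.Agent.Lib.PT.Arith
import Crest.Agent.Lib.PT.ListFns2

/-!
# Row 290: codes of flat programs and self-referential flat programs

* `PTCode FInstr`, constructors and case analysis are `PTF`.
* `reloc o F`: all labels increased by `o`; `fcomp_reloc`.
* `FHaltsOn F x T`: `F` started with `x` on stack `0` is halted after `T` steps.
* `chain w C F`: push `w` on stack `0`, run `C`, then run `F`.
* `selfref`: for a PTF function `R (p, d)` there are absolute constants such that for every flat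
  program `F` and datum `d` there is a flat program `p` of length linear in the sizes of `F`, `d`
  which computes `R p d` and then runs `F` on it.
-/

set_option autoImplicit false

namespace Crest.Agent.R290

open Crest.Agent.Lib.PT Function

/-! ### codes of instructions -/

section

variable {α β : Type} [PTCode α] [PTCode β]

theorem ptf_finstr_toSum {f : α → FInstr} (hf : PTF f) : PTF (fun a => (f a).toSum) := by
  obtain ⟨g, hg, h⟩ := hf
  exact ⟨g, hg, h⟩

theorem ptf_finstr_of_toSum {f : α → FInstr} (hf : PTF (fun a => (f a).toSum)) : PTF f := by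
  obtain ⟨g, hg, h⟩ := hf
  exact ⟨g, hg, h⟩

theorem ptf_push {k j : α → ℕ} {b : α → Bool} (hk : PTF k) (hb : PTF b) (hj : PTF j) :
    PTF (fun a => FInstr.push (k a) (b a) (j a)) := by
  apply ptf_finstr_of_toSum
  exact PTF.inl (PTF.prodMk hk (PTF.prodMk hb hj))

theorem ptf_pop {k e t f : α → ℕ} (hk : PTF k) (he : PTF e) (ht : PTF t) (hf : PTF f) :
    PTF (fun a => FInstr.pop (k a) (e a) (t a) (f a)) := by
  apply ptf_finstr_of_toSum
  exact PTF.inr (PTF.prodMk hk (PTF.prodMk he (PTF.prodMk ht hf)))

/-- case analysis on an instruction -/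
theorem ptf_finstrCases {s : α → FInstr} {F : α → ℕ → Bool → ℕ → β} {G : α → ℕ → ℕ → ℕ → ℕ → β}
    (hs : PTF s) (hF : PTF (fun x : α × (ℕ × Bool × ℕ) => F x.1 x.2.1 x.2.2.1 x.2.2.2))
    (hG : PTF (fun x : α × (ℕ × ℕ × ℕ × ℕ) => G x.1 x.2.1 x.2.2.1 x.2.2.2.1 x.2.2.2.2)) :
    PTF (fun a => match s a with
      | .push k b j => F a k b j
      | .pop k e t f => G a k e t f) := by
  have h := PTF.sumCasesOn (s := fun a => (s a).toSum)
    (f := fun a (x : ℕ × Bool × ℕ) => F a x.1 x.2.1 x.2.2)
    (g := fun a (x : ℕ × ℕ × ℕ × ℕ) => G a x.1 x.2.1 x.2.2.1 x.2.2.2) (ptf_finstr_toSum hs) hF hG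
  refine h.of_eq (fun a => ?_)
  cases s a <;> rfl

end

/-! ### relocation -/

/-- increase all labels by `o` -/
def FInstr.reloc (o : ℕ) (i : FInstr) : FInstr :=
  match i with
  | .push k b j => .push k b (o + j)
  | .pop k e t f => .pop k (o + e) (o + t) (o + f)

/-- increase all labels by `o` -/
def reloc (o : ℕ) (F : Flat) : Flat := F.map (FInstr.reloc o)

theorem length_reloc (o : ℕ) (F : Flat) : (reloc o F).length = F.length := by simp [reloc]

theorem reloc_append (o : ℕ) (F G : Flat) : reloc o (F ++ G) = reloc o F ++ reloc o G := by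
  simp [reloc]

theorem fcomp_reloc (c : Cmd) (o o' : ℕ) : reloc o (fcomp c o') = fcomp c (o + o') := by
  induction c generalizing o' with
  | skip => rfl
  | push k b => simp [fcomp, reloc, FInstr.reloc, add_assoc]
  | pop k => simp [fcomp, reloc, FInstr.reloc, add_assoc]
  | seq c d ih1 ih2 => simp only [fcomp, reloc_append, ih1, ih2, add_assoc]
  | ite k e c d ih1 ih2 ih3 =>
    simp only [fcomp, reloc_append, ih1, ih2, ih3, add_assoc]
    simp [reloc, FInstr.reloc, jmp, add_assoc]
  | loop k c ih =>
    simp only [fcomp, reloc_append, ih, add_assoc]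
    simp [reloc, FInstr.reloc, jmp, add_assoc]

/-- `F` started on `x` (stack `0`) is halted after `T` steps -/
def FHaltsOn (F : Flat) (x : List Bool) (T : ℕ) : Prop :=
  F.length ≤ ((fstep F)^[T] ⟨0, init x⟩).pc

theorem FHaltsOn.mono {F : Flat} {x : List Bool} {T T' : ℕ} (h : FHaltsOn F x T) (hT : T ≤ T') :
    FHaltsOn F x T' := by
  obtain ⟨n, rfl⟩ := Nat.exists_eq_add_of_le hT
  unfold FHaltsOn at h ⊢
  rw [add_comm, iterate_add_apply, iter_halted h]
  exact h

theorem exec_reloc (o : ℕ) (i : FInstr) (s : Store) :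
    (i.reloc o).exec s = ⟨o + (i.exec s).pc, (i.exec s).st⟩ := by
  cases i with
  | push k b j => rfl
  | pop k e t f =>
    rcases hk : s k with _ | ⟨b, l⟩
    · simp only [FInstr.reloc, FInstr.exec, hk]
    · cases b <;> simp only [FInstr.reloc, FInstr.exec, hk]

theorem fstep_reloc (pre F : Flat) (c : FCfg) :
    fstep (pre ++ reloc pre.length F) ⟨pre.length + c.pc, c.st⟩ =
      ⟨pre.length + (fstep F c).pc, (fstep F c).st⟩ := by
  unfold fstep
  have h1 : (pre ++ reloc pre.length F)[pre.length + c.pc]? = (reloc pre.length F)[c.pc]? := by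
    rw [List.getElem?_append_right (by omega)]
    congr 1
    omega
  simp only [h1]
  unfold reloc
  rw [List.getElem?_map]
  cases F[c.pc]? with
  | none => rfl
  | some i => exact exec_reloc _ _ _

theorem iter_reloc (pre F : Flat) (c : FCfg) (n : ℕ) :
    (fstep (pre ++ reloc pre.length F))^[n] ⟨pre.length + c.pc, c.st⟩ =
      ⟨pre.length + ((fstep F)^[n] c).pc, ((fstep F)^[n] c).st⟩ := by
  induction n with
  | zero => rfl
  | succ n ih => rw [iterate_succ_apply', ih, fstep_reloc, iterate_succ_apply']

/-! ### chains -/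

/-- push `w` on stack `0`, run `C`, then run `F` -/
def chain (w : List Bool) (C F : Flat) : Flat :=
  (pushes w.reverse 0 ++ reloc w.length C) ++ reloc (w.length + C.length) F

theorem length_chain (w : List Bool) (C F : Flat) :
    (chain w C F).length = w.length + C.length + F.length := by
  simp [chain, length_pushes, length_reloc, add_assoc]

theorem chain_reach {w y : List Bool} {c : Cmd} {F : Flat} {N : ℕ}
    (h : Run c (init w) (init y) N) :
    FReach (chain w (fcomp c 0) F) finit ⟨w.length + csize c, init y⟩ (w.length + 4 * N) := by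
  obtain ⟨t, ht, h⟩ := h
  have hp1 : At (chain w (fcomp c 0) F) 0 (pushes w.reverse 0) := by
    have := At.self [] (pushes w.reverse 0)
      (reloc w.length (fcomp c 0) ++ reloc (w.length + (fcomp c 0).length) F)
    simpa [chain] using this
  have hp2 : At (chain w (fcomp c 0) F) w.length (fcomp c w.length) := by
    have := At.self (pushes w.reverse 0) (fcomp c w.length) (reloc (w.length + (fcomp c 0).length) F)
    rw [length_pushes, List.length_reverse] at this
    have e : chain w (fcomp c 0) F = pushes w.reverse 0 ++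
        (fcomp c w.length ++ reloc (w.length + (fcomp c 0).length) F) := by
      unfold chain
      rw [fcomp_reloc, List.append_assoc, Nat.add_zero]
    rwa [e]
  have h1 := pushes_sim w.reverse (chain w (fcomp c 0) F) 0 (fun _ => []) hp1
  have e1 : update (fun _ => [] : Store) 0 (w.reverse.reverse ++ (fun _ => [] : Store) 0) = init w := by
    funext j
    by_cases hj : j = 0
    · subst hj; simp
    · simp [init, hj]
  rw [e1, List.length_reverse, Nat.zero_add] at h1
  have h2 := fcomp_sim h (chain w (fcomp c 0) F) w.length hp2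
  exact (h1.trans h2).mono (by omega)

/-- accepting behaviour of a chain -/
theorem chain_halts {w y : List Bool} {c : Cmd} {F : Flat} {N T : ℕ}
    (h : Run c (init w) (init y) N) (hT : FHaltsOn F y T) :
    FHalts (chain w (fcomp c 0) F) (w.length + 4 * N + T) := by
  obtain ⟨n, hn, h1⟩ := chain_reach (F := F) h
  have hlen : (pushes w.reverse 0 ++ reloc w.length (fcomp c 0)).length = w.length + csize c := by
    simp [length_pushes, length_reloc, length_fcomp]
  have h2 := iter_reloc (pushes w.reverse 0 ++ reloc w.length (fcomp c 0)) F ⟨0, init y⟩ T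
  rw [hlen] at h2
  have e : chain w (fcomp c 0) F = (pushes w.reverse 0 ++ reloc w.length (fcomp c 0)) ++
      reloc (w.length + csize c) F := by
    unfold chain
    rw [length_fcomp]
  rw [← e] at h2
  simp only [Nat.add_zero] at h2
  have h3 : FHalts (chain w (fcomp c 0) F) (n + T) := by
    unfold FHalts
    rw [frun_add]
    unfold frun
    rw [h1, h2, length_chain, length_fcomp]
    unfold FHaltsOn at hT
    dsimp only
    omega
  exact h3.mono (by omega)

/-- non-halting behaviour of a chain -/
theorem chain_loops {w y : List Bool} {c : Cmd} {F : Flat} {N : ℕ}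
    (h : Run c (init w) (init y) N) (hT : ∀ T, ¬ FHaltsOn F y T) (T : ℕ) :
    ¬ FHalts (chain w (fcomp c 0) F) T := by
  obtain ⟨n, hn, h1⟩ := chain_reach (F := F) h
  have hlen : (pushes w.reverse 0 ++ reloc w.length (fcomp c 0)).length = w.length + csize c := by
    simp [length_pushes, length_reloc, length_fcomp]
  have h2 := iter_reloc (pushes w.reverse 0 ++ reloc w.length (fcomp c 0)) F ⟨0, init y⟩ T
  rw [hlen] at h2
  have e : chain w (fcomp c 0) F = (pushes w.reverse 0 ++ reloc w.length (fcomp c 0)) ++
      reloc (w.length + csize c) F := by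
    unfold chain
    rw [length_fcomp]
  rw [← e] at h2
  simp only [Nat.add_zero] at h2
  intro hh
  have h3 : FHalts (chain w (fcomp c 0) F) (n + T) := hh.mono (by omega)
  unfold FHalts at h3
  rw [frun_add] at h3
  unfold frun at h3
  rw [h1, h2, length_chain, length_fcomp] at h3
  apply hT T
  unfold FHaltsOn
  dsimp only at h3
  omega

/-! ### running a compiled program with final test -/

theorem runPart_haltsOn {x : List Bool} {c : Cmd} {s' : Store} {N : ℕ} {l : List Bool}
    (h : Run c (init x) s' N) (hl : s' 0 = true :: l) : FHaltsOn (runPart c 0) x (4 * N + 1) := by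
  obtain ⟨t, ht, h⟩ := h
  have hp2 : At (runPart c 0) 0 (runPart c 0) := by
    intro i _
    rw [Nat.zero_add]
  have h1 := fcomp_sim h (runPart c 0) 0 hp2.left
  have hp3 := hp2.right
  rw [length_fcomp] at hp3
  have h2 := FReach.step (s := s') hp3.head
  obtain ⟨n, hn, h3⟩ := h1.trans h2
  have : FHaltsOn (runPart c 0) x n := by
    unfold FHaltsOn
    rw [h3, length_runPart]
    simp only [FInstr.exec, hl]
    omega
  exact this.mono (by omega)

theorem runPart_loopsOn {x : List Bool} {c : Cmd} {s' : Store} {N : ℕ}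
    (h : Run c (init x) s' N) (hl : (s' 0).head? ≠ some true) (T : ℕ) :
    ¬ FHaltsOn (runPart c 0) x T := by
  obtain ⟨t, ht, h⟩ := h
  have hp2 : At (runPart c 0) 0 (runPart c 0) := by
    intro i _
    rw [Nat.zero_add]
  have h1 := fcomp_sim h (runPart c 0) 0 hp2.left
  have hp3 := hp2.right
  rw [length_fcomp] at hp3
  have h2 := FReach.step (s := s') hp3.head
  obtain ⟨n, hn, h3⟩ := h1.trans h2
  have h4 : ((FInstr.pop 0 (0 + csize c + 1) (0 + csize c + 2)
      (0 + csize c + 1)).exec s').pc = 0 + csize c + 1 := by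
    rcases hs : s' 0 with _ | ⟨b, l⟩
    · simp only [FInstr.exec, hs]
    · cases b
      · simp only [FInstr.exec, hs]
      · rw [hs] at hl; simp at hl
  have h5 : ∀ j (d : FCfg), d.pc = 0 + csize c + 1 →
      ((fstep (runPart c 0))^[j] d).pc = 0 + csize c + 1 := by
    intro j
    induction j with
    | zero => intro d hd; exact hd
    | succ j ih =>
      intro d hd
      rw [iterate_succ_apply]
      apply ih
      have h6 : (runPart c 0)[d.pc]? = some (.push 0 true (0 + csize c + 1)) := by
        rw [hd]
        exact hp3.tail.head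
      rw [fstep_getElem h6]
      rfl
  intro hT
  have hT2 : FHaltsOn (runPart c 0) x (n + T) := hT.mono (by omega)
  unfold FHaltsOn at hT2
  rw [add_comm n T, iterate_add_apply, h3, h5 _ _ h4, length_runPart] at hT2
  omega

/-! ### well-formedness: labels and stacks -/

/-- all labels of the instruction are at most `L` -/
def FInstr.LabLe (L : ℕ) : FInstr → Prop
  | .push _ _ j => j ≤ L
  | .pop _ e t f => e ≤ L ∧ t ≤ L ∧ f ≤ L

/-- all labels are at most `L` -/
def LabsLe (L : ℕ) (F : Flat) : Prop := ∀ i ∈ F, i.LabLe L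

/-- all stacks are at most `s` -/
def StacksLe (s : ℕ) (F : Flat) : Prop := ∀ i ∈ F, i.stack ≤ s

theorem FInstr.LabLe.mono {i : FInstr} {L L' : ℕ} (h : i.LabLe L) (hL : L ≤ L') : i.LabLe L' := by
  cases i with
  | push k b j => simp only [FInstr.LabLe] at h ⊢; omega
  | pop k e t f => simp only [FInstr.LabLe] at h ⊢; omega

theorem LabsLe.mono {F : Flat} {L L' : ℕ} (h : LabsLe L F) (hL : L ≤ L') : LabsLe L' F :=
  fun i hi => (h i hi).mono hL

theorem LabsLe.append {F G : Flat} {L : ℕ} (h : LabsLe L F) (h' : LabsLe L G) :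
    LabsLe L (F ++ G) := by
  intro i hi
  rcases List.mem_append.1 hi with h1 | h1
  · exact h i h1
  · exact h' i h1

theorem StacksLe.append {F G : Flat} {L : ℕ} (h : StacksLe L F) (h' : StacksLe L G) :
    StacksLe L (F ++ G) := by
  intro i hi
  rcases List.mem_append.1 hi with h1 | h1
  · exact h i h1
  · exact h' i h1

theorem StacksLe.mono {F : Flat} {L L' : ℕ} (h : StacksLe L F) (hL : L ≤ L') : StacksLe L' F :=
  fun i hi => (h i hi).trans hL

theorem labsLe_reloc {F : Flat} {L : ℕ} (o : ℕ) (h : LabsLe L F) : LabsLe (o + L) (reloc o F) := by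
  intro i hi
  obtain ⟨j, hj, rfl⟩ := List.mem_map.1 hi
  have := h j hj
  cases j with
  | push k b j => simp only [FInstr.LabLe, FInstr.reloc] at this ⊢; omega
  | pop k e t f => simp only [FInstr.LabLe, FInstr.reloc] at this ⊢; omega

theorem stacksLe_reloc {F : Flat} {s : ℕ} (o : ℕ) (h : StacksLe s F) : StacksLe s (reloc o F) := by
  intro i hi
  obtain ⟨j, hj, rfl⟩ := List.mem_map.1 hi
  have := h j hj
  cases j with
  | push k b j => simpa only [FInstr.stack, FInstr.reloc] using this
  | pop k e t f => simpa only [FInstr.stack, FInstr.reloc] using this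

theorem labsLe_pushes (l : List Bool) (o : ℕ) : LabsLe (o + l.length) (pushes l o) := by
  induction l generalizing o with
  | nil => intro i hi; simp [pushes] at hi
  | cons b l ih =>
    intro i hi
    rcases List.mem_cons.1 hi with rfl | h
    · simp only [FInstr.LabLe, List.length_cons]; omega
    · have := ih (o + 1) i h
      refine this.mono ?_
      simp only [List.length_cons]; omega

theorem stacksLe_pushes (l : List Bool) (o : ℕ) : StacksLe 0 (pushes l o) := by
  induction l generalizing o with
  | nil => intro i hi; simp [pushes] at hi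
  | cons b l ih =>
    intro i hi
    rcases List.mem_cons.1 hi with rfl | h
    · simp [FInstr.stack]
    · exact ih (o + 1) i h

theorem labsLe_fcomp (c : Cmd) (o : ℕ) : LabsLe (o + csize c) (fcomp c o) := by
  induction c generalizing o with
  | skip => intro i hi; simp [fcomp] at hi
  | push k b =>
    intro i hi
    simp only [fcomp, List.mem_singleton] at hi
    subst hi
    simp [FInstr.LabLe, csize]
  | pop k =>
    intro i hi
    simp only [fcomp, List.mem_singleton] at hi
    subst hi
    simp [FInstr.LabLe, csize]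
  | seq c d ih1 ih2 =>
    refine LabsLe.append ((ih1 o).mono ?_) ((ih2 _).mono ?_)
    · simp only [csize]; omega
    · simp only [csize]; omega
  | ite k e c d ih1 ih2 ih3 =>
    refine LabsLe.append ?_ (LabsLe.append ((ih1 _).mono ?_) (LabsLe.append ?_ (LabsLe.append
      ((ih2 _).mono ?_) (LabsLe.append ?_ ((ih3 _).mono ?_)))))
    · intro i hi
      simp only [List.mem_cons, List.not_mem_nil, or_false] at hi
      rcases hi with rfl | rfl | rfl <;> simp only [FInstr.LabLe, csize] <;> omega
    · simp only [csize]; omega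
    · intro i hi
      simp only [jmp, List.mem_cons, List.not_mem_nil, or_false] at hi
      rcases hi with rfl | rfl <;> simp only [FInstr.LabLe, csize] <;> omega
    · simp only [csize]; omega
    · intro i hi
      simp only [jmp, List.mem_cons, List.not_mem_nil, or_false] at hi
      rcases hi with rfl | rfl <;> simp only [FInstr.LabLe, csize] <;> omega
    · simp only [csize]; omega
  | loop k c ih =>
    refine LabsLe.append ?_ (LabsLe.append ((ih _).mono ?_) ?_)
    · intro i hi
      simp only [List.mem_cons, List.not_mem_nil, or_false] at hi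
      rcases hi with rfl | rfl | rfl <;> simp only [FInstr.LabLe, csize] <;> omega
    · simp only [csize]; omega
    · intro i hi
      simp only [jmp, List.mem_cons, List.not_mem_nil, or_false] at hi
      rcases hi with rfl | rfl <;> simp only [FInstr.LabLe, csize] <;> omega

theorem stacksLe_fcomp (c : Cmd) (o : ℕ) : StacksLe c.maxVar (fcomp c o) := by
  induction c generalizing o with
  | skip => intro i hi; simp [fcomp] at hi
  | push k b =>
    intro i hi
    simp only [fcomp, List.mem_singleton] at hi
    subst hi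
    simp [FInstr.stack, Cmd.maxVar]
  | pop k =>
    intro i hi
    simp only [fcomp, List.mem_singleton] at hi
    subst hi
    simp [FInstr.stack, Cmd.maxVar]
  | seq c d ih1 ih2 =>
    refine StacksLe.append ((ih1 o).mono ?_) ((ih2 _).mono ?_)
    · simp [Cmd.maxVar]
    · simp [Cmd.maxVar]
  | ite k e c d ih1 ih2 ih3 =>
    refine StacksLe.append ?_ (StacksLe.append ((ih1 _).mono ?_) (StacksLe.append ?_
      (StacksLe.append ((ih2 _).mono ?_) (StacksLe.append ?_ ((ih3 _).mono ?_)))))
    · intro i hi
      simp only [List.mem_cons, List.not_mem_nil, or_false] at hi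
      rcases hi with rfl | rfl | rfl <;> simp [FInstr.stack, Cmd.maxVar]
    · simp [Cmd.maxVar]
    · intro i hi
      simp only [jmp, List.mem_cons, List.not_mem_nil, or_false] at hi
      rcases hi with rfl | rfl <;> simp [FInstr.stack]
    · simp [Cmd.maxVar]
    · intro i hi
      simp only [jmp, List.mem_cons, List.not_mem_nil, or_false] at hi
      rcases hi with rfl | rfl <;> simp [FInstr.stack]
    · simp [Cmd.maxVar]
  | loop k c ih =>
    refine StacksLe.append ?_ (StacksLe.append ((ih _).mono ?_) ?_)
    · intro i hi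
      simp only [List.mem_cons, List.not_mem_nil, or_false] at hi
      rcases hi with rfl | rfl | rfl <;> simp [FInstr.stack, Cmd.maxVar]
    · simp [Cmd.maxVar]
    · intro i hi
      simp only [jmp, List.mem_cons, List.not_mem_nil, or_false] at hi
      rcases hi with rfl | rfl <;> simp [FInstr.stack]


theorem stacksLe_runPart (c : Cmd) (o : ℕ) : StacksLe c.maxVar (runPart c o) := by
  refine StacksLe.append (stacksLe_fcomp c o) ?_
  intro i hi
  simp only [List.mem_cons, List.not_mem_nil, or_false] at hi
  rcases hi with rfl | rfl <;> simp [FInstr.stack]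

/-! ### chains are computable -/

section

variable {α : Type} [PTCode α]

theorem pushes_eq (l : List Bool) (o : ℕ) :
    pushes l o = (l.zip (List.range l.length)).map (fun q => FInstr.push 0 q.1 (o + q.2 + 1)) := by
  induction l generalizing o with
  | nil => rfl
  | cons b l ih =>
    rw [pushes, ih (o + 1)]
    simp only [List.length_cons, List.range_succ_eq_map, List.zip_cons_cons, List.map_cons,
      Nat.add_zero, List.zip_map_right, List.map_map, List.cons.injEq, true_and]
    apply List.map_congr_left
    intro q _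
    simp only [comp_apply, Prod.map_fst, Prod.map_snd, id_eq, Nat.succ_eq_add_one,
      FInstr.push.injEq, true_and]
    omega

theorem ptf_pushes {l : α → List Bool} {o : α → ℕ} (hl : PTF l) (ho : PTF o) :
    PTF (fun a => pushes (l a) (o a)) := by
  have h1 : PTF (fun a => (l a).zip (List.range (l a).length)) :=
    PTF.zip hl (PTF.range (PTU.length hl))
  have h2 : PTF (fun x : α × (Bool × ℕ) => FInstr.push 0 x.2.1 (o x.1 + x.2.2 + 1)) :=
    ptf_push (PTF.const 0) (PTF.comp PTF.fst PTF.snd)
      (PTF.natAdd (PTF.natAdd (PTF.comp ho PTF.fst) (PTF.comp PTF.snd PTF.snd)) (PTF.const 1))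
  refine (PTF.map (f := fun a (q : Bool × ℕ) => FInstr.push 0 q.1 (o a + q.2 + 1)) h1 h2).of_eq
    (fun a => ?_)
  rw [pushes_eq]

theorem ptf_finstrReloc {o : α → ℕ} {i : α → FInstr} (ho : PTF o) (hi : PTF i) :
    PTF (fun a => (i a).reloc (o a)) := by
  have h1 : PTF (fun x : α × (ℕ × Bool × ℕ) => FInstr.push x.2.1 x.2.2.1 (o x.1 + x.2.2.2)) := by
    refine ptf_push ?_ ?_ (PTF.natAdd (PTF.comp ho PTF.fst) ?_) <;> fun_prop
  have h2 : PTF (fun x : α × (ℕ × ℕ × ℕ × ℕ) =>
      FInstr.pop x.2.1 (o x.1 + x.2.2.1) (o x.1 + x.2.2.2.1) (o x.1 + x.2.2.2.2)) := by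
    refine ptf_pop ?_ (PTF.natAdd (PTF.comp ho PTF.fst) ?_) (PTF.natAdd (PTF.comp ho PTF.fst) ?_)
      (PTF.natAdd (PTF.comp ho PTF.fst) ?_) <;> fun_prop
  exact ptf_finstrCases (F := fun a k b j => FInstr.push k b (o a + j))
    (G := fun a k e t f => FInstr.pop k (o a + e) (o a + t) (o a + f)) hi h1 h2

theorem ptf_reloc {o : α → ℕ} {F : α → Flat} (ho : PTF o) (hF : PTF F) :
    PTF (fun a => reloc (o a) (F a)) := by
  exact PTF.map (l := F) (f := fun a (i : FInstr) => i.reloc (o a)) hF
    (ptf_finstrReloc (PTF.comp ho PTF.fst) PTF.snd)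

theorem ptf_length {β : Type} [PTCode β] {l : α → List β} (hl : PTF l) :
    PTF (fun a => (l a).length) := PTU.toPTF (PTU.length hl)

theorem ptf_chain {w : α → List Bool} {C F : α → Flat} (hw : PTF w) (hC : PTF C) (hF : PTF F) :
    PTF (fun a => chain (w a) (C a) (F a)) := by
  unfold chain
  exact PTF.append (PTF.append (ptf_pushes (PTF.reverse hw) (PTF.const 0))
    (ptf_reloc (ptf_length hw) hC)) (ptf_reloc (PTF.natAdd (ptf_length hw) (ptf_length hC)) hF)

end

/-! ### self reference -/

/-- Recursion theorem for flat programs, with absolute constants. -/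
theorem selfref {δ : Type} [PTCode δ] {R : Flat → δ → List Bool}
    (hR : PTF (fun x : Flat × δ => Bits.mk (R x.1 x.2))) :
    ∃ (q : Polynomial ℕ) (A : ℕ), ∀ (F : Flat) (d : δ), ∃ p : Flat,
      p.length ≤ 4 * sz F + sz d + A ∧
      (∀ s, StacksLe s F → StacksLe (max s A) p) ∧
      (LabsLe F.length F → LabsLe p.length p) ∧
      (∀ T, FHaltsOn F (R p d) T → FHalts p (q.eval (sz F + sz d) + T)) ∧
      ((∀ T, ¬ FHaltsOn F (R p d) T) → ∀ T, ¬ FHalts p T) := by
  have h1 : PTF (fun x : Flat × Flat × δ => chain (enc x) x.1 x.2.1) :=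
    ptf_chain (PTF.encode PTF.id) (by fun_prop) (by fun_prop)
  have h2 : PTF (fun x : Flat × Flat × δ => Bits.mk (R (chain (enc x) x.1 x.2.1) x.2.2)) := by
    refine PTF.comp (g := fun y : Flat × δ => Bits.mk (R y.1 y.2))
      (f := fun x : Flat × Flat × δ => (chain (enc x) x.1 x.2.1, x.2.2)) hR
      (PTF.prodMk h1 (by fun_prop))
  obtain ⟨g, hg, eg⟩ := h2
  obtain ⟨c, q, hc⟩ := hg
  set C : Flat := fcomp c 0 with hC
  refine ⟨(4 * q + Polynomial.X).comp (2 * Polynomial.X + Polynomial.C (2 * sz C + 2)),
    2 * sz C + 2 + C.length + c.maxVar, fun F d => ?_⟩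
  have hlen : (enc (C, F, d)).length = 2 * sz C + 1 + (2 * sz F + 1 + sz d) := by
    have : sz (C, F, d) = 2 * sz C + 1 + (2 * sz F + 1 + sz d) := by simp
    exact this
  have hFl : F.length ≤ sz F := length_le_sz F
  refine ⟨chain (enc (C, F, d)) C F, ?_, ?_, ?_, ?_, ?_⟩
  · rw [length_chain, hlen]
    omega
  · intro s hs
    refine StacksLe.append (StacksLe.append ((stacksLe_pushes _ _).mono (Nat.zero_le _))
      (stacksLe_reloc _ ((stacksLe_fcomp c 0).mono ?_))) (stacksLe_reloc _ (hs.mono ?_))
    · omega
    · omega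
  · intro hl
    rw [length_chain]
    refine LabsLe.append (LabsLe.append ((labsLe_pushes _ _).mono ?_)
      ((labsLe_reloc (L := C.length) _ ?_).mono ?_)) ?_
    · rw [List.length_reverse]; omega
    · have := labsLe_fcomp c 0
      rw [Nat.zero_add, ← length_fcomp c 0] at this
      exact this
    · omega
    · exact labsLe_reloc _ hl
  · intro T hT
    have hr := hc (enc (C, F, d))
    rw [eg] at hr
    refine (chain_halts (c := c) (F := F) (T := T) hr hT).mono ?_
    simp only [Polynomial.eval_comp, Polynomial.eval_add, Polynomial.eval_mul,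
      Polynomial.eval_ofNat, Polynomial.eval_X, Polynomial.eval_C]
    have e1 : (enc (C, F, d)).length ≤ 2 * (sz F + sz d) + (2 * sz C + 2) := by
      rw [hlen]; omega
    have e2 := polyEval_mono q e1
    omega
  · intro hT T
    have hr := hc (enc (C, F, d))
    rw [eg] at hr
    exact chain_loops (c := c) (F := F) hr hT T

end Crest.Agent.R290
private theorem rz_c10b4e9be7 : type_of% @_root_.Crest.Agent.R290.FInstr.LabLe.eq_1 := @_root_.Crest.Agent.R290.FInstr.LabLe.eq_1 -- L282
private theorem rz_2f2551cab4 : type_of% @_root_.Crest.Agent.R290.FInstr.reloc.eq_1 := @_root_.Crest.Agent.R290.FInstr.reloc.eq_1 -- L65
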