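import Crest.Agent.R290.FlatPTF
import Crest.Agent.R290.Defs
import Crest.Agent.Lib.PT.ArithMore
import Crest.Agent.Lib.PT.ListFns2
import Crest.Agent.Lib.PT.OfTM
import Crest.Agent.R290.Flat
import Crest.Prelude.Def_TimeBound
import Crest.Agent.R290.SelfRef
import Crest.Agent.R290.GenAG
import Crest.Prelude.Def_ExpTime

-- ▼ part R290/FlatCode
section

/-!
# Row 290: codes of flat programs, relocation, self-reference

* poly-time constructors and cases for `FInstr` (`PTCode FInstr` of `Defs.lean`).
* `FInstr.shift`, `fcomp_shift`, `runPart_shift`: the compiled code is position independent.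
* `selfProg w code = pushes w.reverse 0 ++ code.map (shift |w|)`; `selfProg_eq`; `ptf_selfProg`.
-/

set_option autoImplicit false
set_option linter.dupNamespace false

namespace Crest.Agent.R290

open Crest.Agent.Lib.PT Function



section ptf

variable {α β : Type} [PTCode α] [PTCode β]

@[fun_prop]
theorem PTF.finstrToSum {f : α → FInstr} (hf : PTF f) : PTF (fun a => (f a).toSum) := by
  obtain ⟨g, hg, h⟩ := hf
  exact ⟨g, hg, h⟩

theorem PTF.of_toSum {f : α → FInstr} (hf : PTF (fun a => (f a).toSum)) : PTF f := by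
  obtain ⟨g, hg, h⟩ := hf
  exact ⟨g, hg, h⟩

@[fun_prop]
theorem PTF.finstrPush {k j : α → ℕ} {b : α → Bool} (hk : PTF k) (hb : PTF b) (hj : PTF j) :
    PTF (fun a => FInstr.push (k a) (b a) (j a)) := by
  refine PTF.of_toSum ?_
  exact PTF.inl (f := fun a => (k a, b a, j a)) (by fun_prop)

@[fun_prop]
theorem PTF.finstrPop {k e t f : α → ℕ} (hk : PTF k) (he : PTF e) (ht : PTF t) (hf : PTF f) :
    PTF (fun a => FInstr.pop (k a) (e a) (t a) (f a)) := by
  refine PTF.of_toSum ?_
  exact PTF.inr (f := fun a => (k a, e a, t a, f a)) (by fun_prop)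

/-- case distinction on an instruction -/
theorem PTF.finstrCases {s : α → FInstr} {F : α → ℕ × Bool × ℕ → β} {G : α → ℕ × ℕ × ℕ × ℕ → β}
    (hs : PTF s) (hF : PTF₂ F) (hG : PTF₂ G) {r : α → β}
    (h1 : ∀ a k b j, s a = .push k b j → r a = F a (k, b, j))
    (h2 : ∀ a k e t f, s a = .pop k e t f → r a = G a (k, e, t, f)) : PTF r := by
  have h := PTF.sumCasesOn (s := fun a => (s a).toSum) (f := F) (g := G) (by fun_prop) hF hG
  refine h.of_eq (fun a => ?_)
  cases hsa : s a with
  | push k b j => simp only [FInstr.toSum]; rw [h1 a k b j hsa]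
  | pop k e t f => simp only [FInstr.toSum]; rw [h2 a k e t f hsa]

end ptf

/-! ### relocation -/

/-- add `d` to all jump targets -/
def FInstr.shift (d : ℕ) : FInstr → FInstr
  | .push k b j => .push k b (j + d)
  | .pop k e t f => .pop k (e + d) (t + d) (f + d)



theorem jmp_shift (o t d : ℕ) : (jmp o t).map (FInstr.shift d) = jmp (o + d) (t + d) := by
  simp only [jmp, List.map_cons, List.map_nil, FInstr.shift]
  have : o + 1 + d = o + d + 1 := by omega
  rw [this]

theorem fcomp_shift (c : Cmd) (o d : ℕ) : fcomp c (o + d) = (fcomp c o).map (FInstr.shift d) := by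
  induction c generalizing o with
  | skip => rfl
  | push k b =>
    simp only [fcomp, List.map_cons, List.map_nil, FInstr.shift, List.cons.injEq, and_true]
    congr 1; omega
  | pop k =>
    simp only [fcomp, List.map_cons, List.map_nil, FInstr.shift, List.cons.injEq, and_true]
    congr 1 <;> omega
  | seq c₁ c₂ ih1 ih2 =>
    simp only [fcomp, List.map_append]
    rw [← ih1, ← ih2]
    have : o + d + csize c₁ = o + csize c₁ + d := by omega
    rw [this]
  | ite k e c₁ c₂ ih1 ih2 ih3 =>
    simp only [fcomp, List.map_append, List.map_cons, List.map_nil, FInstr.shift, jmp_shift]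
    rw [← ih1, ← ih2, ← ih3]
    have e1 : o + 3 + d = o + d + 3 := by omega
    have e2 : o + 3 + csize e + d = o + d + 3 + csize e := by omega
    have e3 : o + 3 + csize e + 2 + d = o + d + 3 + csize e + 2 := by omega
    have e4 : o + 3 + csize e + 2 + csize c₁ + d = o + d + 3 + csize e + 2 + csize c₁ := by omega
    have e5 : o + 3 + csize e + 2 + csize c₁ + 2 + d = o + d + 3 + csize e + 2 + csize c₁ + 2 := by
      omega
    have e6 : o + 3 + csize e + 2 + csize c₁ + 2 + csize c₂ + d =
      o + d + 3 + csize e + 2 + csize c₁ + 2 + csize c₂ := by omega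
    have e7 : o + 1 + d = o + d + 1 := by omega
    have e8 : o + 2 + d = o + d + 2 := by omega
    rw [e1, e2, e3, e4, e5, e6, e7, e8]
  | loop k c ih =>
    simp only [fcomp, List.map_append, List.map_cons, List.map_nil, FInstr.shift, jmp_shift]
    rw [← ih]
    have e1 : o + 3 + d = o + d + 3 := by omega
    have e2 : o + 3 + csize c + d = o + d + 3 + csize c := by omega
    have e3 : o + 3 + csize c + 2 + d = o + d + 3 + csize c + 2 := by omega
    have e7 : o + 1 + d = o + d + 1 := by omega
    have e8 : o + 2 + d = o + d + 2 := by omega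
    rw [e1, e2, e3, e7, e8]

theorem runPart_shift (c : Cmd) (o : ℕ) : runPart c o = (runPart c 0).map (FInstr.shift o) := by
  unfold runPart
  rw [List.map_append, ← fcomp_shift, Nat.zero_add]
  simp only [List.map_cons, List.map_nil, FInstr.shift]
  congr 2
  · congr 1 <;> omega
  · congr 2; omega

/-- the flat program that loads `w` and then runs the position independent `code` -/
def selfProg (w : List Bool) (code : Flat) : Flat :=
  pushes w.reverse 0 ++ code.map (FInstr.shift w.length)

theorem selfProg_eq (w : List Bool) (c : Cmd) : selfProg w (runPart c 0) = loadRun w c := by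
  unfold selfProg loadRun
  rw [← runPart_shift]


theorem pushes_eq_map (l : List Bool) (o : ℕ) :
    pushes l o = List.zipWith (fun b i => FInstr.push 0 b (o + i + 1)) l (List.range l.length) := by
  induction l generalizing o with
  | nil => rfl
  | cons b l ih =>
    rw [pushes, ih]
    rw [List.length_cons, List.range_succ_eq_map, List.zipWith_cons_cons, Nat.add_zero,
      List.zipWith_map_right]
    congr 1
    congr 1
    funext b i
    congr 1
    omega

section ptf2

variable {α : Type} [PTCode α]

theorem ptf_finstrShift : PTF (fun q : ℕ × FInstr => q.2.shift q.1) := by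
  refine PTF.finstrCases (s := fun q : ℕ × FInstr => q.2)
    (F := fun q x => FInstr.push x.1 x.2.1 (x.2.2 + q.1))
    (G := fun q x => FInstr.pop x.1 (x.2.1 + q.1) (x.2.2.1 + q.1) (x.2.2.2 + q.1))
    (by fun_prop) (by pt_prop) (by pt_prop) ?_ ?_
  · intro a k b j h; rw [h]; rfl
  · intro a k e t f h; rw [h]; rfl

theorem ptf_pushes0 {w : α → List Bool} (hw : PTF w) : PTF (fun a => pushes (w a) 0) := by
  have h : PTF (fun a => List.zipWith (fun b i => FInstr.push 0 b (0 + i + 1)) (w a)
      (List.range (w a).length)) := by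
    refine PTF.zipWith (f := fun (_ : α) (b : Bool) (i : ℕ) => FInstr.push 0 b (0 + i + 1)) hw
      (PTF.range (PTU.length hw)) ?_
    fun_prop
  exact h.of_eq (fun a => (pushes_eq_map (w a) 0).symm)

theorem ptf_selfProg {w : α → List Bool} {code : α → Flat} (hw : PTF w) (hc : PTF code) :
    PTF (fun a => selfProg (w a) (code a)) := by
  unfold selfProg
  refine PTF.append (ptf_pushes0 (PTF.reverse hw)) ?_
  refine PTF.map (f := fun (a : α) (i : FInstr) => i.shift (w a).length) hc ?_
  have hl : PTF (fun p : α × FInstr => (w p.1).length) :=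
    PTU.toPTF (PTU.length (by fun_prop))
  exact PTF.comp (g := fun q : ℕ × FInstr => q.2.shift q.1) (f := fun p : α × FInstr =>
    ((w p.1).length, p.2)) ptf_finstrShift (by fun_prop)

end ptf2

end Crest.Agent.R290
private theorem rz_e83cd8a9d3 : type_of% @_root_.Crest.Agent.R290.FInstr.shift.eq_1 := @_root_.Crest.Agent.R290.FInstr.shift.eq_1 -- L66
end

-- ▼ part R290/TMFlat
section

/-!
# Linear-time compilation of `Turing.FinTM2` machines to `Cmd` programs

`exists_cmd_of_finTM2`: for every multi-stack machine `M` with Boolean input and output alphabets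
there are a `Cmd` program `c` and a constant `C` such that whenever `M` outputs `y` on input `x`
within `T` steps, `c` leads from `init x` to `init y` within `C * (x.length + T + 1)` steps.
-/

set_option autoImplicit false
set_option linter.dupNamespace false

namespace Crest.Agent.R290

open Turing Function Crest.Agent.Lib.PT

namespace TMFlat

/-! ### coded symbols on Boolean stacks -/

/-- unary self-delimiting code of a list of numbers -/
def cs : List ℕ → List Bool
  | [] => []
  | a :: l => List.replicate a true ++ false :: cs l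

/-- push the coded symbol `a` on stack `k` -/
def pushT (k : ℕ) : ℕ → Cmd → Cmd
  | 0, c => c
  | a + 1, c => pushT k a (Cmd.seq (Cmd.push k true) c)

/-- push the coded symbol `a` on stack `k`, then continue with `c` -/
def pushSym (k a : ℕ) (c : Cmd) : Cmd := Cmd.seq (Cmd.push k false) (pushT k a c)

/-- reading the rest of a coded symbol; `i` trues have been popped -/
def rd (k : ℕ) (cont : Option ℕ → Cmd) : ℕ → ℕ → Cmd
  | 0, _ => cont none
  | n + 1, i => Cmd.ite k (cont none) (Cmd.seq (Cmd.pop k) (rd k cont n (i + 1)))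
      (Cmd.seq (Cmd.pop k) (cont (some i)))

theorem run_pushT (k : ℕ) : ∀ (a : ℕ) (c : Cmd) (s s' : Store) (n : ℕ),
    Run c (update s k (List.replicate a true ++ s k)) s' n → Run (pushT k a c) s s' (n + a)
  | 0, c, s, s', n, h => by simpa [pushT] using h
  | a + 1, c, s, s', n, h => by
    have h1 := run_pushT k a (Cmd.seq (Cmd.push k true) c) s s' (n + 1) (by
      have h2 := (Exec.push k true (update s k (List.replicate a true ++ s k))).run
      refine ((h2.seq (s'' := s') (m := n) ?_)).mono (by omega)
      simpa [List.replicate_succ] using h)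
    exact h1.mono (by omega)

theorem run_pushSym (k a : ℕ) (c : Cmd) (s s' : Store) (n : ℕ) (l : List ℕ) (hs : s k = cs l)
    (h : Run c (update s k (cs (a :: l))) s' n) : Run (pushSym k a c) s s' (n + a + 1) := by
  have h1 := (Exec.push k false s).run
  refine (h1.seq (run_pushT k a c _ s' n ?_)).mono (by omega)
  simpa [cs, hs] using h

theorem run_rd (k : ℕ) (cont : Option ℕ → Cmd) (l : List ℕ) (s' : Store) (m : ℕ) :
    ∀ (a n i : ℕ) (s : Store), a < n → s k = cs (a :: l) →
    Run (cont (some (i + a))) (update s k (cs l)) s' m →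
    Run (rd k cont n i) s s' (m + 2 * (a + 1))
  | 0, 0, i, s, hn, hs, h => by omega
  | 0, n + 1, i, s, hn, hs, h => by
    have h1 := (Exec.pop k s).run
    have h2 : (s k).tail = cs l := by simp [hs, cs]
    rw [h2] at h1
    have h3 := h1.seq (d := cont (some i)) (s'' := s') (m := m) (by simpa using h)
    refine (Run.ite_false (l := cs l) ?_ h3).mono (by omega)
    simp [hs, cs]
  | a + 1, 0, i, s, hn, hs, h => by omega
  | a + 1, n + 1, i, s, hn, hs, h => by
    have h1 := (Exec.pop k s).run
    have h2 : (s k).tail = cs (a :: l) := by simp [hs, cs, List.replicate_succ]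
    rw [h2] at h1
    have h3 := run_rd k cont l s' m a n (i + 1) (update s k (cs (a :: l))) (by omega) (by simp)
      (by
        rw [update_idem]
        have : i + 1 + a = i + (a + 1) := by omega
        rw [this]
        exact h)
    refine (Run.ite_true (l := cs (a :: l)) ?_ (h1.seq h3)).mono (by omega)
    simp [hs, cs, List.replicate_succ]

theorem run_rd_nil (k : ℕ) (cont : Option ℕ → Cmd) (n i : ℕ) (s s' : Store) (m : ℕ)
    (hs : s k = []) (h : Run (cont none) s s' m) : Run (rd k cont n i) s s' (m + 1) := by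
  cases n with
  | zero => exact h.mono (by omega)
  | succ n => exact (Run.ite_nil hs h).mono (by omega)

/-! ### loops consuming a list -/

theorem run_loop_list {α β : Type} (k : ℕ) (c : Cmd) (st : List α → List β → Store) (g : α → β)
    (C : ℕ) (hnil : ∀ acc, st [] acc k = []) (hcons : ∀ a l acc, st (a :: l) acc k ≠ [])
    (h : ∀ a l acc, Run c (st (a :: l) acc) (st l (g a :: acc)) C) :
    ∀ (l : List α) (acc : List β),
      Run (Cmd.loop k c) (st l acc) (st [] ((l.map g).reverse ++ acc)) ((C + 1) * l.length + 1)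
  | [], acc => by simpa using Run.loop_nil (c := c) (hnil acc)
  | a :: l, acc => by
    have h1 := run_loop_list k c st g C hnil hcons h l (g a :: acc)
    have h2 := Run.loop_cons (hcons a l acc) (h a l acc) h1
    refine h2.of_eq (by simp) ?_
    simp only [List.length_cons]
    ring_nf
    omega

/-- a store with two named stacks -/
def st2 (i : ℕ) (a : List Bool) (j : ℕ) (b : List Bool) : Store :=
  fun n => if n = i then a else if n = j then b else []

/-! ### statements -/

section stmt

variable {K : Type} {Γ : K → Type} {Λ σ : Type}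
variable (pos : K → ℕ) (sc : ∀ k, Γ k → ℕ) (sd : ∀ k, ℕ → Option (Γ k)) (N : ℕ)
  (stc : Λ × σ → ℕ)

/-- the program of a statement in the state `v`; the next label and state are pushed on stack `0` -/
def comp : TM2.Stmt Γ Λ σ → σ → Cmd
  | .push k f q, v => pushSym (pos k) (sc k (f v)) (comp q v)
  | .peek k f q, v => rd (pos k) (fun o =>
      match o with
      | none => comp q (f v none)
      | some i => pushSym (pos k) i (comp q (f v (sd k i)))) N 0
  | .pop k f q, v => rd (pos k) (fun o => comp q (f v (o.bind (sd k)))) N 0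
  | .load a q, v => comp q (a v)
  | .branch p q₁ q₂, v => bif p v then comp q₁ v else comp q₂ v
  | .goto l, v => pushSym 0 (stc (l v, v)) Cmd.skip
  | .halt, _ => Cmd.skip

/-- every pushed symbol is correctly coded by a small number -/
def Good : TM2.Stmt Γ Λ σ → Prop
  | .push k f q => (∀ v, sd k (sc k (f v)) = some (f v) ∧ sc k (f v) < N) ∧ Good q
  | .peek _ _ q => Good q
  | .pop _ _ q => Good q
  | .load _ q => Good q
  | .branch _ q₁ q₂ => Good q₁ ∧ Good q₂
  | .goto _ => True
  | .halt => True

/-- number of stack operations of a statement -/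
def depth : TM2.Stmt Γ Λ σ → ℕ
  | .push _ _ q => depth q + 1
  | .peek _ _ q => depth q + 1
  | .pop _ _ q => depth q + 1
  | .load _ q => depth q
  | .branch _ q₁ q₂ => max (depth q₁) (depth q₂)
  | .goto _ => 1
  | .halt => 1

/-- the store `s` represents the stacks `S`; stack `0` is coded by `w` -/
structure Rel (s : Store) (S : ∀ k, List (Γ k)) (w : List ℕ) : Prop where
  eq : ∀ k, ∃ T : List ℕ, s (pos k) = cs T ∧ T.map (sd k) = (S k).map some ∧ ∀ i ∈ T, i < N
  zero : s 0 = cs w
  other : ∀ j, j ≠ 0 → (∀ k, pos k ≠ j) → s j = []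

variable {pos sc sd N stc}

theorem Rel.update [DecidableEq K] {s : Store} {S : ∀ k, List (Γ k)} {w : List ℕ}
    (h : Rel pos sd N s S w)
    (hpos : Injective pos) (h0 : ∀ k, pos k ≠ 0) (k : K) (T : List ℕ) (l : List (Γ k))
    (hT : T.map (sd k) = l.map some) (hN : ∀ i ∈ T, i < N) :
    Rel pos sd N (update s (pos k) (cs T)) (update S k l) w := by
  refine ⟨fun j => ?_, ?_, fun j hj0 hj => ?_⟩
  · by_cases hj : j = k
    · subst hj
      exact ⟨T, by simp, by simpa using hT, hN⟩
    · have : pos j ≠ pos k := fun e => hj (hpos e)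
      rw [update_of_ne this, update_of_ne hj]
      exact h.eq j
  · rw [update_of_ne (h0 k).symm]
    exact h.zero
  · rw [update_of_ne (hj k).symm]
    exact h.other j hj0 hj

theorem Rel.update0 {s : Store} {S : ∀ k, List (Γ k)} {w : List ℕ}
    (h : Rel pos sd N s S w) (h0 : ∀ k, pos k ≠ 0) (w' : List ℕ) :
    Rel pos sd N (Function.update s 0 (cs w')) S w' := by
  refine ⟨fun j => ?_, by simp, fun j hj0 hj => ?_⟩
  · rw [update_of_ne (h0 j)]
    exact h.eq j
  · rw [update_of_ne hj0]
    exact h.other j hj0 hj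

/-- the state stack after a step -/
def nxt (stc : Λ × σ → ℕ) (c : TM2.Cfg Γ Λ σ) : List ℕ :=
  match c.l with
  | none => []
  | some l => [stc (l, c.var)]

theorem run_comp [DecidableEq K] (hpos : Injective pos) (h0 : ∀ k, pos k ≠ 0) (B : ℕ)
    (hB : ∀ a, stc a ≤ B) (hNB : 3 * N + 3 ≤ B)
    (q : TM2.Stmt Γ Λ σ) (hq : Good sc sd N q) (v : σ) {S : ∀ k, List (Γ k)} {s : Store}
    (h : Rel pos sd N s S []) :
    ∃ s', Run (comp pos sc sd N stc q v) s s' ((B + 2) * depth q) ∧
      Rel pos sd N s' (TM2.stepAux q v S).stk (nxt stc (TM2.stepAux q v S)) := by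
  induction q generalizing v S s with
  | push k f q ih =>
    obtain ⟨T, hT, hT2, hT3⟩ := h.eq k
    obtain ⟨h1, h2⟩ := hq.1 v
    obtain ⟨s', hr, hs'⟩ := ih hq.2 v (h.update hpos h0 k (sc k (f v) :: T) (f v :: S k)
      (by simp [h1, hT2]) (by
        intro i hi
        rcases List.mem_cons.1 hi with rfl | hi
        · exact h2
        · exact hT3 i hi))
    refine ⟨s', (run_pushSym (pos k) (sc k (f v)) _ s s' _ T hT hr).mono ?_, by
      simpa [TM2.stepAux] using hs'⟩
    simp only [depth]
    have : (B + 2) * (depth q + 1) = (B + 2) * depth q + (B + 2) := by ring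
    omega
  | peek k f q ih =>
    obtain ⟨T, hT, hT2, hT3⟩ := h.eq k
    cases hTc : T with
    | nil =>
      subst hTc
      have hS : S k = [] := by simpa using hT2
      obtain ⟨s', hr, hs'⟩ := ih hq (f v none) h
      refine ⟨s', (run_rd_nil (pos k) _ N 0 s s' _ (by simpa [cs] using hT) hr).mono ?_, by
        simpa [TM2.stepAux, hS] using hs'⟩
      simp only [depth]
      have : (B + 2) * (depth q + 1) = (B + 2) * depth q + (B + 2) := by ring
      omega
    | cons a T' =>
      subst hTc
      obtain ⟨g, l, hS⟩ : ∃ g l, S k = g :: l := by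
        cases hS : S k with
        | nil => simp [hS] at hT2
        | cons g l => exact ⟨g, l, rfl⟩
      have ha : sd k a = some g := by
        simp [hS] at hT2; exact hT2.1
      have haN : a < N := hT3 a (by simp)
      obtain ⟨s', hr, hs'⟩ := ih hq (f v (some g)) h
      have h1 := run_pushSym (pos k) a (comp pos sc sd N stc q (f v (sd k a)))
        (Function.update s (pos k) (cs T')) s' ((B + 2) * depth q) T' (by simp) (by
          rw [update_idem, ← hT, update_eq_self, ha]
          exact hr)
      have h2 := run_rd (pos k) (fun o =>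
        match o with
        | none => comp pos sc sd N stc q (f v none)
        | some i => pushSym (pos k) i (comp pos sc sd N stc q (f v (sd k i)))) T' s' _ a N 0 s haN hT
        (by simpa using h1)
      refine ⟨s', h2.mono ?_, by simpa [TM2.stepAux, hS] using hs'⟩
      simp only [depth]
      have : (B + 2) * (depth q + 1) = (B + 2) * depth q + (B + 2) := by ring
      omega
  | pop k f q ih =>
    obtain ⟨T, hT, hT2, hT3⟩ := h.eq k
    cases hTc : T with
    | nil =>
      subst hTc
      have hS : S k = [] := by simpa using hT2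
      obtain ⟨s', hr, hs'⟩ := ih hq (f v none) h
      have hu : Function.update S k [] = S := by rw [← hS, update_eq_self]
      refine ⟨s', (run_rd_nil (pos k) _ N 0 s s' _ (by simpa [cs] using hT) hr).mono ?_, by
        simpa [TM2.stepAux, hS, hu] using hs'⟩
      simp only [depth]
      have : (B + 2) * (depth q + 1) = (B + 2) * depth q + (B + 2) := by ring
      omega
    | cons a T' =>
      subst hTc
      obtain ⟨g, l, hS⟩ : ∃ g l, S k = g :: l := by
        cases hS : S k with
        | nil => simp [hS] at hT2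
        | cons g l => exact ⟨g, l, rfl⟩
      have ha : sd k a = some g := by
        simp [hS] at hT2; exact hT2.1
      have haN : a < N := hT3 a (by simp)
      obtain ⟨s', hr, hs'⟩ := ih hq (f v (some g)) (h.update hpos h0 k T' l
        (by simp [hS] at hT2; exact hT2.2) (fun i hi => hT3 i (by simp [hi])))
      have h2 := run_rd (pos k) (fun o => comp pos sc sd N stc q (f v (o.bind (sd k)))) T' s'
        ((B + 2) * depth q) a N 0 s haN hT (by simpa [ha] using hr)
      refine ⟨s', h2.mono ?_, by simpa [TM2.stepAux, hS] using hs'⟩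
      simp only [depth]
      have : (B + 2) * (depth q + 1) = (B + 2) * depth q + (B + 2) := by ring
      omega
  | load a q ih =>
    exact ih hq (a v) h
  | branch p q₁ q₂ ih₁ ih₂ =>
    simp only [comp, TM2.stepAux, depth]
    cases p v
    · obtain ⟨s', hr, hs'⟩ := ih₂ hq.2 v h
      exact ⟨s', hr.mono (Nat.mul_le_mul_left _ (le_max_right _ _)), hs'⟩
    · obtain ⟨s', hr, hs'⟩ := ih₁ hq.1 v h
      exact ⟨s', hr.mono (Nat.mul_le_mul_left _ (le_max_left _ _)), hs'⟩
  | goto l =>
    refine ⟨_, (run_pushSym 0 (stc (l v, v)) _ s _ 1 [] h.zero ((Exec.skip _).run)).mono ?_,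
      h.update0 h0 _⟩
    have := hB (l v, v)
    simp only [depth]
    omega
  | halt =>
    exact ⟨s, ((Exec.skip s).run).mono (by simp only [depth]; omega), h⟩

variable (pos sc sd N stc)

/-- the main loop -/
def mainLoop (std : ℕ → Option (Λ × σ)) (Nst : ℕ) (m : Λ → TM2.Stmt Γ Λ σ) : Cmd :=
  Cmd.loop 0 (rd 0 (fun o =>
    match o.bind std with
    | none => Cmd.skip
    | some p => comp pos sc sd N stc (m p.1) p.2) Nst 0)

variable {pos sc sd N stc}

theorem iterate_none (m : Λ → TM2.Stmt Γ Λ σ) [DecidableEq K] (n : ℕ) :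
    (flip bind (TM2.step m))^[n] none = none := by
  induction n with
  | zero => rfl
  | succ n ih => rw [iterate_succ_apply']; rw [ih]; rfl

theorem run_mainLoop [DecidableEq K] (hpos : Injective pos) (h0 : ∀ k, pos k ≠ 0)
    (std : ℕ → Option (Λ × σ)) (Nst : ℕ) (m : Λ → TM2.Stmt Γ Λ σ)
    (hst : ∀ a, std (stc a) = some a ∧ stc a < Nst) (hq : ∀ l, Good sc sd N (m l))
    (B D : ℕ) (hB : ∀ a, stc a ≤ B) (hNB : 3 * N + 3 ≤ B) (hD : ∀ l, depth (m l) ≤ D) :
    ∀ (n : ℕ) (c c' : TM2.Cfg Γ Λ σ) (s : Store), Rel pos sd N s c.stk (nxt stc c) →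
      (flip bind (TM2.step m))^[n] (some c) = some c' → c'.l = none →
      ∃ s', Run (mainLoop pos sc sd N stc std Nst m) s s' ((2 * B + 3 + (B + 2) * D) * n + 1) ∧
        Rel pos sd N s' c'.stk []
  | 0, c, c', s, h, hit, hl => by
    have hc : c = c' := by simpa using hit
    subst hc
    have h1 : nxt stc c = [] := by simp [nxt, hl]
    rw [h1] at h
    exact ⟨s, (Run.loop_nil (by simpa [cs] using h.zero)).mono (by omega), h⟩
  | n + 1, c, c', s, h, hit, hl => by
    rw [iterate_succ_apply] at hit
    obtain ⟨cl, v, S⟩ := c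
    cases cl with
    | none =>
      have : (flip bind (TM2.step m)) (some (⟨none, v, S⟩ : TM2.Cfg Γ Λ σ)) = none := rfl
      rw [this, iterate_none] at hit
      simp at hit
    | some l =>
      have h2 : (flip bind (TM2.step m)) (some (⟨some l, v, S⟩ : TM2.Cfg Γ Λ σ)) =
        some (TM2.stepAux (m l) v S) := rfl
      rw [h2] at hit
      have h3 : nxt stc (⟨some l, v, S⟩ : TM2.Cfg Γ Λ σ) = [stc (l, v)] := rfl
      rw [h3] at h
      have h4 := h.update0 h0 []
      obtain ⟨s1, hr1, hs1⟩ := run_comp hpos h0 B hB hNB (m l) (hq l) v h4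
      obtain ⟨s2, hr2, hs2⟩ := run_mainLoop hpos h0 std Nst m hst hq B D hB hNB hD n _ c' s1 hs1 hit hl
      refine ⟨s2, ?_, hs2⟩
      have h5 := run_rd 0 (fun o =>
        match o.bind std with
        | none => Cmd.skip
        | some p => comp pos sc sd N stc (m p.1) p.2) [] s1 ((B + 2) * depth (m l)) (stc (l, v)) Nst 0 s
        (hst _).2 h.zero (by
          simp only [zero_add, Option.bind_some, (hst _).1]
          exact hr1)
      have h6 : s 0 ≠ [] := by rw [h.zero]; simp [cs]
      have h7 := Run.loop_cons h6 h5 hr2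
      refine Run.mono h7 ?_
      have h8 := hB (l, v)
      have h9 : (B + 2) * depth (m l) ≤ (B + 2) * D := Nat.mul_le_mul_left _ (hD l)
      have h10 : (2 * B + 3 + (B + 2) * D) * (n + 1) = (2 * B + 3 + (B + 2) * D) * n +
        (2 * B + 3 + (B + 2) * D) := by ring
      omega

end stmt

/-! ### input and output conversion -/

/-- move a Boolean stack `i` (reversing it) to the stack `j` -/
def rmv (i j : ℕ) : Cmd :=
  Cmd.loop i (Cmd.ite i Cmd.skip (Cmd.seq (Cmd.pop i) (Cmd.push j true))
    (Cmd.seq (Cmd.pop i) (Cmd.push j false)))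

theorem st2_update_left {i j : ℕ} (h : i ≠ j) (a b a' : List Bool) :
    update (st2 i a j b) i a' = st2 i a' j b := by
  funext n
  by_cases hn : n = i
  · subst hn; simp [st2]
  · rw [update_of_ne hn]; simp [st2, hn]

theorem st2_update_right {i j : ℕ} (h : i ≠ j) (a b b' : List Bool) :
    update (st2 i a j b) j b' = st2 i a j b' := by
  funext n
  by_cases hn : n = j
  · subst hn; simp [st2, h.symm]
  · rw [update_of_ne hn]; simp [st2, hn]

theorem st2_left (i j : ℕ) (a b : List Bool) : st2 i a j b i = a := by simp [st2]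

theorem st2_right {i j : ℕ} (h : i ≠ j) (a b : List Bool) : st2 i a j b j = b := by
  simp [st2, h.symm]

theorem run_rmv {i j : ℕ} (h : i ≠ j) (x acc : List Bool) :
    Run (rmv i j) (st2 i x j acc) (st2 i [] j (x.reverse ++ acc)) (4 * x.length + 1) := by
  have := run_loop_list (α := Bool) (β := Bool) i (Cmd.ite i Cmd.skip
    (Cmd.seq (Cmd.pop i) (Cmd.push j true)) (Cmd.seq (Cmd.pop i) (Cmd.push j false)))
    (fun l acc => st2 i l j acc) (fun b => b) 3 (fun acc => st2_left i j _ _)
    (fun a l acc => by rw [st2_left]; simp) (fun a l acc => by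
      have h1 := (Exec.pop i (st2 i (a :: l) j acc)).run
      rw [st2_left, st2_update_left h, List.tail_cons] at h1
      have h2 := (Exec.push j a (st2 i l j acc)).run
      rw [st2_right h, st2_update_right h] at h2
      cases a
      · exact (Run.ite_false (st2_left i j _ _) (h1.seq h2)).mono (by omega)
      · exact (Run.ite_true (st2_left i j _ _) (h1.seq h2)).mono (by omega)) x acc
  simpa [rmv] using this

/-- read raw bits from `i` (reversing) and push coded symbols on `j` -/
def mvIn (i j : ℕ) (g : Bool → ℕ) : Cmd :=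
  Cmd.loop i (Cmd.ite i Cmd.skip (Cmd.seq (Cmd.pop i) (pushSym j (g true) Cmd.skip))
    (Cmd.seq (Cmd.pop i) (pushSym j (g false) Cmd.skip)))

theorem run_mvIn {i j : ℕ} (h : i ≠ j) (g : Bool → ℕ) (x : List Bool) (acc : List ℕ) :
    Run (mvIn i j g) (st2 i x j (cs acc)) (st2 i [] j (cs ((x.map g).reverse ++ acc)))
      ((g true + g false + 5) * x.length + 1) := by
  have := run_loop_list (α := Bool) (β := ℕ) i (Cmd.ite i Cmd.skip
    (Cmd.seq (Cmd.pop i) (pushSym j (g true) Cmd.skip))
    (Cmd.seq (Cmd.pop i) (pushSym j (g false) Cmd.skip)))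
    (fun l acc => st2 i l j (cs acc)) g (g true + g false + 4) (fun acc => st2_left i j _ _)
    (fun a l acc => by rw [st2_left]; simp) (fun a l acc => by
      have h1 := (Exec.pop i (st2 i (a :: l) j (cs acc))).run
      rw [st2_left, st2_update_left h, List.tail_cons] at h1
      have h2 := run_pushSym j (g a) Cmd.skip (st2 i l j (cs acc)) (st2 i l j (cs (g a :: acc))) 1 acc
        (st2_right h _ _) (by
          rw [st2_update_right h]
          exact (Exec.skip _).run)
      cases a
      · exact (Run.ite_false (st2_left i j _ _) (h1.seq h2)).mono (by omega)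
      · exact (Run.ite_true (st2_left i j _ _) (h1.seq h2)).mono (by omega)) x acc
  exact this

/-- read coded symbols from `i` (reversing) and push raw bits on `j` -/
def mvOut (i j N : ℕ) (g : ℕ → Bool) : Cmd :=
  Cmd.loop i (rd i (fun o =>
    match o with
    | none => Cmd.skip
    | some a => Cmd.push j (g a)) N 0)

theorem run_mvOut {i j : ℕ} (h : i ≠ j) (N : ℕ) (g : ℕ → Bool) (x : List ℕ) (acc : List Bool)
    (hx : ∀ a ∈ x, a < N) :
    Run (mvOut i j N g) (st2 i (cs x) j acc) (st2 i [] j ((x.map g).reverse ++ acc))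
      ((2 * N + 4) * x.length + 1) := by
  have h1 := run_loop_list (α := {a : ℕ // a < N}) (β := Bool) i (rd i (fun o =>
    match o with
    | none => Cmd.skip
    | some a => Cmd.push j (g a)) N 0)
    (fun l acc => st2 i (cs (l.map Subtype.val)) j acc) (fun a => g a.1) (2 * N + 3)
    (fun acc => by rw [st2_left]; rfl)
    (fun a l acc => by rw [st2_left]; simp [cs]) (fun a l acc => by
      have h2 := (Exec.push j (g a.1) (st2 i (cs (l.map Subtype.val)) j acc)).run
      rw [st2_right h, st2_update_right h] at h2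
      have h3 := run_rd i (fun o =>
        match o with
        | none => Cmd.skip
        | some a => Cmd.push j (g a)) (l.map Subtype.val)
        (st2 i (cs (l.map Subtype.val)) j (g a.1 :: acc)) 1 a.1 N 0
        (st2 i (cs ((a :: l).map Subtype.val)) j acc) a.2 (by rw [st2_left]; rfl) (by
          rw [st2_update_left h]
          simpa using h2)
      refine h3.mono ?_
      have := a.2
      omega) (x.pmap Subtype.mk hx) acc
  simp only [List.map_pmap, List.length_pmap, List.map_nil] at h1
  simpa [mvOut, cs, add_assoc] using h1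

theorem length_le_cs (l : List ℕ) : l.length ≤ (cs l).length := by
  induction l with
  | nil => simp
  | cons a l ih => simp [cs]; omega

theorem init_eq_st2 (x : List Bool) (j : ℕ) : init x = st2 0 x j [] := by
  funext n
  cases n with
  | zero => simp [init, st2]
  | succ n => simp [init, st2]

theorem st2_swap {i j : ℕ} (h : i ≠ j) (a b : List Bool) : st2 i a j b = st2 j b i a := by
  funext n
  by_cases h1 : n = i
  · subst h1; simp [st2, h]
  · by_cases h2 : n = j
    · subst h2; simp [st2, h1]
    · simp [st2, h1, h2]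

theorem st2_nil {i j i' : ℕ} (h : i ≠ j) (h' : i' ≠ j) (b : List Bool) :
    st2 i [] j b = st2 i' [] j b := by
  funext n
  by_cases h1 : n = j
  · subst h1; simp [st2, h.symm, h'.symm]
  · simp [st2, h1]

theorem good_of_pushed {K : Type} {Γ : K → Type} {Λ σ : Type} {F : Set (Σ k, Γ k)} {n : ℕ}
    (sc : ∀ k, Γ k → ℕ) (sd : ∀ k, ℕ → Option (Γ k))
    (h : ∀ k g, (⟨k, g⟩ : Σ k, Γ k) ∈ F → sd k (sc k g) = some g ∧ sc k g < n)
    (q : TM2.Stmt Γ Λ σ) (hq : OfTM.pushed q ⊆ F) : Good sc sd n q := by
  induction q with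
  | push k f q ih =>
    exact ⟨fun v => h _ _ (hq (Or.inl ⟨v, rfl⟩)), ih (fun x hx => hq (Or.inr hx))⟩
  | peek k f q ih => exact ih hq
  | pop k f q ih => exact ih hq
  | load a q ih => exact ih hq
  | branch p q₁ q₂ ih₁ ih₂ =>
    exact ⟨ih₁ (fun x hx => hq (Or.inl hx)), ih₂ (fun x hx => hq (Or.inr hx))⟩
  | goto l => exact trivial
  | halt => exact trivial

end TMFlat

open TMFlat in
/-- Every multi-stack machine with Boolean input and output is simulated by a `Cmd` program in
linear time. -/
theorem exists_cmd_of_finTM2 (M : FinTM2) (inA : M.Γ M.k₀ ≃ Bool) (outA : M.Γ M.k₁ ≃ Bool) :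
    ∃ (c : Cmd) (C : ℕ), ∀ (x y : List Bool) (T : ℕ),
      Nonempty (TM2OutputsInTime M (x.map inA.symm) (some (y.map outA.symm)) T) →
      Run c (init x) (init y) (C * (x.length + T + 1)) := by
  classical
  let _ := M.kFin
  let _ := M.ΛFin
  let _ := M.σFin
  let _ := M.Γk₀Fin
  let F : Set (Σ k, M.Γ k) := (⋃ l, OfTM.pushed (M.m l)) ∪
    Set.range (fun g : M.Γ M.k₀ => ⟨M.k₀, g⟩)
  have hF : F.Finite := (Set.finite_iUnion (fun l => OfTM.finite_pushed (M.m l))).union
    (Set.finite_range _)
  have : Finite F := hF.to_subtype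
  let N := Nat.card (Option F)
  let e : Option F ≃ Fin N := Finite.equivFin (Option F)
  let sc : ∀ k, M.Γ k → ℕ := fun k g => (e (OfTM.sym F k g) : ℕ)
  let sd : ∀ k, ℕ → Option (M.Γ k) := fun k i =>
    if h : i < N then OfTM.unsym F k (e.symm ⟨i, h⟩) else none
  have hsc : ∀ k g, sc k g < N := fun k g => (e _).2
  have hsd : ∀ k g, (⟨k, g⟩ : Σ k, M.Γ k) ∈ F → sd k (sc k g) = some g := by
    intro k g hg
    have h1 := hsc k g
    simp only [sd, h1, dif_pos]
    simp only [sc, Fin.eta, Equiv.symm_apply_apply]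
    exact OfTM.unsym_sym hg
  have hgood : ∀ l, Good sc sd N (M.m l) := fun l =>
    good_of_pushed sc sd (fun k g hg => ⟨hsd k g hg, hsc k g⟩) _
      (fun x hx => Or.inl (Set.mem_iUnion.2 ⟨l, hx⟩))
  let Nst := Nat.card (M.Λ × M.σ)
  let est : M.Λ × M.σ ≃ Fin Nst := Finite.equivFin (M.Λ × M.σ)
  let stc : M.Λ × M.σ → ℕ := fun a => (est a : ℕ)
  let std : ℕ → Option (M.Λ × M.σ) := fun i => if h : i < Nst then some (est.symm ⟨i, h⟩) else none
  have hst : ∀ a, std (stc a) = some a ∧ stc a < Nst := by
    intro a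
    have h1 : stc a < Nst := (est a).2
    refine ⟨?_, h1⟩
    simp only [std, h1, dif_pos]
    simp only [stc, Fin.eta, Equiv.symm_apply_apply]
  let n := Nat.card M.K
  let pos : M.K → ℕ := fun k => (Finite.equivFin M.K k : ℕ) + 1
  have hpos : Injective pos := fun a b hab =>
    (Finite.equivFin M.K).injective (Fin.ext (Nat.succ_injective hab))
  have hlt : ∀ k, pos k < n + 1 := fun k => Nat.succ_lt_succ (Finite.equivFin M.K k).2
  have h0 : ∀ k, pos k ≠ 0 := fun k => Nat.succ_ne_zero _
  let B := 3 * N + 3 + Nst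
  obtain ⟨D, hD⟩ : ∃ D, ∀ l, depth (M.m l) ≤ D :=
    ⟨∑ l, depth (M.m l), fun l => Finset.single_le_sum (f := fun l => depth (M.m l))
      (fun _ _ => Nat.zero_le _) (Finset.mem_univ l)⟩
  have hB : ∀ a, stc a ≤ B := fun a => by have := (hst a).2; omega
  let g : Bool → ℕ := fun b => sc M.k₀ (inA.symm b)
  let hh : ℕ → Bool := fun a => ((sd M.k₁ a).map outA).getD false
  let tmp := n + 1
  have htmp : ∀ k, pos k ≠ tmp := fun k => (hlt k).ne
  let c1 : Cmd := rmv 0 tmp
  let c2 : Cmd := mvIn tmp (pos M.k₀) g
  let c3 : Cmd := pushSym 0 (stc (M.main, M.initialState)) Cmd.skip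
  let c4 : Cmd := mainLoop pos sc sd N stc std Nst M.m
  let c5 : Cmd := mvOut (pos M.k₁) tmp N hh
  let c6 : Cmd := rmv tmp 0
  let E := 2 * B + 3 + (B + 2) * D
  let C1 := 4 + (g true + g false + 5) + B + E + 5
  refine ⟨Cmd.seq (Cmd.seq (Cmd.seq (Cmd.seq c1 c2) c3) c4) (Cmd.seq c5 c6),
    C1 + (2 * N + 4) * C1 + 4 * C1 + 2, ?_⟩
  rintro x y T ⟨⟨⟨steps, hsteps⟩, hle⟩⟩
  simp only at hle
  -- stage 1
  have r1 : Run c1 (init x) (st2 0 [] tmp x.reverse) (4 * x.length + 1) := by
    have := run_rmv (i := 0) (j := tmp) (Nat.succ_ne_zero n).symm x []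
    rw [List.append_nil, ← init_eq_st2] at this
    exact this
  -- stage 2
  have r2 : Run c2 (st2 0 [] tmp x.reverse) (st2 tmp [] (pos M.k₀) (cs (x.map g)))
      ((g true + g false + 5) * x.length + 1) := by
    have := run_mvIn (i := tmp) (j := pos M.k₀) (htmp _).symm g x.reverse []
    rw [List.append_nil, List.map_reverse, List.reverse_reverse, List.length_reverse] at this
    have h1 : st2 0 [] tmp x.reverse = st2 tmp x.reverse (pos M.k₀) (cs []) := by
      rw [st2_swap (htmp M.k₀).symm]
      exact st2_nil (Nat.succ_ne_zero n).symm (htmp M.k₀) _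
    rw [h1]
    exact this
  -- stage 3
  have hemp : Rel pos sd N (fun _ => []) (fun k => ([] : List (M.Γ k))) [] :=
    ⟨fun k => ⟨[], rfl, rfl, by simp⟩, rfl, fun _ _ _ => rfl⟩
  have hrel0 : Rel pos sd N (st2 tmp [] (pos M.k₀) (cs (x.map g)))
      (initList M (x.map inA.symm)).stk [] := by
    have h1 := hemp.update hpos h0 M.k₀ (x.map g) (x.map inA.symm) (by
      rw [List.map_map, List.map_map]
      apply List.map_congr_left
      intro b _
      exact hsd _ _ (Or.inr ⟨_, rfl⟩)) (by
      intro i hi
      obtain ⟨b, _, rfl⟩ := List.mem_map.1 hi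
      exact hsc _ _)
    have e1 : (initList M (x.map inA.symm)).stk =
        update (fun k => ([] : List (M.Γ k))) M.k₀ (x.map inA.symm) := by
      funext k
      by_cases hk : k = M.k₀
      · subst hk
        simp [initList]
      · rw [update_of_ne hk]
        simp [initList, hk]
    have e2 : st2 tmp [] (pos M.k₀) (cs (x.map g)) =
        update (fun _ => ([] : List Bool)) (pos M.k₀) (cs (x.map g)) := by
      funext j
      by_cases hj : j = pos M.k₀
      · subst hj
        rw [update_self, st2_right (htmp _).symm]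
      · rw [update_of_ne hj]
        simp [st2, hj]
    rw [e1, e2]
    exact h1
  have r3 : Run c3 (st2 tmp [] (pos M.k₀) (cs (x.map g)))
      (update (st2 tmp [] (pos M.k₀) (cs (x.map g))) 0 (cs [stc (M.main, M.initialState)]))
      (1 + stc (M.main, M.initialState) + 1) :=
    run_pushSym 0 _ Cmd.skip _ _ 1 [] hrel0.zero (Exec.skip _).run
  -- stage 4
  have hrel3 : Rel pos sd N
      (update (st2 tmp [] (pos M.k₀) (cs (x.map g))) 0 (cs [stc (M.main, M.initialState)]))
      (initList M (x.map inA.symm)).stk (nxt stc (initList M (x.map inA.symm))) :=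
    hrel0.update0 h0 _
  obtain ⟨s4, r4', hrel4⟩ := run_mainLoop hpos h0 std Nst M.m hst hgood B D hB (by omega) hD steps
    (initList M (x.map inA.symm)) (haltList M (y.map outA.symm)) _ hrel3 hsteps rfl
  have r4 : Run c4 _ s4 (E * steps + 1) := r4'
  have r14 := ((r1.seq r2).seq r3).seq r4
  -- the final store
  obtain ⟨Ty, hTy, hTy2, hTy3⟩ := hrel4.eq M.k₁
  have hs4 : s4 = st2 (pos M.k₁) (cs Ty) tmp [] := by
    funext j
    by_cases hj : j = pos M.k₁
    · subst hj
      rw [st2_left]
      exact hTy
    · have h1 : st2 (pos M.k₁) (cs Ty) tmp [] j = [] := by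
        simp [st2, hj]
      rw [h1]
      by_cases hj0 : j = 0
      · subst hj0
        exact hrel4.zero
      · by_cases hk : ∃ k, pos k = j
        · obtain ⟨k, rfl⟩ := hk
          obtain ⟨T', hT', hT2, _⟩ := hrel4.eq k
          have hk1 : k ≠ M.k₁ := fun e => hj (by rw [e])
          have : (haltList M (y.map outA.symm)).stk k = [] := by
            simp [haltList, hk1]
          rw [this] at hT2
          have : T' = [] := by simpa using hT2
          rw [hT', this]
          rfl
        · push Not at hk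
          exact hrel4.other j hj0 hk
  have hmap : Ty.map hh = y := by
    have h1 : (haltList M (y.map outA.symm)).stk M.k₁ = y.map outA.symm := by
      simp [haltList]
    rw [h1] at hTy2
    have h2 : Ty.map hh = (Ty.map (sd M.k₁)).map (fun o => (o.map outA).getD false) := by
      rw [List.map_map]
      rfl
    rw [h2, hTy2, List.map_map, List.map_map]
    conv_rhs => rw [← List.map_id y]
    apply List.map_congr_left
    intro b _
    simp
  have hlen : y.length ≤ 4 * x.length + 1 + ((g true + g false + 5) * x.length + 1) +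
      (1 + stc (M.main, M.initialState) + 1) + (E * steps + 1) := by
    obtain ⟨t, ht, hx⟩ := r14
    have h1 := hx.length_le (pos M.k₁)
    have h2 : init x (pos M.k₁) = [] := by simp [init, h0 M.k₁]
    rw [h2, hTy] at h1
    have h3 := length_le_cs Ty
    have h4 : Ty.length = y.length := by rw [← hmap, List.length_map]
    simp only [List.length_nil] at h1
    omega
  have r5 : Run c5 s4 (st2 (pos M.k₁) [] tmp y.reverse) ((2 * N + 4) * y.length + 1) := by
    have := run_mvOut (i := pos M.k₁) (j := tmp) (htmp _) N hh Ty [] hTy3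
    rw [List.append_nil, hmap] at this
    have h4 : Ty.length = y.length := by rw [← hmap, List.length_map]
    rw [hs4, ← h4]
    exact this
  have r6 : Run c6 (st2 (pos M.k₁) [] tmp y.reverse) (init y) (4 * y.length + 1) := by
    have := run_rmv (i := tmp) (j := 0) (Nat.succ_ne_zero n) y.reverse []
    rw [List.append_nil, List.reverse_reverse, List.length_reverse,
      st2_swap (Nat.succ_ne_zero n) [] y, ← init_eq_st2, st2_swap (Nat.succ_ne_zero n)] at this
    rw [st2_nil (htmp M.k₁) (Nat.succ_ne_zero n).symm]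
    exact this
  have hstc := hB (M.main, M.initialState)
  have hb1 : 4 * x.length + 1 + ((g true + g false + 5) * x.length + 1) +
      (1 + stc (M.main, M.initialState) + 1) + (E * steps + 1) ≤ C1 * (x.length + T + 1) := by
    have h1 : E * steps ≤ E * T := Nat.mul_le_mul_left _ hle
    have h2 : C1 * (x.length + T + 1) = (4 + (g true + g false + 5)) * x.length +
      (B + E + 5) * x.length + E * T + (4 + (g true + g false + 5) + B + 5) * T + C1 := by
      simp only [C1]; ring
    have h3 : (4 + (g true + g false + 5)) * x.length =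
      4 * x.length + (g true + g false + 5) * x.length := by ring
    have h4 : 0 ≤ (B + E + 5) * x.length := Nat.zero_le _
    have h5 : 0 ≤ (4 + (g true + g false + 5) + B + 5) * T := Nat.zero_le _
    omega
  refine (r14.seq (r5.seq r6)).mono ?_
  have h6 : (2 * N + 4) * y.length ≤ (2 * N + 4) * (C1 * (x.length + T + 1)) :=
    Nat.mul_le_mul_left _ (hlen.trans hb1)
  have h7 : (C1 + (2 * N + 4) * C1 + 4 * C1 + 2) * (x.length + T + 1) =
    C1 * (x.length + T + 1) + (2 * N + 4) * (C1 * (x.length + T + 1)) +
      4 * (C1 * (x.length + T + 1)) + 2 * (x.length + T + 1) := by ring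
  have h8 := hlen.trans hb1
  omega

end Crest.Agent.R290
private theorem rz_64232144b9 : type_of% @_root_.Crest.Agent.R290.TMFlat.comp.eq_def := @_root_.Crest.Agent.R290.TMFlat.comp.eq_def -- L118
private theorem rz_95cab5fb14 : type_of% @_root_.Crest.Agent.R290.TMFlat.comp.eq_1 := @_root_.Crest.Agent.R290.TMFlat.comp.eq_1 -- L118
private theorem rz_f8945d569e : type_of% @_root_.Crest.Agent.R290.TMFlat.cs.eq_def := @_root_.Crest.Agent.R290.TMFlat.cs.eq_def -- L23
private theorem rz_7a41a6ca34 : type_of% @_root_.Crest.Agent.R290.TMFlat.cs.eq_1 := @_root_.Crest.Agent.R290.TMFlat.cs.eq_1 -- L23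
private theorem rz_03b7ef17d1 : type_of% @_root_.Crest.Agent.R290.TMFlat.depth.eq_def := @_root_.Crest.Agent.R290.TMFlat.depth.eq_def -- L141
private theorem rz_e9c7b1cd50 : type_of% @_root_.Crest.Agent.R290.TMFlat.depth.eq_1 := @_root_.Crest.Agent.R290.TMFlat.depth.eq_1 -- L141
private theorem rz_c306f9982a : type_of% @_root_.Crest.Agent.R290.TMFlat.pushT.eq_def := @_root_.Crest.Agent.R290.TMFlat.pushT.eq_def -- L28
private theorem rz_16c869de96 : type_of% @_root_.Crest.Agent.R290.TMFlat.pushT.eq_1 := @_root_.Crest.Agent.R290.TMFlat.pushT.eq_1 -- L28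
end

-- ▼ part R290/TMRun
section

/-!
# Row 290: running `Turing.FinTM2` deciders inside flat programs

* `cmd_of_tm2`: a Boolean-valued `TM2ComputableInTime` as a `Cmd` with linear overhead.
* `flat_pt_tm2`: first a polynomial-time `R`, then the machine; halts iff the answer (xor `neg`) is
  `true`; the polynomial depends on `R` only, the constant `C` on the machine.
* `flat_of_inDTIME`: the same for `Crest.DTime.InDTIME`.
-/

set_option autoImplicit false

namespace Crest.Agent.R290

open Turing Crest.Agent.Lib.PT Function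

/-- negate the top of stack `0` -/
def notTop : Cmd := .ite 0 .skip (.seq (.pop 0) (.push 0 false)) (.seq (.pop 0) (.push 0 true))

theorem run_notTop (b : Bool) : Run notTop (init [b]) (init [!b]) 3 := by
  have e1 : update (init [b]) 0 [] = init [] := by
    funext j; cases j <;> simp [init]
  have e2 : ∀ b', update (init []) 0 [b'] = init [b'] := by
    intro b'; funext j; cases j <;> simp [init]
  have h1 : Run (.pop 0) (init [b]) (init []) 1 := by
    have := (Exec.pop 0 (init [b])).run
    rwa [init_zero, List.tail_cons, e1] at this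
  have h2 : ∀ b', Run (.push 0 b') (init []) (init [b']) 1 := by
    intro b'
    have := (Exec.push 0 b' (init [])).run
    rwa [init_zero, e2] at this
  cases b
  · exact Run.ite_false (l := []) rfl (h1.seq (h2 true))
  · exact Run.ite_true (l := []) rfl (h1.seq (h2 false))

/-- negate if `neg` -/
def negTop (neg : Bool) : Cmd := bif neg then notTop else .skip

theorem run_negTop (neg b : Bool) : Run (negTop neg) (init [b]) (init [xor neg b]) 3 := by
  cases neg
  · exact ((Exec.skip _).run.of_eq (by simp) (by omega))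
  · have := run_notTop b
    simpa [negTop] using this

/-- A Boolean-valued machine as a `Cmd` program with linear overhead. -/
theorem cmd_of_tm2 {α : Type} {ea : α → List Bool} {g : α → Bool}
    (M : TM2ComputableInTime ea Computability.encodeBool g) (neg : Bool) :
    ∃ (c : Cmd) (C : ℕ), ∀ a, Run c (init (ea a)) (init [xor neg (g a)])
      (C * ((ea a).length + M.time (ea a).length + 1)) := by
  obtain ⟨c, C, h⟩ := exists_cmd_of_finTM2 M.tm M.inputAlphabet M.outputAlphabet
  refine ⟨.seq c (negTop neg), C + 3, fun a => ?_⟩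
  have h1 := h (ea a) [g a] (M.time (ea a).length) ⟨M.outputsFun a⟩
  refine (h1.seq (run_negTop neg (g a))).mono ?_
  have : (C + 3) * ((ea a).length + M.time (ea a).length + 1) =
    C * ((ea a).length + M.time (ea a).length + 1) +
    3 * ((ea a).length + M.time (ea a).length + 1) := by ring
  omega


/-- Deterministic time classes: a flat program on `loadRun x c` halts iff `x ∈ L` (`x ∉ L` if
`neg`), within `C * (x.length + t x.length + 1)` steps. -/
theorem flat_of_inDTIME {L : Set (List Bool)} {t : ℕ → ℕ} (h : Crest.DTime.InDTIME L t) (neg : Bool) :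
    ∃ (c : Cmd) (C : ℕ), ∀ x : List Bool,
      ((if neg = true then x ∉ L else x ∈ L) → FHalts (loadRun x c)
        (C * (x.length + t x.length + 1))) ∧
      (¬ (if neg = true then x ∉ L else x ∈ L) → ∀ T, ¬ FHalts (loadRun x c) T) := by
  obtain ⟨f, c0, ⟨M, hM⟩, hf⟩ := h
  obtain ⟨c, C, hc⟩ := cmd_of_tm2 M neg
  refine ⟨c, 4 * C * (c0 + 1) + 2, fun x => ?_⟩
  have h1 := hc x
  have e : (Computability.encodingList Bool).encode x = x := rfl
  rw [e] at h1
  have key : (if neg = true then x ∉ L else x ∈ L) ↔ xor neg (f x) = true := by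
    rw [hf x]
    cases neg <;> simp
  rw [key]
  refine ⟨fun ht => ?_, fun hn T => ?_⟩
  · rw [ht] at h1
    refine (loadRun_halts h1 (l := []) rfl).mono ?_
    have h2 := hM x.length
    simp only at h2
    have h3 : C * (x.length + M.time x.length + 1) ≤ C * ((c0 + 1) * (x.length + t x.length + 1)) := by
      refine Nat.mul_le_mul_left _ ?_
      have : (c0 + 1) * (x.length + t x.length + 1) =
        c0 * x.length + c0 * t x.length + c0 + x.length + t x.length + 1 := by ring
      omega
    have h4 : (4 * C * (c0 + 1) + 2) * (x.length + t x.length + 1) =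
      4 * (C * ((c0 + 1) * (x.length + t x.length + 1))) + 2 * (x.length + t x.length + 1) := by ring
    omega
  · have hf' : xor neg (f x) = false := by simpa using hn
    rw [hf'] at h1
    exact loadRun_loops h1 (by simp) T

end Crest.Agent.R290
end

-- ▼ part R290/Hard

/-!
# Row 290, [HARD]: EXP-hardness from the core theorems and the generators

The core theorems and the generators enter as hypotheses (`CoreA`, `CoreS`, `GenA`, `GenS`, `GenO`;
these are the statements of `coreA`, `coreS`, `ptf_graphA`, `ptf_graphS`, `ptu_baseOrder`).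
-/

set_option autoImplicit false

namespace Crest.Agent.R290

open Crest.WLRefine Crest.Enc Function
open Crest.Agent.Lib.PT

/-! ### statements used -/

/-- statement of `coreA` -/
def CoreA : Prop := ∀ (p : Flat) (Ks B D pad : ℕ), WF p Ks → 2 ≤ B → 1 ≤ D →
    baseOrder p Ks B D + 2 ≤ pad →
    ∃ (n : ℕ) (G0 G1 : Fin n → Fin n → Bool), n = baseOrder p Ks B D + pad ∧
      SimpleConnDiamTwo G0 ∧ SimpleConnDiamTwo G1 ∧
      adjMatrixCode G0 = graphA p Ks B D pad false ∧ adjMatrixCode G1 = graphA p Ks B D pad true ∧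
      ((∃ t < B ^ D, FHalts p t) →
        ¬ JEquiv (D + 1) G0 G1 ∧ ¬ SEquiv (D + 2) G0 G1 ∧ Identifies (D + 1) G0) ∧
      (RunsForever p → JEquiv (D + 1) G0 G1 ∧ SEquiv (D + 2) G0 G1 ∧
        ∀ k', 1 ≤ k' → k' ≤ D + 1 → ¬ Identifies k' G0)

/-- statement of `coreS` -/
def CoreS : Prop := ∀ (p : Flat) (Ks B D : ℕ), WF p Ks → 2 ≤ B → 1 ≤ D →
    ∃ (n : ℕ) (G0 G1 : Fin n → Fin n → Bool), 0 < n ∧
      SimpleConnSubcubic G0 ∧ SimpleConnSubcubic G1 ∧
      adjMatrixCode G0 = graphS p Ks B D false ∧ adjMatrixCode G1 = graphS p Ks B D true ∧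
      ((∃ t < B ^ D, FHalts p t) → ¬ JEquiv (D + 1) G0 G1) ∧
      (RunsForever p → JEquiv (D + 1) G0 G1)

/-- statement of `ptf_graphA` -/
def GenA : Prop := ∀ tw : Bool, PTF (fun d : Flat × Un × Un × Un × Un =>
    graphA d.1 d.2.1.val d.2.2.1.val d.2.2.2.1.val d.2.2.2.2.val tw)

/-- statement of `ptf_graphS` -/
def GenS : Prop := ∀ tw : Bool, PTF (fun d : Flat × Un × Un × Un =>
    graphS d.1 d.2.1.val d.2.2.1.val d.2.2.2.val tw)

/-- statement of `ptu_baseOrder` -/
def GenO : Prop := PTU (fun d : Flat × Un × Un × Un =>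
    baseOrder d.1 d.2.1.val d.2.2.1.val d.2.2.2.val)

/-! ### unique parsing of codes -/

theorem digits_append_inj (l l' u v : List Bool)
    (h : (l.map fun b => [true, b]).flatten ++ [false, false] ++ u =
      (l'.map fun b => [true, b]).flatten ++ [false, false] ++ v) : l = l' ∧ u = v := by
  induction l generalizing l' with
  | nil =>
    cases l' with
    | nil => simpa using h
    | cons b l' => simp at h
  | cons a l ih =>
    cases l' with
    | nil => simp at h
    | cons b l' =>
      simp only [List.map_cons, List.flatten_cons, List.cons_append, List.nil_append,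
        List.cons.injEq, true_and] at h
      obtain ⟨h1, h2⟩ := h
      obtain ⟨h3, h4⟩ := ih l' (by simpa using h2)
      exact ⟨by rw [h1, h3], h4⟩

theorem natCode_append_inj {a b : ℕ} {u v : List Bool} (h : natCode a ++ u = natCode b ++ v) :
    a = b ∧ u = v := by
  unfold natCode at h
  obtain ⟨h1, h2⟩ := digits_append_inj _ _ _ _ h
  refine ⟨?_, h2⟩
  have : enc a = enc b := h1
  simpa using this

theorem flatMap_inj {α β : Type} (L : List α) (f g : α → List β)
    (hl : ∀ a ∈ L, (f a).length = (g a).length) (h : L.flatMap f = L.flatMap g) :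
    ∀ a ∈ L, f a = g a := by
  induction L with
  | nil => intro a ha; simp at ha
  | cons x L ih =>
    rw [List.flatMap_cons, List.flatMap_cons] at h
    obtain ⟨h1, h2⟩ := List.append_inj h (hl x (by simp))
    intro a ha
    rcases List.mem_cons.1 ha with rfl | ha
    · exact h1
    · exact ih (fun a ha => hl a (by simp [ha])) h2 a ha

theorem adjMatrixCode_append_inj {n : ℕ} {G : Fin n → Fin n → Bool} {m : ℕ}
    {H : Fin m → Fin m → Bool} {u v : List Bool}
    (h : adjMatrixCode G ++ u = adjMatrixCode H ++ v) : ∃ e : n = m, e ▸ G = H ∧ u = v := by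
  unfold adjMatrixCode at h
  rw [List.append_assoc, List.append_assoc] at h
  obtain ⟨h1, h2⟩ := natCode_append_inj h
  subst h1
  refine ⟨rfl, ?_⟩
  obtain ⟨h3, h4⟩ := List.append_inj h2 (by simp [List.length_flatMap])
  refine ⟨?_, h4⟩
  funext i j
  have h5 := flatMap_inj _ _ _ (by simp) h3 i (List.mem_finRange i)
  have h6 := (List.map_inj_left.1 h5) j (List.mem_finRange j)
  exact h6

/-! ### simulation of exponential time -/

theorem wf_loadRun (x : List Bool) (c : Cmd) : WF (loadRun x c) (c.maxVar + 1) := by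
  intro i hi
  have h : StacksLe c.maxVar (loadRun x c) :=
    StacksLe.append ((stacksLe_pushes _ _).mono (Nat.zero_le _)) (stacksLe_runPart c _)
  have := h i hi
  omega

theorem exp_base {A : Set (List Bool)} (hA : Crest.ExpTime.InEXP A) (neg : Bool) :
    ∃ (c : Cmd) (D : List Bool → ℕ), PTU D ∧ (∀ x, 1 ≤ D x) ∧ ∀ x,
      ((if neg = true then x ∉ A else x ∈ A) → ∃ t < 2 ^ D x, FHalts (loadRun x c) t) ∧
      (¬ (if neg = true then x ∉ A else x ∈ A) → RunsForever (loadRun x c)) := by
  obtain ⟨k, hk⟩ := hA
  obtain ⟨c, C, hc⟩ := flat_of_inDTIME hk neg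
  refine ⟨c, fun x => C + (x.length + 1) + x.length ^ k, ?_, fun x => ?_, fun x => ⟨fun h => ?_,
    fun h => (hc x).2 h⟩⟩
  · have h1 : PTU (fun x : List Bool => x.length) := PTU.length PTF.id
    exact PTU.add (PTU.add (PTU.const C) (PTU.add h1 (PTU.const 1))) (PTU.pow h1 k)
  · dsimp only
    omega
  · refine ⟨_, ?_, (hc x).1 h⟩
    set N := x.length with hN
    set E := 2 ^ (N ^ k) with hE
    have e0 : 1 ≤ E := Nat.one_le_two_pow
    have e1 : N + E + 1 ≤ (N + 2) * E := by nlinarith
    have e2 : C < 2 ^ C := Nat.lt_two_pow_self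
    have e3 : N + 2 ≤ 2 ^ (N + 1) := Nat.lt_two_pow_self
    calc C * (N + E + 1) ≤ C * ((N + 2) * E) := Nat.mul_le_mul_left _ e1
      _ ≤ C * (2 ^ (N + 1) * E) := Nat.mul_le_mul_left _ (Nat.mul_le_mul_right _ e3)
      _ < 2 ^ C * (2 ^ (N + 1) * E) := Nat.mul_lt_mul_of_pos_right e2 (by positivity)
      _ = 2 ^ (C + (N + 1) + N ^ k) := by rw [pow_add, pow_add, hE]; ring

theorem ptf_loadRun (c : Cmd) : PTF (fun x : List Bool => loadRun x c) :=
  (ptf_selfProg (w := fun x : List Bool => x) (code := fun _ => runPart c 0) PTF.id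
    (PTF.const _)).of_eq fun x => selfProg_eq x c

/-! ### subcubic pairs and pairs of arbitrary graphs -/

/-- the reduction to pairs of graphs -/
def redS (c : Cmd) (D : List Bool → ℕ) (x : List Bool) : List Bool :=
  natCode (D x + 1) ++ graphS (loadRun x c) (c.maxVar + 1) 2 (D x) false ++
    graphS (loadRun x c) (c.maxVar + 1) 2 (D x) true

theorem redS_aux (gr : Flat → ℕ → ℕ → ℕ → Bool → List Bool)
    (hg : ∀ tw : Bool, PTF (fun d : Flat × Un × Un × Un =>
      gr d.1 d.2.1.val d.2.2.1.val d.2.2.2.val tw)) (c : Cmd) (K : ℕ) {D : List Bool → ℕ}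
    (hD : PTU D) :
    PTF (fun x : List Bool => natCode (D x + 1) ++ gr (loadRun x c) K 2 (D x) false ++
      gr (loadRun x c) K 2 (D x) true) := by
  have h0 : PTF (fun x : List Bool => ((loadRun x c, Un.mk K, Un.mk 2, Un.mk (D x)) :
      Flat × Un × Un × Un)) :=
    PTF.prodMk (ptf_loadRun c) (PTF.prodMk (PTF.const _) (PTF.prodMk (PTF.const _) hD))
  have h1 : ∀ tw, PTF (fun x : List Bool => gr (loadRun x c) K 2 (D x) tw) :=
    fun tw => PTF.comp (hg tw) h0
  exact PTF.append (PTF.append (ptf_natCode (PTU.toPTF (PTU.add hD (PTU.const 1)))) (h1 false))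
    (h1 true)

theorem redS_polyTime (hg : GenS) (c : Cmd) {D : List Bool → ℕ} (hD : PTU D) :
    Crest.Complexity.PolyTime (redS c D) :=
  (PTF.toPT_list (redS_aux graphS hg c (c.maxVar + 1) hD)).polyTime

theorem hard_subcubic_of (hc : CoreS) (hg : GenS) :
    Crest.ExpTime.EXPHard subcubicVarDimEquivLang := by
  intro A hA
  obtain ⟨c, D, hD, hD1, h⟩ := exp_base hA true
  refine ⟨redS c D, redS_polyTime hg c hD, fun x => ?_⟩
  obtain ⟨n, G0, G1, hn, s0, s1, e0, e1, h1, h2⟩ :=
    hc (loadRun x c) (c.maxVar + 1) 2 (D x) (wf_loadRun x c) le_rfl (hD1 x)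
  simp only [if_true] at h
  constructor
  · intro hx
    have h3 := h2 ((h x).2 (by simpa using hx))
    refine ⟨D x + 1, n, G0, G1, ?_, hn, s0, s1, h3, ?_⟩
    · have := hD1 x; omega
    · rw [e0, e1]; rfl
  · rintro ⟨k, n', H0, H1, hk, hn', t0, t1, hJ, he⟩
    by_contra hx
    apply h1 ((h x).1 hx)
    unfold redS at he
    rw [List.append_assoc, List.append_assoc] at he
    obtain ⟨a1, a2⟩ := natCode_append_inj he
    rw [← e0, ← e1] at a2
    obtain ⟨b1, b2, b3⟩ := adjMatrixCode_append_inj a2
    subst b1
    rw [← List.append_nil (adjMatrixCode G1), ← List.append_nil (adjMatrixCode H1)] at b3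
    obtain ⟨_, b5, _⟩ := adjMatrixCode_append_inj b3
    dsimp only at b2 b5
    rw [a1, b2, b5]
    exact hJ

theorem hard_varDim_of (hc : CoreS) (hg : GenS) :
    Crest.ExpTime.EXPHard varDimEquivLang := by
  intro A hA
  obtain ⟨c, D, hD, hD1, h⟩ := exp_base hA true
  refine ⟨redS c D, redS_polyTime hg c hD, fun x => ?_⟩
  obtain ⟨n, G0, G1, hn, s0, s1, e0, e1, h1, h2⟩ :=
    hc (loadRun x c) (c.maxVar + 1) 2 (D x) (wf_loadRun x c) le_rfl (hD1 x)
  simp only [if_true] at h
  constructor
  · intro hx
    have h3 := h2 ((h x).2 (by simpa using hx))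
    refine ⟨D x + 1, n, n, G0, G1, ?_, s0.1, s1.1, h3, ?_⟩
    · have := hD1 x; omega
    · rw [e0, e1]; rfl
  · rintro ⟨k, n', m', H0, H1, hk, t0, t1, hJ, he⟩
    by_contra hx
    apply h1 ((h x).1 hx)
    unfold redS at he
    rw [List.append_assoc, List.append_assoc] at he
    obtain ⟨a1, a2⟩ := natCode_append_inj he
    rw [← e0, ← e1] at a2
    obtain ⟨b1, b2, b3⟩ := adjMatrixCode_append_inj a2
    subst b1
    rw [← List.append_nil (adjMatrixCode G1), ← List.append_nil (adjMatrixCode H1)] at b3
    obtain ⟨b4, b5, _⟩ := adjMatrixCode_append_inj b3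
    subst b4
    dsimp only at b2 b5
    rw [a1, b2, b5]
    exact hJ

/-! ### the dimension problem -/

/-- the reduction to one graph -/
def redA (c : Cmd) (D : List Bool → ℕ) (x : List Bool) : List Bool :=
  natCode (D x + 1) ++ graphA (loadRun x c) (c.maxVar + 1) 2 (D x)
    (baseOrder (loadRun x c) (c.maxVar + 1) 2 (D x) + 2) false

theorem redA_aux (gr : Flat → ℕ → ℕ → ℕ → ℕ → Bool → List Bool)
    (hg : ∀ tw : Bool, PTF (fun d : Flat × Un × Un × Un × Un =>
      gr d.1 d.2.1.val d.2.2.1.val d.2.2.2.1.val d.2.2.2.2.val tw))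
    (od : Flat → ℕ → ℕ → ℕ → ℕ)
    (ho : PTU (fun d : Flat × Un × Un × Un => od d.1 d.2.1.val d.2.2.1.val d.2.2.2.val))
    (c : Cmd) (K : ℕ) {D : List Bool → ℕ} (hD : PTU D) :
    PTF (fun x : List Bool => natCode (D x + 1) ++ gr (loadRun x c) K 2 (D x)
      (od (loadRun x c) K 2 (D x) + 2) false) := by
  have h0 : PTF (fun x : List Bool => ((loadRun x c, Un.mk K, Un.mk 2, Un.mk (D x)) :
      Flat × Un × Un × Un)) :=
    PTF.prodMk (ptf_loadRun c) (PTF.prodMk (PTF.const _) (PTF.prodMk (PTF.const _) hD))
  have h1 : PTU (fun x : List Bool => od (loadRun x c) K 2 (D x) + 2) :=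
    PTU.add (PTU.comp (n := fun d : Flat × Un × Un × Un =>
      od d.1 d.2.1.val d.2.2.1.val d.2.2.2.val) ho h0) (PTU.const 2)
  have h2 : PTF (fun x : List Bool => ((loadRun x c, Un.mk K, Un.mk 2, Un.mk (D x),
      Un.mk (od (loadRun x c) K 2 (D x) + 2)) : Flat × Un × Un × Un × Un)) :=
    PTF.prodMk (ptf_loadRun c) (PTF.prodMk (PTF.const _) (PTF.prodMk (PTF.const _)
      (PTF.prodMk hD h1)))
  have h3 : PTF (fun x : List Bool => gr (loadRun x c) K 2 (D x)
      (od (loadRun x c) K 2 (D x) + 2) false) := PTF.comp (hg false) h2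
  exact PTF.append (ptf_natCode (PTU.toPTF (PTU.add hD (PTU.const 1)))) h3

theorem redA_polyTime (hg : GenA) (ho : GenO) (c : Cmd) {D : List Bool → ℕ} (hD : PTU D) :
    Crest.Complexity.PolyTime (redA c D) :=
  (PTF.toPT_list (redA_aux graphA hg baseOrder ho c (c.maxVar + 1) hD)).polyTime

theorem hard_wlDim_of (hc : CoreA) (hg : GenA) (ho : GenO) :
    Crest.ExpTime.EXPHard wlDimLeLang := by
  intro A hA
  obtain ⟨c, D, hD, hD1, h⟩ := exp_base hA false
  refine ⟨redA c D, redA_polyTime hg ho c hD, fun x => ?_⟩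
  obtain ⟨n, G0, G1, hn, s0, s1, e0, e1, h1, h2⟩ :=
    hc (loadRun x c) (c.maxVar + 1) 2 (D x)
      (baseOrder (loadRun x c) (c.maxVar + 1) 2 (D x) + 2) (wf_loadRun x c) le_rfl (hD1 x) le_rfl
  simp only [Bool.false_eq_true, if_false] at h
  constructor
  · intro hx
    have h3 := h1 ((h x).1 hx)
    refine ⟨D x + 1, n, G0, by omega, by omega, s0.1, ⟨D x + 1, by omega, le_rfl, h3.2.2⟩, ?_⟩
    rw [e0]; rfl
  · rintro ⟨k, n', H0, hk, hn', t0, ⟨k', hk1, hk2, hI⟩, he⟩
    by_contra hx
    have h3 := (h2 ((h x).2 hx)).2.2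
    unfold redA at he
    obtain ⟨a1, a2⟩ := natCode_append_inj he
    rw [← e0, ← List.append_nil (adjMatrixCode G0), ← List.append_nil (adjMatrixCode H0)] at a2
    obtain ⟨b1, b2, _⟩ := adjMatrixCode_append_inj a2
    subst b1
    dsimp only at b2
    apply h3 k' hk1 (by omega)
    rw [b2]
    exact hI

end Crest.Agent.R290
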