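import Crest.Agent.R290.SelfRef
import Mathlib
import Crest.Agent.Lib.PT.ArithMore
import Crest.Agent.R290.Defs
import Crest.Agent.R290.Hard
import Crest.Agent.Lib.PT.ListFns2
import Crest.Prelude.Def_WordRAM
import Crest.Agent.R290.FlatPTF
import Crest.Prelude.Def_WL
import Crest.Agent.R290.Core
import Crest.Agent.R290.Gen

-- ▼ part R290/Diag0
section

/-!
# Row 290: the decision interface of the diagonalisation
-/

set_option autoImplicit false

namespace Crest.Agent.R290

open Crest.WLRefine

/-- `F` decides (by halting) the relation `E` on pairs of promise graphs; accepting runs take at most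
`τ n` steps on graphs with `n` vertices. -/
def Decides (F : Flat)
    (E : ∀ n : ℕ, (Fin n → Fin n → Bool) → (Fin n → Fin n → Bool) → Prop) (τ : ℕ → ℕ) : Prop :=
  ∀ (n : ℕ) (G H : Fin n → Fin n → Bool), SimpleConnDiamTwo G → SimpleConnDiamTwo H →
    (E n G H → FHaltsOn F (adjMatrixCode G ++ adjMatrixCode H) (τ n)) ∧
    (¬ E n G H → ∀ T, ¬ FHaltsOn F (adjMatrixCode G ++ adjMatrixCode H) T)

end Crest.Agent.R290
end

-- ▼ part R290/DiagArith
section

/-!
# Row 290: arithmetic of the diagonalisation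
-/

set_option autoImplicit false

namespace Crest.Agent.R290

/-- integer `E`-th root with bounds -/
theorem exists_root (E N n : ℕ) (hE : 1 ≤ E) (hN : 2 ^ E ≤ N) (hn : N ^ E ≤ n) :
    ∃ ν, N ≤ ν ∧ ν ^ E ≤ n ∧ n ≤ ν ^ (E + 1) := by
  classical
  set ν := Nat.findGreatest (fun v => v ^ E ≤ n) n with hν
  have hNn : N ≤ n := (Nat.le_self_pow (by omega) N).trans hn
  have h1 : ν ^ E ≤ n := Nat.findGreatest_spec (P := fun v => v ^ E ≤ n) hNn hn
  have h2 : N ≤ ν := Nat.le_findGreatest hNn hn
  refine ⟨ν, h2, h1, ?_⟩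
  have h3 : n < (ν + 1) ^ E := by
    by_contra hc
    push Not at hc
    have h4 : ν + 1 ≤ n := (Nat.le_self_pow (by omega) _).trans hc
    have h5 : ν + 1 ≤ ν := Nat.le_findGreatest (P := fun v => v ^ E ≤ n) h4 hc
    omega
  have hν1 : 1 ≤ ν := by
    have : 1 ≤ 2 ^ E := Nat.one_le_two_pow
    omega
  calc n ≤ (ν + 1) ^ E := h3.le
    _ ≤ (2 * ν) ^ E := Nat.pow_le_pow_left (by omega) E
    _ = 2 ^ E * ν ^ E := by rw [mul_pow]
    _ ≤ ν * ν ^ E := Nat.mul_le_mul_right _ (by omega)
    _ = ν ^ (E + 1) := by rw [pow_succ, mul_comm]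

/-- from the real bound to a natural one -/
theorem pow_le_of_lt_rpow (T n N k : ℕ) (hN : 0 < N)
    (h : (T : ℝ) < (n : ℝ) ^ ((1 / (N : ℝ)) * k)) : T ^ N ≤ n ^ k := by
  have h1 : ((T : ℝ)) ^ N ≤ ((n : ℝ) ^ ((1 / (N : ℝ)) * k)) ^ N :=
    pow_le_pow_left₀ (Nat.cast_nonneg T) h.le N
  have h2 : ((n : ℝ) ^ ((1 / (N : ℝ)) * k)) ^ N = (n : ℝ) ^ k := by
    rw [← Real.rpow_natCast, ← Real.rpow_mul (Nat.cast_nonneg n)]
    have hN' : (N : ℝ) ≠ 0 := by positivity
    have : (1 / (N : ℝ)) * k * N = k := by field_simp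
    rw [this, Real.rpow_natCast]
  rw [h2] at h1
  exact_mod_cast h1

/-- The arithmetic of the diagonalisation: `E` size exponent, `d` exponent of the generator, `a`
exponent of the simulation. -/
theorem diag_arith (E d a : ℕ) (hE : 1 ≤ E) : ∃ c : ℝ, 0 < c ∧ ∃ k₀ : ℕ, ∀ k ≥ k₀, ∀ C : ℕ,
    ∃ n₀ : ℕ, ∀ n ≥ n₀, ∃ ν : ℕ, 2 ≤ ν ∧ C ≤ ν ∧ ν ^ E ≤ n ∧ n ≤ ν ^ (E + 1) ∧
      ∀ T : ℕ, (T : ℝ) < (n : ℝ) ^ (c * k) → C * ν ^ d + C * (n + T + 1) ^ a < ν ^ (k - 2) := by
  set b := a + 1 with hb
  refine ⟨1 / ((2 * b * (E + 1) : ℕ) : ℝ), by positivity, 2 * (E + 1) * b + d + 14,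
    fun k hk C => ?_⟩
  obtain ⟨N, hN0, hNC, hN4, hNE, hN2⟩ : ∃ N : ℕ, N = C + 4 ^ (2 * b) + 2 ^ E + 2 ∧ C ≤ N ∧
      4 ^ (2 * b) ≤ N ∧ 2 ^ E ≤ N ∧ 2 ≤ N := by
    have h1 : 0 < 4 ^ (2 * b) := by positivity
    have h2 : 0 < 2 ^ E := by positivity
    exact ⟨_, rfl, by omega, by omega, by omega, by omega⟩
  refine ⟨N ^ E, fun n hn => ?_⟩
  obtain ⟨ν, h1, h2, h3⟩ := exists_root E N n hE (by omega) hn
  refine ⟨ν, by omega, by omega, h2, h3, fun T hT => ?_⟩
  have hν0 : 0 < ν := by omega
  have hν1 : 1 ≤ ν := hν0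
  have hp2 : (2 : ℕ) ^ (2 * b) = 4 ^ b := by rw [pow_mul]; norm_num
  have hCν : C ≤ ν := hNC.trans h1
  have h4ν : 4 ^ (2 * b) ≤ ν := hN4.trans h1
  -- T ^ (2 b) ≤ ν ^ k
  have hT1 : T ^ (2 * b) ≤ ν ^ k := by
    have h4 : T ^ (2 * b * (E + 1)) ≤ n ^ k := pow_le_of_lt_rpow T n _ k (by positivity) hT
    have h5 : (T ^ (2 * b)) ^ (E + 1) ≤ (ν ^ k) ^ (E + 1) := by
      calc (T ^ (2 * b)) ^ (E + 1) = T ^ (2 * b * (E + 1)) := (pow_mul _ _ _).symm
        _ ≤ n ^ k := h4
        _ ≤ (ν ^ (E + 1)) ^ k := Nat.pow_le_pow_left h3 k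
        _ = (ν ^ k) ^ (E + 1) := by rw [← pow_mul, ← pow_mul, mul_comm]
    exact (Nat.pow_le_pow_iff_left (by omega)).mp h5
  -- (n + 1) ^ (2 b) ≤ 4 ^ b * ν ^ k
  have hn1 : 1 ≤ n := (Nat.one_le_pow _ _ hν0).trans h2
  have hn2 : (n + 1) ^ (2 * b) ≤ 4 ^ b * ν ^ k := by
    calc (n + 1) ^ (2 * b) ≤ (2 * ν ^ (E + 1)) ^ (2 * b) := Nat.pow_le_pow_left (by omega) _
      _ = 4 ^ b * ν ^ ((E + 1) * (2 * b)) := by rw [mul_pow, hp2, ← pow_mul]
      _ ≤ 4 ^ b * ν ^ k := by
        refine Nat.mul_le_mul_left _ (Nat.pow_le_pow_right hν0 ?_)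
        have : (E + 1) * (2 * b) = 2 * (E + 1) * b := by ring
        omega
  have hX : (n + T + 1) ^ (2 * b) ≤ ν ^ (k + 1) := by
    have h6 : (n + T + 1) ^ (2 * b) ≤ 4 ^ (2 * b) * ν ^ k := by
      rcases le_total T (n + 1) with h | h
      · calc (n + T + 1) ^ (2 * b) ≤ (2 * (n + 1)) ^ (2 * b) := Nat.pow_le_pow_left (by omega) _
          _ = 4 ^ b * (n + 1) ^ (2 * b) := by rw [mul_pow, hp2]
          _ ≤ 4 ^ b * (4 ^ b * ν ^ k) := Nat.mul_le_mul_left _ hn2
          _ = 4 ^ (2 * b) * ν ^ k := by rw [← mul_assoc, ← pow_add, two_mul]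
      · calc (n + T + 1) ^ (2 * b) ≤ (2 * T) ^ (2 * b) := Nat.pow_le_pow_left (by omega) _
          _ = 4 ^ b * T ^ (2 * b) := by rw [mul_pow, hp2]
          _ ≤ 4 ^ b * ν ^ k := Nat.mul_le_mul_left _ hT1
          _ ≤ 4 ^ (2 * b) * ν ^ k := Nat.mul_le_mul_right _ (Nat.pow_le_pow_right (by omega) (by omega))
    calc (n + T + 1) ^ (2 * b) ≤ 4 ^ (2 * b) * ν ^ k := h6
      _ ≤ ν * ν ^ k := Nat.mul_le_mul_right _ (by omega)
      _ = ν ^ (k + 1) := by rw [pow_succ, mul_comm]
  -- C * (n + T + 1) ^ a < ν ^ (k - 3)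
  have hY : C * (n + T + 1) ^ a < ν ^ (k - 3) := by
    have h7 : C * (n + T + 1) ^ a ≤ ν * (n + T + 1) ^ b :=
      Nat.mul_le_mul (by omega) (Nat.pow_le_pow_right (by omega) (by omega))
    refine lt_of_le_of_lt h7 ?_
    have h8 : (ν * (n + T + 1) ^ b) ^ 2 < (ν ^ (k - 3)) ^ 2 := by
      calc (ν * (n + T + 1) ^ b) ^ 2 = ν ^ 2 * (n + T + 1) ^ (2 * b) := by
            rw [mul_pow, ← pow_mul, mul_comm b 2]
        _ ≤ ν ^ 2 * ν ^ (k + 1) := Nat.mul_le_mul_left _ hX
        _ = ν ^ (k + 3) := by rw [← pow_add]; congr 1; omega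
        _ < ν ^ ((k - 3) * 2) := Nat.pow_lt_pow_right (by omega) (by omega)
        _ = (ν ^ (k - 3)) ^ 2 := by rw [pow_mul]
    exact lt_of_pow_lt_pow_left₀ 2 (Nat.zero_le _) h8
  have hZ : C * ν ^ d ≤ ν ^ (k - 3) := by
    calc C * ν ^ d ≤ ν * ν ^ d := Nat.mul_le_mul_right _ (by omega)
      _ = ν ^ (d + 1) := by rw [pow_succ, mul_comm]
      _ ≤ ν ^ (k - 3) := Nat.pow_le_pow_right hν0 (by omega)
  calc C * ν ^ d + C * (n + T + 1) ^ a < ν ^ (k - 3) + ν ^ (k - 3) := by omega
    _ = 2 * ν ^ (k - 3) := by ring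
    _ ≤ ν * ν ^ (k - 3) := Nat.mul_le_mul_right _ (by omega)
    _ = ν ^ (k - 2) := by
      rw [← pow_succ']
      congr 1
      omega

end Crest.Agent.R290
end

-- ▼ part R290/DiagGen
section

/-!
# Row 290: the diagonalisation, for generators given as hypotheses
-/

set_option autoImplicit false
set_option linter.dupNamespace false

namespace Crest.Agent.R290

open Crest.Agent.Lib.PT Crest.WLRefine Function

/-- data of the self-referential instance: number of stacks, base, digits, order -/
abbrev DData : Type := Un × Un × Un × ℕ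

/-- number of dummies -/
def padOf (E : ℕ) (p : Flat) (d : DData) : ℕ :=
  min d.2.2.2 (d.2.1.val ^ E) - baseOrder p d.1.val d.2.1.val d.2.2.1.val

/-- the code of the pair of graphs -/
def Rdiag (E : ℕ) (p : Flat) (d : DData) : List Bool :=
  graphA p d.1.val d.2.1.val d.2.2.1.val (padOf E p d) false ++
    graphA p d.1.val d.2.1.val d.2.2.1.val (padOf E p d) true

theorem ptu_padOf (hPB : PTU (fun d : Flat × Un × Un × Un =>
    baseOrder d.1 d.2.1.val d.2.2.1.val d.2.2.2.val)) (E : ℕ) : PTU (fun x : Flat × DData => padOf E x.1 x.2) := by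
  unfold padOf
  refine PTU.sub (PTF.natMinUn (by fun_prop) (PTU.pow (PTU.val (by fun_prop)) E)) ?_
  exact PTU.comp (n := fun d : Flat × Un × Un × Un => baseOrder d.1 d.2.1.val d.2.2.1.val d.2.2.2.val)
    (f := fun x : Flat × DData => (x.1, x.2.1, x.2.2.1, x.2.2.2.1)) hPB (by fun_prop)

theorem ptf_graphA_pad (hPB : PTU (fun d : Flat × Un × Un × Un =>
    baseOrder d.1 d.2.1.val d.2.2.1.val d.2.2.2.val))
    (hGA : ∀ tw : Bool, PTF (fun d : Flat × Un × Un × Un × Un =>
      graphA d.1 d.2.1.val d.2.2.1.val d.2.2.2.1.val d.2.2.2.2.val tw)) (E : ℕ) (tw : Bool) : PTF (fun x : Flat × DData =>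
    graphA x.1 x.2.1.val x.2.2.1.val x.2.2.2.1.val (padOf E x.1 x.2) tw) := by
  have h : PTF (fun x : Flat × DData => Un.mk (padOf E x.1 x.2)) := ptu_padOf hPB E
  exact PTF.comp (g := fun d : Flat × Un × Un × Un × Un =>
    graphA d.1 d.2.1.val d.2.2.1.val d.2.2.2.1.val d.2.2.2.2.val tw)
    (f := fun x : Flat × DData => (x.1, x.2.1, x.2.2.1, x.2.2.2.1, Un.mk (padOf E x.1 x.2)))
    (hGA tw) (by fun_prop)

theorem ptf_Rdiag (hPB : PTU (fun d : Flat × Un × Un × Un =>
    baseOrder d.1 d.2.1.val d.2.2.1.val d.2.2.2.val))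
    (hGA : ∀ tw : Bool, PTF (fun d : Flat × Un × Un × Un × Un =>
      graphA d.1 d.2.1.val d.2.2.1.val d.2.2.2.1.val d.2.2.2.2.val tw)) (E : ℕ) :
    PTF (fun x : Flat × DData => Bits.mk (Rdiag E x.1 x.2)) :=
  PTF.bitsMk (PTF.append (ptf_graphA_pad hPB hGA E false) (ptf_graphA_pad hPB hGA E true))

/-- polynomials over `ℕ` are bounded by a power -/
theorem polyEval_le (q : Polynomial ℕ) (x : ℕ) :
    q.eval x ≤ q.eval 1 * (x + 1) ^ q.natDegree := by
  rw [Polynomial.eval_eq_sum_range, Polynomial.eval_eq_sum_range, Finset.sum_mul]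
  refine Finset.sum_le_sum fun i hi => ?_
  rw [one_pow, mul_one]
  refine Nat.mul_le_mul_left _ ?_
  calc x ^ i ≤ (x + 1) ^ i := Nat.pow_le_pow_left (by omega) i
    _ ≤ (x + 1) ^ q.natDegree :=
      Nat.pow_le_pow_right (by omega) (Nat.lt_succ_iff.mp (Finset.mem_range.mp hi))

theorem exists_stacksLe (F : Flat) : ∃ s, StacksLe s F := by
  refine ⟨(F.map FInstr.stack).sum, fun i hi => ?_⟩
  exact List.single_le_sum (by simp) _ (List.mem_map_of_mem hi)

theorem size_le_of_le_pow {n ν E : ℕ} (h : n ≤ ν ^ E) (hE : 1 ≤ E) : n.size ≤ E * ν := by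
  rw [Nat.size_le]
  calc n ≤ ν ^ E := h
    _ < (2 ^ ν) ^ E := Nat.pow_lt_pow_left Nat.lt_two_pow_self (by omega)
    _ = 2 ^ (E * ν) := by rw [← pow_mul, mul_comm]

/-- The diagonalisation for a family `Rel` of relations controlled by the anchor encoding. -/
theorem diag_gen (hSize : ∃ c e : ℕ, ∀ (p : Flat) (Ks B D : ℕ), 2 ≤ B → 1 ≤ D →
      baseOrder p Ks B D ≤ c * (p.length + 1) ^ e * (Ks + 1) ^ e * (D + 1) ^ e * B ^ 6)
    (hPB : PTU (fun d : Flat × Un × Un × Un =>
      baseOrder d.1 d.2.1.val d.2.2.1.val d.2.2.2.val))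
    (hGA : ∀ tw : Bool, PTF (fun d : Flat × Un × Un × Un × Un =>
      graphA d.1 d.2.1.val d.2.2.1.val d.2.2.2.1.val d.2.2.2.2.val tw)) (Rel : ℕ → ∀ n : ℕ, (Fin n → Fin n → Bool) → (Fin n → Fin n → Bool) → Prop)
    (s : ℕ) (hs : s ≤ 2)
    (hcore : ∀ (p : Flat) (Ks B D pad : ℕ), WF p Ks → 2 ≤ B → 1 ≤ D →
      baseOrder p Ks B D + 2 ≤ pad →
      ∃ (n : ℕ) (G0 G1 : Fin n → Fin n → Bool), n = baseOrder p Ks B D + pad ∧
      SimpleConnDiamTwo G0 ∧ SimpleConnDiamTwo G1 ∧
      adjMatrixCode G0 = graphA p Ks B D pad false ∧ adjMatrixCode G1 = graphA p Ks B D pad true ∧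
      ((∃ t < B ^ D, FHalts p t) → ¬ Rel (D + s) n G0 G1) ∧
      (RunsForever p → Rel (D + s) n G0 G1)) (a : ℕ) :
    ∃ c : ℝ, 0 < c ∧ ∃ k₀ : ℕ, ∀ k ≥ k₀, ∀ (F : Flat) (C : ℕ) (T : ℕ → ℕ),
      Decides F (Rel k) (fun n => C * (n + T n + 1) ^ a) →
        ∃ n₀ : ℕ, ∀ n ≥ n₀, (n : ℝ) ^ (c * k) ≤ T n := by
  obtain ⟨cb, eb, hb⟩ := hSize
  obtain ⟨q, A, hq⟩ := selfref (ptf_Rdiag hPB hGA (eb + 7 + 1))
  obtain ⟨c, hc, k₀, hk₀⟩ := diag_arith (eb + 7) q.natDegree a (by omega)
  refine ⟨c, hc, k₀ + s + 3, fun k hk F C T hF => ?_⟩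
  obtain ⟨sF, hsF⟩ := exists_stacksLe F
  obtain ⟨D, hD⟩ : ∃ D, k = D + s := ⟨k - s, by omega⟩
  obtain ⟨Ks, hKs⟩ : ∃ Ks, Ks = max sF A + 1 := ⟨_, rfl⟩
  obtain ⟨C1, hC1⟩ : ∃ C1, C1 = 2 * Ks + 2 * D + 5 + (eb + 7 + 1) := ⟨_, rfl⟩
  obtain ⟨C2, hC2⟩ : ∃ C2, C2 = 4 * sz F + C1 + A + 1 := ⟨_, rfl⟩
  obtain ⟨C3, hC3⟩ : ∃ C3, C3 = cb * C2 ^ eb * (Ks + 1) ^ eb * (D + 1) ^ eb := ⟨_, rfl⟩
  obtain ⟨C4, hC4⟩ : ∃ C4, C4 = q.eval 1 * (sz F + C1 + 1) ^ q.natDegree := ⟨_, rfl⟩
  obtain ⟨n₀, hn₀⟩ := hk₀ k (by omega) (C4 + C + (2 * C3 + 2))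
  refine ⟨n₀, fun n hn => ?_⟩
  by_contra hcon
  push Not at hcon
  obtain ⟨ν, hν2, hνC, hνn, hnν, hT⟩ := hn₀ n hn
  have hTn := hT (T n) hcon
  clear hT hn₀ hk₀
  obtain ⟨p, hlen, hst, -, hH, hN⟩ := hq F ((Un.mk Ks, Un.mk ν, Un.mk D, n) : DData)
  -- sizes
  have hszn : n.size ≤ (eb + 7 + 1) * ν := size_le_of_le_pow hnν (by omega)
  have hszd : sz ((Un.mk Ks, Un.mk ν, Un.mk D, n) : DData) ≤ C1 * ν := by
    have h1 : sz ((Un.mk Ks, Un.mk ν, Un.mk D, n) : DData) =
        2 * Ks + 1 + (2 * ν + 1 + (2 * D + 1 + n.size)) := by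
      simp [Nat.size_eq_bits_len, sz, enc, PTCode.enc]
    rw [h1, hC1]
    have h2 : (2 * Ks + 2 * D + 5 + (eb + 7 + 1)) * ν =
      (2 * Ks + 2 * D + 3) * ν + 2 * ν + (eb + 7 + 1) * ν := by ring
    have h3 : (2 * Ks + 2 * D + 3) * 1 ≤ (2 * Ks + 2 * D + 3) * ν := Nat.mul_le_mul_left _ (by omega)
    omega
  have hplen : p.length + 1 ≤ C2 * ν := by
    have h2 : C2 * ν = (4 * sz F + A + 1) * ν + C1 * ν := by rw [hC2]; ring
    have h3 : (4 * sz F + A + 1) * 1 ≤ (4 * sz F + A + 1) * ν := Nat.mul_le_mul_left _ (by omega)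
    omega
  have hD1 : 1 ≤ D := by omega
  have hbase : baseOrder p Ks ν D ≤ C3 * ν ^ (eb + 6) := by
    refine (hb p Ks ν D hν2 hD1).trans ?_
    calc cb * (p.length + 1) ^ eb * (Ks + 1) ^ eb * (D + 1) ^ eb * ν ^ 6
        ≤ cb * (C2 * ν) ^ eb * (Ks + 1) ^ eb * (D + 1) ^ eb * ν ^ 6 := by gcongr
      _ = C3 * ν ^ (eb + 6) := by rw [hC3]; ring
  have hsmall : 2 * baseOrder p Ks ν D + 2 ≤ n := by
    have h1 : 1 ≤ ν ^ (eb + 6) := Nat.one_le_pow _ _ (by omega)
    calc 2 * baseOrder p Ks ν D + 2 ≤ 2 * (C3 * ν ^ (eb + 6)) + 2 * ν ^ (eb + 6) := by omega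
      _ = (2 * C3 + 2) * ν ^ (eb + 6) := by ring
      _ ≤ ν * ν ^ (eb + 6) := Nat.mul_le_mul_right _ (by omega)
      _ = ν ^ (eb + 7) := by rw [← pow_succ']
      _ ≤ n := hνn
  have hpad : padOf (eb + 7 + 1) p ((Un.mk Ks, Un.mk ν, Un.mk D, n) : DData) =
      n - baseOrder p Ks ν D := by
    unfold padOf
    rw [min_eq_left hnν]
  have hWF : WF p Ks := fun i hi => by
    have := hst sF hsF i hi
    omega
  obtain ⟨n', G0, G1, hn', hG0, hG1, hc0, hc1, hacc, hrej⟩ :=
    hcore p Ks ν D (n - baseOrder p Ks ν D) hWF hν2 hD1 (by omega)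
  have hnn : n' = n := by omega
  subst hnn
  have hcode : adjMatrixCode G0 ++ adjMatrixCode G1 =
      Rdiag (eb + 7 + 1) p ((Un.mk Ks, Un.mk ν, Un.mk D, n') : DData) := by
    unfold Rdiag
    rw [hpad, hc0, hc1]
  have hdec := hF n' G0 G1 hG0 hG1
  rw [hcode] at hdec
  rw [hD] at hdec hTn
  by_cases hrel : Rel (D + s) n' G0 G1
  · have h1 := hH _ (hdec.1 hrel)
    refine hacc ⟨_, ?_, h1⟩ hrel
    have h2 : q.eval (sz F + sz ((Un.mk Ks, Un.mk ν, Un.mk D, n') : DData)) ≤
        C4 * ν ^ q.natDegree := by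
      refine (polyEval_le q _).trans ?_
      rw [hC4, mul_assoc, ← mul_pow]
      refine Nat.mul_le_mul_left _ (Nat.pow_le_pow_left ?_ _)
      have h3 : (sz F + C1 + 1) * ν = (sz F + 1) * ν + C1 * ν := by ring
      have h4 : (sz F + 1) * 1 ≤ (sz F + 1) * ν := Nat.mul_le_mul_left _ (by omega)
      omega
    have h5 : C4 * ν ^ q.natDegree ≤ (C4 + C + (2 * C3 + 2)) * ν ^ q.natDegree :=
      Nat.mul_le_mul_right _ (by omega)
    have h6 : C * (n' + T n' + 1) ^ a ≤ (C4 + C + (2 * C3 + 2)) * (n' + T n' + 1) ^ a :=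
      Nat.mul_le_mul_right _ (by omega)
    have h7 : ν ^ (D + s - 2) ≤ ν ^ D := Nat.pow_le_pow_right (by omega) (by omega)
    have h8 : q.eval (sz F + sz ((Un.mk Ks, Un.mk ν, Un.mk D, n') : DData)) +
        C * (n' + T n' + 1) ^ a < ν ^ D := by omega
    exact h8
  · exact hrel (hrej (hN (hdec.2 hrel)))

end Crest.Agent.R290
end

-- ▼ part R290/Size
section

/-!
# Row 290: size bound for the anchor encoding (`baseOrder_le`)
-/

set_option autoImplicit false

namespace Crest.Agent.R290

namespace Size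

theorem length_flatMap_le {α β : Type} (l : List α) (f : α → List β) (k : ℕ)
    (h : ∀ a ∈ l, (f a).length ≤ k) : (l.flatMap f).length ≤ l.length * k := by
  induction l with
  | nil => simp
  | cons a l ih =>
    rw [List.flatMap_cons, List.length_append, List.length_cons]
    have h1 := h a (by simp)
    have h2 := ih (fun b hb => h b (by simp [hb]))
    nlinarith

theorem bools_length (n : ℕ) : (bools n).length = 2 ^ n := by
  induction n with
  | zero => rfl
  | succ n ih =>
    rw [bools, List.length_flatMap]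
    simp [ih, pow_succ]

theorem fibre_length_le {C X : Type} (G : AG C X) (b : C → Bool) (c : C) :
    (G.fibre b c).length ≤ 2 ^ (G.vars c).length := by
  rw [← bools_length]
  exact List.length_filter_le _ _

theorem dd_length_le {X : Type} [DecidableEq X] (l : List X) : (Net.dd l).length ≤ l.length := by
  unfold Net.dd
  induction l with
  | nil => simp
  | cons a l ih =>
    rw [List.foldr_cons]
    split
    · exact ih.trans (by simp)
    · simpa using ih

/-- order of the anchor encoding, number of objects and ports known -/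
theorem encA_order_le {O X : Type} [DecidableEq O] [DecidableEq X] (I : XI O X) (P N V : ℕ)
    (hP : ∀ u ∈ I.objs, (I.ports u).length ≤ P) (hN : I.objs.length ≤ N) (hV : I.vl.length ≤ V) :
    (encA I 0).order (fun _ => false) ≤ N * 2 ^ P + V * 2 + (N + V + 1) := by
  unfold AG.order AG.items
  have hcls : (encA I 0).cls = I.objs.map (fun u => Sum.inl (Sum.inl u)) ++
      I.vl.map (fun x => Sum.inl (Sum.inr x)) ++
      (List.range (I.base.length + 1)).map (fun i => Sum.inr (Sum.inl i)) := by
    simp [encA, XI.base, Function.comp_def]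
  rw [hcls, List.flatMap_append, List.flatMap_append, List.length_append, List.length_append]
  have h1 : ((I.objs.map (fun u => (Sum.inl (Sum.inl u) : CA O X))).flatMap fun c =>
      ((encA I 0).fibre (fun _ => false) c).map fun α => (c, α)).length ≤ N * 2 ^ P := by
    rw [List.flatMap_map]
    refine (length_flatMap_le _ _ (2 ^ P) ?_).trans (Nat.mul_le_mul_right _ hN)
    intro u hu
    rw [List.length_map]
    exact (fibre_length_le _ _ _).trans (Nat.pow_le_pow_right (by norm_num) (hP u hu))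
  have h2 : ((I.vl.map (fun x => (Sum.inl (Sum.inr x) : CA O X))).flatMap fun c =>
      ((encA I 0).fibre (fun _ => false) c).map fun α => (c, α)).length ≤ V * 2 := by
    rw [List.flatMap_map]
    refine (length_flatMap_le _ _ 2 ?_).trans (Nat.mul_le_mul_right _ hV)
    intro u hu
    rw [List.length_map]
    exact (fibre_length_le _ _ _).trans (le_of_eq (by simp [encA]))
  have h3 : (((List.range (I.base.length + 1)).map
      (fun i => (Sum.inr (Sum.inl i) : CA O X))).flatMap fun c =>
      ((encA I 0).fibre (fun _ => false) c).map fun α => (c, α)).length ≤ N + V + 1 := by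
    rw [List.flatMap_map]
    refine (length_flatMap_le _ _ 1 ?_).trans ?_
    · intro u hu
      rw [List.length_map]
      exact (fibre_length_le _ _ _).trans (le_of_eq (by simp [encA]))
    · simp only [List.length_range, mul_one, XI.base, List.length_append, List.length_map]
      omega
  omega

/-- number of premises at most `3` -/
def Small (rs : List Rule) : Prop := ∀ r ∈ rs, r.1.length ≤ 3

theorem arms_length (r : Rule) : (Rule.arms r).length = 2 * r.1.length + 1 := by
  unfold Rule.arms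
  rw [List.length_append, List.length_flatMap]
  simp [mul_comm]

theorem small_getD (rs : List Rule) (hs : Small rs) (D g : ℕ) :
    ((gadgets rs D).getD g (tgtRule, 0)).1.1.length ≤ 3 := by
  by_cases hg : g < (gadgets rs D).length
  · have hmem : (gadgets rs D).getD g (tgtRule, 0) ∈ gadgets rs D := by
      rw [List.getD_eq_getElem _ _ hg]
      exact List.getElem_mem _
    generalize (gadgets rs D).getD g (tgtRule, 0) = q at hmem ⊢
    unfold gadgets at hmem
    rw [List.mem_append, List.mem_flatMap] at hmem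
    rcases hmem with ⟨r, hr, hq⟩ | hq
    · have : q.1 = r := by
        split at hq
        · rw [List.mem_map] at hq
          obtain ⟨f, _, rfl⟩ := hq
          rfl
        · simp only [List.mem_singleton] at hq
          rw [hq]
      rw [this]
      exact hs r hr
    · simp only [List.mem_singleton] at hq
      rw [hq]
      simp [tgtRule]
  · rw [List.getD_eq_default _ _ (by omega)]
    simp [tgtRule]

theorem narm_le (rs : List Rule) (hs : Small rs) (B D g : ℕ) : (ruleNet rs B D).narm g ≤ 7 := by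
  have := small_getD rs hs D g
  simp only [ruleNet, arms_length]
  omega

theorem gadgets_length_le (rs : List Rule) (D : ℕ) :
    (gadgets rs D).length ≤ (rs.length) * (D + 1) + 1 := by
  unfold gadgets
  rw [List.length_append]
  have h1 := length_flatMap_le rs (fun r => if Rule.usesT r then
    (List.range D).map (fun f => (r, f + 1)) else [(r, 0)]) (D + 1) (by
      intro r _
      split <;> simp)
  simp only [List.length_singleton]
  omega

theorem letters_length_le (B D f j : ℕ) (hB : 2 ≤ B) : (letters B D f j).length ≤ B ^ 3 := by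
  have hB1 : 1 ≤ B ^ 3 := Nat.one_le_pow _ _ (by omega)
  unfold letters
  split
  · simpa using hB1
  · have key : ∀ l : List (ℕ × ℕ), l.length ≤ B → (l.flatMap fun p =>
        (List.range B).flatMap fun a => (List.range B).map fun c =>
          ((p.1, p.2, a, c) : Let)).length ≤ B ^ 3 := by
      intro l hl
      refine (length_flatMap_le _ _ (B * B) ?_).trans ?_
      · intro p _
        refine (length_flatMap_le _ _ B ?_).trans (by simp)
        intro a _
        simp
      · calc l.length * (B * B) ≤ B * (B * B) := Nat.mul_le_mul_right _ hl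
          _ = B ^ 3 := by ring
    apply key
    split
    · simp
    · split
      · simp; omega
      · split
        · simp
        · simp

theorem cols_length_le (rs : List Rule) (hs : Small rs) (B D g : ℕ) :
    ((ruleNet rs B D).cols g).length ≤ 7 * (D + 3) + 1 := by
  unfold Net.cols
  rw [List.length_cons]
  have h := length_flatMap_le (List.range ((ruleNet rs B D).narm g))
    (fun a => (List.range (ruleNet rs B D).L).map fun p => ((g, a, p + 1) : Col)) (D + 3) (by
      intro a _
      simp [Net.L, ruleNet])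
  rw [List.length_range] at h
  have h7 := narm_le rs hs B D g
  have : (ruleNet rs B D).narm g * (D + 3) ≤ 7 * (D + 3) := Nat.mul_le_mul_right _ h7
  omega

theorem edges_length_le (rs : List Rule) (hs : Small rs) (B D : ℕ) (κ : Col) :
    ((ruleNet rs B D).edges κ).length ≤ 7 := by
  unfold Net.edges
  split
  · rw [List.length_map, List.length_range]
    exact narm_le rs hs B D _
  · simp

theorem ports_length_le (rs : List Rule) (hs : Small rs) (B D : ℕ) (u : NObj Let) :
    ((ruleNet rs B D).ports u).length ≤ 9 := by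
  unfold Net.ports
  have h := edges_length_le rs hs B D u.1
  rw [List.length_append, List.length_append, List.length_map]
  have h1 : (if 0 < u.2.1 then [Net.U (H := Hub) u.1 u.2.1 u.2.2.1] else []).length ≤ 1 := by
    split <;> simp
  have h2 : (if u.2.1 + 1 < (ruleNet rs B D).m then
      [Net.U (H := Hub) u.1 (u.2.1 + 1) u.2.2.2] else []).length ≤ 1 := by
    split <;> simp
  omega

theorem objs_length_le (rs : List Rule) (hs : Small rs) (B D : ℕ) (hB : 2 ≤ B) :
    (ruleNet rs B D).objs.length ≤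
      (rs.length * (D + 1) + 1) * ((7 * (D + 3) + 1) * ((D + 1) * B ^ 6)) := by
  unfold Net.objs
  refine (length_flatMap_le _ _ ((7 * (D + 3) + 1) * ((D + 1) * B ^ 6)) ?_).trans ?_
  · intro g _
    refine (length_flatMap_le _ _ ((D + 1) * B ^ 6) ?_).trans ?_
    · intro κ _
      refine (length_flatMap_le _ _ (B ^ 6) ?_).trans ?_
      · intro i _
        refine (length_flatMap_le _ _ (B ^ 3) ?_).trans ?_
        · intro x _
          rw [List.length_map]
          exact letters_length_le B D _ _ hB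
        · calc _ ≤ B ^ 3 * B ^ 3 := Nat.mul_le_mul_right _ (letters_length_le B D _ _ hB)
            _ = B ^ 6 := by ring
      · rw [List.length_range]
        exact le_of_eq rfl
    · exact Nat.mul_le_mul_right _ (cols_length_le rs hs B D g)
  · rw [List.length_range]
    exact Nat.mul_le_mul_right _ (gadgets_length_le rs D)

theorem vl_length_le (rs : List Rule) (hs : Small rs) (B D : ℕ) :
    (ruleNet rs B D).xi.vl.length ≤ (ruleNet rs B D).objs.length * 9 :=
  (dd_length_le _).trans (length_flatMap_le _ _ 9 fun u _ => ports_length_le rs hs B D u)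

theorem persist_small (Ks i k : ℕ) : Small (persist Ks i k) := by
  intro r hr
  unfold persist at hr
  rw [List.mem_map] at hr
  obtain ⟨k', _, rfl⟩ := hr
  simp

theorem persist_length_le (Ks i k : ℕ) : (persist Ks i k).length ≤ Ks := by
  unfold persist
  rw [List.length_map]
  exact (List.length_filter_le _ _).trans (by simp)

theorem instrRules_small (Ks n i : ℕ) (c : FInstr) : Small (instrRules Ks n i c) := by
  intro r hr
  cases c with
  | push k b j =>
    simp only [instrRules, List.mem_append] at hr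
    rcases hr with hr | hr
    · simp only [List.mem_cons, List.not_mem_nil, or_false] at hr
      rcases hr with rfl | rfl | rfl | rfl <;> simp
    · exact persist_small _ _ _ r hr
  | pop k e t f =>
    simp only [instrRules, List.mem_append] at hr
    rcases hr with hr | hr
    · simp only [List.mem_cons, List.not_mem_nil, or_false] at hr
      rcases hr with rfl | rfl | rfl | rfl | rfl <;> simp
    · exact persist_small _ _ _ r hr

theorem instrRules_length_le (Ks n i : ℕ) (c : FInstr) : (instrRules Ks n i c).length ≤ Ks + 5 := by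
  cases c with
  | push k b j =>
    have := persist_length_le Ks i k
    simp only [instrRules, List.length_append, List.length_cons, List.length_nil]
    omega
  | pop k e t f =>
    have := persist_length_le Ks i k
    simp only [instrRules, List.length_append, List.length_cons, List.length_nil]
    omega

theorem progRules_small (p : Flat) (Ks : ℕ) : Small (progRules p Ks) := by
  intro r hr
  unfold progRules at hr
  rw [List.mem_append, List.mem_append] at hr
  rcases hr with (hr | hr) | hr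
  · simp only [List.mem_singleton] at hr
    rw [hr]; simp
  · rw [List.mem_map] at hr
    obtain ⟨k, _, rfl⟩ := hr
    simp
  · rw [List.mem_flatMap] at hr
    obtain ⟨ci, _, hr⟩ := hr
    exact instrRules_small _ _ _ _ r hr

theorem progRules_length_le (p : Flat) (Ks : ℕ) :
    (progRules p Ks).length ≤ 1 + Ks + p.length * (Ks + 5) := by
  unfold progRules
  rw [List.length_append, List.length_append, List.length_map, List.length_range]
  have := length_flatMap_le p.zipIdx (fun ci => instrRules Ks p.length ci.2 ci.1) (Ks + 5)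
    (fun ci _ => instrRules_length_le _ _ _ _)
  rw [List.length_zipIdx] at this
  simp only [List.length_singleton]
  omega

theorem allRules_small (p : Flat) (Ks : ℕ) : Small (allRules p Ks) := by
  intro r hr
  unfold allRules unlock at hr
  rw [List.mem_append] at hr
  rcases hr with hr | hr
  · exact progRules_small p Ks r hr
  · rw [List.mem_map] at hr
    obtain ⟨h, _, rfl⟩ := hr
    simp

theorem hubsOf_length_le (rs : List Rule) (hs : Small rs) : (hubsOf rs).length ≤ rs.length * 4 := by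
  unfold hubsOf
  refine length_flatMap_le _ _ 4 ?_
  intro r hr
  have := hs r hr
  simp only [List.length_map, List.length_append, List.length_singleton]
  omega

theorem allRules_length_le (p : Flat) (Ks : ℕ) :
    (allRules p Ks).length ≤ 27 * ((p.length + 1) * (Ks + 1)) := by
  unfold allRules unlock
  rw [List.length_append, List.length_map, List.length_append]
  have h1 := hubsOf_length_le (progRules p Ks) (progRules_small p Ks)
  have h2 := progRules_length_le p Ks
  simp only [List.length_cons, List.length_nil]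
  have h3 : (1 + Ks + p.length * (Ks + 5)) * 5 + 2 ≤ 27 * ((p.length + 1) * (Ks + 1)) := by
    nlinarith [Nat.zero_le (p.length * Ks), Nat.zero_le p.length, Nat.zero_le Ks]
  omega

end Size

open Size in
theorem baseOrder_le : ∃ c e : ℕ, ∀ (p : Flat) (Ks B D : ℕ), 2 ≤ B → 1 ≤ D →
    baseOrder p Ks B D ≤ c * (p.length + 1) ^ e * (Ks + 1) ^ e * (D + 1) ^ e * B ^ 6 := by
  refine ⟨541 * (28 * 22), 3, ?_⟩
  intro p Ks B D hB hD
  have hs := allRules_small p Ks
  set rs := allRules p Ks with hrs
  set N := (ruleNet rs B D).objs.length with hN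
  have h1 : baseOrder p Ks B D ≤ N * 2 ^ 9 + N * 9 * 2 + (N + N * 9 + 1) :=
    encA_order_le (progXI p Ks B D) 9 N (N * 9) (fun u _ => ports_length_le rs hs B D u)
      le_rfl (vl_length_le rs hs B D)
  have h2 : N ≤ (rs.length * (D + 1) + 1) * ((7 * (D + 3) + 1) * ((D + 1) * B ^ 6)) :=
    objs_length_le rs hs B D hB
  have h3 : rs.length ≤ 27 * ((p.length + 1) * (Ks + 1)) := allRules_length_le p Ks
  set A := (p.length + 1) * (Ks + 1) with hA
  have hA1 : 1 ≤ A := Nat.succ_le_of_lt (Nat.mul_pos (by omega) (by omega))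
  have h4 : rs.length * (D + 1) + 1 ≤ 28 * (A * (D + 1)) := by
    have h5 : rs.length * (D + 1) ≤ 27 * A * (D + 1) := Nat.mul_le_mul_right _ h3
    have h6 : 1 ≤ A * (D + 1) := Nat.mul_pos (by omega) (by omega)
    nlinarith
  have h5 : 7 * (D + 3) + 1 ≤ 22 * (D + 1) := by omega
  have hB1 : 1 ≤ B ^ 6 := Nat.one_le_pow _ _ (by omega)
  have h6 : N ≤ 28 * 22 * (A * (D + 1) ^ 3 * B ^ 6) := by
    calc N ≤ _ := h2
      _ ≤ (28 * (A * (D + 1))) * ((22 * (D + 1)) * ((D + 1) * B ^ 6)) :=
        Nat.mul_le_mul h4 (Nat.mul_le_mul_right _ h5)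
      _ = _ := by ring
  have hX1 : 1 ≤ A * (D + 1) ^ 3 * B ^ 6 :=
    Nat.mul_pos (Nat.mul_pos (by omega) (Nat.pow_pos (by omega))) hB1
  have h7 : baseOrder p Ks B D ≤ 541 * (28 * 22) * (A * (D + 1) ^ 3 * B ^ 6) := by
    nlinarith
  have h8 : A ≤ (p.length + 1) ^ 3 * (Ks + 1) ^ 3 := by
    have e1 : p.length + 1 ≤ (p.length + 1) ^ 3 := Nat.le_self_pow (by norm_num) _
    have e2 : Ks + 1 ≤ (Ks + 1) ^ 3 := Nat.le_self_pow (by norm_num) _
    exact Nat.mul_le_mul e1 e2
  calc baseOrder p Ks B D ≤ _ := h7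
    _ ≤ 541 * (28 * 22) * ((p.length + 1) ^ 3 * (Ks + 1) ^ 3 * (D + 1) ^ 3 * B ^ 6) := by
        gcongr
    _ = _ := by ring

end Crest.Agent.R290
end

-- ▼ part R290/TMDec
section

/-!
# Row 290: multi-stack machines as flat deciders
-/

set_option autoImplicit false

namespace Crest.Agent.R290

open Crest.WLRefine Crest.Enc Crest.Agent.Lib.PT Function Turing

theorem length_natCode_le (n : ℕ) : (natCode n).length ≤ 2 * n + 2 := by
  have h1 : (natCode n).length = 2 * n.bits.length + 2 := by
    unfold natCode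
    simp [List.length_flatten, Function.comp_def]
    omega
  have h2 : n.bits.length = n.size := Nat.size_eq_bits_len n
  have h3 : n.size ≤ n := by
    rw [Nat.size_le]
    exact Nat.lt_two_pow_self
  omega

theorem length_pairCode {n : ℕ} (G H : Fin n → Fin n → Bool) :
    (adjMatrixCode G ++ adjMatrixCode H).length = 2 * ((natCode n).length + n * n) := by
  unfold adjMatrixCode
  simp [List.length_flatMap]
  ring

theorem mem_jointEquivLang_iff {k n : ℕ} {G H : Fin n → Fin n → Bool} (hG : IsSimple G)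
    (hH : IsSimple H) : adjMatrixCode G ++ adjMatrixCode H ∈ jointEquivLang k ↔ JEquiv k G H := by
  constructor
  · rintro ⟨n', m', G', H', _, _, h, he⟩
    obtain ⟨h1, h2, h3⟩ := adjMatrixCode_append_inj he
    subst h1
    have h2' : G = G' := h2
    subst h2'
    have h3' : adjMatrixCode H ++ [] = adjMatrixCode H' ++ [] := by
      rw [List.append_nil, List.append_nil, h3]
    obtain ⟨h4, h5, _⟩ := adjMatrixCode_append_inj h3'
    subst h4
    have h5' : H = H' := h5
    subst h5'
    exact h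
  · intro h
    exact ⟨n, n, G, H, hG, hH, h, rfl⟩

theorem mem_sepEquivLang_iff {k n : ℕ} {G H : Fin n → Fin n → Bool} (hG : IsSimple G)
    (hH : IsSimple H) : adjMatrixCode G ++ adjMatrixCode H ∈ sepEquivLang k ↔ SEquiv k G H := by
  constructor
  · rintro ⟨n', m', G', H', _, _, h, he⟩
    obtain ⟨h1, h2, h3⟩ := adjMatrixCode_append_inj he
    subst h1
    have h2' : G = G' := h2
    subst h2'
    have h3' : adjMatrixCode H ++ [] = adjMatrixCode H' ++ [] := by
      rw [List.append_nil, List.append_nil, h3]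
    obtain ⟨h4, h5, _⟩ := adjMatrixCode_append_inj h3'
    subst h4
    have h5' : H = H' := h5
    subst h5'
    exact h
  · intro h
    exact ⟨n, n, G, H, hG, hH, h, rfl⟩

/-- A machine deciding a language on the promise set decides the relation by halting. -/
theorem tm_decides (L : Set (List Bool))
    (E : ∀ n : ℕ, (Fin n → Fin n → Bool) → (Fin n → Fin n → Bool) → Prop)
    (hLE : ∀ (n : ℕ) (G H : Fin n → Fin n → Bool), IsSimple G → IsSimple H →
      (adjMatrixCode G ++ adjMatrixCode H ∈ L ↔ E n G H))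
    (g : diamTwoPairCodes → Bool) (hg : ∀ x, x.1 ∈ L ↔ g x = true)
    (M : TM2ComputableInTime (fun x : diamTwoPairCodes => x.1) Computability.encodeBool g) :
    ∃ (F : Flat) (C : ℕ), Decides F E
      (fun n => C * (n + M.time (2 * ((natCode n).length + n * n)) + 1) ^ 2) := by
  obtain ⟨c, C, hc⟩ := cmd_of_tm2 M false
  refine ⟨runPart c 0, 20 * C + 1, fun n G H hG hH => ?_⟩
  have ha := hc ⟨adjMatrixCode G ++ adjMatrixCode H, n, G, H, hG, hH, rfl⟩
  simp only [Bool.false_xor, length_pairCode] at ha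
  have hiff := hg ⟨adjMatrixCode G ++ adjMatrixCode H, n, G, H, hG, hH, rfl⟩
  rw [hLE n G H hG.1 hH.1] at hiff
  refine ⟨fun hE => ?_, fun hE T => ?_⟩
  · rw [hiff.mp hE] at ha
    refine (runPart_haltsOn ha (l := []) rfl).mono ?_
    have h1 := length_natCode_le n
    set t := M.time (2 * ((natCode n).length + n * n))
    have h2 : 2 * ((natCode n).length + n * n) + t + 1 ≤ 5 * (n + t + 1) ^ 2 := by nlinarith
    have h3 : 1 ≤ (n + t + 1) ^ 2 := Nat.one_le_pow _ _ (by omega)
    calc 4 * (C * (2 * ((natCode n).length + n * n) + t + 1)) + 1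
        ≤ 4 * (C * (5 * (n + t + 1) ^ 2)) + (n + t + 1) ^ 2 := by gcongr
      _ = (20 * C + 1) * (n + t + 1) ^ 2 := by ring
  · have hf : g ⟨adjMatrixCode G ++ adjMatrixCode H, n, G, H, hG, hH, rfl⟩ = false := by
      rw [← Bool.not_eq_true]
      exact fun h => hE (hiff.mpr h)
    rw [hf] at ha
    exact runPart_loopsOn ha (by simp) T

end Crest.Agent.R290
end

-- ▼ part R290/MRAM
section

/-!
# A word-RAM interpreter as a polynomial-time step function with the program as data

* `TI`, `tabI`, `tab P`: table form of a word-RAM program.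
* `St`: state (program counter, halted flag, registers, memory), the last two as association lists.
* `ustep : Params → St → St`: one step; `ptf_ustep`: it is in `PTF` (jointly in the parameters).
* `rel_run`: simulation of `Crest.WordRAM.run` with random stream `0`.
* `sz_iterate_ustep`: absolute size bound for the states.
-/

set_option autoImplicit false
set_option linter.dupNamespace false

namespace Crest.Agent.R290.RAM

open Crest.WordRAM Crest.Agent.Lib.PT

/-- table form of an instruction: opcode and three arguments -/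
abbrev TI : Type := ℕ × ℕ × ℕ × ℕ

/-- table form of an instruction -/
def tabI {r : ℕ} : Instr r → TI
  | .const d v => (0, d.val, v, 0)
  | .copy d s => (1, d.val, s.val, 0)
  | .add d a b => (2, d.val, a.val, b.val)
  | .sub d a b => (3, d.val, a.val, b.val)
  | .mul d a b => (4, d.val, a.val, b.val)
  | .quot d a b => (5, d.val, a.val, b.val)
  | .rem d a b => (6, d.val, a.val, b.val)
  | .and d a b => (7, d.val, a.val, b.val)
  | .or d a b => (8, d.val, a.val, b.val)
  | .xor d a b => (9, d.val, a.val, b.val)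
  | .shl d a b => (10, d.val, a.val, b.val)
  | .shr d a b => (11, d.val, a.val, b.val)
  | .load d a => (12, d.val, a.val, 0)
  | .rand d => (13, d.val, 0, 0)
  | .store s a => (14, s.val, a.val, 0)
  | .jump l => (15, l, 0, 0)
  | .jumpIfZero a l => (16, l, a.val, 0)
  | .jumpIfEq a b l => (17, l, a.val, b.val)
  | .jumpIfLt a b l => (18, l, a.val, b.val)
  | .halt => (19, 0, 0, 0)

/-- table form of a program -/
def tab (P : Program) : List TI := P.code.map tabI

/-- the parameters of the interpreter: the program table and the word length in unary -/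
abbrev Params : Type := List TI × Un

/-- the parameters of a program and a word length -/
def params (P : Program) (w : ℕ) : Params := (tab P, ⟨w⟩)

/-- association lists -/
abbrev AL : Type := List (ℕ × ℕ)

/-- states: program counter, halted flag, registers, memory -/
abbrev St : Type := ℕ × Bool × AL × AL

/-- read an association list with default `0` -/
def rd (L : AL) (a : ℕ) : ℕ := ((L.find? (fun p => decide (p.1 = a))).map Prod.snd).getD 0

@[simp] theorem rd_nil (a : ℕ) : rd [] a = 0 := rfl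

theorem rd_cons (p : ℕ × ℕ) (L : AL) (a : ℕ) :
    rd (p :: L) a = if p.1 = a then p.2 else rd L a := by
  unfold rd
  by_cases h : p.1 = a <;> simp [h]

/-- the result of the arithmetic instructions -/
def alu (w op x y v : ℕ) : ℕ :=
  if op = 0 then v % 2 ^ w
  else if op = 1 then x
  else if op = 2 then (x + y) % 2 ^ w
  else if op = 3 then x - y
  else if op = 4 then (x * y) % 2 ^ w
  else if op = 5 then x / y
  else if op = 6 then x % y
  else if op = 7 then x &&& y
  else if op = 8 then x ||| y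
  else if op = 9 then x ^^^ y
  else if op = 10 then (if y < w then (x * 2 ^ (min y w)) % 2 ^ w else 0)
  else if op = 11 then (if y < w then x >>> y else 0)
  else if op = 12 then v
  else 0

/-- execute one table instruction -/
def uexec (w : ℕ) (i : TI) (s : St) : St :=
  if i.1 < 14 then
    (s.1 + 1, s.2.1,
      (i.2.1, alu w i.1 (rd s.2.2.1 i.2.2.1) (rd s.2.2.1 i.2.2.2)
        (if i.1 = 12 then rd s.2.2.2 (rd s.2.2.1 i.2.2.1) else i.2.2.1)) :: s.2.2.1, s.2.2.2)
  else if i.1 = 14 then
    (s.1 + 1, s.2.1, s.2.2.1, (rd s.2.2.1 i.2.2.1, rd s.2.2.1 i.2.1) :: s.2.2.2)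
  else if i.1 = 15 then (i.2.1, s.2)
  else if i.1 = 16 then ((if rd s.2.2.1 i.2.2.1 = 0 then i.2.1 else s.1 + 1), s.2)
  else if i.1 = 17 then ((if rd s.2.2.1 i.2.2.1 = rd s.2.2.1 i.2.2.2 then i.2.1 else s.1 + 1), s.2)
  else if i.1 = 18 then ((if rd s.2.2.1 i.2.2.1 < rd s.2.2.1 i.2.2.2 then i.2.1 else s.1 + 1), s.2)
  else (s.1, true, s.2.2)

/-- one step of the interpreter -/
def ustep (p : Params) (s : St) : St :=
  if s.2.1 = true then s else
  match p.1[min s.1 p.1.length]? with
  | none => (s.1, true, s.2.2)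
  | some i => uexec p.2.val i s

/-- the state represents the configuration -/
structure Rel {r : ℕ} (c : Cfg r) (s : St) : Prop where
  pc : s.1 = c.pc
  halted : s.2.1 = c.halted
  regs : ∀ j, rd s.2.2.1 j = c.reg j
  mem : ∀ a, rd s.2.2.2 a = c.mem a

theorem reg_fin {r : ℕ} (c : Cfg r) (j : Fin r) : c.reg j.val = c.regs j := by
  simp [Cfg.reg]

theorem reg_write {r : ℕ} (c : Cfg r) (R : Fin r → ℕ) (d : Fin r) (v : ℕ) (j : ℕ)
    (pc : ℕ) (mem : ℕ → ℕ) (dr : ℕ) (hR : R = c.regs) :
    ({ pc := pc, halted := c.halted, regs := writeReg R d v, mem := mem, drawn := dr } : Cfg r).reg j =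
      if d.val = j then v else c.reg j := by
  subst hR
  unfold Cfg.reg writeReg
  by_cases h : j < r
  · simp only [h, dif_pos]
    by_cases h2 : d.val = j
    · subst h2; simp
    · have : (⟨j, h⟩ : Fin r) ≠ d := by
        intro h3; apply h2; rw [← h3]
      simp [h2, this]
  · simp only [h, dif_neg, not_false_iff]
    have : d.val ≠ j := fun h2 => h (h2 ▸ d.isLt)
    simp [this]

theorem Rel.step {P : Program} {w : ℕ} {c : Cfg P.numRegs} {s : St} (h : Rel c s) :
    Rel (step P w (fun _ => 0) c) (ustep (params P w) s) := by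
  unfold WordRAM.step ustep
  rw [h.halted]
  by_cases hh : c.halted = true
  · simp only [hh, if_true]
    exact h
  have hh' : c.halted = false := by simpa using hh
  rw [if_neg hh, if_neg hh]
  have hget : (params P w).1[min s.1 (params P w).1.length]? = (P.code[c.pc]?).map tabI := by
    have : (params P w).1 = P.code.map tabI := rfl
    rw [this, h.pc, List.getElem?_map]
    congr 1
    rcases le_total c.pc (P.code.map tabI).length with h1 | h1
    · rw [min_eq_left h1]
    · rw [min_eq_right h1]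
      rw [List.getElem?_eq_none (by simp), List.getElem?_eq_none (by simpa using h1)]
  rw [hget]
  have hw : (params P w).2.val = w := rfl
  have R := h.regs
  have Mm := h.mem
  cases hI : P.code[c.pc]? with
  | none =>
    simp only [Option.map_none]
    exact ⟨h.pc, rfl, h.regs, h.mem⟩
  | some i =>
    simp only [Option.map_some, hw]
    cases i with
    | const d v =>
      refine ⟨by simp [uexec, tabI, h.pc], by simp [uexec, tabI, h.halted], fun j => ?_, fun a => ?_⟩
      · rw [reg_write c _ d _ j _ _ _ rfl]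
        simp [uexec, tabI, alu, rd_cons, R]
      · simpa [uexec, tabI] using h.mem a
    | copy d a =>
      refine ⟨by simp [uexec, tabI, h.pc], by simp [uexec, tabI, h.halted], fun j => ?_, fun a => ?_⟩
      · rw [reg_write c _ d _ j _ _ _ rfl]
        simp [uexec, tabI, alu, rd_cons, R, reg_fin]
      · simpa [uexec, tabI] using h.mem a
    | add d a b =>
      refine ⟨by simp [uexec, tabI, h.pc], by simp [uexec, tabI, h.halted], fun j => ?_, fun a => ?_⟩
      · rw [reg_write c _ d _ j _ _ _ rfl]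
        simp [uexec, tabI, alu, rd_cons, R, reg_fin]
      · simpa [uexec, tabI] using h.mem a
    | sub d a b =>
      refine ⟨by simp [uexec, tabI, h.pc], by simp [uexec, tabI, h.halted], fun j => ?_, fun a => ?_⟩
      · rw [reg_write c _ d _ j _ _ _ rfl]
        simp [uexec, tabI, alu, rd_cons, R, reg_fin]
      · simpa [uexec, tabI] using h.mem a
    | mul d a b =>
      refine ⟨by simp [uexec, tabI, h.pc], by simp [uexec, tabI, h.halted], fun j => ?_, fun a => ?_⟩
      · rw [reg_write c _ d _ j _ _ _ rfl]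
        simp [uexec, tabI, alu, rd_cons, R, reg_fin]
      · simpa [uexec, tabI] using h.mem a
    | quot d a b =>
      refine ⟨by simp [uexec, tabI, h.pc], by simp [uexec, tabI, h.halted], fun j => ?_, fun a => ?_⟩
      · rw [reg_write c _ d _ j _ _ _ rfl]
        simp [uexec, tabI, alu, rd_cons, R, reg_fin]
      · simpa [uexec, tabI] using h.mem a
    | rem d a b =>
      refine ⟨by simp [uexec, tabI, h.pc], by simp [uexec, tabI, h.halted], fun j => ?_, fun a => ?_⟩
      · rw [reg_write c _ d _ j _ _ _ rfl]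
        simp [uexec, tabI, alu, rd_cons, R, reg_fin]
      · simpa [uexec, tabI] using h.mem a
    | and d a b =>
      refine ⟨by simp [uexec, tabI, h.pc], by simp [uexec, tabI, h.halted], fun j => ?_, fun a => ?_⟩
      · rw [reg_write c _ d _ j _ _ _ rfl]
        simp [uexec, tabI, alu, rd_cons, R, reg_fin]
      · simpa [uexec, tabI] using h.mem a
    | or d a b =>
      refine ⟨by simp [uexec, tabI, h.pc], by simp [uexec, tabI, h.halted], fun j => ?_, fun a => ?_⟩
      · rw [reg_write c _ d _ j _ _ _ rfl]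
        simp [uexec, tabI, alu, rd_cons, R, reg_fin]
      · simpa [uexec, tabI] using h.mem a
    | xor d a b =>
      refine ⟨by simp [uexec, tabI, h.pc], by simp [uexec, tabI, h.halted], fun j => ?_, fun a => ?_⟩
      · rw [reg_write c _ d _ j _ _ _ rfl]
        simp [uexec, tabI, alu, rd_cons, R, reg_fin]
      · simpa [uexec, tabI] using h.mem a
    | shl d a b =>
      refine ⟨by simp [uexec, tabI, h.pc], by simp [uexec, tabI, h.halted], fun j => ?_, fun a => ?_⟩
      · rw [reg_write c _ d _ j _ _ _ rfl]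
        by_cases hb : c.regs b < w
        · simp [uexec, tabI, alu, rd_cons, R, reg_fin, hb, min_eq_left hb.le, Nat.shiftLeft_eq]
        · simp [uexec, tabI, alu, rd_cons, R, reg_fin, hb]
      · simpa [uexec, tabI] using h.mem a
    | shr d a b =>
      refine ⟨by simp [uexec, tabI, h.pc], by simp [uexec, tabI, h.halted], fun j => ?_, fun a => ?_⟩
      · rw [reg_write c _ d _ j _ _ _ rfl]
        simp [uexec, tabI, alu, rd_cons, R, reg_fin]
      · simpa [uexec, tabI] using h.mem a
    | load d a =>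
      refine ⟨by simp [uexec, tabI, h.pc], by simp [uexec, tabI, h.halted], fun j => ?_, fun a => ?_⟩
      · rw [reg_write c _ d _ j _ _ _ rfl]
        simp [uexec, tabI, alu, rd_cons, R, reg_fin, Mm]
      · simpa [uexec, tabI] using h.mem a
    | rand d =>
      refine ⟨by simp [uexec, tabI, h.pc], by simp [uexec, tabI, h.halted], fun j => ?_, fun a => ?_⟩
      · rw [reg_write c _ d _ j _ _ _ rfl]
        simp [uexec, tabI, alu, rd_cons, R]
      · simpa [uexec, tabI] using h.mem a
    | store d a =>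
      refine ⟨by simp [uexec, tabI, h.pc], by simp [uexec, tabI, h.halted], fun j => ?_, fun a' => ?_⟩
      · simpa [uexec, tabI, Cfg.reg] using h.regs j
      · simp only [uexec, tabI, writeMem, Mm, R, reg_fin]
        simp [eq_comm, rd_cons, Mm]
    | jump l =>
      exact ⟨by simp [uexec, tabI], by simp [uexec, tabI, h.halted],
        fun j => by simpa [uexec, tabI, Cfg.reg] using h.regs j, fun a => by simpa [uexec, tabI] using h.mem a⟩
    | jumpIfZero a l =>
      exact ⟨by simp [uexec, tabI, h.pc, R, reg_fin], by simp [uexec, tabI, h.halted],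
        fun j => by simpa [uexec, tabI, Cfg.reg] using h.regs j, fun a => by simpa [uexec, tabI] using h.mem a⟩
    | jumpIfEq a b l =>
      exact ⟨by simp [uexec, tabI, h.pc, R, reg_fin], by simp [uexec, tabI, h.halted],
        fun j => by simpa [uexec, tabI, Cfg.reg] using h.regs j, fun a => by simpa [uexec, tabI] using h.mem a⟩
    | jumpIfLt a b l =>
      exact ⟨by simp [uexec, tabI, h.pc, R, reg_fin], by simp [uexec, tabI, h.halted],
        fun j => by simpa [uexec, tabI, Cfg.reg] using h.regs j, fun a => by simpa [uexec, tabI] using h.mem a⟩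
    | halt =>
      exact ⟨by simp [uexec, tabI, h.pc], by simp [uexec, tabI],
        fun j => by simpa [uexec, tabI, Cfg.reg] using h.regs j, fun a => by simpa [uexec, tabI] using h.mem a⟩

/-! ### the simulation -/

/-- the initial memory -/
def mem0 (w : ℕ) (input : List ℕ) : AL :=
  (List.range input.length).zip (input.map (fun a => a % 2 ^ w))

/-- the initial state -/
def init0 (P : Program) (w : ℕ) (input : List ℕ) : St :=
  (0, false, if P.numRegs = 0 then [] else [(0, input.length % 2 ^ w)], mem0 w input)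

theorem rd_zip (k : ℕ) (l : List ℕ) (a : ℕ) :
    rd ((List.range' k l.length).zip l) a = if a < k then 0 else l[a - k]?.getD 0 := by
  induction l generalizing k with
  | nil => simp
  | cons b l ih =>
    simp only [List.length_cons, List.range'_succ, List.zip_cons_cons, rd_cons]
    rw [ih]
    by_cases h1 : k = a
    · subst h1; simp
    · rw [if_neg h1]
      by_cases h2 : a < k
      · rw [if_pos h2, if_pos (by omega)]
      · rw [if_neg h2, if_neg (by omega)]
        have : a - k = (a - (k + 1)) + 1 := by omega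
        rw [this, List.getElem?_cons_succ]

theorem rd_mem0 (w : ℕ) (input : List ℕ) (a : ℕ) :
    rd (mem0 w input) a = input[a]?.getD 0 % 2 ^ w := by
  have := rd_zip 0 (input.map (fun a => a % 2 ^ w)) a
  simp only [List.length_map, Nat.not_lt_zero, if_false, Nat.sub_zero] at this
  unfold mem0
  rw [List.range_eq_range', this, List.getElem?_map]
  cases input[a]? <;> simp

theorem rel_init (P : Program) (w : ℕ) (input : List ℕ) :
    Rel (WordRAM.init P w input) (init0 P w input) where
  pc := rfl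
  halted := rfl
  regs j := by
    unfold init0 WordRAM.init Cfg.reg
    by_cases h0 : P.numRegs = 0
    · simp [h0]
    · simp only [h0, if_false, rd_cons, rd_nil]
      by_cases hj : j = 0
      · subst hj
        simp [Nat.pos_of_ne_zero h0]
      · rw [if_neg (Ne.symm hj)]
        split_ifs <;> rfl
  mem a := rd_mem0 w input a

theorem rel_run (P : Program) (w : ℕ) (input : List ℕ) (T : ℕ) :
    Rel (run P w (fun _ => 0) input T) ((ustep (params P w))^[T] (init0 P w input)) := by
  induction T with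
  | zero => exact rel_init P w input
  | succ T ih =>
    unfold run
    rw [Function.iterate_succ_apply', Function.iterate_succ_apply']
    exact ih.step

/-- the test whether the output is `[1]` -/
def out1 (s : St) : Bool := decide (rd s.2.2.1 0 = 1) && decide (rd s.2.2.2 (rd s.2.2.1 1) = 1)

theorem Rel.out1 {r : ℕ} {c : Cfg r} {s : St} (h : Rel c s) : out1 s = true ↔ c.output = [1] := by
  unfold RAM.out1 Cfg.output
  rw [h.regs, h.regs, h.mem]
  simp only [Bool.and_eq_true, decide_eq_true_eq]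
  constructor
  · rintro ⟨h1, h2⟩
    rw [h1]
    simp [List.range_succ, h2]
  · intro h1
    have h2 : c.reg 0 = 1 := by simpa using congrArg List.length h1
    rw [h2] at h1
    simp only [List.range_succ, List.range_zero, List.nil_append, List.map_cons, add_zero,
      List.map_nil, List.cons.injEq, and_true] at h1
    exact ⟨h2, h1⟩

/-! ### the interpreter is polynomial time -/

section ptf

variable {α : Type} [PTCode α]

@[fun_prop]
protected theorem ptf_rd {L : α → AL} {a : α → ℕ} (hL : PTF L) (ha : PTF a) :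
    PTF (fun x => rd (L x) (a x)) := by
  unfold rd
  refine PTF.optionGetD (PTF.optionMap (PTF.find? hL ?_) ?_) (PTF.const 0)
  · exact PTPred.toPTF (PTPred.natEq (by fun_prop) (by fun_prop))
  · exact PTF.comp (g := fun p : ℕ × ℕ => p.2) PTF.snd PTF.snd

theorem ptf_alu {w op x y v : α → ℕ} (hw : PTU w) (hop : PTF op) (hx : PTF x) (hy : PTF y)
    (hv : PTF v) : PTF (fun a => alu (w a) (op a) (x a) (y a) (v a)) := by
  unfold alu
  have h2 : PTF (fun a => 2 ^ w a) := PTF.natTwoPow hw
  have hm : PTU (fun a => min (y a) (w a)) := PTF.natMinUn hy hw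
  have hs : PTF (fun a => 2 ^ (min (y a) (w a))) := PTF.natTwoPow hm
  have hw' : PTF w := PTU.toPTF hw
  have hc : ∀ n : ℕ, PTPred (fun a => op a = n) := fun n => PTPred.natEq hop (PTF.const n)
  have hlt : PTPred (fun a => y a < w a) := PTPred.natLt hy hw'
  have e0 : PTF (fun a => v a % 2 ^ w a) := PTF.natMod hv h2
  have e2 : PTF (fun a => (x a + y a) % 2 ^ w a) := PTF.natMod (by fun_prop) h2
  have e4 : PTF (fun a => (x a * y a) % 2 ^ w a) := PTF.natMod (by fun_prop) h2
  have e10 : PTF (fun a => (x a * 2 ^ (min (y a) (w a))) % 2 ^ w a) :=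
    PTF.natMod (PTF.natMul hx hs) h2
  refine PTF.ite (hc 0) e0 (PTF.ite (hc 1) hx (PTF.ite (hc 2) e2 (PTF.ite (hc 3) (by fun_prop)
    (PTF.ite (hc 4) e4 (PTF.ite (hc 5) (by fun_prop) (PTF.ite (hc 6) (by fun_prop)
    (PTF.ite (hc 7) (by fun_prop) (PTF.ite (hc 8) (by fun_prop) (PTF.ite (hc 9) (by fun_prop)
    (PTF.ite (hc 10) (PTF.ite hlt e10 (PTF.const 0)) (PTF.ite (hc 11) (PTF.ite hlt (by fun_prop)
    (PTF.const 0)) (PTF.ite (hc 12) hv (PTF.const 0)))))))))))))

theorem ptf_uexec : PTF (fun q : Un × TI × St => uexec q.1.val q.2.1 q.2.2) := by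
  unfold uexec
  have hop : PTF (fun q : Un × TI × St => q.2.1.1) := by fun_prop
  have hx : PTF (fun q : Un × TI × St => rd q.2.2.2.2.1 q.2.1.2.2.1) := by fun_prop
  have hy : PTF (fun q : Un × TI × St => rd q.2.2.2.2.1 q.2.1.2.2.2) := by fun_prop
  have hc : ∀ n : ℕ, PTPred (fun q : Un × TI × St => q.2.1.1 = n) :=
    fun n => PTPred.natEq hop (PTF.const n)
  have hlt : PTPred (fun q : Un × TI × St => q.2.1.1 < 14) := PTPred.natLt hop (PTF.const _)
  have halu := ptf_alu (w := fun q : Un × TI × St => q.1.val) (op := fun q => q.2.1.1)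
    (x := fun q => rd q.2.2.2.2.1 q.2.1.2.2.1) (y := fun q => rd q.2.2.2.2.1 q.2.1.2.2.2)
    (v := fun q => if q.2.1.1 = 12 then rd q.2.2.2.2.2 (rd q.2.2.2.2.1 q.2.1.2.2.1)
      else q.2.1.2.2.1) (PTU.val (by fun_prop)) hop hx hy
      (PTF.ite (hc 12) (by fun_prop) (by fun_prop))
  refine PTF.ite hlt ?_ (PTF.ite (hc 14) (by fun_prop) (PTF.ite (hc 15) (by fun_prop)
    (PTF.ite (hc 16) ?_ (PTF.ite (hc 17) ?_ (PTF.ite (hc 18) ?_ (by fun_prop))))))
  · exact PTF.prodMk (by fun_prop) (PTF.prodMk (by fun_prop)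
      (PTF.prodMk (PTF.listCons (PTF.prodMk (by fun_prop) halu) (by fun_prop)) (by fun_prop)))
  · exact PTF.prodMk (PTF.ite (PTPred.natEq hx (PTF.const 0)) (by fun_prop) (by fun_prop))
      (by fun_prop)
  · exact PTF.prodMk (PTF.ite (PTPred.natEq hx hy) (by fun_prop) (by fun_prop))
      (by fun_prop)
  · exact PTF.prodMk (PTF.ite (PTPred.natLt hx hy) (by fun_prop) (by fun_prop))
      (by fun_prop)

theorem ptf_ustep : PTF (fun q : Params × St => ustep q.1 q.2) := by
  have hidx : PTU (fun q : Params × St => min q.2.1 q.1.1.length) :=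
    PTF.natMinUn (by fun_prop) (PTU.length (by fun_prop))
  have hget : PTF (fun q : Params × St => q.1.1[min q.2.1 q.1.1.length]?) :=
    PTF.getElem? hidx (by fun_prop)
  have h := PTF.ite (p := fun q : Params × St => q.2.2.1 = true)
    (PTF.toPTPred (by fun_prop)) (f := fun q => q.2) (by fun_prop)
    (PTF.optionCasesOn (s := fun q : Params × St => q.1.1[min q.2.1 q.1.1.length]?)
      (f := fun q => ((q.2.1, true, q.2.2.2) : St))
      (g := fun q i => uexec q.1.2.val i q.2) hget (by fun_prop)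
      (PTF.comp (f := fun p : (Params × St) × TI => (p.1.1.2, p.2, p.1.2)) ptf_uexec (by fun_prop)))
  refine h.of_eq (fun q => ?_)
  unfold ustep
  cases q.1.1[min q.2.1 q.1.1.length]? <;> rfl

@[fun_prop]
theorem ptf_out1 {s : α → St} (hs : PTF s) : PTF (fun a => out1 (s a)) := by
  unfold out1
  refine PTF.and (PTPred.toPTF (PTPred.natEq (by fun_prop) (by fun_prop)))
    (PTPred.toPTF (PTPred.natEq (by fun_prop) (by fun_prop)))

theorem ptf_mem0 {w : α → ℕ} {x : α → List ℕ} (hw : PTU w) (hx : PTF x) :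
    PTF (fun a => mem0 (w a) (x a)) := by
  unfold mem0
  refine PTF.zip (PTF.range (PTU.length hx)) (PTF.map hx ?_)
  exact PTF.natMod (by fun_prop) (PTF.natTwoPow (by fun_prop))

end ptf

/-! ### size bounds -/

/-- all numbers in the state have size at most `B` -/
structure Bd (B : ℕ) (s : St) : Prop where
  pc : s.1.size ≤ B
  regs : ∀ p ∈ s.2.2.1, p.1.size ≤ B ∧ p.2.size ≤ B
  mem : ∀ p ∈ s.2.2.2, p.1.size ≤ B ∧ p.2.size ≤ B

theorem size_rd {B : ℕ} {L : AL} (h : ∀ p ∈ L, p.1.size ≤ B ∧ p.2.size ≤ B) (a : ℕ) :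
    (rd L a).size ≤ B := by
  induction L with
  | nil => simp
  | cons p L ih =>
    rw [rd_cons]
    split_ifs
    · exact (h p (by simp)).2
    · exact ih (fun q hq => h q (by simp [hq]))

theorem size_mono {a b : ℕ} (h : a ≤ b) : a.size ≤ b.size := Nat.size_le_size h

theorem size_mod_two_pow {a w : ℕ} : (a % 2 ^ w).size ≤ w :=
  Nat.size_le.2 (Nat.mod_lt _ (by positivity))

theorem size_alu {B w op x y v : ℕ} (hw : w ≤ B) (hx : x.size ≤ B) (hy : y.size ≤ B)
    (hv : op = 12 → v.size ≤ B) : (alu w op x y v).size ≤ B := by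
  unfold alu
  by_cases h0 : op = 0
  · rw [if_pos h0]; exact size_mod_two_pow.trans hw
  rw [if_neg h0]
  by_cases h1 : op = 1
  · rw [if_pos h1]; exact hx
  rw [if_neg h1]
  by_cases h2 : op = 2
  · rw [if_pos h2]; exact size_mod_two_pow.trans hw
  rw [if_neg h2]
  by_cases h3 : op = 3
  · rw [if_pos h3]; exact (size_mono (Nat.sub_le _ _)).trans hx
  rw [if_neg h3]
  by_cases h4 : op = 4
  · rw [if_pos h4]; exact size_mod_two_pow.trans hw
  rw [if_neg h4]
  by_cases h5 : op = 5
  · rw [if_pos h5]; exact (size_mono (Nat.div_le_self _ _)).trans hx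
  rw [if_neg h5]
  by_cases h6 : op = 6
  · rw [if_pos h6]; exact (size_mono (Nat.mod_le _ _)).trans hx
  rw [if_neg h6]
  by_cases h7 : op = 7
  · rw [if_pos h7]; exact (size_mono Nat.and_le_left).trans hx
  rw [if_neg h7]
  by_cases h8 : op = 8
  · rw [if_pos h8]; exact Nat.size_le.2 (Nat.or_lt_two_pow (Nat.size_le.1 hx) (Nat.size_le.1 hy))
  rw [if_neg h8]
  by_cases h9 : op = 9
  · rw [if_pos h9]; exact Nat.size_le.2 (Nat.xor_lt_two_pow (Nat.size_le.1 hx) (Nat.size_le.1 hy))
  rw [if_neg h9]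
  by_cases h10 : op = 10
  · rw [if_pos h10]
    split_ifs
    · exact size_mod_two_pow.trans hw
    · simp
  rw [if_neg h10]
  by_cases h11 : op = 11
  · rw [if_pos h11]
    split_ifs
    · rw [Nat.shiftRight_eq_div_pow]
      exact (size_mono (Nat.div_le_self _ _)).trans hx
    · simp
  rw [if_neg h11]
  by_cases h12 : op = 12
  · rw [if_pos h12]; exact hv h12
  rw [if_neg h12]
  simp

theorem bd_uexec {B w : ℕ} {i : TI} {s : St} (hw : w ≤ B) (hd : i.2.1.size ≤ B)
    (hpc : (s.1 + 1).size ≤ B) (h : Bd B s) : Bd B (uexec w i s) := by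
  have hx := size_rd h.regs i.2.2.1
  have hy := size_rd h.regs i.2.2.2
  unfold uexec
  by_cases h14 : i.1 < 14
  · rw [if_pos h14]
    refine ⟨hpc, ?_, h.mem⟩
    intro p hp
    rcases List.mem_cons.1 hp with rfl | hp
    · refine ⟨hd, size_alu hw hx hy (fun h12 => ?_)⟩
      rw [if_pos h12]
      exact size_rd h.mem _
    · exact h.regs p hp
  rw [if_neg h14]
  by_cases h14 : i.1 = 14
  · rw [if_pos h14]
    refine ⟨hpc, h.regs, ?_⟩
    intro p hp
    rcases List.mem_cons.1 hp with rfl | hp
    · exact ⟨hx, size_rd h.regs _⟩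
    · exact h.mem p hp
  rw [if_neg h14]
  by_cases h15 : i.1 = 15
  · rw [if_pos h15]
    exact ⟨hd, h.regs, h.mem⟩
  rw [if_neg h15]
  by_cases h16 : i.1 = 16
  · rw [if_pos h16]
    refine ⟨?_, h.regs, h.mem⟩
    show Nat.size (if _ then _ else _) ≤ B
    split_ifs <;> assumption
  rw [if_neg h16]
  by_cases h17 : i.1 = 17
  · rw [if_pos h17]
    refine ⟨?_, h.regs, h.mem⟩
    show Nat.size (if _ then _ else _) ≤ B
    split_ifs <;> assumption
  rw [if_neg h17]
  by_cases h18 : i.1 = 18
  · rw [if_pos h18]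
    refine ⟨?_, h.regs, h.mem⟩
    show Nat.size (if _ then _ else _) ≤ B
    split_ifs <;> assumption
  rw [if_neg h18]
  exact ⟨h.pc, h.regs, h.mem⟩

theorem sz_prod_eq {α β : Type} [PTCode α] [PTCode β] (p : α × β) :
    sz p = 2 * sz p.1 + 1 + sz p.2 := by
  rw [sz, enc_prod, length_pair]; rfl

theorem sz_un_eq (u : Un) : sz u = u.val := by
  rw [sz, enc_un, List.length_replicate]

theorem bd_ustep {B : ℕ} {p : Params} {s : St} (hB : sz p ≤ B) (h : Bd B s) :
    Bd B (ustep p s) := by
  unfold ustep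
  split_ifs with hh
  · exact h
  have hp1 : sz p = 2 * sz p.1 + 1 + sz p.2 := sz_prod_eq p
  have hp2 : sz p.2 = p.2.val := sz_un_eq p.2
  split
  · exact ⟨h.pc, h.regs, h.mem⟩
  · rename_i i hi
    have hmem : i ∈ p.1 := List.mem_of_getElem? hi
    have hlt : min s.1 p.1.length < p.1.length := by
      by_contra hcon
      rw [List.getElem?_eq_none (by omega)] at hi
      simp at hi
    have hlt' : s.1 < p.1.length := by
      rcases min_lt_iff.1 hlt with h | h
      · exact h
      · exact absurd h (lt_irrefl _)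
    have hlen : p.1.length ≤ sz p.1 := length_le_sz p.1
    have hi1 : sz i ≤ sz p.1 := sz_mem_le hmem
    have hi2 : sz i = 2 * sz i.1 + 1 + sz i.2 := sz_prod_eq i
    have hi3 : sz i.2 = 2 * sz i.2.1 + 1 + sz i.2.2 := sz_prod_eq i.2
    have hi4 : sz i.2.1 = i.2.1.size := sz_nat _
    refine bd_uexec (by omega) (by omega) ?_ h
    have : (s.1 + 1).size ≤ s.1 + 1 := by
      rw [Nat.size_le]
      exact Nat.lt_two_pow_self
    omega

/-- number of entries of the two association lists -/
def len (s : St) : ℕ := s.2.2.1.length + s.2.2.2.length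

theorem len_ustep (p : Params) (s : St) : len (ustep p s) ≤ len s + 1 := by
  unfold ustep
  split_ifs with hh
  · omega
  split
  · simp [len]
  · rename_i i hi
    unfold uexec len
    split_ifs <;> simp <;> omega

theorem sz_AL {B : ℕ} {L : AL} (h : ∀ p ∈ L, p.1.size ≤ B ∧ p.2.size ≤ B) :
    sz L ≤ (6 * B + 3) * L.length := by
  induction L with
  | nil => simp [sz]
  | cons p L ih =>
    have h1 := ih (fun q hq => h q (by simp [hq]))
    have h2 := h p (by simp)
    have h3 : sz p = 2 * sz p.1 + 1 + sz p.2 := sz_prod_eq p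
    have h4 : sz p.1 = p.1.size := sz_nat _
    have h5 : sz p.2 = p.2.size := sz_nat _
    rw [sz_cons, List.length_cons]
    nlinarith

theorem sz_st {B : ℕ} {s : St} (h : Bd B s) : sz s ≤ (14 * B + 11) * (len s + 1) := by
  have h1 : sz s = 2 * sz s.1 + 1 + sz s.2 := sz_prod_eq s
  have h2 : sz s.2 = 2 * sz s.2.1 + 1 + sz s.2.2 := sz_prod_eq s.2
  have h3 : sz s.2.2 = 2 * sz s.2.2.1 + 1 + sz s.2.2.2 := sz_prod_eq s.2.2
  have h4 : sz s.1 = s.1.size := sz_nat _
  have h5 : sz s.2.1 = 1 := rfl
  have h6 := sz_AL h.regs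
  have h7 := sz_AL h.mem
  have h8 := h.pc
  unfold len
  nlinarith

theorem bd_iterate {B : ℕ} {p : Params} {s : St} (hB : sz p ≤ B) (h : Bd B s) (t : ℕ) :
    Bd B ((ustep p)^[t] s) := by
  induction t with
  | zero => exact h
  | succ t ih => rw [Function.iterate_succ_apply']; exact bd_ustep hB ih

theorem len_iterate (p : Params) (s : St) (t : ℕ) : len ((ustep p)^[t] s) ≤ len s + t := by
  induction t with
  | zero => simp
  | succ t ih =>
    rw [Function.iterate_succ_apply']
    have := len_ustep p ((ustep p)^[t] s)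
    omega

theorem bd_of_sz {s : St} : Bd (sz s) s := by
  have h1 : sz s = 2 * sz s.1 + 1 + sz s.2 := sz_prod_eq s
  have h2 : sz s.2 = 2 * sz s.2.1 + 1 + sz s.2.2 := sz_prod_eq s.2
  have h3 : sz s.2.2 = 2 * sz s.2.2.1 + 1 + sz s.2.2.2 := sz_prod_eq s.2.2
  have h4 : sz s.1 = s.1.size := sz_nat _
  have key : ∀ (L : AL), ∀ p ∈ L, p.1.size ≤ sz L ∧ p.2.size ≤ sz L := by
    intro L p hp
    have h5 := sz_mem_le hp
    have h6 : sz p = 2 * sz p.1 + 1 + sz p.2 := sz_prod_eq p
    have h7 : sz p.1 = p.1.size := sz_nat _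
    have h8 : sz p.2 = p.2.size := sz_nat _
    omega
  refine ⟨by omega, fun p hp => ?_, fun p hp => ?_⟩
  · have := key _ p hp
    omega
  · have := key _ p hp
    omega

theorem len_le_sz (s : St) : len s ≤ sz s := by
  have h1 : sz s = 2 * sz s.1 + 1 + sz s.2 := sz_prod_eq s
  have h2 : sz s.2 = 2 * sz s.2.1 + 1 + sz s.2.2 := sz_prod_eq s.2
  have h3 : sz s.2.2 = 2 * sz s.2.2.1 + 1 + sz s.2.2.2 := sz_prod_eq s.2.2
  have h4 := length_le_sz s.2.2.1
  have h5 := length_le_sz s.2.2.2
  unfold len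
  omega

/-- **absolute size bound** for the states of the interpreter -/
theorem sz_iterate_ustep (p : Params) (s : St) (t : ℕ) :
    sz ((ustep p)^[t] s) ≤ 14 * (sz p + sz s + 1) * (sz s + t + 1) := by
  have h1 := bd_iterate (B := sz p + sz s) (p := p) (s := s) (by omega)
    (by
      have := bd_of_sz (s := s)
      exact ⟨this.pc.trans (by omega), fun q hq => ⟨(this.regs q hq).1.trans (by omega),
        (this.regs q hq).2.trans (by omega)⟩, fun q hq => ⟨(this.mem q hq).1.trans (by omega),
        (this.mem q hq).2.trans (by omega)⟩⟩) t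
  refine (sz_st h1).trans ?_
  have h2 := len_iterate p s t
  have h3 := len_le_sz s
  refine Nat.mul_le_mul ?_ (by omega)
  omega

/-- size of the initial state -/
theorem sz_init0 (P : Program) (w : ℕ) (input : List ℕ) :
    sz (init0 P w input) ≤ (14 * (input.length + w) + 11) * (input.length + 2) := by
  have hb : Bd (input.length + w) (init0 P w input) := by
    refine ⟨by simp [init0], ?_, ?_⟩
    · intro p hp
      have : p = (0, input.length % 2 ^ w) := by
        simp only [init0] at hp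
        split_ifs at hp with h0
        · simp at hp
        · simpa using hp
      subst this
      exact ⟨by simp, size_mod_two_pow.trans (by omega)⟩
    · intro p hp
      obtain ⟨a, b⟩ := p
      have h1 := List.of_mem_zip hp
      have h2 : a < input.length := List.mem_range.1 h1.1
      obtain ⟨c, -, rfl⟩ := List.mem_map.1 h1.2
      refine ⟨?_, size_mod_two_pow.trans (by omega)⟩
      have : a.size ≤ a := by
        rw [Nat.size_le]
        exact Nat.lt_two_pow_self
      show a.size ≤ _
      omega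
  refine (sz_st hb).trans (Nat.mul_le_mul le_rfl ?_)
  have h1 : (mem0 w input).length = input.length := by simp [mem0]
  have h2 : (if P.numRegs = 0 then ([] : AL) else [(0, input.length % 2 ^ w)]).length ≤ 1 := by
    split_ifs <;> simp
  unfold len init0
  show (if P.numRegs = 0 then ([] : AL) else [(0, input.length % 2 ^ w)]).length +
    (mem0 w input).length + 1 ≤ _
  omega

end Crest.Agent.R290.RAM
private theorem rz_32949a1aeb : type_of% @_root_.Crest.Agent.R290.RAM.tabI.eq_1 := @_root_.Crest.Agent.R290.RAM.tabI.eq_1 -- L26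
end

-- ▼ part R290/RamDec
section

/-!
# Row 290: word-RAM deciders as structured programs with absolute polynomial overhead

* `ram_cmd`: one fixed program `c` with the RAM program and the word-length constant as data.
* `ram_prog`: for every RAM program `P` and constant `c₀` a program which on the raw input bits `x`
  (starting with `natCode n`) computes the bit "output = [1]"; time `C * (|x| + T + 1) ^ a` with an
  absolute exponent `a`.
-/

set_option autoImplicit false
set_option linter.dupNamespace false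

namespace Crest.Agent.R290.RAM

open Crest.WordRAM Crest.Agent.Lib.PT Function

/-- static data of a RAM decider: program table, `numRegs = 0`?, word-length constant -/
abbrev Dat : Type := List TI × Bool × Un

/-- static data -/
def dat (P : Program) (c₀ : ℕ) : Dat := (tab P, decide (P.numRegs = 0), ⟨c₀⟩)

/-- the number coded by the front of a bit string -/
def decN (x : List Bool) : ℕ := (Crest.Agent.Lib.PT.fst x).foldr (fun b n => Nat.bit b n) 0

theorem natCode_append (n : ℕ) (y : List Bool) :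
    Crest.Enc.natCode n ++ y = pair n.bits (false :: y) := by
  unfold Crest.Enc.natCode pair
  rw [List.append_assoc, List.flatMap_def]
  rfl

theorem foldr_bits (n : ℕ) : n.bits.foldr (fun b n => Nat.bit b n) 0 = n := by
  induction n using Nat.binaryRec' with
  | zero => simp
  | bit b n hn ih =>
    rw [Nat.bits_append_bit n b hn, List.foldr_cons, ih]

theorem decN_natCode (n : ℕ) (y : List Bool) : decN (Crest.Enc.natCode n ++ y) = n := by
  unfold decN
  rw [natCode_append, fst_pair, foldr_bits]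

theorem size_eq_clog (n : ℕ) : (n + 1).size = Nat.clog 2 (n + 2) := by
  apply le_antisymm
  · rw [Nat.size_le]
    have := Nat.le_pow_clog (b := 2) (by norm_num) (n + 2)
    omega
  · rw [Nat.clog_le_iff_le_pow (by norm_num)]
    have := Nat.lt_size_self (n + 1)
    omega

/-- bits as numbers -/
def bitsNat (x : List Bool) : List ℕ := x.map fun b => if b then 1 else 0

/-- initial state of the interpreter from the static data and the input bits -/
def start (a : Dat × Bits) : Params × St :=
  ((a.1.1, ⟨a.1.2.2.val * (decN a.2.val + 1).size⟩),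
    (0, false, if a.1.2.1 = true then [] else
      [(0, a.2.val.length % 2 ^ (a.1.2.2.val * (decN a.2.val + 1).size))],
      mem0 (a.1.2.2.val * (decN a.2.val + 1).size) (bitsNat a.2.val)))

theorem start_eq (P : Program) (c₀ n : ℕ) (y : List Bool) :
    start (dat P c₀, ⟨Crest.Enc.natCode n ++ y⟩) =
      (params P (c₀ * Nat.clog 2 (n + 2)),
        init0 P (c₀ * Nat.clog 2 (n + 2)) (bitsNat (Crest.Enc.natCode n ++ y))) := by
  unfold start init0 params dat
  simp only [decN_natCode, size_eq_clog]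
  have : (bitsNat (Crest.Enc.natCode n ++ y)).length = (Crest.Enc.natCode n ++ y).length := by
    simp [bitsNat]
  rw [this]
  by_cases h : P.numRegs = 0 <;> simp [h]

theorem ptf_decN : PTF (fun x : Bits => decN x.val) := by
  have h1 : PTF (fun x : Bits => Bits.mk (Crest.Agent.Lib.PT.fst x.val)) := PT.toPTF PT.fst
  have h2 : PTF (fun x : Bits => Crest.Agent.Lib.PT.fst x.val) := by
    have := PTF.bitsVal h1
    exact this
  exact PTF.ofBits h2

theorem ptf_start : PTF start := by
  unfold start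
  have hx : PTF (fun a : Dat × Bits => a.2.val) := by fun_prop
  have hn : PTF (fun a : Dat × Bits => decN a.2.val) :=
    PTF.comp (g := fun x : Bits => decN x.val) (f := fun a : Dat × Bits => a.2) ptf_decN (by fun_prop)
  have hw : PTU (fun a : Dat × Bits => a.1.2.2.val * (decN a.2.val + 1).size) :=
    PTU.mul (PTU.val (by fun_prop)) (PTF.natSizeUn (by fun_prop))
  have h2 : PTF (fun a : Dat × Bits => 2 ^ (a.1.2.2.val * (decN a.2.val + 1).size)) :=
    PTF.natTwoPow hw
  have hl : PTF (fun a : Dat × Bits => a.2.val.length) := PTU.toPTF (PTU.length hx)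
  have hb : PTF (fun a : Dat × Bits => bitsNat a.2.val) := by
    unfold bitsNat
    refine PTF.map (f := fun (_ : Dat × Bits) (b : Bool) => if b = true then 1 else 0) hx ?_
    exact PTF.ite (PTF.toPTPred (by fun_prop)) (PTF.const 1) (PTF.const 0)
  refine PTF.prodMk (PTF.prodMk (by fun_prop) hw) (PTF.prodMk (PTF.const 0)
    (PTF.prodMk (PTF.const false) (PTF.prodMk (PTF.ite (PTF.toPTPred (by fun_prop)) (PTF.const [])
    (PTF.listCons (PTF.prodMk (PTF.const 0) (PTF.natMod hl h2)) (PTF.const []))) ?_)))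
  exact ptf_mem0 hw hb

/-- one step on parameters and state -/
def pstep (b : Params × St) : Params × St := (b.1, ustep b.1 b.2)

theorem pstep_iterate (b : Params × St) (i : ℕ) : pstep^[i] b = (b.1, (ustep b.1)^[i] b.2) := by
  induction i with
  | zero => rfl
  | succ i ih => rw [iterate_succ_apply', ih, iterate_succ_apply']; rfl

theorem ustep_halted {p : Params} {s : St} (h : s.2.1 = true) : ustep p s = s := by
  unfold ustep
  rw [if_pos h]

theorem ustep_iterate_halted {p : Params} {s : St} (h : s.2.1 = true) (i : ℕ) :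
    (ustep p)^[i] s = s := by
  induction i with
  | zero => rfl
  | succ i ih => rw [iterate_succ_apply, ustep_halted h, ih]

/-- polynomials with natural coefficients are bounded by powers -/
theorem eval_le_pow (q : Polynomial ℕ) : ∃ C e : ℕ, ∀ m, q.eval m ≤ C * (m + 1) ^ e := by
  refine ⟨q.sum fun _ a => a, q.natDegree, fun m => ?_⟩
  rw [Polynomial.eval_eq_sum, Polynomial.sum, Polynomial.sum, Finset.sum_mul]
  refine Finset.sum_le_sum fun i hi => ?_
  refine Nat.mul_le_mul_left _ ?_
  calc m ^ i ≤ (m + 1) ^ i := Nat.pow_le_pow_left (by omega) _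
    _ ≤ (m + 1) ^ q.natDegree :=
      Nat.pow_le_pow_right (by omega) (Polynomial.le_natDegree_of_mem_supp i hi)

theorem length_natCode (n : ℕ) : (Crest.Enc.natCode n).length = 2 * n.size + 2 := by
  have h : ∀ l : List Bool, ((l.map fun b => [true, b]).flatten).length = 2 * l.length := by
    intro l
    induction l with
    | nil => rfl
    | cons a l ih => simp only [List.map_cons, List.flatten_cons, List.length_append, ih,
        List.length_cons, List.length_nil]; omega
  unfold Crest.Enc.natCode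
  rw [List.length_append, h, Nat.size_eq_bits_len]
  rfl

/-- **one fixed program** for all word-RAM programs -/
theorem ram_cmd : ∃ (c : Cmd) (C a : ℕ), ∀ (P : Program) (c₀ n : ℕ) (y : List Bool) (T : ℕ),
    (run P (c₀ * Nat.clog 2 (n + 2)) (fun _ => 0) (bitsNat (Crest.Enc.natCode n ++ y)) T).halted
      = true →
    Run c (init (enc (dat P c₀, Bits.mk (Crest.Enc.natCode n ++ y))))
      (init [decide ((run P (c₀ * Nat.clog 2 (n + 2)) (fun _ => 0)
        (bitsNat (Crest.Enc.natCode n ++ y)) T).output = [1])])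
      (C * (sz (dat P c₀) + (Crest.Enc.natCode n ++ y).length + T + 1) ^ a) := by
  have hf : PTF pstep := by
    unfold pstep
    exact PTF.prodMk (by fun_prop) ptf_ustep
  have hd : PTF (fun b : Params × St => b.2.2.1) := by fun_prop
  have hh : PTF (fun b : Params × St => out1 b.2) := by fun_prop
  obtain ⟨c, q, hc⟩ := ptf_while ptf_start hf hd hh
  obtain ⟨C, e, hC⟩ := eval_le_pow q
  refine ⟨c, C * 201560 ^ e, 6 * e + 1, fun P c₀ n y T hT => ?_⟩
  set x := Crest.Enc.natCode n ++ y with hx
  set w := c₀ * Nat.clog 2 (n + 2) with hw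
  set inp := bitsNat x with hinp
  set p := params P w with hp
  set s0 := init0 P w inp with hs0
  have hstart : start (dat P c₀, ⟨x⟩) = (p, s0) := start_eq P c₀ n y
  have hrel := rel_run P w inp
  have hex : ∃ t, ((ustep p)^[t] s0).2.1 = true := ⟨T, by rw [(hrel T).halted]; exact hT⟩
  classical
  set N := Nat.find hex with hN
  have hNT : N ≤ T := Nat.find_min' hex (by rw [(hrel T).halted]; exact hT)
  have hNh : ((ustep p)^[N] s0).2.1 = true := Nat.find_spec hex
  have hNT2 : (ustep p)^[T] s0 = (ustep p)^[N] s0 := by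
    obtain ⟨d, hd⟩ := Nat.exists_eq_add_of_le hNT
    rw [hd, add_comm, iterate_add_apply, ustep_iterate_halted hNh]
  -- sizes
  set Z := sz (dat P c₀) + x.length + T + 1 with hZ
  have hdat : sz (dat P c₀) = 2 * sz (tab P) + 1 + (2 * 1 + 1 + c₀) := by
    unfold dat
    simp [sz_prod]
  have hxlen : x.length = 2 * n.size + 2 + y.length := by
    rw [hx, List.length_append, length_natCode]
  have hclog : Nat.clog 2 (n + 2) ≤ n.size + 1 := by
    rw [← size_eq_clog]
    have h1 := Arith.size_add_le n 1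
    rw [Nat.size_le]
    have h2 : n < 2 ^ n.size := Nat.lt_size_self n
    rw [pow_succ]
    omega
  have hwZ : w ≤ Z * Z := by
    rw [hw]
    exact Nat.mul_le_mul (by omega) (by omega)
  have hp1 : sz p = 2 * sz (tab P) + 1 + w := by
    rw [hp]; unfold params; simp [sz_prod]
  have hinpl : inp.length = x.length := by simp [hinp, bitsNat]
  have hs1 : sz s0 ≤ (14 * (x.length + w) + 11) * (x.length + 2) := by
    have := sz_init0 P w inp
    rwa [hinpl] at this
  have hZ1 : 1 ≤ Z := by omega
  have hs2 : sz s0 ≤ 117 * Z ^ 3 := by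
    refine hs1.trans ?_
    have h1 : 14 * (x.length + w) + 11 ≤ 39 * Z ^ 2 := by nlinarith
    have h2 : x.length + 2 ≤ 3 * Z := by omega
    calc (14 * (x.length + w) + 11) * (x.length + 2) ≤ (39 * Z ^ 2) * (3 * Z) :=
          Nat.mul_le_mul h1 h2
      _ = 117 * Z ^ 3 := by ring
  have hZ23 : Z ^ 2 ≤ Z ^ 3 := Nat.pow_le_pow_right hZ1 (by norm_num)
  have hZ13 : Z ≤ Z ^ 3 := by
    calc Z = Z ^ 1 := (pow_one Z).symm
      _ ≤ Z ^ 3 := Nat.pow_le_pow_right hZ1 (by norm_num)
  have hp2 : sz p ≤ 4 * Z ^ 2 := by nlinarith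
  have hB : ∀ i ≤ N, sz (pstep^[i] (start (dat P c₀, ⟨x⟩))) ≤ 201553 * Z ^ 6 := by
    intro i hi
    rw [hstart, pstep_iterate, sz_prod]
    have h1 := sz_iterate_ustep p s0 i
    have h2 : 14 * (sz p + sz s0 + 1) * (sz s0 + i + 1) ≤ 14 * (122 * Z ^ 3) * (118 * Z ^ 3) := by
      refine Nat.mul_le_mul (Nat.mul_le_mul_left _ ?_) ?_
      · omega
      · have : i ≤ T := hi.trans hNT
        omega
    have h3 : 14 * (122 * Z ^ 3) * (118 * Z ^ 3) = 201544 * Z ^ 6 := by ring
    have h4 : Z ^ 2 ≤ Z ^ 6 := Nat.pow_le_pow_right hZ1 (by norm_num)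
    have h5 : 1 ≤ Z ^ 6 := Nat.one_le_pow _ _ (by omega)
    show 2 * sz p + 1 + sz ((ustep p)^[i] s0) ≤ 201553 * Z ^ 6
    omega
  have key := hc (dat P c₀, ⟨x⟩) N (201553 * Z ^ 6) ?_ ?_ hB
  · have hout : out1 (pstep^[N] (start (dat P c₀, ⟨x⟩))).2 =
        decide ((run P w (fun _ => 0) inp T).output = [1]) := by
      rw [hstart, pstep_iterate]
      show out1 ((ustep p)^[N] s0) = _
      rw [← hNT2]
      have := (hrel T).out1
      by_cases ho : (run P w (fun _ => 0) inp T).output = [1]
      · rw [decide_eq_true ho]; exact this.2 ho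
      · rw [decide_eq_false ho]
        exact Bool.eq_false_iff.2 (fun h => ho (this.1 h))
    rw [hout] at key
    refine key.mono ?_
    have hsza : sz ((dat P c₀, ⟨x⟩) : Dat × Bits) ≤ 3 * Z := by
      rw [sz_prod, sz_bits]
      show 2 * sz (dat P c₀) + 1 + x.length ≤ _
      omega
    have hZ6 : Z ≤ Z ^ 6 := by
      calc Z = Z ^ 1 := (pow_one Z).symm
        _ ≤ Z ^ 6 := Nat.pow_le_pow_right hZ1 (by norm_num)
    have h1 : sz ((dat P c₀, ⟨x⟩) : Dat × Bits) + 201553 * Z ^ 6 + 1 ≤ 201560 * Z ^ 6 := by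
      have h5 : 1 ≤ Z ^ 6 := Nat.one_le_pow _ _ (by omega)
      omega
    calc (N + 1) * q.eval (sz ((dat P c₀, ⟨x⟩) : Dat × Bits) + 201553 * Z ^ 6)
        ≤ Z * (C * (201560 * Z ^ 6) ^ e) := by
          refine Nat.mul_le_mul (by omega) ((hC _).trans ?_)
          exact Nat.mul_le_mul_left _ (Nat.pow_le_pow_left h1 _)
      _ = C * 201560 ^ e * Z ^ (6 * e + 1) := by
          rw [mul_pow, ← pow_mul, pow_succ]; ring
  · intro i hi
    rw [hstart, pstep_iterate]
    show ((ustep p)^[i] s0).2.1 = false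
    exact Bool.eq_false_iff.2 (Nat.find_min hex hi)
  · rw [hstart, pstep_iterate]
    exact hNh

/-- for every RAM program a program on the raw input, absolute exponent `a` -/
theorem ram_prog : ∃ a : ℕ, ∀ (P : Program) (c₀ : ℕ), ∃ (c : Cmd) (C : ℕ),
    ∀ (n : ℕ) (y : List Bool) (T : ℕ),
    (run P (c₀ * Nat.clog 2 (n + 2)) (fun _ => 0) (bitsNat (Crest.Enc.natCode n ++ y)) T).halted
      = true →
    Run c (init (Crest.Enc.natCode n ++ y))
      (init [decide ((run P (c₀ * Nat.clog 2 (n + 2)) (fun _ => 0)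
        (bitsNat (Crest.Enc.natCode n ++ y)) T).output = [1])])
      (C * ((Crest.Enc.natCode n ++ y).length + T + 1) ^ a) := by
  obtain ⟨c, C, a, hc⟩ := ram_cmd
  refine ⟨a, fun P c₀ => ⟨.seq (pushAll 0 (pair (enc (dat P c₀)) [])) c,
    C * (sz (dat P c₀) + 1) ^ a + (pair (enc (dat P c₀)) []).length + 1, fun n y T hT => ?_⟩⟩
  set x := Crest.Enc.natCode n ++ y with hx
  have h1 := run_pushAll 0 (pair (enc (dat P c₀)) []) (init x)
  have e1 : update (init x) 0 (pair (enc (dat P c₀)) [] ++ init x 0) =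
      init (enc (dat P c₀, Bits.mk x)) := by
    have : enc ((dat P c₀, Bits.mk x) : Dat × Bits) = pair (enc (dat P c₀)) [] ++ x := by
      rw [enc_prod]
      show pair (enc (dat P c₀)) x = _
      unfold pair
      simp
    rw [this]
    funext j
    by_cases hj : j = 0
    · subst hj; simp
    · simp [Lib.PT.init, hj]
  rw [e1] at h1
  have h2 := h1.seq (hc P c₀ n y T hT)
  rw [← hx] at h2
  refine h2.mono ?_
  have h3 : sz (dat P c₀) + x.length + T + 1 ≤ (sz (dat P c₀) + 1) * (x.length + T + 1) := by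
    nlinarith [Nat.zero_le (sz (dat P c₀) * (x.length + T))]
  have h4 : C * (sz (dat P c₀) + x.length + T + 1) ^ a ≤
      C * ((sz (dat P c₀) + 1) ^ a * (x.length + T + 1) ^ a) := by
    rw [← mul_pow]
    exact Nat.mul_le_mul_left _ (Nat.pow_le_pow_left h3 _)
  have h5 : 1 ≤ (x.length + T + 1) ^ a := Nat.one_le_pow _ _ (by omega)
  have h6 : (C * (sz (dat P c₀) + 1) ^ a + (pair (enc (dat P c₀)) []).length + 1) *
      (x.length + T + 1) ^ a = C * ((sz (dat P c₀) + 1) ^ a * (x.length + T + 1) ^ a) +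
      ((pair (enc (dat P c₀)) []).length + 1) * (x.length + T + 1) ^ a := by ring
  have h7 : (pair (enc (dat P c₀)) []).length + 1 ≤
      ((pair (enc (dat P c₀)) []).length + 1) * (x.length + T + 1) ^ a :=
    Nat.le_mul_of_pos_right _ h5
  omega

end Crest.Agent.R290.RAM
end

-- ▼ part R290/RamDecides
section

/-!
# Row 290: word-RAM deciders are flat deciders (absolute exponent)
-/

set_option autoImplicit false

namespace Crest.Agent.R290

open Crest.WLRefine Crest.WordRAM Crest.Agent.Lib.PT Function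

theorem length_adjMatrixCode' {n : ℕ} (G : Fin n → Fin n → Bool) :
    (adjMatrixCode G).length = 2 * n.size + 2 + n * n := by
  unfold adjMatrixCode
  rw [List.length_append, RAM.length_natCode, List.length_flatMap]
  congr 1
  simp

/-- word-RAM deciders -/
theorem ram_decides : ∃ a : ℕ, ∀ (P : Program) (c₀ : ℕ), ∃ (F : Flat) (C : ℕ),
    ∀ (E : ∀ n : ℕ, (Fin n → Fin n → Bool) → (Fin n → Fin n → Bool) → Prop) (T : ℕ → ℕ),
    (∀ (n : ℕ) (G H : Fin n → Fin n → Bool), SimpleConnDiamTwo G →
      SimpleConnDiamTwo H → ∀ ρ : ℕ → ℕ,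
        (run P (c₀ * Nat.clog 2 (n + 2)) ρ
          (((adjMatrixCode G ++ adjMatrixCode H).map fun b => if b then 1 else 0)) (T n)).halted
            = true ∧
        ((run P (c₀ * Nat.clog 2 (n + 2)) ρ
          (((adjMatrixCode G ++ adjMatrixCode H).map fun b => if b then 1 else 0)) (T n)).output
            = [1] ↔ E n G H)) →
    Decides F E (fun n => C * (n + T n + 1) ^ a) := by
  obtain ⟨a, ha⟩ := RAM.ram_prog
  refine ⟨2 * a, fun P c₀ => ?_⟩
  obtain ⟨c, C, hc⟩ := ha P c₀
  refine ⟨runPart c 0, 4 * (C * 9 ^ a) + 1, fun E T h n G H hG hH => ?_⟩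
  obtain ⟨hh, ho⟩ := h n G H hG hH (fun _ => 0)
  have hx : adjMatrixCode G ++ adjMatrixCode H = Crest.Enc.natCode n ++
      ((List.finRange n).flatMap (fun v => (List.finRange n).map fun w => G v w) ++
        adjMatrixCode H) := by
    unfold adjMatrixCode
    rw [List.append_assoc]
  have hb : ((adjMatrixCode G ++ adjMatrixCode H).map fun b => if b then 1 else 0) =
      RAM.bitsNat (adjMatrixCode G ++ adjMatrixCode H) := rfl
  rw [hb, hx] at hh ho
  have h1 := hc n _ (T n) hh
  rw [← hx] at h1 ho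
  have hlen : (adjMatrixCode G ++ adjMatrixCode H).length + T n + 1 ≤ 9 * (n + T n + 1) ^ 2 := by
    rw [List.length_append, length_adjMatrixCode', length_adjMatrixCode']
    have h2 : n.size ≤ n := by
      rw [Nat.size_le]
      exact Nat.lt_two_pow_self
    nlinarith
  have hpow : ((adjMatrixCode G ++ adjMatrixCode H).length + T n + 1) ^ a ≤
      9 ^ a * (n + T n + 1) ^ (2 * a) := by
    calc ((adjMatrixCode G ++ adjMatrixCode H).length + T n + 1) ^ a
        ≤ (9 * (n + T n + 1) ^ 2) ^ a := Nat.pow_le_pow_left hlen _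
      _ = 9 ^ a * (n + T n + 1) ^ (2 * a) := by rw [mul_pow, ← pow_mul]
  have hone : 1 ≤ (n + T n + 1) ^ (2 * a) := Nat.one_le_pow _ _ (by omega)
  refine ⟨fun hE => ?_, fun hE T' => ?_⟩
  · rw [decide_eq_true (ho.2 hE)] at h1
    refine (runPart_haltsOn h1 (l := []) rfl).mono ?_
    have h3 := Nat.mul_le_mul_left C hpow
    have h4 : (4 * (C * 9 ^ a) + 1) * (n + T n + 1) ^ (2 * a) =
      4 * (C * (9 ^ a * (n + T n + 1) ^ (2 * a))) + (n + T n + 1) ^ (2 * a) := by ring
    simp only
    omega
  · rw [decide_eq_false (fun h => hE (ho.1 h))] at h1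
    exact runPart_loopsOn h1 (by simp) T'

end Crest.Agent.R290
end

-- ▼ part R290/DiagBoth

/-!
# Row 290: the diagonalisation, both conventions
-/

set_option autoImplicit false

namespace Crest.Agent.R290

open Crest.WLRefine

theorem diagJ_aux (a : ℕ) :
    ∃ c : ℝ, 0 < c ∧ ∃ k₀ : ℕ, ∀ k ≥ k₀, ∀ (F : Flat) (C : ℕ) (T : ℕ → ℕ),
      Decides F (fun n G H => JEquiv k G H) (fun n => C * (n + T n + 1) ^ a) →
        ∃ n₀ : ℕ, ∀ n ≥ n₀, (n : ℝ) ^ (c * k) ≤ T n := by
  refine diag_gen baseOrder_le ptu_baseOrder ptf_graphA (fun k n G H => JEquiv k G H) 1 (by omega)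
    ?_ a
  intro p Ks B D pad hp hB hD hpad
  obtain ⟨n, G0, G1, hn, h0, h1, e0, e1, hh, hr⟩ := coreA p Ks B D pad hp hB hD hpad
  exact ⟨n, G0, G1, hn, h0, h1, e0, e1, fun h => (hh h).1, fun h => (hr h).1⟩

theorem diagS_aux (a : ℕ) :
    ∃ c : ℝ, 0 < c ∧ ∃ k₀ : ℕ, ∀ k ≥ k₀, ∀ (F : Flat) (C : ℕ) (T : ℕ → ℕ),
      Decides F (fun n G H => SEquiv k G H) (fun n => C * (n + T n + 1) ^ a) →
        ∃ n₀ : ℕ, ∀ n ≥ n₀, (n : ℝ) ^ (c * k) ≤ T n := by
  refine diag_gen baseOrder_le ptu_baseOrder ptf_graphA (fun k n G H => SEquiv k G H) 2 (by omega)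
    ?_ a
  intro p Ks B D pad hp hB hD hpad
  obtain ⟨n, G0, G1, hn, h0, h1, e0, e1, hh, hr⟩ := coreA p Ks B D pad hp hB hD hpad
  exact ⟨n, G0, G1, hn, h0, h1, e0, e1, fun h => (hh h).2.1, fun h => (hr h).2.1⟩

/-- both conventions with the same constants -/
theorem diag_both (a : ℕ) :
    ∃ c : ℝ, 0 < c ∧ ∃ k₀ : ℕ, ∀ k ≥ k₀,
      (∀ (F : Flat) (C : ℕ) (T : ℕ → ℕ),
        Decides F (fun n G H => JEquiv k G H) (fun n => C * (n + T n + 1) ^ a) →
          ∃ n₀ : ℕ, ∀ n ≥ n₀, (n : ℝ) ^ (c * k) ≤ T n) ∧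
      (∀ (F : Flat) (C : ℕ) (T : ℕ → ℕ),
        Decides F (fun n G H => SEquiv k G H) (fun n => C * (n + T n + 1) ^ a) →
          ∃ n₀ : ℕ, ∀ n ≥ n₀, (n : ℝ) ^ (c * k) ≤ T n) := by
  obtain ⟨c1, hc1, k1, h1⟩ := diagJ_aux a
  obtain ⟨c2, hc2, k2, h2⟩ := diagS_aux a
  have hmono : ∀ (c c' : ℝ) (k n : ℕ), c ≤ c' → 1 ≤ n →
      (n : ℝ) ^ (c * k) ≤ (n : ℝ) ^ (c' * k) := fun c c' k n hcc hn =>
    Real.rpow_le_rpow_of_exponent_le (by exact_mod_cast hn)
      (mul_le_mul_of_nonneg_right hcc (Nat.cast_nonneg k))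
  refine ⟨min c1 c2, lt_min hc1 hc2, max k1 k2, fun k hk => ⟨fun F C T hF => ?_, fun F C T hF => ?_⟩⟩
  · obtain ⟨n₀, hn⟩ := h1 k (le_trans (le_max_left _ _) hk) F C T hF
    exact ⟨max n₀ 1, fun n hn' => (hmono _ _ k n (min_le_left _ _)
      (le_trans (le_max_right _ _) hn')).trans (hn n (le_trans (le_max_left _ _) hn'))⟩
  · obtain ⟨n₀, hn⟩ := h2 k (le_trans (le_max_right _ _) hk) F C T hF
    exact ⟨max n₀ 1, fun n hn' => (hmono _ _ k n (min_le_right _ _)
      (le_trans (le_max_right _ _) hn')).trans (hn n (le_trans (le_max_left _ _) hn'))⟩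

end Crest.Agent.R290
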