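import Mathlib
import Crest.Prelude.Def_ExpTime
import Crest.Agent.Lib.PT.Alphabet
import Crest.Agent.Lib.PT.ListFns2
import Crest.Prelude.Def_WL

-- ▼ part R290/EXPad
section

/-!
# Row 290: from a poly-time test on an exponentially long unary pad to `InEXP`

`inEXP_of_pad`: if `V x N` is poly-time decidable in `(x, 1^N)` and `x ∈ L ↔ V x (2 ^ p |x|)`, then
`L` is in EXPTIME.
-/

set_option autoImplicit false
set_option linter.dupNamespace false

namespace Crest.Agent.R290.EX

open Crest.Agent.Lib.PT Function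

/-! ### a program with a general step bound gives `TimeBoundPred` -/

theorem timeBoundPred_of_run {f : List Bool → Bool} (c : Cmd) (T : ℕ → ℕ)
    (h : ∀ x, Run c (init x) (init [f x]) (T x.length)) :
    Crest.DTime.TimeBoundPred f (fun n => T n + 1) := by
  refine ⟨{ tm := Cmd.toTM c
            inputAlphabet := Equiv.refl _
            outputAlphabet := Equiv.refl _
            time := fun n => T n + 1
            outputsFun := fun x => ?_ }, fun n => le_rfl⟩
  have e1 : ∀ y : List Bool, (List.map (id : Bool → Bool) y) = y := fun y => List.map_id y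
  have h1 : ∀ y z : List Bool, y = x → z = [f x] →
      (flip bind (Cmd.toTM c).step)^[(h x).choose + 1] (some (Turing.initList (Cmd.toTM c) y)) =
      some (Turing.haltList (Cmd.toTM c) z) := by
    rintro y z rfl rfl
    exact outputs_of_exec (h y).choose_spec.2
  exact
    { steps := (h x).choose + 1
      evals_in_steps := h1 _ _ (e1 x) (e1 [f x])
      steps_le_m := Nat.add_le_add_right (h x).choose_spec.1 1 }

/-! ### exponential time functions -/

/-- `f` is computed by a program within `2 ^ p |x|` steps. -/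
def ET (f : List Bool → List Bool) : Prop :=
  ∃ (c : Cmd) (p : Polynomial ℕ), ∀ x, Run c (init x) (init (f x)) (2 ^ p.eval x.length)


/-- a polynomial of an exponential is an exponential -/
theorem eval_two_pow_le (q : Polynomial ℕ) :
    ∃ a d : ℕ, ∀ m : ℕ, q.eval (2 ^ m) ≤ 2 ^ (a + d * m) := by
  induction q using Polynomial.induction_on' with
  | add p q hp hq =>
    obtain ⟨a, d, h⟩ := hp
    obtain ⟨a', d', h'⟩ := hq
    refine ⟨a + a' + 1, d + d', fun m => ?_⟩
    rw [Polynomial.eval_add]
    have h1 : 2 ^ (a + d * m) ≤ 2 ^ (a + a' + (d + d') * m) :=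
      Nat.pow_le_pow_right (by norm_num) (by nlinarith [Nat.zero_le (d' * m)])
    have h2 : 2 ^ (a' + d' * m) ≤ 2 ^ (a + a' + (d + d') * m) :=
      Nat.pow_le_pow_right (by norm_num) (by nlinarith [Nat.zero_le (d * m)])
    calc p.eval (2 ^ m) + q.eval (2 ^ m) ≤ 2 ^ (a + d * m) + 2 ^ (a' + d' * m) :=
          Nat.add_le_add (h m) (h' m)
      _ ≤ 2 ^ (a + a' + (d + d') * m) + 2 ^ (a + a' + (d + d') * m) := Nat.add_le_add h1 h2
      _ = 2 ^ (a + a' + 1 + (d + d') * m) := by
          rw [show a + a' + 1 + (d + d') * m = (a + a' + (d + d') * m) + 1 by ring, pow_succ]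
          ring
  | monomial k b =>
    refine ⟨b, k, fun m => ?_⟩
    rw [Polynomial.eval_monomial, pow_add]
    have h1 : b ≤ 2 ^ b := Nat.lt_two_pow_self.le
    have h2 : (2 ^ m) ^ k = 2 ^ (k * m) := by rw [← pow_mul, mul_comm]
    rw [h2]
    exact Nat.mul_le_mul_right _ h1

/-- `q (2 ^ r n) ≤ 2 ^ s n` for a polynomial `s` -/
theorem exists_poly_two_pow (q r : Polynomial ℕ) :
    ∃ s : Polynomial ℕ, ∀ n : ℕ, q.eval (2 ^ r.eval n) ≤ 2 ^ s.eval n := by
  obtain ⟨a, d, h⟩ := eval_two_pow_le q
  refine ⟨Polynomial.C a + Polynomial.C d * r, fun n => ?_⟩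
  simpa using h (r.eval n)

theorem ET.length_bound {f : List Bool → List Bool} (hf : ET f) :
    ∃ p : Polynomial ℕ, ∀ x, (f x).length ≤ 2 ^ p.eval x.length := by
  obtain ⟨c, p, h⟩ := hf
  refine ⟨p + Polynomial.X + 1, fun x => ?_⟩
  obtain ⟨t, ht, h⟩ := h x
  have h1 := h.length_le 0
  simp only [init_zero] at h1
  simp only [Polynomial.eval_add, Polynomial.eval_X, Polynomial.eval_one]
  have h2 : x.length < 2 ^ x.length := Nat.lt_two_pow_self
  have h3 : 2 ^ p.eval x.length ≤ 2 ^ (p.eval x.length + x.length) :=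
    Nat.pow_le_pow_right (by norm_num) (by omega)
  have h4 : 2 ^ x.length ≤ 2 ^ (p.eval x.length + x.length) :=
    Nat.pow_le_pow_right (by norm_num) (by omega)
  rw [pow_succ]
  omega

/-- a poly-time function after an exponential-time one -/
theorem ET.comp {f g : List Bool → List Bool} (hg : PT g) (hf : ET f) :
    ET (fun x => g (f x)) := by
  obtain ⟨b, hb⟩ := hf.length_bound
  obtain ⟨c, p, hc⟩ := hf
  obtain ⟨d, q, hd⟩ := hg
  obtain ⟨s, hs⟩ := exists_poly_two_pow q b
  refine ⟨.seq c d, p + s + 1, fun x => ?_⟩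
  refine ((hc x).seq (hd (f x))).mono ?_
  have h1 : q.eval (f x).length ≤ 2 ^ s.eval x.length :=
    (polyEval_mono q (hb x)).trans (hs x.length)
  simp only [Polynomial.eval_add, Polynomial.eval_one]
  have h2 : 2 ^ p.eval x.length ≤ 2 ^ (p.eval x.length + s.eval x.length) :=
    Nat.pow_le_pow_right (by norm_num) (by omega)
  have h3 : 2 ^ s.eval x.length ≤ 2 ^ (p.eval x.length + s.eval x.length) :=
    Nat.pow_le_pow_right (by norm_num) (by omega)
  rw [pow_succ]
  omega

/-- Iteration with exponentially bounded sizes: `u` supplies the number of rounds. -/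
theorem ET.iter {f u s : List Bool → List Bool} (hf : PT f) (hu : PT u) (hs : PT s)
    (hb : ∃ p : Polynomial ℕ, ∀ x, ∀ i ≤ (u x).length,
      (f^[i] (s x)).length ≤ 2 ^ p.eval x.length) :
    ET (fun x => f^[(u x).length] (s x)) := by
  obtain ⟨B, hB⟩ := hb
  obtain ⟨bu, hbu⟩ := hu.length_bound
  obtain ⟨cf, p, hcf⟩ := hf
  obtain ⟨cu, q, hcu⟩ := hu
  obtain ⟨cs, r, hcs⟩ := hs
  obtain ⟨S, hS⟩ := exists_poly_two_pow p B
  -- crude total bound
  let W : Polynomial ℕ := q + r + 21 * Polynomial.X + 4 * bu + bu + 11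
  refine ⟨.seq (both cu cs) (.seq (mv 1 0) (.seq (mv 2 3) (.seq (mv 3 1)
    (.seq (.loop 0 (.seq (.pop 0) (cf.shift 1))) (.seq (mv 1 2) (mv 2 0)))))),
    W + S + B + 7, fun x => ?_⟩
  have h1 := run_both (hcu x) (hcs x)
  have h2 : Run (mv 1 0) (st4 [] (u x) (s x) []) (st4 (u x).reverse [] (s x) [])
      (4 * (u x).length + 1) := (run_mv (by decide) _).of_eq (by simp) (by simp)
  have h3 : Run (mv 2 3) (st4 (u x).reverse [] (s x) [])
      (st4 (u x).reverse [] [] (s x).reverse) (4 * (s x).length + 1) :=
    (run_mv (by decide) _).of_eq (by simp) (by simp)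
  have h4 : Run (mv 3 1) (st4 (u x).reverse [] [] (s x).reverse)
      (st4 (u x).reverse (s x) [] []) (4 * (s x).length + 1) :=
    (run_mv (by decide) _).of_eq (by simp) (by simp)
  have h5 : Run (.loop 0 (.seq (.pop 0) (cf.shift 1))) (st4 (u x).reverse (s x) [] [])
      (st4 [] (f^[(u x).length] (s x)) [] [])
      ((u x).length * (2 ^ S.eval x.length + 2) + 1) := by
    have := run_iter_loop (c := cf) (f := f) (n := 2 ^ S.eval x.length) (u x).reverse (s x)
      (fun i hi => (hcf _).mono
        ((polyEval_mono p (hB x i (by simpa using hi.le))).trans (hS x.length)))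
    simpa using this
  have h6 : Run (mv 1 2) (st4 [] (f^[(u x).length] (s x)) [] [])
      (st4 [] [] (f^[(u x).length] (s x)).reverse [])
      (4 * (f^[(u x).length] (s x)).length + 1) :=
    (run_mv (by decide) _).of_eq (by simp) (by simp)
  have h7 : Run (mv 2 0) (st4 [] [] (f^[(u x).length] (s x)).reverse [])
      (init (f^[(u x).length] (s x)))
      (4 * (f^[(u x).length] (s x)).length + 1) :=
    (run_mv (by decide) _).of_eq (by simp [init_eq_st4]) (by simp)
  refine (h1.seq (h2.seq (h3.seq (h4.seq (h5.seq (h6.seq h7)))))).mono ?_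
  have b1 := hbu x
  have b2 := hB x 0 (by simp)
  have b3 := hB x (u x).length le_rfl
  simp only [iterate_zero, id_eq] at b2
  have hW : W.eval x.length = q.eval x.length + r.eval x.length + 21 * x.length +
      4 * bu.eval x.length + bu.eval x.length + 11 := by
    simp [W]
  simp only [Polynomial.eval_add, Polynomial.eval_ofNat]
  generalize hw : W.eval x.length = w at *
  generalize hSv : S.eval x.length = σ at *
  generalize hBv : B.eval x.length = β at *
  have hw2 : w < 2 ^ w := Nat.lt_two_pow_self
  have hone : 1 ≤ 2 ^ w := Nat.one_le_two_pow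
  have hσ : 1 ≤ 2 ^ σ := Nat.one_le_two_pow
  have hβ : 1 ≤ 2 ^ β := Nat.one_le_two_pow
  have e : 2 ^ (w + σ + β + 7) = 2 ^ w * 2 ^ σ * 2 ^ β * 128 := by
    rw [pow_add, pow_add, pow_add]; norm_num
  have b4 : (u x).length * (2 ^ σ + 2) ≤ 2 ^ w * (3 * 2 ^ σ) :=
    Nat.mul_le_mul (by omega) (by omega)
  have e1 : 2 ^ w ≤ 2 ^ w * 2 ^ σ * 2 ^ β := by
    calc 2 ^ w = 2 ^ w * 1 * 1 := by ring
      _ ≤ 2 ^ w * 2 ^ σ * 2 ^ β := Nat.mul_le_mul (Nat.mul_le_mul_left _ hσ) hβ
  have e2 : 2 ^ w * (3 * 2 ^ σ) ≤ 3 * (2 ^ w * 2 ^ σ * 2 ^ β) := by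
    calc 2 ^ w * (3 * 2 ^ σ) = 3 * (2 ^ w * 2 ^ σ) * 1 := by ring
      _ ≤ 3 * (2 ^ w * 2 ^ σ) * 2 ^ β := Nat.mul_le_mul_left _ hβ
      _ = 3 * (2 ^ w * 2 ^ σ * 2 ^ β) := by ring
  have e3 : 2 ^ β ≤ 2 ^ w * 2 ^ σ * 2 ^ β := by
    calc 2 ^ β = 1 * 1 * 2 ^ β := by ring
      _ ≤ 2 ^ w * 2 ^ σ * 2 ^ β := Nat.mul_le_mul_right _ (Nat.mul_le_mul hone hσ)
  rw [e]
  omega

/-! ### `InEXP` -/

theorem poly_le_pow (r : Polynomial ℕ) : ∃ k A : ℕ, ∀ n : ℕ, r.eval n ≤ n ^ k + A := by
  induction r using Polynomial.induction_on' with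
  | add p q hp hq =>
    obtain ⟨k, A, h⟩ := hp
    obtain ⟨k', A', h'⟩ := hq
    refine ⟨k + k' + 1, A + A' + 2, fun n => ?_⟩
    rw [Polynomial.eval_add]
    have h1 := h n
    have h2 := h' n
    rcases Nat.lt_or_ge n 2 with hn | hn
    · have h3 : n ^ k ≤ 1 := (Nat.pow_le_pow_left (show n ≤ 1 by omega) k).trans (one_pow k).le
      have h4 : n ^ k' ≤ 1 := (Nat.pow_le_pow_left (show n ≤ 1 by omega) k').trans (one_pow k').le
      omega
    · have h3 : n ^ k ≤ n ^ (k + k') := Nat.pow_le_pow_right (by omega) (by omega)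
      have h4 : n ^ k' ≤ n ^ (k + k') := Nat.pow_le_pow_right (by omega) (by omega)
      have h5 : n ^ (k + k') * 2 ≤ n ^ (k + k' + 1) := by
        rw [pow_succ]; exact Nat.mul_le_mul_left _ hn
      omega
  | monomial j b =>
    refine ⟨j + 1, b * b ^ j, fun n => ?_⟩
    rw [Polynomial.eval_monomial]
    rcases Nat.lt_or_ge n b with hn | hn
    · have h1 : n ^ j ≤ b ^ j := Nat.pow_le_pow_left hn.le _
      have h2 : b * n ^ j ≤ b * b ^ j := Nat.mul_le_mul_left _ h1
      omega
    · have h1 : b * n ^ j ≤ n * n ^ j := Nat.mul_le_mul_right _ hn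
      have h2 : n ^ (j + 1) = n * n ^ j := by rw [pow_succ]; ring
      omega

theorem inEXP_of_et {L : Set (List Bool)} {f : List Bool → List Bool} (hf : ET f)
    (b : List Bool → Bool) (h1 : ∀ x, f x = [b x]) (h2 : ∀ x, x ∈ L ↔ b x = true) :
    Crest.ExpTime.InEXP L := by
  obtain ⟨c, p, hc⟩ := hf
  obtain ⟨k, A, hk⟩ := poly_le_pow p
  have h3 := timeBoundPred_of_run (f := b) c (fun n => 2 ^ p.eval n) (fun x => by
    have := hc x
    rwa [h1 x] at this)
  refine ⟨k, b, 2 ^ A, ?_, h2⟩
  obtain ⟨M, hM⟩ := h3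
  refine ⟨M, fun n => (hM n).trans ?_⟩
  have h4 : 2 ^ p.eval n ≤ 2 ^ (n ^ k + A) := Nat.pow_le_pow_right (by norm_num) (hk n)
  have h5 : 2 ^ (n ^ k + A) = 2 ^ A * 2 ^ (n ^ k) := by rw [pow_add]; ring
  have h6 : 1 ≤ 2 ^ A := Nat.one_le_two_pow
  show 2 ^ p.eval n + 1 ≤ 2 ^ A * 2 ^ (n ^ k) + 2 ^ A
  omega

/-- the pad: `x ↦ pair x (1 ^ (2 ^ p |x|))` is exponential time -/
theorem et_pad (p : Polynomial ℕ) :
    ET (fun x => pair x (List.replicate (2 ^ p.eval x.length) true)) := by
  have hf : PT (fun z => pair (Crest.Agent.Lib.PT.fst z)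
      (Crest.Agent.Lib.PT.snd z ++ Crest.Agent.Lib.PT.snd z)) :=
    PT.fst.pair (PT.append PT.snd PT.snd)
  have hu : PT (fun x => List.replicate (p.eval x.length) true) := PT.clock p
  have hs : PT (fun x => pair x [true]) := PT.id.pair (PT.const [true])
  have key : ∀ (x : List Bool) (i : ℕ), (fun z => pair (Crest.Agent.Lib.PT.fst z)
      (Crest.Agent.Lib.PT.snd z ++ Crest.Agent.Lib.PT.snd z))^[i] (pair x [true]) =
      pair x (List.replicate (2 ^ i) true) := by
    intro x i
    induction i with
    | zero => simp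
    | succ i ih =>
      rw [iterate_succ_apply', ih]
      simp only [core_fst_pair, core_snd_pair, List.replicate_append_replicate]
      congr 2
      rw [pow_succ]; ring
  have h := ET.iter hf hu hs ⟨2 * Polynomial.X + p + 2, fun x i hi => by
    rw [key, core_length_pair]
    simp only [List.length_replicate] at hi ⊢
    simp only [Polynomial.eval_add, Polynomial.eval_mul, Polynomial.eval_ofNat, Polynomial.eval_X]
    have h1 : 2 * x.length < 2 ^ (2 * x.length) := Nat.lt_two_pow_self
    have h2 : 2 ^ i ≤ 2 ^ p.eval x.length := Nat.pow_le_pow_right (by norm_num) hi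
    have h3 : 2 ^ (2 * x.length + p.eval x.length + 2) =
      2 ^ (2 * x.length) * 2 ^ p.eval x.length * 4 := by rw [pow_add, pow_add]; norm_num
    have h4 : 1 ≤ 2 ^ (2 * x.length) := Nat.one_le_two_pow
    have h5 : 1 ≤ 2 ^ p.eval x.length := Nat.one_le_two_pow
    have h6 : 2 ^ (2 * x.length) * 1 ≤ 2 ^ (2 * x.length) * 2 ^ p.eval x.length :=
      Nat.mul_le_mul_left _ h5
    have h7 : 1 * 2 ^ p.eval x.length ≤ 2 ^ (2 * x.length) * 2 ^ p.eval x.length :=
      Nat.mul_le_mul_right _ h4
    rw [h3]
    omega⟩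
  obtain ⟨c, q, hc⟩ := h
  refine ⟨c, q, fun x => ?_⟩
  have := hc x
  beta_reduce at this ⊢
  rw [key] at this
  simpa using this

/-- A test that is poly-time in `(x, 1 ^ N)`, used with `N = 2 ^ p |x|`, decides a language in
EXPTIME. -/
theorem inEXP_of_pad {L : Set (List Bool)} {V : List Bool → ℕ → Prop}
    (hV : PTPred (fun q : List Bool × Un => V q.1 q.2.val)) (p : Polynomial ℕ)
    (h : ∀ x, x ∈ L ↔ V x (2 ^ p.eval x.length)) : Crest.ExpTime.InEXP L := by
  obtain ⟨f, hf, hfV⟩ := hV
  -- as a raw function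
  have h1 : PTF (fun q : Bits × Un => f (q.1.val, q.2)) :=
    PTF.comp (g := f) (f := fun q : Bits × Un => (q.1.val, q.2)) hf (by fun_prop)
  obtain ⟨g, hg, hg'⟩ := h1
  refine inEXP_of_et (ET.comp hg (et_pad p)) (fun x => f (x, ⟨2 ^ p.eval x.length⟩)) ?_ ?_
  · intro x
    have := hg' (⟨x⟩, ⟨2 ^ p.eval x.length⟩)
    simpa using this
  · intro x
    rw [h x]
    exact hfV (x, ⟨2 ^ p.eval x.length⟩)

end Crest.Agent.R290.EX
end

-- ▼ part R290/EXRef
section

/-!
# Row 290: generic partition refinement: semantics and polynomial time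

`rtab nodes moves ini r`: the table of colours (numbers) after `r` rounds.
-/

set_option autoImplicit false
set_option linter.dupNamespace false

namespace Crest.Agent.R290.EX

open Crest.Agent.Lib.PT

/-! ### the algorithm -/

section alg

variable {α β : Type} [DecidableEq α] [DecidableEq β]

/-- multiset equality of lists by counting -/
def permB (l l' : List β) : Bool :=
  (l ++ l').all fun v => decide (l.countP (fun w => decide (w = v)) =
    l'.countP (fun w => decide (w = v)))

theorem permB_iff (l l' : List β) : permB l l' = true ↔ l.Perm l' := by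
  have hc : ∀ (l : List β) (v : β), l.countP (fun w => decide (w = v)) = l.count v := by
    intro l v
    rw [List.count_eq_countP]
    rfl
  rw [List.perm_iff_count]
  unfold permB
  rw [List.all_eq_true]
  constructor
  · intro h v
    by_cases hv : v ∈ l ++ l'
    · have := h v hv
      simpa only [hc, decide_eq_true_eq] using this
    · rw [List.mem_append, not_or] at hv
      rw [List.count_eq_zero_of_not_mem hv.1, List.count_eq_zero_of_not_mem hv.2]
  · intro h v _
    simp only [hc, decide_eq_true_eq]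
    exact h v

/-- colour table lookup -/
def look (tab : List (α × ℕ)) (x : α) : ℕ :=
  ((tab.find? fun q => decide (q.1 = x)).map Prod.snd).getD 0

/-- the relation deciding the next colour -/
def simB (moves : α → List (List α)) (tab : List (α × ℕ)) (x y : α) : Bool :=
  decide (look tab x = look tab y) &&
    permB ((moves x).map (List.map (look tab))) ((moves y).map (List.map (look tab)))

/-- index of the first element satisfying a test -/
def fidx (p : α → Bool) (l : List α) : ℕ := (l.takeWhile (fun a => !p a)).length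

/-- one round of refinement -/
def rstep (nodes : List α) (moves : α → List (List α)) (tab : List (α × ℕ)) : List (α × ℕ) :=
  nodes.map fun x => (x, fidx (fun y => simB moves tab x y) nodes)

/-- the initial table -/
def rinit (nodes : List α) (ini : α → β) : List (α × ℕ) :=
  nodes.map fun x => (x, fidx (fun y => decide (ini x = ini y)) nodes)

/-- the table after `r` rounds -/
def rtab (nodes : List α) (moves : α → List (List α)) (ini : α → β) (r : ℕ) : List (α × ℕ) :=
  (rstep nodes moves)^[r] (rinit nodes ini)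

omit [DecidableEq β] in
theorem look_map (nodes : List α) (c : α → ℕ) {x : α} (hx : x ∈ nodes) :
    look (nodes.map fun y => (y, c y)) x = c x := by
  unfold look
  induction nodes with
  | nil => simp at hx
  | cons a l ih =>
    by_cases h : a = x
    · subst h; simp
    · have hx' : x ∈ l := by
        rcases List.mem_cons.1 hx with h' | h'
        · exact absurd h'.symm h
        · exact h'
      simp only [List.map_cons, List.find?_cons, h, decide_false]
      exact ih hx'

omit [DecidableEq α] in
theorem fidx_le (p : α → Bool) (l : List α) : fidx p l ≤ l.length := by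
  unfold fidx
  exact (List.takeWhile_prefix _).length_le

omit [DecidableEq α] in
/-- if some element satisfies the test the index is the index of such an element -/
theorem fidx_spec (p : α → Bool) (l : List α) (h : ∃ a ∈ l, p a = true) :
    ∃ a, l[fidx p l]? = some a ∧ p a = true := by
  unfold fidx
  induction l with
  | nil => simp at h
  | cons a l ih =>
    by_cases hp : p a = true
    · exact ⟨a, by simp [hp], hp⟩
    · have h' : ∃ a ∈ l, p a = true := by
        obtain ⟨b, hb, hb'⟩ := h
        rcases List.mem_cons.1 hb with rfl | hb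
        · exact absurd hb' hp
        · exact ⟨b, hb, hb'⟩
      obtain ⟨b, hb, hb'⟩ := ih h'
      refine ⟨b, ?_, hb'⟩
      simp only [Bool.not_eq_true] at hp
      simpa [hp] using hb

omit [DecidableEq α] in
theorem fidx_eq_iff (r : α → α → Bool) (hr : Equivalence fun x y => r x y = true) (l : List α)
    {x y : α} (hx : x ∈ l) (hy : y ∈ l) : fidx (r x) l = fidx (r y) l ↔ r x y = true := by
  constructor
  · intro h
    obtain ⟨a, ha, ha'⟩ := fidx_spec (r x) l ⟨x, hx, hr.refl x⟩
    obtain ⟨b, hb, hb'⟩ := fidx_spec (r y) l ⟨y, hy, hr.refl y⟩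
    rw [h, hb] at ha
    have : b = a := Option.some.inj ha
    subst this
    exact hr.trans ha' (hr.symm hb')
  · intro h
    have : r x = r y := by
      funext z
      have h1 : r x z = true ↔ r y z = true :=
        ⟨fun h2 => hr.trans (hr.symm h) h2, fun h2 => hr.trans h h2⟩
      cases hxz : r x z <;> cases hyz : r y z <;> simp_all
    rw [this]

end alg

/-! ### transfer of multiset equalities -/

theorem perm_transfer {X A B : Type} {g : X → A} {h : X → B} (hgh : ∀ x y, g x = g y → h x = h y)
    {L L' : List X} (hp : (L.map g).Perm (L'.map g)) : (L.map h).Perm (L'.map h) := by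
  classical
  let φ : A → Option B := fun a => if ha : ∃ x, g x = a then some (h ha.choose) else none
  have hφ : ∀ x, φ (g x) = some (h x) := by
    intro x
    have hx : ∃ y, g y = g x := ⟨x, rfl⟩
    simp only [φ, dif_pos hx]
    rw [hgh _ _ hx.choose_spec]
  have h1 := hp.map φ
  rw [List.map_map, List.map_map] at h1
  have e : φ ∘ g = some ∘ h := funext hφ
  rw [e, ← List.map_map, ← List.map_map] at h1
  exact (List.map_perm_map_iff (Option.some_injective B)).1 h1

theorem perm_transfer_iff {X A B : Type} {g : X → A} {h : X → B}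
    (hgh : ∀ x y, g x = g y ↔ h x = h y) (L L' : List X) :
    (L.map g).Perm (L'.map g) ↔ (L.map h).Perm (L'.map h) :=
  ⟨perm_transfer fun x y => (hgh x y).1, perm_transfer fun x y => (hgh x y).2⟩

theorem map_eq_transfer {X A B : Type} {g : X → A} {h : X → B}
    (hgh : ∀ x y, g x = g y → h x = h y) : ∀ v w : List X, v.map g = w.map g → v.map h = w.map h
  | [], [], _ => rfl
  | [], _ :: _, e => by simp at e
  | _ :: _, [], e => by simp at e
  | x :: v, y :: w, e => by
    simp only [List.map_cons, List.cons.injEq] at e ⊢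
    exact ⟨hgh x y e.1, map_eq_transfer hgh v w e.2⟩

/-! ### semantics of the table -/

section sem

variable {α β N : Type} [DecidableEq α] [DecidableEq β]

theorem look_rstep (nodes : List α) (moves : α → List (List α)) (tab : List (α × ℕ)) {x : α}
    (hx : x ∈ nodes) :
    look (rstep nodes moves tab) x = fidx (fun y => simB moves tab x y) nodes :=
  look_map nodes (fun x => fidx (fun y => simB moves tab x y) nodes) hx

theorem look_rinit (nodes : List α) (ini : α → β) {x : α} (hx : x ∈ nodes) :
    look (rinit nodes ini) x = fidx (fun y => decide (ini x = ini y)) nodes :=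
  look_map nodes (fun x => fidx (fun y => decide (ini x = ini y)) nodes) hx

omit [DecidableEq β] in
theorem simB_iff (moves : α → List (List α)) (tab : List (α × ℕ)) (x y : α) :
    simB moves tab x y = true ↔ look tab x = look tab y ∧
      ((moves x).map (List.map (look tab))).Perm ((moves y).map (List.map (look tab))) := by
  simp [simB, permB_iff]

/-- The colours of the table represent the true colours `f s`. -/
theorem rtab_spec (κ : N → α) (nodes : List α) (hn : ∀ x, κ x ∈ nodes)
    (moves : α → List (List α)) (mvN : N → List (List N))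
    (hmv : ∀ x, moves (κ x) = (mvN x).map (List.map κ)) (ini : α → β)
    {C : ℕ → Type} (f : (s : ℕ) → N → C s)
    (h0 : ∀ x y, f 0 x = f 0 y ↔ ini (κ x) = ini (κ y))
    (hs : ∀ s x y, f (s + 1) x = f (s + 1) y ↔ f s x = f s y ∧
      ((mvN x).map (List.map (f s))).Perm ((mvN y).map (List.map (f s))))
    (s : ℕ) (x y : N) :
    look (rtab nodes moves ini s) (κ x) = look (rtab nodes moves ini s) (κ y) ↔
      f s x = f s y := by
  induction s generalizing x y with
  | zero =>
    rw [h0]
    simp only [rtab, Function.iterate_zero, id_eq]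
    rw [look_rinit nodes ini (hn x), look_rinit nodes ini (hn y)]
    have := fidx_eq_iff (fun x y => decide (ini x = ini y))
      ⟨fun _ => by simp, fun h => by simpa [eq_comm] using h, fun h h' => by
        simp only [decide_eq_true_eq] at h h' ⊢; exact h.trans h'⟩ nodes (hn x) (hn y)
    simpa using this
  | succ s ih =>
    rw [hs]
    simp only [rtab, Function.iterate_succ_apply']
    rw [look_rstep nodes moves _ (hn x), look_rstep nodes moves _ (hn y)]
    have h1 := fidx_eq_iff (fun x y => simB moves (rtab nodes moves ini s) x y)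
      ⟨fun _ => by simp [simB_iff], fun h => by
        simp only [simB_iff] at h ⊢
        exact ⟨h.1.symm, h.2.symm⟩, fun h h' => by
        simp only [simB_iff] at h h' ⊢
        exact ⟨h.1.trans h'.1, h.2.trans h'.2⟩⟩ nodes (hn x) (hn y)
    have h2 : (fidx (fun z => simB moves ((rstep nodes moves)^[s] (rinit nodes ini)) (κ x) z) nodes
      = fidx (fun z => simB moves ((rstep nodes moves)^[s] (rinit nodes ini)) (κ y) z) nodes) ↔
      simB moves (rtab nodes moves ini s) (κ x) (κ y) = true := h1
    rw [h2, simB_iff, ih, hmv, hmv, List.map_map, List.map_map]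
    refine and_congr_right fun _ => ?_
    refine perm_transfer_iff (fun v w => ?_) _ _
    simp only [Function.comp_apply, List.map_map]
    exact ⟨map_eq_transfer (fun a b => (ih a b).1) v w, map_eq_transfer (fun a b => (ih a b).2) v w⟩

end sem

/-! ### stabilisation -/

section stab

variable {N : Type} {C : ℕ → Type} (f : (s : ℕ) → N → C s) (mvN : N → List (List N))
  (hs : ∀ s x y, f (s + 1) x = f (s + 1) y ↔ f s x = f s y ∧
      ((mvN x).map (List.map (f s))).Perm ((mvN y).map (List.map (f s))))

include hs in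
theorem rel_antitone {s t : ℕ} (hst : s ≤ t) (x y : N) (h : f t x = f t y) : f s x = f s y := by
  induction t, hst using Nat.le_induction with
  | base => exact h
  | succ t _ ih => exact ih (((hs t x y).1 h).1)

include hs in
theorem rel_stable {s : ℕ} (h : ∀ x y, f s x = f s y → f (s + 1) x = f (s + 1) y) {t : ℕ}
    (hst : s ≤ t) (x y : N) : f t x = f t y ↔ f s x = f s y := by
  refine ⟨rel_antitone f mvN hs hst x y, ?_⟩
  induction t, hst using Nat.le_induction generalizing x y with
  | base => exact id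
  | succ t hst' ih =>
    intro hxy
    rw [hs]
    refine ⟨ih x y hxy, ?_⟩
    have h1 := ((hs s x y).1 (h x y hxy)).2
    refine perm_transfer (fun v w hvw => ?_) h1
    exact map_eq_transfer (fun a b => ih a b) v w hvw

include hs in
theorem rel_bound [Fintype N] {R : ℕ} (hR : Fintype.card N * Fintype.card N ≤ R) {t : ℕ}
    (ht : R ≤ t) (x y : N) : f t x = f t y ↔ f R x = f R y := by
  classical
  obtain ⟨s, hsR, hst⟩ : ∃ s ≤ R, ∀ x y, f s x = f s y → f (s + 1) x = f (s + 1) y := by
    by_contra hcon
    push Not at hcon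
    -- the number of equivalent pairs drops in each round
    let P : ℕ → Finset (N × N) := fun s => Finset.univ.filter fun q => f s q.1 = f s q.2
    have hdrop : ∀ s ≤ R, (P (s + 1)).card < (P s).card := by
      intro s hsR
      obtain ⟨x, y, h1, h2⟩ := hcon s hsR
      apply Finset.card_lt_card
      rw [Finset.ssubset_iff_of_subset]
      · exact ⟨(x, y), by simpa [P] using h1, by simpa [P] using h2⟩
      · intro q hq
        simp only [P, Finset.mem_filter, Finset.mem_univ, true_and] at hq ⊢
        exact ((hs s _ _).1 hq).1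
    have hbound : ∀ s ≤ R + 1, (P s).card + s ≤ (P 0).card := by
      intro s
      induction s with
      | zero => intro _; simp
      | succ s ih =>
        intro h
        have := ih (by omega)
        have := hdrop s (by omega)
        omega
    have h1 := hbound (R + 1) le_rfl
    have h2 : (P 0).card ≤ Fintype.card N * Fintype.card N := by
      refine (Finset.card_le_univ _).trans ?_
      rw [Fintype.card_prod]
    omega
  rw [rel_stable f mvN hs hst (hsR.trans ht), rel_stable f mvN hs hst hsR]

include hs in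
/-- histograms agree at every round iff they agree at a late round -/
theorem hist_iff [Fintype N] {R : ℕ} (hR : Fintype.card N * Fintype.card N ≤ R) (L L' : List N) :
    (∀ t, (L.map (f t)).Perm (L'.map (f t))) ↔ (L.map (f R)).Perm (L'.map (f R)) := by
  refine ⟨fun h => h R, fun h t => ?_⟩
  rcases le_total t R with ht | ht
  · exact perm_transfer (fun x y => rel_antitone f mvN hs ht x y) h
  · exact perm_transfer (fun x y => (rel_bound f mvN hs hR ht x y).2) h

end stab

/-- The full correctness statement of the refinement test. -/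
theorem rtab_hist {α β N : Type} [DecidableEq α] [DecidableEq β] [Fintype N] (κ : N → α)
    (nodes : List α) (hn : ∀ x, κ x ∈ nodes)
    (moves : α → List (List α)) (mvN : N → List (List N))
    (hmv : ∀ x, moves (κ x) = (mvN x).map (List.map κ)) (ini : α → β)
    {C : ℕ → Type} (f : (s : ℕ) → N → C s)
    (h0 : ∀ x y, f 0 x = f 0 y ↔ ini (κ x) = ini (κ y))
    (hs : ∀ s x y, f (s + 1) x = f (s + 1) y ↔ f s x = f s y ∧
      ((mvN x).map (List.map (f s))).Perm ((mvN y).map (List.map (f s))))
    {R : ℕ} (hR : Fintype.card N * Fintype.card N ≤ R) (L L' : List N) :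
    permB ((L.map κ).map (look (rtab nodes moves ini R)))
      ((L'.map κ).map (look (rtab nodes moves ini R))) = true ↔
      ∀ t, (L.map (f t)).Perm (L'.map (f t)) := by
  rw [hist_iff f mvN hs hR, permB_iff, List.map_map, List.map_map]
  exact perm_transfer_iff (fun x y => rtab_spec κ nodes hn moves mvN hmv ini f h0 hs R x y) _ _

/-! ### polynomial time -/

section pt

variable {α β γ : Type} [PTCode α] [PTCode β] [PTCode γ] [DecidableEq α] [DecidableEq β]

theorem ptf_permB {l l' : γ → List β} (hl : PTF l) (hl' : PTF l') :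
    PTF (fun c => permB (l c) (l' c)) := by
  unfold permB
  refine PTF.all (l := fun c => l c ++ l' c) (by fun_prop) ?_
  have h1 : ∀ m : γ → List β, PTF m →
      PTU (fun q : γ × β => (m q.1).countP (fun w => decide (w = q.2))) := by
    intro m hm
    exact PTU.countP (l := fun q : γ × β => m q.1) (p := fun (q : γ × β) (w : β) => decide (w = q.2))
      (by fun_prop) (PTF.beq (by fun_prop) (by fun_prop))
  exact (PTU.eq (h1 l hl) (h1 l' hl')).toPTF

theorem ptf_look {tab : γ → List (α × ℕ)} {x : γ → α} (ht : PTF tab) (hx : PTF x) :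
    PTF (fun c => look (tab c) (x c)) := by
  unfold look
  refine PTF.optionGetD ?_ (PTF.const 0)
  refine PTF.optionMap (s := fun c => (tab c).find? fun q => decide (q.1 = x c))
    (g := fun _ q => q.2) ?_ (PTF.comp (g := fun q : α × ℕ => q.2) PTF.snd PTF.snd)
  exact PTF.find? (p := fun c (q : α × ℕ) => decide (q.1 = x c)) ht
    (PTF.beq (by fun_prop) (by fun_prop))

omit [DecidableEq α] in
theorem ptu_fidx {p : γ → α → Bool} {l : γ → List α} (hp : PTF₂ p) (hl : PTF l) :
    PTU (fun c => fidx (p c) (l c)) := by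
  unfold fidx
  exact PTU.length (PTF.takeWhile (p := fun c a => !p c a) hl (PTF.not hp))

theorem ptf_simB {moves : γ → α → List (List α)} {tab : γ → List (α × ℕ)} {x y : γ → α}
    (hm : PTF₂ moves) (ht : PTF tab) (hx : PTF x) (hy : PTF y) :
    PTF (fun c => simB (moves c) (tab c) (x c) (y c)) := by
  unfold simB
  have h1 : PTF (fun c => decide (look (tab c) (x c) = look (tab c) (y c))) :=
    PTF.beq (ptf_look ht hx) (ptf_look ht hy)
  have h2 : ∀ z : γ → α, PTF z →
      PTF (fun c => (moves c (z c)).map (List.map (look (tab c)))) := by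
    intro z hz
    refine PTF.map (l := fun c => moves c (z c)) (f := fun c v => List.map (look (tab c)) v)
      (PTF.comp₂ hm PTF.id hz) ?_
    refine PTF.map (l := fun q : γ × List α => q.2) (f := fun (q : γ × List α) a => look (tab q.1) a)
      (by fun_prop) ?_
    exact ptf_look (by fun_prop) (by fun_prop)
  exact PTF.and h1 (ptf_permB (h2 x hx) (h2 y hy))

theorem ptf_rstep {nodes : γ → List α} {moves : γ → α → List (List α)} {tab : γ → List (α × ℕ)}
    (hn : PTF nodes) (hm : PTF₂ moves) (ht : PTF tab) :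
    PTF (fun c => rstep (nodes c) (moves c) (tab c)) := by
  unfold rstep
  refine PTF.map (f := fun c x => (x, fidx (fun y => simB (moves c) (tab c) x y) (nodes c))) hn ?_
  refine PTF.prodMk PTF.snd (PTU.toPTF ?_)
  refine ptu_fidx (p := fun (q : γ × α) (y : α) => simB (moves q.1) (tab q.1) q.2 y)
    (l := fun q => nodes q.1) ?_ (by fun_prop)
  refine ptf_simB (γ := (γ × α) × α) (moves := fun q => moves q.1.1) ?_ (by fun_prop)
    (by fun_prop) (by fun_prop)
  exact PTF.comp (g := fun q : γ × α => moves q.1 q.2)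
    (f := fun q : ((γ × α) × α) × α => (q.1.1.1, q.2)) hm (by fun_prop)

omit [DecidableEq α] in
theorem ptf_rinit {nodes : γ → List α} {ini : γ → α → β} (hn : PTF nodes) (hi : PTF₂ ini) :
    PTF (fun c => rinit (nodes c) (ini c)) := by
  unfold rinit
  refine PTF.map (f := fun c x => (x, fidx (fun y => decide (ini c x = ini c y)) (nodes c))) hn ?_
  refine PTF.prodMk PTF.snd (PTU.toPTF ?_)
  refine ptu_fidx (p := fun (q : γ × α) (y : α) => decide (ini q.1 q.2 = ini q.1 y))
    (l := fun q => nodes q.1) ?_ (by fun_prop)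
  refine PTF.beq ?_ ?_
  · exact PTF.comp (g := fun q : γ × α => ini q.1 q.2)
      (f := fun q : (γ × α) × α => q.1) hi (by fun_prop)
  · exact PTF.comp (g := fun q : γ × α => ini q.1 q.2)
      (f := fun q : (γ × α) × α => (q.1.1, q.2)) hi (by fun_prop)

omit [DecidableEq α] in
theorem sz_tab_le (nodes : List α) (g : α → ℕ) (hg : ∀ x, g x ≤ nodes.length) :
    sz (nodes.map fun x => (x, g x)) ≤ sz nodes * (2 * (2 * sz nodes + 1 + sz nodes) + 1) := by
  refine (sz_list_le (m := 2 * sz nodes + 1 + sz nodes) ?_).trans ?_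
  · intro b hb
    obtain ⟨x, hx, rfl⟩ := List.mem_map.1 hb
    have h1 := sz_mem_le hx
    have h2 := sz_nat_le (g x)
    have h3 := hg x
    have h4 := length_le_sz nodes
    simp only [sz_prod]
    omega
  · refine Nat.mul_le_mul_right _ ?_
    simpa using length_le_sz nodes

theorem ptf_rtab {nodes : γ → List α} {moves : γ → α → List (List α)} {ini : γ → α → β}
    {r : γ → ℕ} (hn : PTF nodes) (hm : PTF₂ moves) (hi : PTF₂ ini) (hr : PTU r) :
    PTF (fun c => rtab (nodes c) (moves c) (ini c) (r c)) := by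
  unfold rtab
  refine PTF.iterate' (f := fun c tab => rstep (nodes c) (moves c) tab)
    (a := fun c => rinit (nodes c) (ini c)) hr ?_ (ptf_rinit hn hi)
    (B := fun c => sz (nodes c) * (2 * (2 * sz (nodes c) + 1 + sz (nodes c)) + 1)) ?_ ?_
  · refine ptf_rstep (γ := γ × List (α × ℕ)) (nodes := fun q => nodes q.1)
      (moves := fun q => moves q.1) (by fun_prop) ?_ (by fun_prop)
    exact PTF.comp (g := fun q : γ × α => moves q.1 q.2)
      (f := fun q : (γ × List (α × ℕ)) × α => (q.1.1, q.2)) hm (by fun_prop)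
  · have := hn.sz
    fun_prop
  · intro c i _
    cases i with
    | zero =>
      rw [Function.iterate_zero, id_eq]
      exact sz_tab_le _ _ (fun x => fidx_le _ _)
    | succ i =>
      rw [Function.iterate_succ_apply']
      exact sz_tab_le _ _ (fun x => fidx_le _ _)

end pt

end Crest.Agent.R290.EX
end

-- ▼ part R290/EXWL
section

/-!
# Row 290: the refinement test decides `JEquiv` and `CREquiv`; capping the dimension; identification
-/

set_option autoImplicit false
set_option linter.dupNamespace false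

namespace Crest.Agent.R290.EX

open Crest.WLRefine

/-! ### matrices as bit lists -/

/-- matrix read off a bit list -/
def adjOf (n : ℕ) (b : List Bool) : Fin n → Fin n → Bool := fun v w => b.getD (v * n + w) false

/-- the row-by-row bits of a matrix -/
def bitsOf {n : ℕ} (adj : Fin n → Fin n → Bool) : List Bool :=
  (List.finRange n).flatMap fun v => (List.finRange n).map fun w => adj v w

theorem adjMatrixCode_eq {n : ℕ} (adj : Fin n → Fin n → Bool) :
    adjMatrixCode adj = Crest.Enc.natCode n ++ bitsOf adj := rfl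

theorem bitsOf_eq_ofFn {n : ℕ} (adj : Fin n → Fin n → Bool) :
    bitsOf adj = List.ofFn (fun i : Fin (n * n) => adj i.divNat i.modNat) := by
  rw [List.ofFn_mul, bitsOf, List.flatMap, List.ofFn_eq_map]
  congr 1
  refine List.map_congr_left fun v _ => ?_
  rw [List.ofFn_eq_map]
  refine List.map_congr_left fun w _ => ?_
  have hn : 0 < n := v.pos
  congr 1
  · apply Fin.ext
    simp only [Fin.coe_divNat]
    rw [Nat.mul_comm, Nat.mul_add_div hn, Nat.div_eq_of_lt w.2, add_zero]
  · apply Fin.ext
    simp only [Fin.coe_modNat]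
    rw [Nat.mul_comm, Nat.mul_add_mod, Nat.mod_eq_of_lt w.2]

theorem length_bitsOf {n : ℕ} (adj : Fin n → Fin n → Bool) : (bitsOf adj).length = n * n := by
  rw [bitsOf_eq_ofFn, List.length_ofFn]

theorem idx_lt {n : ℕ} (v w : Fin n) : (v : ℕ) * n + w < n * n := by
  have h1 : (v : ℕ) + 1 ≤ n := v.2
  have h2 := Nat.mul_le_mul_right n h1
  have h3 := w.2
  rw [Nat.add_mul] at h2
  omega

theorem adjOf_bitsOf {n : ℕ} (adj : Fin n → Fin n → Bool) : adjOf n (bitsOf adj) = adj := by
  funext v w
  have h := idx_lt v w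
  have hn : 0 < n := v.pos
  unfold adjOf
  rw [List.getD_eq_getElem?_getD, bitsOf_eq_ofFn, List.getElem?_ofFn, dif_pos h]
  simp only [Option.getD_some]
  congr 1
  · apply Fin.ext
    simp only [Fin.coe_divNat]
    rw [Nat.mul_comm, Nat.mul_add_div hn, Nat.div_eq_of_lt w.2, add_zero]
  · apply Fin.ext
    simp only [Fin.coe_modNat]
    rw [Nat.mul_comm, Nat.mul_add_mod, Nat.mod_eq_of_lt w.2]

theorem bitsOf_adjOf {n : ℕ} {b : List Bool} (h : b.length = n * n) :
    bitsOf (adjOf n b) = b := by
  rw [bitsOf_eq_ofFn]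
  apply List.ext_getElem
  · simp [h]
  · intro i h1 h2
    rw [List.getElem_ofFn]
    unfold adjOf
    simp only [Fin.coe_divNat, Fin.coe_modNat]
    rw [Nat.mul_comm, Nat.div_add_mod, List.getD_eq_getElem?_getD, List.getElem?_eq_getElem h2]
    rfl

/-! ### the joint test -/

/-- all `k`-tuples of numbers below `n`, as lists -/
def tuples (n k cap : ℕ) : List (List ℕ) :=
  (List.range (min (n ^ k) cap)).map fun j => (List.range k).map fun i => j / n ^ i % n

/-- the next tuples -/
def movesJ (n k : ℕ) (x : Bool × List ℕ) : List (List (Bool × List ℕ)) :=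
  (List.range n).map fun z => (List.range k).map fun i => (x.1, x.2.set i z)

/-- the atomic type -/
def iniJ (n : ℕ) (gb hb : List Bool) (x : Bool × List ℕ) : List (List (Bool × Bool)) :=
  x.2.map fun a => x.2.map fun a' =>
    (decide (a = a'), (bif x.1 then hb else gb).getD (a * n + a') false)

/-- all nodes -/
def nodesJ (n k cap : ℕ) : List (Bool × List ℕ) :=
  (tuples n k cap).map (fun t => (false, t)) ++ (tuples n k cap).map (fun t => (true, t))

/-- the colour table of the joint refinement -/
def tabJ (n k cap : ℕ) (gb hb : List Bool) : List ((Bool × List ℕ) × ℕ) :=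
  rtab (nodesJ n k cap) (movesJ n k) (iniJ n gb hb)
    ((nodesJ n k cap).length * (nodesJ n k cap).length)

/-- the test for joint equivalence -/
def testJ (n k cap : ℕ) (gb hb : List Bool) : Bool :=
  permB (((tuples n k cap).map (fun t => (false, t))).map (look (tabJ n k cap gb hb)))
    (((tuples n k cap).map (fun t => (true, t))).map (look (tabJ n k cap gb hb)))

/-- list form of a tuple -/
def kap {n k : ℕ} (v : Fin k → Fin n) : List ℕ := List.ofFn fun i => (v i : ℕ)

/-- all tuples -/
def allT (n k : ℕ) : List (Fin k → Fin n) :=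
  (List.finRange (n ^ k)).map fun j => finFunctionFinEquiv.symm j

theorem mem_allT {n k : ℕ} (v : Fin k → Fin n) : v ∈ allT n k := by
  unfold allT
  rw [List.mem_map]
  exact ⟨finFunctionFinEquiv v, List.mem_finRange _, by simp⟩

theorem univ_val_eq_allT (n k : ℕ) :
    (Finset.univ : Finset (Fin k → Fin n)).val = (allT n k : Multiset (Fin k → Fin n)) := by
  classical
  have hnd : (allT n k).Nodup := by
    unfold allT
    exact (List.nodup_finRange _).map finFunctionFinEquiv.symm.injective
  refine (Multiset.Nodup.ext (Finset.univ.nodup) (Multiset.coe_nodup.2 hnd)).2 fun v => ?_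
  simp [mem_allT]

theorem tuples_eq {n k cap : ℕ} (hcap : n ^ k ≤ cap) :
    tuples n k cap = (allT n k).map kap := by
  unfold tuples allT
  rw [min_eq_left hcap, ← List.map_coe_finRange_eq_range (n := n ^ k), List.map_map, List.map_map]
  refine List.map_congr_left fun j _ => ?_
  simp only [Function.comp_apply, kap]
  rw [← List.map_coe_finRange_eq_range, List.map_map, List.ofFn_eq_map]
  refine List.map_congr_left fun i _ => ?_
  simp only [Function.comp_apply]
  rfl

/-- the graph chosen by the flag -/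
def Gr {n : ℕ} (G H : Fin n → Fin n → Bool) (b : Bool) : Fin n → Fin n → Bool :=
  bif b then H else G

/-- node of the algorithm -/
def kapJ {n k : ℕ} (x : Bool × (Fin k → Fin n)) : Bool × List ℕ := (x.1, kap x.2)

/-- moves on true tuples -/
def mvJ {n k : ℕ} (x : Bool × (Fin k → Fin n)) : List (List (Bool × (Fin k → Fin n))) :=
  (List.finRange n).map fun z => List.ofFn fun i => (x.1, Function.update x.2 i z)

theorem kap_update {n k : ℕ} (v : Fin k → Fin n) (i : Fin k) (z : Fin n) :
    (kap v).set i z = kap (Function.update v i z) := by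
  unfold kap
  apply List.ext_getElem
  · simp
  · intro j h1 h2
    rw [List.getElem_set, List.getElem_ofFn, List.getElem_ofFn]
    by_cases h : (i : ℕ) = j
    · rw [if_pos h]
      have : (⟨j, by simpa using h2⟩ : Fin k) = i := Fin.ext h.symm
      rw [this, Function.update_self]
    · rw [if_neg h, Function.update_of_ne]
      intro h'
      apply h
      rw [← h']

theorem movesJ_kapJ {n k : ℕ} (x : Bool × (Fin k → Fin n)) :
    movesJ n k (kapJ x) = (mvJ x).map (List.map kapJ) := by
  unfold movesJ mvJ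
  rw [← List.map_coe_finRange_eq_range (n := n), List.map_map, List.map_map]
  refine List.map_congr_left fun z _ => ?_
  simp only [Function.comp_apply]
  rw [← List.map_coe_finRange_eq_range, List.map_map, List.map_ofFn, List.ofFn_eq_map]
  refine List.map_congr_left fun i _ => ?_
  simp only [Function.comp_apply, kapJ, kap_update]

/-- the true colours -/
def fJ {n : ℕ} (G H : Fin n → Fin n → Bool) (k s : ℕ) (x : Bool × (Fin k → Fin n)) : JColor k s :=
  jcolor (Gr G H x.1) k s x.2

theorem fJ_zero {n k : ℕ} {gb hb : List Bool} (x y : Bool × (Fin k → Fin n)) :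
    fJ (adjOf n gb) (adjOf n hb) k 0 x = fJ (adjOf n gb) (adjOf n hb) k 0 y ↔
      iniJ n gb hb (kapJ x) = iniJ n gb hb (kapJ y) := by
  have hG : ∀ x : Bool × (Fin k → Fin n), iniJ n gb hb (kapJ x) = List.ofFn fun i =>
      List.ofFn fun j => (decide (x.2 i = x.2 j),
        Gr (adjOf n gb) (adjOf n hb) x.1 (x.2 i) (x.2 j)) := by
    intro x
    unfold iniJ kapJ kap
    simp only [List.map_ofFn]
    congr 1
    funext i
    simp only [Function.comp_apply]
    congr 1
    funext j
    simp only [Function.comp_apply, Fin.val_inj, Prod.mk.injEq, true_and]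
    unfold Gr adjOf
    cases x.1 <;> rfl
  rw [hG, hG]
  constructor
  · intro h
    have h1 : ∀ i j, decide (x.2 i = x.2 j) = decide (y.2 i = y.2 j) := fun i j =>
      congrFun (congrFun (congrArg Prod.fst h) i) j
    have h2 : ∀ i j, Gr (adjOf n gb) (adjOf n hb) x.1 (x.2 i) (x.2 j) =
        Gr (adjOf n gb) (adjOf n hb) y.1 (y.2 i) (y.2 j) := fun i j =>
      congrFun (congrFun (congrArg Prod.snd h) i) j
    congr 1
    funext i
    congr 1
    funext j
    rw [h1, h2]
  · intro h
    have h1 := List.ofFn_injective h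
    have h2 : ∀ i j, (decide (x.2 i = x.2 j), Gr (adjOf n gb) (adjOf n hb) x.1 (x.2 i) (x.2 j)) =
        (decide (y.2 i = y.2 j), Gr (adjOf n gb) (adjOf n hb) y.1 (y.2 i) (y.2 j)) := fun i j =>
      congrFun (List.ofFn_injective (congrFun h1 i)) j
    refine Prod.ext ?_ ?_
    · funext i j
      exact congrArg Prod.fst (h2 i j)
    · funext i j
      exact congrArg Prod.snd (h2 i j)

theorem fJ_succ {n : ℕ} (G H : Fin n → Fin n → Bool) (k s : ℕ) (x y : Bool × (Fin k → Fin n)) :
    fJ G H k (s + 1) x = fJ G H k (s + 1) y ↔ fJ G H k s x = fJ G H k s y ∧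
      ((mvJ x).map (List.map (fJ G H k s))).Perm ((mvJ y).map (List.map (fJ G H k s))) := by
  have hval : ∀ x : Bool × (Fin k → Fin n), (mvJ x).map (List.map (fJ G H k s)) =
      (List.ofFn fun z => fun i => jcolor (Gr G H x.1) k s (Function.update x.2 i z)).map
        List.ofFn := by
    intro x
    unfold mvJ
    rw [List.map_map, List.map_ofFn, List.ofFn_eq_map]
    refine List.map_congr_left fun z _ => ?_
    simp only [Function.comp_apply, List.map_ofFn]
    rfl
  rw [hval, hval, List.map_perm_map_iff List.ofFn_injective, ← Multiset.coe_eq_coe,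
    ← Fin.univ_val_map, ← Fin.univ_val_map]
  exact Prod.ext_iff

theorem map_fJ {n : ℕ} (G H : Fin n → Fin n → Bool) (k s : ℕ) (b : Bool) :
    ((allT n k).map (fun v => (b, v))).map (fJ G H k s) =
      (allT n k).map (jcolor (Gr G H b) k s) := by
  rw [List.map_map]
  rfl

/-- The test decides joint equivalence. -/
theorem testJ_iff {n k cap : ℕ} (hcap : n ^ k ≤ cap) (gb hb : List Bool) :
    testJ n k cap gb hb = true ↔ JEquiv k (adjOf n gb) (adjOf n hb) := by
  have htup := tuples_eq hcap
  have hnodes : nodesJ n k cap = ((allT n k).map (fun v => (false, v))).map kapJ ++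
      ((allT n k).map (fun v => (true, v))).map kapJ := by
    unfold nodesJ
    rw [htup, List.map_map, List.map_map, List.map_map, List.map_map]
    rfl
  have hmem : ∀ x : Bool × (Fin k → Fin n), kapJ x ∈ nodesJ n k cap := by
    rintro ⟨b, v⟩
    rw [hnodes, List.mem_append, List.map_map, List.map_map, List.mem_map, List.mem_map]
    cases b
    · exact Or.inl ⟨v, mem_allT v, rfl⟩
    · exact Or.inr ⟨v, mem_allT v, rfl⟩
  have hlen : (nodesJ n k cap).length = Fintype.card (Bool × (Fin k → Fin n)) := by
    rw [hnodes]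
    simp [allT]
    ring
  have key := rtab_hist (N := Bool × (Fin k → Fin n)) kapJ (nodesJ n k cap) hmem (movesJ n k) mvJ
    movesJ_kapJ (iniJ n gb hb) (fJ (adjOf n gb) (adjOf n hb) k) fJ_zero
    (fJ_succ (adjOf n gb) (adjOf n hb) k)
    (R := (nodesJ n k cap).length * (nodesJ n k cap).length) (by rw [hlen])
    ((allT n k).map (fun v => (false, v))) ((allT n k).map (fun v => (true, v)))
  have e : ∀ b : Bool, ((allT n k).map (fun v => (b, v))).map kapJ =
      (tuples n k cap).map (fun t => (b, t)) := by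
    intro b
    rw [htup, List.map_map, List.map_map]
    rfl
  rw [e, e] at key
  unfold testJ tabJ
  rw [key]
  unfold JEquiv
  refine forall_congr' fun s => ?_
  rw [map_fJ, map_fJ, ← Multiset.coe_eq_coe, ← Multiset.map_coe, ← Multiset.map_coe,
    ← univ_val_eq_allT]
  rfl

end Crest.Agent.R290.EX
end

-- ▼ part R290/EXWL2
section

/-!
# Row 290: colour refinement test, isomorphism, capping the dimension, identification, graph classes
-/

set_option autoImplicit false
set_option linter.dupNamespace false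

namespace Crest.Agent.R290.EX

open Crest.WLRefine

/-! ### colour refinement -/

/-- the moves of colour refinement -/
def movesC (n : ℕ) (gb hb : List Bool) (x : Bool × ℕ) : List (List (Bool × ℕ)) :=
  ((List.range n).filter fun w => (bif x.1 then hb else gb).getD (x.2 * n + w) false).map
    fun w => [(x.1, w)]

/-- all nodes -/
def nodesC (n : ℕ) : List (Bool × ℕ) :=
  (List.range n).map (fun t => (false, t)) ++ (List.range n).map (fun t => (true, t))

/-- the colour table -/
def tabC (n : ℕ) (gb hb : List Bool) : List ((Bool × ℕ) × ℕ) :=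
  rtab (nodesC n) (movesC n gb hb) (fun _ => true) ((nodesC n).length * (nodesC n).length)

/-- the test for colour refinement equivalence -/
def testC (n : ℕ) (gb hb : List Bool) : Bool :=
  permB (((List.range n).map (fun t => (false, t))).map (look (tabC n gb hb)))
    (((List.range n).map (fun t => (true, t))).map (look (tabC n gb hb)))

/-- node of the algorithm -/
def kapC {n : ℕ} (x : Bool × Fin n) : Bool × ℕ := (x.1, x.2)

/-- moves on vertices -/
def mvC {n : ℕ} (G H : Fin n → Fin n → Bool) (x : Bool × Fin n) : List (List (Bool × Fin n)) :=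
  ((List.finRange n).filter fun w => Gr G H x.1 x.2 w).map fun w => [(x.1, w)]

/-- the true colours -/
def fC {n : ℕ} (G H : Fin n → Fin n → Bool) (s : ℕ) (x : Bool × Fin n) : CRColor s :=
  crcolor (Gr G H x.1) s x.2

theorem movesC_kapC {n : ℕ} (gb hb : List Bool) (x : Bool × Fin n) :
    movesC n gb hb (kapC x) = (mvC (adjOf n gb) (adjOf n hb) x).map (List.map kapC) := by
  unfold movesC mvC
  rw [← List.map_coe_finRange_eq_range (n := n), List.filter_map, List.map_map, List.map_map]
  have hp : (List.finRange n).filter ((fun w => (bif (kapC x).1 then hb else gb).getD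
      ((kapC x).2 * n + w) false) ∘ fun i : Fin n => (i : ℕ)) =
      (List.finRange n).filter fun w => Gr (adjOf n gb) (adjOf n hb) x.1 x.2 w := by
    congr 1
    funext w
    unfold Gr adjOf kapC
    simp only [Function.comp_apply]
    cases x.1 <;> rfl
  rw [hp]
  refine List.map_congr_left fun z _ => ?_
  rfl

theorem fC_succ {n : ℕ} (G H : Fin n → Fin n → Bool) (s : ℕ) (x y : Bool × Fin n) :
    fC G H (s + 1) x = fC G H (s + 1) y ↔ fC G H s x = fC G H s y ∧
      ((mvC G H x).map (List.map (fC G H s))).Perm ((mvC G H y).map (List.map (fC G H s))) := by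
  have hval : ∀ x : Bool × Fin n, (mvC G H x).map (List.map (fC G H s)) =
      (((List.finRange n).filter fun w => Gr G H x.1 x.2 w).map
        (crcolor (Gr G H x.1) s)).map fun c => [c] := by
    intro x
    unfold mvC
    rw [List.map_map, List.map_map]
    refine List.map_congr_left fun z _ => ?_
    rfl
  have hinj : Function.Injective (fun c : CRColor s => [c]) := fun a b h => by simpa using h
  have hms : ∀ x : Bool × Fin n,
      (((List.finRange n).filter fun w => Gr G H x.1 x.2 w).map (crcolor (Gr G H x.1) s) :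
        Multiset (CRColor s)) =
      ((Finset.univ.filter fun w => Gr G H x.1 x.2 w = true).val.map
        (crcolor (Gr G H x.1) s)) := by
    intro x
    rw [Finset.filter_val, ← Multiset.map_coe]
    congr 1
    show _ = Multiset.filter _ ((List.finRange n : List (Fin n)) : Multiset (Fin n))
    rw [Multiset.filter_coe]
    congr 1
    congr 1
    funext w
    simp
  rw [hval, hval, List.map_perm_map_iff hinj, ← Multiset.coe_eq_coe, hms, hms]
  exact Prod.ext_iff

theorem testC_iff (n : ℕ) (gb hb : List Bool) :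
    testC n gb hb = true ↔ CREquiv (adjOf n gb) (adjOf n hb) := by
  have hr : ∀ b : Bool, ((List.finRange n).map (fun v => (b, v))).map kapC =
      (List.range n).map (fun t => (b, t)) := by
    intro b
    rw [← List.map_coe_finRange_eq_range (n := n), List.map_map, List.map_map]
    rfl
  have hnodes : nodesC n = ((List.finRange n).map (fun v => (false, v))).map kapC ++
      ((List.finRange n).map (fun v => (true, v))).map kapC := by
    rw [hr, hr]
    rfl
  have hmem : ∀ x : Bool × Fin n, kapC x ∈ nodesC n := by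
    rintro ⟨b, v⟩
    rw [hnodes, List.mem_append, List.map_map, List.map_map, List.mem_map, List.mem_map]
    cases b
    · exact Or.inl ⟨v, List.mem_finRange v, rfl⟩
    · exact Or.inr ⟨v, List.mem_finRange v, rfl⟩
  have hlen : (nodesC n).length = Fintype.card (Bool × Fin n) := by
    rw [hnodes]
    simp
    ring
  have key := rtab_hist (N := Bool × Fin n) kapC (nodesC n) hmem (movesC n gb hb)
    (mvC (adjOf n gb) (adjOf n hb)) (movesC_kapC gb hb) (fun _ => true)
    (fC (adjOf n gb) (adjOf n hb)) (fun x y => by simp [fC, crcolor])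
    (fC_succ (adjOf n gb) (adjOf n hb))
    (R := (nodesC n).length * (nodesC n).length) (by rw [hlen])
    ((List.finRange n).map (fun v => (false, v))) ((List.finRange n).map (fun v => (true, v)))
  rw [hr, hr] at key
  unfold testC tabC
  rw [key]
  unfold CREquiv
  refine forall_congr' fun s => ?_
  rw [List.map_map, List.map_map, ← Multiset.coe_eq_coe, ← Multiset.map_coe, ← Multiset.map_coe]
  rfl

/-! ### order and isomorphism -/

theorem jequiv_order {k n m : ℕ} (hk : 1 ≤ k) {G : Fin n → Fin n → Bool}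
    {H : Fin m → Fin m → Bool} (h : JEquiv k G H) : n = m := by
  have h1 := congrArg Multiset.card (h 0)
  rw [Multiset.card_map, Multiset.card_map] at h1
  have h2 : Fintype.card (Fin k → Fin n) = Fintype.card (Fin k → Fin m) := h1
  simp only [Fintype.card_fun, Fintype.card_fin] at h2
  exact Nat.pow_left_injective (by omega) h2

theorem crequiv_order {n m : ℕ} {G : Fin n → Fin n → Bool}
    {H : Fin m → Fin m → Bool} (h : CREquiv G H) : n = m := by
  have h1 := congrArg Multiset.card (h 0)
  rw [Multiset.card_map, Multiset.card_map] at h1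
  have h2 : Fintype.card (Fin n) = Fintype.card (Fin m) := h1
  simpa only [Fintype.card_fin] using h2

theorem wlequiv_order {k n m : ℕ} (hk : 1 ≤ k) {G : Fin n → Fin n → Bool}
    {H : Fin m → Fin m → Bool} (h : WLEquiv k G H) : n = m := by
  unfold WLEquiv at h
  split_ifs at h with h1
  · exact crequiv_order h
  · exact jequiv_order hk h

theorem jcolor_iso {k n m : ℕ} {G : Fin n → Fin n → Bool} {H : Fin m → Fin m → Bool}
    (e : Fin n ≃ Fin m) (he : ∀ v w, H (e v) (e w) = G v w) (s : ℕ) (v : Fin k → Fin n) :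
    jcolor H k s (e ∘ v) = jcolor G k s v := by
  induction s generalizing v with
  | zero =>
    simp only [jcolor, atomicType, Function.comp_apply, he]
    simp [e.injective.eq_iff]
  | succ s ih =>
    simp only [jcolor]
    rw [ih]
    congr 1
    rw [← Multiset.map_univ_val_equiv e, Multiset.map_map]
    refine Multiset.map_congr rfl fun z _ => ?_
    funext i
    simp only [Function.comp_apply]
    rw [← ih, Function.comp_update]

theorem jequiv_of_iso {k n m : ℕ} {G : Fin n → Fin n → Bool} {H : Fin m → Fin m → Bool}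
    (h : AdjIso G H) : JEquiv k G H := by
  obtain ⟨e, he⟩ := h
  intro s
  rw [← Multiset.map_univ_val_equiv (Equiv.arrowCongr (Equiv.refl (Fin k)) e), Multiset.map_map]
  refine Multiset.map_congr rfl fun v _ => ?_
  exact (jcolor_iso e he s v).symm

theorem iso_of_jequiv {k n : ℕ} (hnk : n ≤ k) {G H : Fin n → Fin n → Bool}
    (h : JEquiv k G H) : AdjIso G H := by
  rcases Nat.eq_zero_or_pos n with hn | hn
  · subst hn
    exact ⟨Equiv.refl _, fun v => v.elim0⟩
  · let v : Fin k → Fin n := fun i => ⟨min i (n - 1), by omega⟩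
    have h0 := h 0
    have h1 : jcolor G k 0 v ∈ (Finset.univ : Finset (Fin k → Fin n)).val.map (jcolor G k 0) :=
      Multiset.mem_map_of_mem _ (Finset.mem_univ v)
    rw [h0, Multiset.mem_map] at h1
    obtain ⟨u, -, hu⟩ := h1
    have hu1 : ∀ i j, decide (u i = u j) = decide (v i = v j) := fun i j =>
      congrFun (congrFun (congrArg Prod.fst hu) i) j
    have hu2 : ∀ i j, H (u i) (u j) = G (v i) (v j) := fun i j =>
      congrFun (congrFun (congrArg Prod.snd hu) i) j
    have hv : ∀ w : Fin n, v (Fin.castLE hnk w) = w := fun w => by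
      apply Fin.ext
      simp only [v, Fin.val_castLE]
      omega
    let g : Fin n → Fin n := fun w => u (Fin.castLE hnk w)
    have hg : Function.Injective g := by
      intro w w' hw
      have := hu1 (Fin.castLE hnk w) (Fin.castLE hnk w')
      rw [hv, hv] at this
      have h2 : u (Fin.castLE hnk w) = u (Fin.castLE hnk w') := hw
      rw [decide_eq_true h2] at this
      exact of_decide_eq_true this.symm
    refine ⟨Equiv.ofBijective g (Finite.injective_iff_bijective.1 hg), fun w w' => ?_⟩
    have := hu2 (Fin.castLE hnk w) (Fin.castLE hnk w')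
    rw [hv, hv] at this
    exact this

theorem jequiv_cap {k n : ℕ} (G H : Fin n → Fin n → Bool) :
    JEquiv k G H ↔ JEquiv (min k (n + 1)) G H := by
  rcases le_total k (n + 1) with h | h
  · rw [min_eq_left h]
  · rw [min_eq_right h]
    constructor
    · intro h1
      exact jequiv_of_iso (iso_of_jequiv (by omega) h1)
    · intro h1
      exact jequiv_of_iso (iso_of_jequiv (by omega) h1)

theorem jequiv_succ_iff_iso {n : ℕ} (G H : Fin n → Fin n → Bool) :
    JEquiv (n + 1) G H ↔ AdjIso G H :=
  ⟨fun h => iso_of_jequiv (by omega) h, fun h => jequiv_of_iso h⟩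

/-! ### identification -/

theorem identifies_iff {n k : ℕ} (hk : 1 ≤ k) (G : Fin n → Fin n → Bool) :
    Identifies k G ↔ ∀ H : Fin n → Fin n → Bool, IsSimple H → WLEquiv k G H → AdjIso G H := by
  constructor
  · intro h H hH hw
    exact h n H hH hw
  · intro h m H hH hw
    have := wlequiv_order hk hw
    subst this
    exact h H hH hw

theorem identifies_big {n k : ℕ} (hn : 0 < n) (hk : n + 1 ≤ k) (G : Fin n → Fin n → Bool) :
    Identifies k G := by
  rw [identifies_iff (by omega)]
  intro H _ hw
  unfold WLEquiv at hw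
  rw [if_neg (by omega)] at hw
  exact iso_of_jequiv (by omega) hw

theorem wldim_cap {n k : ℕ} (hn : 0 < n) (G : Fin n → Fin n → Bool) :
    (∃ k', 1 ≤ k' ∧ k' ≤ k ∧ Identifies k' G) ↔
      ∃ k', 1 ≤ k' ∧ k' ≤ min k (n + 1) ∧ Identifies k' G := by
  constructor
  · rintro ⟨k', h1, h2, h3⟩
    rcases le_total k' (n + 1) with h | h
    · exact ⟨k', h1, le_min h2 h, h3⟩
    · exact ⟨n + 1, by omega, le_min (h.trans h2) le_rfl, identifies_big hn le_rfl G⟩
  · rintro ⟨k', h1, h2, h3⟩
    exact ⟨k', h1, h2.trans (min_le_left _ _), h3⟩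

/-! ### simple matrices -/

/-- the matrix test -/
def simpleB (n : ℕ) (gb : List Bool) : Bool :=
  (List.range n).all fun v => (List.range n).all fun w =>
    decide (gb.getD (v * n + w) false = gb.getD (w * n + v) false) &&
      !(gb.getD (v * n + v) false)

theorem forall_range_iff {n : ℕ} {p : ℕ → Bool} :
    (List.range n).all p = true ↔ ∀ v : Fin n, p v = true := by
  rw [List.all_eq_true]
  constructor
  · intro h v
    exact h v (List.mem_range.2 v.2)
  · intro h v hv
    exact h ⟨v, List.mem_range.1 hv⟩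

theorem simpleB_iff (n : ℕ) (gb : List Bool) :
    simpleB n gb = true ↔ IsSimple (adjOf n gb) := by
  unfold simpleB IsSimple adjOf
  simp only [forall_range_iff, Bool.and_eq_true, decide_eq_true_eq, Bool.not_eq_eq_eq_not,
    Bool.not_true]
  constructor
  · intro h
    exact ⟨fun v w => (h v w).1, fun v => (h v v).2⟩
  · intro h v w
    exact ⟨h.1 v w, h.2 v⟩

/-! ### the identification test -/

/-- the `j`-th bit list of length `n²` -/
def bitsNum (n j : ℕ) : List Bool := (List.range (n * n)).map fun i => j.testBit i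

theorem exists_bitsNum {n : ℕ} (H : Fin n → Fin n → Bool) :
    ∃ j < 2 ^ (n * n), adjOf n (bitsNum n j) = H := by
  refine ⟨Nat.ofBits (fun i : Fin (n * n) => H i.divNat i.modNat), Nat.ofBits_lt_two_pow _, ?_⟩
  have : bitsNum n (Nat.ofBits (fun i : Fin (n * n) => H i.divNat i.modNat)) = bitsOf H := by
    rw [bitsOf_eq_ofFn, bitsNum, ← List.map_coe_finRange_eq_range, List.map_map,
      List.ofFn_eq_map]
    refine List.map_congr_left fun i _ => ?_
    simp only [Function.comp_apply]
    rw [Nat.testBit_ofBits_lt _ _ i.2]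
  rw [this, adjOf_bitsOf]

/-- the test for equivalence at dimension `k` -/
def testWL (n k cap : ℕ) (gb hb : List Bool) : Bool :=
  bif decide (k = 1) then testC n gb hb else testJ n k cap gb hb

theorem testWL_iff {n k cap : ℕ} (hcap : n ^ k ≤ cap) (gb hb : List Bool) :
    testWL n k cap gb hb = true ↔ WLEquiv k (adjOf n gb) (adjOf n hb) := by
  unfold testWL WLEquiv
  by_cases hk : k = 1
  · rw [if_pos hk, decide_eq_true hk]
    exact testC_iff n gb hb
  · rw [if_neg hk, decide_eq_false hk]
    exact testJ_iff hcap gb hb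

/-- the identification test -/
def identB (n k cap : ℕ) (gb : List Bool) : Bool :=
  (List.range (min (2 ^ (n * n)) cap)).all fun j =>
    !(simpleB n (bitsNum n j)) || (!(testWL n k cap gb (bitsNum n j)) ||
      testJ n (n + 1) cap gb (bitsNum n j))

theorem identB_iff {n k cap : ℕ} (hk : 1 ≤ k) (hkn : k ≤ n + 1) (h1 : n ^ (n + 1) ≤ cap)
    (h2 : 2 ^ (n * n) ≤ cap) (h3 : 0 < n) (gb : List Bool) :
    identB n k cap gb = true ↔ Identifies k (adjOf n gb) := by
  have hcap : n ^ k ≤ cap := (Nat.pow_le_pow_right h3 hkn).trans h1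
  rw [identifies_iff hk]
  unfold identB
  rw [min_eq_left h2, List.all_eq_true]
  constructor
  · intro h H hH hw
    obtain ⟨j, hj, rfl⟩ := exists_bitsNum H
    have h4 := h j (List.mem_range.2 hj)
    rw [(simpleB_iff n _).2 hH, (testWL_iff hcap gb _).2 hw] at h4
    have h5 : testJ n (n + 1) cap gb (bitsNum n j) = true := by simpa using h4
    exact (jequiv_succ_iff_iso _ _).1 ((testJ_iff h1 gb _).1 h5)
  · intro h j hj
    by_cases hs : simpleB n (bitsNum n j) = true
    · by_cases hw : testWL n k cap gb (bitsNum n j) = true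
      · have h5 := h _ ((simpleB_iff n _).1 hs) ((testWL_iff hcap gb _).1 hw)
        have h6 := (testJ_iff h1 gb (bitsNum n j)).2 ((jequiv_succ_iff_iso _ _).2 h5)
        simp [h6]
      · simp [hw]
    · simp [hs]

/-- the dimension test -/
def dimB (n k cap : ℕ) (gb : List Bool) : Bool :=
  (List.range (min k (n + 1))).any fun k' => identB n (k' + 1) cap gb

theorem dimB_iff {n k cap : ℕ} (h1 : n ^ (n + 1) ≤ cap)
    (h2 : 2 ^ (n * n) ≤ cap) (h3 : 0 < n) (gb : List Bool) :
    dimB n k cap gb = true ↔ ∃ k', 1 ≤ k' ∧ k' ≤ k ∧ Identifies k' (adjOf n gb) := by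
  rw [wldim_cap h3, dimB, List.any_eq_true]
  constructor
  · rintro ⟨k', hk', h⟩
    have h4 := List.mem_range.1 hk'
    have h5 : k' + 1 ≤ n + 1 := by omega
    exact ⟨k' + 1, by omega, by omega, (identB_iff (by omega) h5 h1 h2 h3 gb).1 h⟩
  · rintro ⟨k', hk1, hk2, h⟩
    refine ⟨k' - 1, List.mem_range.2 (by omega), ?_⟩
    have e : k' - 1 + 1 = k' := by omega
    rw [e]
    exact (identB_iff hk1 (by omega) h1 h2 h3 gb).2 h

/-! ### connectedness and degrees -/

/-- the set coded by `j` is closed under adjacency -/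
def closedB (n : ℕ) (gb : List Bool) (j : ℕ) : Bool :=
  (List.range n).all fun v => (List.range n).all fun w =>
    !(j.testBit v && (gb.getD (v * n + w) false || gb.getD (w * n + v) false)) || j.testBit w

/-- the connectedness test: closed sets are trivial -/
def connB (n cap : ℕ) (gb : List Bool) : Bool :=
  decide (0 < n) && (List.range (min (2 ^ n) cap)).all fun j =>
    !(closedB n gb j) || (((List.range n).all fun v => !(j.testBit v)) ||
      ((List.range n).all fun v => j.testBit v))

theorem connB_iff {n cap : ℕ} (hcap : 2 ^ n ≤ cap) (gb : List Bool) :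
    connB n cap gb = true ↔ (adjGraph (adjOf n gb)).Connected := by
  have hcl : ∀ j, closedB n gb j = true ↔ ∀ v w : Fin n, j.testBit v = true →
      (adjOf n gb v w = true ∨ adjOf n gb w v = true) → j.testBit w = true := by
    intro j
    unfold closedB adjOf
    simp only [forall_range_iff]
    refine forall_congr' fun v => forall_congr' fun w => ?_
    cases j.testBit v <;> cases j.testBit w <;>
      cases gb.getD (v * n + w) false <;> cases gb.getD (w * n + v) false <;> simp
  unfold connB
  rw [min_eq_left hcap, Bool.and_eq_true, decide_eq_true_eq, List.all_eq_true]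
  constructor
  · rintro ⟨hn, h⟩
    have : Nonempty (Fin n) := ⟨⟨0, hn⟩⟩
    refine ⟨fun u v => ?_⟩
    classical
    -- the component of `u`
    let j := Nat.ofBits fun i : Fin n => decide ((adjGraph (adjOf n gb)).Reachable u i)
    have hj : ∀ i : Fin n, j.testBit i = decide ((adjGraph (adjOf n gb)).Reachable u i) :=
      fun i => Nat.testBit_ofBits_lt _ _ i.2
    have h1 := h j (List.mem_range.2 (Nat.ofBits_lt_two_pow _))
    have h2 : closedB n gb j = true := by
      rw [hcl]
      intro a b ha hab
      rw [hj, decide_eq_true_eq] at ha ⊢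
      by_cases hne : a = b
      · subst hne; exact ha
      · exact ha.trans (SimpleGraph.Adj.reachable ⟨hne, hab⟩)
    rw [h2] at h1
    simp only [Bool.not_true, Bool.false_or, Bool.or_eq_true, forall_range_iff] at h1
    rcases h1 with h1 | h1
    · have := h1 u
      rw [hj] at this
      simp at this
    · have := h1 v
      rw [hj, decide_eq_true_eq] at this
      exact this
  · intro hc
    have hne := hc.nonempty
    refine ⟨(hne.some).pos, fun j hj => ?_⟩
    by_cases hcj : closedB n gb j = true
    · rw [hcj]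
      simp only [Bool.not_true, Bool.false_or, Bool.or_eq_true, forall_range_iff]
      by_cases hall : ∀ v : Fin n, (!j.testBit v) = true
      · exact Or.inl hall
      · right
        push Not at hall
        obtain ⟨u, hu⟩ := hall
        have hu' : j.testBit u = true := by simpa using hu
        intro v
        obtain ⟨p⟩ := hc.preconnected u v
        rw [hcl] at hcj
        induction p with
        | nil => exact hu'
        | @cons a b c hab p ih =>
          have hab' : a ≠ b ∧ (adjOf n gb a b = true ∨ adjOf n gb b a = true) := hab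
          have hb := hcj a b hu' hab'.2
          exact ih (by simpa using hb) hb
    · simp only [Bool.not_eq_true] at hcj
      simp [hcj]

/-- the degree test -/
def degB (n : ℕ) (gb : List Bool) : Bool :=
  (List.range n).all fun v =>
    decide ((List.range n).countP (fun w => gb.getD (v * n + w) false) ≤ 3)

theorem degB_iff (n : ℕ) (gb : List Bool) : degB n gb = true ↔ MaxDegLeThree (adjOf n gb) := by
  unfold degB MaxDegLeThree
  simp only [forall_range_iff, decide_eq_true_eq]
  refine forall_congr' fun v => ?_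
  have h : (List.range n).countP (fun w => gb.getD (v * n + w) false) =
      (Finset.univ.filter fun w => adjOf n gb v w = true).card := by
    rw [← List.map_coe_finRange_eq_range, List.countP_map, Finset.card_def, Finset.filter_val]
    show _ = (Multiset.filter _ ((List.finRange n : List (Fin n)) : Multiset (Fin n))).card
    rw [Multiset.filter_coe, Multiset.coe_card, List.countP_eq_length_filter]
    congr 2
    funext w
    simp [adjOf]
  rw [h]

end Crest.Agent.R290.EX
private theorem rz_c654209dba : type_of% @_root_.Crest.WLRefine.crcolor.eq_def := @_root_.Crest.WLRefine.crcolor.eq_def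
private theorem rz_0a9bc6a30a : type_of% @_root_.Crest.WLRefine.crcolor.eq_1 := @_root_.Crest.WLRefine.crcolor.eq_1
private theorem rz_f5216e322d : type_of% @_root_.Crest.WLRefine.jcolor.eq_def := @_root_.Crest.WLRefine.jcolor.eq_def
private theorem rz_aeebadf951 : type_of% @_root_.Crest.WLRefine.jcolor.eq_1 := @_root_.Crest.WLRefine.jcolor.eq_1
end

-- ▼ part R290/EXPt
section

/-!
# Row 290: the tests of `EXWL`, `EXWL2` are polynomial time (in a unary cap)
-/

set_option autoImplicit false
set_option linter.dupNamespace false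

namespace Crest.Agent.R290.EX

open Crest.Agent.Lib.PT

section

variable {γ α : Type} [PTCode γ] [PTCode α]

/-- element access with a binary index -/
theorem ptf_getD {l : γ → List α} {i : γ → ℕ} {d : γ → α} (hl : PTF l) (hi : PTF i) (hd : PTF d) :
    PTF (fun c => (l c).getD (i c) (d c)) := by
  refine PTF.of_eq (PTF.getD (PTF.natMinUn hi (PTU.length hl)) hl hd) (fun c => ?_)
  rcases le_total (i c) (l c).length with h | h
  · rw [min_eq_left h]
  · rw [min_eq_right h, List.getD_eq_getElem?_getD, List.getD_eq_getElem?_getD,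
      List.getElem?_eq_none le_rfl, List.getElem?_eq_none h]

/-- list update with a binary index -/
theorem ptf_set {l : γ → List α} {i : γ → ℕ} {a : γ → α} (hl : PTF l) (hi : PTF i) (ha : PTF a) :
    PTF (fun c => (l c).set (i c) (a c)) := by
  refine PTF.of_eq (PTF.set hl (PTF.natMinUn hi (PTU.length hl)) ha) (fun c => ?_)
  rcases le_total (i c) (l c).length with h | h
  · rw [min_eq_left h]
  · rw [min_eq_right h, List.set_eq_of_length_le le_rfl, List.set_eq_of_length_le h]

variable {n k cap : γ → ℕ} {gb hb : γ → List Bool}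

theorem ptf_tuples (hn : PTU n) (hk : PTU k) (hcap : PTU cap) :
    PTF (fun c => tuples (n c) (k c) (cap c)) := by
  have h1 : PTU (fun c => min (n c ^ k c) (cap c)) :=
    PTF.natMinUn (PTF.natPow (PTU.toPTF hn) hk) hcap
  have h2 : PTF (fun c => (List.range (min (n c ^ k c) (cap c))).map fun j =>
      (List.range (k c)).map fun i => j / n c ^ (min i (k c)) % n c) := by
    refine PTF.map (f := fun c j => (List.range (k c)).map fun i =>
      j / n c ^ (min i (k c)) % n c) (PTF.range h1) ?_
    refine PTF.map (l := fun q : γ × ℕ => List.range (k q.1))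
      (f := fun (q : γ × ℕ) i => q.2 / n q.1 ^ (min i (k q.1)) % n q.1)
      (PTF.range (PTU.comp hk PTF.fst)) ?_
    refine PTF.natMod (f := fun q : (γ × ℕ) × ℕ => q.1.2 / n q.1.1 ^ (min q.2 (k q.1.1)))
      (g := fun q => n q.1.1) ?_ (PTU.toPTF (PTU.comp hn (by fun_prop)))
    refine PTF.natDiv (by fun_prop) ?_
    refine PTF.natPow (f := fun q : (γ × ℕ) × ℕ => n q.1.1)
      (g := fun q => min q.2 (k q.1.1)) (PTU.toPTF (PTU.comp hn (by fun_prop))) ?_
    exact PTF.natMinUn PTF.snd (PTU.comp hk (by fun_prop))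
  refine PTF.of_eq h2 (fun c => ?_)
  unfold tuples
  refine List.map_congr_left fun j _ => ?_
  refine List.map_congr_left fun i hi => ?_
  rw [min_eq_left (List.mem_range.1 hi).le]

theorem ptf_movesJ (hn : PTU n) (hk : PTU k) : PTF₂ (fun c x => movesJ (n c) (k c) x) := by
  unfold movesJ
  refine PTF.map (l := fun q : γ × (Bool × List ℕ) => List.range (n q.1))
    (f := fun q z => (List.range (k q.1)).map fun i => (q.2.1, q.2.2.set i z))
    (PTF.range (PTU.comp hn PTF.fst)) ?_
  refine PTF.map (l := fun q : (γ × (Bool × List ℕ)) × ℕ => List.range (k q.1.1))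
    (f := fun q i => (q.1.2.1, q.1.2.2.set i q.2)) (PTF.range (PTU.comp hk (by fun_prop))) ?_
  refine PTF.prodMk (by fun_prop) ?_
  exact ptf_set (l := fun q : ((γ × (Bool × List ℕ)) × ℕ) × ℕ => q.1.1.2.2)
    (by fun_prop) (by fun_prop) (by fun_prop)

theorem ptf_bit {n : γ → ℕ} {b : γ → Bool} {gb hb : γ → List Bool} {v w : γ → ℕ} (hn : PTU n)
    (hb' : PTF b) (hg : PTF gb) (hh : PTF hb) (hv : PTF v) (hw : PTF w) :
    PTF (fun c => (bif b c then hb c else gb c).getD (v c * n c + w c) false) := by
  refine ptf_getD (PTF.cond hb' hh hg) ?_ (PTF.const false)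
  exact PTF.natAdd (PTF.natMul hv (PTU.toPTF hn)) hw

theorem ptf_iniJ (hn : PTU n) (hg : PTF gb) (hh : PTF hb) :
    PTF₂ (fun c x => iniJ (n c) (gb c) (hb c) x) := by
  unfold iniJ
  refine PTF.map (l := fun q : γ × (Bool × List ℕ) => q.2.2)
    (f := fun q a => q.2.2.map fun a' =>
      (decide (a = a'), (bif q.2.1 then hb q.1 else gb q.1).getD (a * n q.1 + a') false))
    (by fun_prop) ?_
  refine PTF.map (l := fun q : (γ × (Bool × List ℕ)) × ℕ => q.1.2.2)
    (f := fun q a' => (decide (q.2 = a'),
      (bif q.1.2.1 then hb q.1.1 else gb q.1.1).getD (q.2 * n q.1.1 + a') false))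
    (by fun_prop) ?_
  refine PTF.prodMk ?_ ?_
  · exact PTF.beq (f := fun q : ((γ × (Bool × List ℕ)) × ℕ) × ℕ => q.1.2) (g := fun q => q.2)
      (by fun_prop) (by fun_prop)
  · exact ptf_bit (γ := ((γ × (Bool × List ℕ)) × ℕ) × ℕ) (n := fun q => n q.1.1.1)
      (b := fun q => q.1.1.2.1) (gb := fun q => gb q.1.1.1) (hb := fun q => hb q.1.1.1)
      (v := fun q => q.1.2) (w := fun q => q.2) (PTU.comp hn (by fun_prop)) (by fun_prop)
      (PTF.comp hg (by fun_prop)) (PTF.comp hh (by fun_prop)) (by fun_prop) (by fun_prop)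

theorem ptf_tag (b : Bool) {β : Type} [PTCode β] {l : γ → List β} (hl : PTF l) :
    PTF (fun c => (l c).map (fun t => (b, t))) :=
  PTF.map (f := fun _ t => (b, t)) hl (by pt_prop)

theorem ptf_nodesJ (hn : PTU n) (hk : PTU k) (hcap : PTU cap) :
    PTF (fun c => nodesJ (n c) (k c) (cap c)) := by
  unfold nodesJ
  exact PTF.append (ptf_tag false (ptf_tuples hn hk hcap)) (ptf_tag true (ptf_tuples hn hk hcap))

theorem ptf_tabJ (hn : PTU n) (hk : PTU k) (hcap : PTU cap) (hg : PTF gb) (hh : PTF hb) :
    PTF (fun c => tabJ (n c) (k c) (cap c) (gb c) (hb c)) := by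
  unfold tabJ
  have h := ptf_nodesJ hn hk hcap
  exact ptf_rtab h (moves := fun c x => movesJ (n c) (k c) x)
    (ini := fun c x => iniJ (n c) (gb c) (hb c) x) (ptf_movesJ hn hk) (ptf_iniJ hn hg hh)
    (PTU.mul (PTU.length h) (PTU.length h))

theorem ptf_histPerm {β : Type} [PTCode β] [DecidableEq β] {l l' : γ → List β}
    {tab : γ → List (β × ℕ)} (hl : PTF l) (hl' : PTF l') (ht : PTF tab) :
    PTF (fun c => permB ((l c).map (look (tab c))) ((l' c).map (look (tab c)))) := by
  have h : ∀ m : γ → List β, PTF m → PTF (fun c => (m c).map (look (tab c))) := fun m hm =>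
    PTF.map (f := fun c x => look (tab c) x) hm (ptf_look (by fun_prop) (by fun_prop))
  exact ptf_permB (h l hl) (h l' hl')

theorem ptf_testJ (hn : PTU n) (hk : PTU k) (hcap : PTU cap) (hg : PTF gb) (hh : PTF hb) :
    PTF (fun c => testJ (n c) (k c) (cap c) (gb c) (hb c)) := by
  unfold testJ
  exact ptf_histPerm (ptf_tag false (ptf_tuples hn hk hcap)) (ptf_tag true (ptf_tuples hn hk hcap))
    (ptf_tabJ hn hk hcap hg hh)

theorem ptf_movesC (hn : PTU n) (hg : PTF gb) (hh : PTF hb) :
    PTF₂ (fun c x => movesC (n c) (gb c) (hb c) x) := by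
  unfold movesC
  refine PTF.map (l := fun q : γ × (Bool × ℕ) => (List.range (n q.1)).filter fun w =>
      (bif q.2.1 then hb q.1 else gb q.1).getD (q.2.2 * n q.1 + w) false)
    (f := fun q w => [(q.2.1, w)]) ?_ (by pt_prop)
  refine PTF.filter (p := fun (q : γ × (Bool × ℕ)) (w : ℕ) =>
    (bif q.2.1 then hb q.1 else gb q.1).getD (q.2.2 * n q.1 + w) false)
    (PTF.range (PTU.comp hn PTF.fst)) ?_
  exact ptf_bit (γ := (γ × (Bool × ℕ)) × ℕ) (n := fun q => n q.1.1)
      (b := fun q => q.1.2.1) (gb := fun q => gb q.1.1) (hb := fun q => hb q.1.1)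
      (v := fun q => q.1.2.2) (w := fun q => q.2) (PTU.comp hn (by fun_prop)) (by fun_prop)
      (PTF.comp hg (by fun_prop)) (PTF.comp hh (by fun_prop)) (by fun_prop) (by fun_prop)

theorem ptf_nodesC (hn : PTU n) : PTF (fun c => nodesC (n c)) := by
  unfold nodesC
  exact PTF.append (ptf_tag false (PTF.range hn)) (ptf_tag true (PTF.range hn))

theorem ptf_testC (hn : PTU n) (hg : PTF gb) (hh : PTF hb) :
    PTF (fun c => testC (n c) (gb c) (hb c)) := by
  unfold testC
  refine ptf_histPerm (ptf_tag false (PTF.range hn)) (ptf_tag true (PTF.range hn)) ?_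
  unfold tabC
  have h := ptf_nodesC hn
  exact ptf_rtab h (moves := fun c x => movesC (n c) (gb c) (hb c) x)
    (ini := fun _ _ => true) (ptf_movesC hn hg hh) (PTF.const _)
    (PTU.mul (PTU.length h) (PTU.length h))

theorem ptf_testWL (hn : PTU n) (hk : PTU k) (hcap : PTU cap) (hg : PTF gb) (hh : PTF hb) :
    PTF (fun c => testWL (n c) (k c) (cap c) (gb c) (hb c)) := by
  unfold testWL
  exact PTF.cond (PTU.eq hk (PTU.const 1)).toPTF (ptf_testC hn hg hh)
    (ptf_testJ hn hk hcap hg hh)

theorem ptf_bitv {n : γ → ℕ} {gb : γ → List Bool} {v w : γ → ℕ} (hn : PTU n)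
    (hg : PTF gb) (hv : PTF v) (hw : PTF w) :
    PTF (fun c => (gb c).getD (v c * n c + w c) false) :=
  ptf_getD hg (PTF.natAdd (PTF.natMul hv (PTU.toPTF hn)) hw) (PTF.const false)

/-- quantification over two indices -/
theorem ptf_all2 {p : γ → ℕ → ℕ → Bool} (hn : PTU n)
    (hp : PTF (fun q : (γ × ℕ) × ℕ => p q.1.1 q.1.2 q.2)) :
    PTF (fun c => (List.range (n c)).all fun v => (List.range (n c)).all fun w => p c v w) := by
  refine PTF.all (p := fun c v => (List.range (n c)).all fun w => p c v w) (PTF.range hn) ?_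
  exact PTF.all (l := fun q : γ × ℕ => List.range (n q.1)) (p := fun q w => p q.1 q.2 w)
    (PTF.range (PTU.comp hn PTF.fst)) hp

theorem ptf_simpleB (hn : PTU n) (hg : PTF gb) : PTF (fun c => simpleB (n c) (gb c)) := by
  unfold simpleB
  have hn' : PTU (fun q : (γ × ℕ) × ℕ => n q.1.1) := PTU.comp hn (by fun_prop)
  have hg' : PTF (fun q : (γ × ℕ) × ℕ => gb q.1.1) := PTF.comp hg (by fun_prop)
  refine ptf_all2 (p := fun c v w => decide ((gb c).getD (v * n c + w) false =
    (gb c).getD (w * n c + v) false) && !((gb c).getD (v * n c + v) false)) hn ?_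
  refine PTF.and (PTF.beq ?_ ?_) (PTF.not ?_)
  · exact ptf_bitv hn' hg' (v := fun q : (γ × ℕ) × ℕ => q.1.2) (w := fun q => q.2)
      (by fun_prop) (by fun_prop)
  · exact ptf_bitv hn' hg' (v := fun q : (γ × ℕ) × ℕ => q.2) (w := fun q => q.1.2)
      (by fun_prop) (by fun_prop)
  · exact ptf_bitv hn' hg' (v := fun q : (γ × ℕ) × ℕ => q.1.2) (w := fun q => q.1.2)
      (by fun_prop) (by fun_prop)

theorem ptf_bitsNum {j : γ → ℕ} (hn : PTU n) (hj : PTF j) :
    PTF (fun c => bitsNum (n c) (j c)) := by
  unfold bitsNum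
  exact PTF.map (f := fun c i => (j c).testBit i) (PTF.range (PTU.mul hn hn))
    (PTF.natTestBit (PTF.comp hj PTF.fst) PTF.snd)

theorem ptf_identB (hn : PTU n) (hk : PTU k) (hcap : PTU cap) (hg : PTF gb) :
    PTF (fun c => identB (n c) (k c) (cap c) (gb c)) := by
  unfold identB
  have hn' : PTU (fun q : γ × ℕ => n q.1) := PTU.comp hn (by fun_prop)
  have hk' : PTU (fun q : γ × ℕ => k q.1) := PTU.comp hk (by fun_prop)
  have hc' : PTU (fun q : γ × ℕ => cap q.1) := PTU.comp hcap (by fun_prop)
  have hg' : PTF (fun q : γ × ℕ => gb q.1) := PTF.comp hg (by fun_prop)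
  have hb' : PTF (fun q : γ × ℕ => bitsNum (n q.1) q.2) := ptf_bitsNum hn' PTF.snd
  refine PTF.all (p := fun c j => !(simpleB (n c) (bitsNum (n c) j)) ||
    (!(testWL (n c) (k c) (cap c) (gb c) (bitsNum (n c) j)) ||
      testJ (n c) (n c + 1) (cap c) (gb c) (bitsNum (n c) j)))
    (PTF.range (PTF.natMinUn (PTF.natTwoPow (PTU.mul hn hn)) hcap)) ?_
  refine PTF.or (PTF.not (ptf_simpleB hn' hb')) (PTF.or (PTF.not ?_) ?_)
  · exact ptf_testWL hn' hk' hc' hg' hb'
  · exact ptf_testJ hn' (PTU.succ hn') hc' hg' hb'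

theorem ptf_dimB {K : γ → ℕ} (hn : PTU n) (hK : PTF K) (hcap : PTU cap) (hg : PTF gb) :
    PTF (fun c => dimB (n c) (K c) (cap c) (gb c)) := by
  have hr : PTU (fun c => min (K c) (n c + 1)) := PTF.natMinUn hK (PTU.succ hn)
  have hn' : PTU (fun q : γ × ℕ => n q.1) := PTU.comp hn (by fun_prop)
  have hc' : PTU (fun q : γ × ℕ => cap q.1) := PTU.comp hcap (by fun_prop)
  have hg' : PTF (fun q : γ × ℕ => gb q.1) := PTF.comp hg (by fun_prop)
  have h := PTF.any (p := fun c k' => identB (n c) (min k' (n c) + 1) (cap c) (gb c))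
    (PTF.range hr) (ptf_identB hn' (PTU.succ (PTF.natMinUn PTF.snd hn')) hc' hg')
  refine PTF.of_eq h (fun c => ?_)
  unfold dimB
  rw [Bool.eq_iff_iff, List.any_eq_true, List.any_eq_true]
  refine exists_congr fun k' => and_congr_right fun hk' => ?_
  have : k' ≤ n c := by
    have := List.mem_range.1 hk'
    omega
  rw [min_eq_left this]

theorem ptf_connB (hn : PTU n) (hcap : PTU cap) (hg : PTF gb) :
    PTF (fun c => connB (n c) (cap c) (gb c)) := by
  unfold connB
  refine PTF.and (PTU.lt (PTU.const 0) hn).toPTF ?_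
  refine PTF.all (p := fun c j => !(closedB (n c) (gb c) j) ||
    (((List.range (n c)).all fun v => !(j.testBit v)) ||
      ((List.range (n c)).all fun v => j.testBit v)))
    (PTF.range (PTF.natMinUn (PTF.natTwoPow hn) hcap)) ?_
  have hn' : PTU (fun q : γ × ℕ => n q.1) := PTU.comp hn (by fun_prop)
  have hg' : PTF (fun q : γ × ℕ => gb q.1) := PTF.comp hg (by fun_prop)
  refine PTF.or (PTF.not ?_) (PTF.or ?_ ?_)
  · unfold closedB
    have hn2 : PTU (fun q : ((γ × ℕ) × ℕ) × ℕ => n q.1.1.1) := PTU.comp hn (by fun_prop)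
    have hg2 : PTF (fun q : ((γ × ℕ) × ℕ) × ℕ => gb q.1.1.1) := PTF.comp hg (by fun_prop)
    refine ptf_all2 (γ := γ × ℕ) (p := fun q v w => !(q.2.testBit v &&
      ((gb q.1).getD (v * n q.1 + w) false || (gb q.1).getD (w * n q.1 + v) false)) ||
        q.2.testBit w) hn' ?_
    refine PTF.or (PTF.not (PTF.and ?_ (PTF.or ?_ ?_))) ?_
    · exact PTF.natTestBit (f := fun q : ((γ × ℕ) × ℕ) × ℕ => q.1.1.2) (g := fun q => q.1.2)
        (by fun_prop) (by fun_prop)
    · exact ptf_bitv hn2 hg2 (v := fun q : ((γ × ℕ) × ℕ) × ℕ => q.1.2) (w := fun q => q.2)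
        (by fun_prop) (by fun_prop)
    · exact ptf_bitv hn2 hg2 (v := fun q : ((γ × ℕ) × ℕ) × ℕ => q.2) (w := fun q => q.1.2)
        (by fun_prop) (by fun_prop)
    · exact PTF.natTestBit (f := fun q : ((γ × ℕ) × ℕ) × ℕ => q.1.1.2) (g := fun q => q.2)
        (by fun_prop) (by fun_prop)
  · exact PTF.all (l := fun q : γ × ℕ => List.range (n q.1)) (p := fun q v => !(q.2.testBit v))
      (PTF.range hn') (PTF.not (PTF.natTestBit (by fun_prop) (by fun_prop)))
  · exact PTF.all (l := fun q : γ × ℕ => List.range (n q.1)) (p := fun q v => q.2.testBit v)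
      (PTF.range hn') (PTF.natTestBit (by fun_prop) (by fun_prop))

theorem ptf_degB (hn : PTU n) (hg : PTF gb) : PTF (fun c => degB (n c) (gb c)) := by
  unfold degB
  have hn' : PTU (fun q : γ × ℕ => n q.1) := PTU.comp hn (by fun_prop)
  refine PTF.all (p := fun c v => decide ((List.range (n c)).countP
    (fun w => (gb c).getD (v * n c + w) false) ≤ 3)) (PTF.range hn) ?_
  refine (PTU.le (n := fun _ => 3) ?_ (PTU.const 3)).toPTF
  refine PTU.countP (l := fun q : γ × ℕ => List.range (n q.1))
    (p := fun q w => (gb q.1).getD (q.2 * n q.1 + w) false) (PTF.range hn') ?_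
  exact ptf_bitv (γ := (γ × ℕ) × ℕ) (n := fun q => n q.1.1) (gb := fun q => gb q.1.1)
    (v := fun q => q.1.2) (w := fun q => q.2) (PTU.comp hn (by fun_prop))
    (PTF.comp hg (by fun_prop)) (by fun_prop) (by fun_prop)

end

end Crest.Agent.R290.EX
end

-- ▼ part R290/EXMem

/-!
# Row 290: EXPTIME membership of the three Weisfeiler-Leman languages

`inEXP_varDimEquivLang`, `inEXP_subcubicVarDimEquivLang`, `inEXP_wlDimLeLang`.
-/

set_option autoImplicit false
set_option linter.dupNamespace false

namespace Crest.Agent.R290.EX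

open Crest.Agent.Lib.PT Crest.WLRefine

/-! ### parsing `natCode` -/

/-- value of a bit list -/
def val (x : List Bool) : ℕ := x.foldr (fun b n => Nat.bit b n) 0

theorem val_bits (n : ℕ) : val n.bits = n := by
  unfold val
  induction n using Nat.binaryRec' with
  | zero => simp
  | bit b n h ih => rw [Nat.bits_append_bit n b h]; simp [ih]

/-- read one number -/
def rd (w : List Bool) : ℕ := val (fst w)

/-- what remains after one number -/
def rs (w : List Bool) : List Bool := (snd w).tail

theorem natCode_append (n : ℕ) (r : List Bool) :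
    Crest.Enc.natCode n ++ r = pair n.bits (false :: r) := by
  unfold Crest.Enc.natCode pair
  rw [List.flatMap]
  simp

theorem rd_natCode (n : ℕ) (r : List Bool) : rd (Crest.Enc.natCode n ++ r) = n := by
  rw [rd, natCode_append, core_fst_pair, val_bits]

theorem rs_natCode (n : ℕ) (r : List Bool) : rs (Crest.Enc.natCode n ++ r) = r := by
  rw [rs, natCode_append, core_snd_pair]
  rfl

section ptf

variable {γ : Type} [PTCode γ]

theorem ptf_rd {w : γ → List Bool} (hw : PTF w) : PTF (fun c => rd (w c)) := by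
  unfold rd val
  exact PTF.ofBits (PTF.comp (PT.toPTF_list PT.fst) hw)

theorem ptf_rs {w : γ → List Bool} (hw : PTF w) : PTF (fun c => rs (w c)) := by
  unfold rs
  exact PTF.tail (PTF.comp (PT.toPTF_list PT.snd) hw)

theorem ptf_natCode {n : γ → ℕ} (hn : PTF n) : PTF (fun c => Crest.Enc.natCode (n c)) := by
  unfold Crest.Enc.natCode
  refine PTF.append (PTF.flatten ?_) (PTF.const _)
  exact PTF.map (f := fun _ b => [true, b]) (PTF.natBits hn) (by pt_prop)

end ptf

/-! ### reading one graph -/

/-- the order of the graph coded at the head of `w` (capped) -/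
def gn (w : List Bool) : ℕ := min (rd w) w.length

/-- its matrix -/
def gbits (w : List Bool) : List Bool := (rs w).take (gn w * gn w)

/-- what remains -/
def grest (w : List Bool) : List Bool := (rs w).drop (gn w * gn w)

theorem gn_eq {n : ℕ} {b r : List Bool} (hb : b.length = n * n) :
    gn (Crest.Enc.natCode n ++ (b ++ r)) = n := by
  unfold gn
  rw [rd_natCode]
  apply min_eq_left
  simp only [List.length_append, hb]
  nlinarith [Nat.zero_le n]

theorem gbits_eq {n : ℕ} {b r : List Bool} (hb : b.length = n * n) :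
    gbits (Crest.Enc.natCode n ++ (b ++ r)) = b := by
  unfold gbits
  rw [gn_eq hb, rs_natCode, ← hb, List.take_left']
  rfl

theorem grest_eq {n : ℕ} {b r : List Bool} (hb : b.length = n * n) :
    grest (Crest.Enc.natCode n ++ (b ++ r)) = r := by
  unfold grest
  rw [gn_eq hb, rs_natCode, ← hb, List.drop_left']
  rfl

section ptf

variable {γ : Type} [PTCode γ]

theorem ptu_gn {w : γ → List Bool} (hw : PTF w) : PTU (fun c => gn (w c)) :=
  PTF.natMinUn (ptf_rd hw) (PTU.length hw)

theorem ptf_gbits {w : γ → List Bool} (hw : PTF w) : PTF (fun c => gbits (w c)) :=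
  PTF.take (PTU.mul (ptu_gn hw) (ptu_gn hw)) (ptf_rs hw)

theorem ptf_grest {w : γ → List Bool} (hw : PTF w) : PTF (fun c => grest (w c)) :=
  PTF.drop (PTU.mul (ptu_gn hw) (ptu_gn hw)) (ptf_rs hw)

end ptf

/-! ### two graphs and a dimension -/

/-- well-formedness of `k, G, H` -/
def Wf2 (w : List Bool) : Prop :=
  w = Crest.Enc.natCode (rd w) ++ (Crest.Enc.natCode (gn (rs w)) ++ (gbits (rs w) ++
      (Crest.Enc.natCode (gn (grest (rs w))) ++ (gbits (grest (rs w)) ++ [])))) ∧
    (gbits (rs w)).length = gn (rs w) * gn (rs w) ∧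
    (gbits (grest (rs w))).length = gn (grest (rs w)) * gn (grest (rs w))

theorem ptp_wf2 : PTPred Wf2 := by
  have h0 : PTF (fun w : List Bool => w) := PTF.id
  have h1 := ptf_rs h0
  have h2 := ptf_grest h1
  have e1 : PTPred (fun w : List Bool => w = Crest.Enc.natCode (rd w) ++
      (Crest.Enc.natCode (gn (rs w)) ++ (gbits (rs w) ++
      (Crest.Enc.natCode (gn (grest (rs w))) ++ (gbits (grest (rs w)) ++ []))))) := by
    refine PTPred.eq h0 ?_
    exact PTF.append (ptf_natCode (ptf_rd h0)) (PTF.append (ptf_natCode (PTU.toPTF (ptu_gn h1)))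
      (PTF.append (ptf_gbits h1) (PTF.append (ptf_natCode (PTU.toPTF (ptu_gn h2)))
        (PTF.append (ptf_gbits h2) (PTF.const _)))))
  exact e1.and ((PTU.eq (PTU.length (ptf_gbits h1)) (PTU.mul (ptu_gn h1) (ptu_gn h1))).and
    (PTU.eq (PTU.length (ptf_gbits h2)) (PTU.mul (ptu_gn h2) (ptu_gn h2))))

theorem code2_eq {k n m : ℕ} (G : Fin n → Fin n → Bool) (H : Fin m → Fin m → Bool) :
    Crest.Enc.natCode k ++ adjMatrixCode G ++ adjMatrixCode H =
      Crest.Enc.natCode k ++ (Crest.Enc.natCode n ++ (bitsOf G ++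
        (Crest.Enc.natCode m ++ (bitsOf H ++ [])))) := by
  rw [adjMatrixCode_eq, adjMatrixCode_eq]
  simp only [List.append_assoc, List.append_nil]

/-- data of a well-formed word -/
theorem parse2 {k n m : ℕ} (G : Fin n → Fin n → Bool) (H : Fin m → Fin m → Bool) (w : List Bool)
    (hw : w = Crest.Enc.natCode k ++ adjMatrixCode G ++ adjMatrixCode H) :
    rd w = k ∧ gn (rs w) = n ∧ gbits (rs w) = bitsOf G ∧ gn (grest (rs w)) = m ∧
      gbits (grest (rs w)) = bitsOf H ∧ Wf2 w := by
  rw [code2_eq] at hw
  have h1 : rd w = k := by rw [hw, rd_natCode]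
  have h2 : rs w = Crest.Enc.natCode n ++ (bitsOf G ++
        (Crest.Enc.natCode m ++ (bitsOf H ++ []))) := by rw [hw, rs_natCode]
  have h3 : gn (rs w) = n := by rw [h2, gn_eq (length_bitsOf G)]
  have h4 : gbits (rs w) = bitsOf G := by rw [h2, gbits_eq (length_bitsOf G)]
  have h5 : grest (rs w) = Crest.Enc.natCode m ++ (bitsOf H ++ []) := by
    rw [h2, grest_eq (length_bitsOf G)]
  have h6 : gn (grest (rs w)) = m := by rw [h5, gn_eq (length_bitsOf H)]
  have h7 : gbits (grest (rs w)) = bitsOf H := by rw [h5, gbits_eq (length_bitsOf H)]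
  refine ⟨h1, h3, h4, h6, h7, ?_, ?_, ?_⟩
  · rw [h1, h3, h4, h6, h7]; exact hw
  · rw [h3, h4, length_bitsOf]
  · rw [h6, h7, length_bitsOf]

theorem unparse2 {w : List Bool} (hw : Wf2 w) :
    w = Crest.Enc.natCode (rd w) ++ adjMatrixCode (adjOf (gn (rs w)) (gbits (rs w))) ++
      adjMatrixCode (adjOf (gn (grest (rs w))) (gbits (grest (rs w)))) := by
  rw [code2_eq, bitsOf_adjOf hw.2.1, bitsOf_adjOf hw.2.2]
  exact hw.1

/-- the cap is large enough -/
theorem cap_ok {n l : ℕ} (h : n * n ≤ l) : n ^ (n + 1) ≤ 2 ^ (2 * l) ∧ 2 ^ (n * n) ≤ 2 ^ (2 * l) ∧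
    2 ^ n ≤ 2 ^ (2 * l) := by
  have h0 : n ≤ n * n := by nlinarith [Nat.zero_le n]
  refine ⟨?_, Nat.pow_le_pow_right (by norm_num) (by omega),
    Nat.pow_le_pow_right (by norm_num) (by omega)⟩
  calc n ^ (n + 1) ≤ (2 ^ n) ^ (n + 1) := Nat.pow_le_pow_left Nat.lt_two_pow_self.le _
    _ = 2 ^ (n * n + n) := by rw [← pow_mul, Nat.mul_succ]
    _ ≤ 2 ^ (2 * l) := Nat.pow_le_pow_right (by norm_num) (by omega)

theorem length_le_of_wf2 {w : List Bool} (hw : Wf2 w) : gn (rs w) * gn (rs w) ≤ w.length := by
  have h := congrArg List.length hw.1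
  simp only [List.length_append] at h
  rw [hw.2.1] at h
  omega

theorem pow_cap_ok {n k l : ℕ} (hn : n * n ≤ l) (hk : k ≤ n + 1) (hk1 : 1 ≤ k) :
    n ^ k ≤ 2 ^ (2 * l) := by
  rcases Nat.eq_zero_or_pos n with h0 | h0
  · subst h0
    rw [zero_pow (by omega)]
    exact Nat.zero_le _
  · exact (Nat.pow_le_pow_right h0 hk).trans (cap_ok hn).1

/-- the common test of the two equivalence languages -/
def V2 (w : List Bool) (cap : ℕ) : Prop :=
  Wf2 w ∧ 2 ≤ rd w ∧ simpleB (gn (rs w)) (gbits (rs w)) = true ∧
    simpleB (gn (grest (rs w))) (gbits (grest (rs w))) = true ∧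
    gn (rs w) = gn (grest (rs w)) ∧
    testJ (gn (rs w)) (min (rd w) (gn (rs w) + 1)) cap (gbits (rs w))
      (gbits (grest (rs w))) = true

theorem ptp_V2 : PTPred (fun q : List Bool × Un => V2 q.1 q.2.val) := by
  have h0 : PTF (fun q : List Bool × Un => q.1) := PTF.fst
  have h1 := ptf_rs h0
  have h2 := ptf_grest h1
  have hcap : PTU (fun q : List Bool × Un => q.2.val) := PTU.val PTF.snd
  have hn := ptu_gn h1
  have hm := ptu_gn h2
  have hg := ptf_gbits h1
  have hh := ptf_gbits h2
  unfold V2
  refine (PTPred.comp ptp_wf2 h0).and (PTPred.and ?_ (PTPred.and ?_ (PTPred.and ?_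
    (PTPred.and ?_ ?_))))
  · exact PTPred.natLe (PTF.const 2) (ptf_rd h0)
  · exact PTF.toPTPred (ptf_simpleB hn hg)
  · exact PTF.toPTPred (ptf_simpleB hm hh)
  · exact PTU.eq hn hm
  · exact PTF.toPTPred (ptf_testJ hn (PTF.natMinUn (ptf_rd h0) (PTU.succ hn)) hcap hg hh)

theorem V2_iff {w : List Bool} (hw : Wf2 w) :
    V2 w (2 ^ (2 * w.length)) ↔ 2 ≤ rd w ∧
      IsSimple (adjOf (gn (rs w)) (gbits (rs w))) ∧
      IsSimple (adjOf (gn (grest (rs w))) (gbits (grest (rs w)))) ∧
      JEquiv (rd w) (adjOf (gn (rs w)) (gbits (rs w)))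
        (adjOf (gn (grest (rs w))) (gbits (grest (rs w)))) := by
  have hlen := length_le_of_wf2 hw
  unfold V2
  rw [simpleB_iff, simpleB_iff]
  generalize gn (rs w) = n at *
  generalize gn (grest (rs w)) = m at *
  generalize gbits (rs w) = gb at *
  generalize gbits (grest (rs w)) = hb at *
  constructor
  · rintro ⟨-, h1, h2, h3, h4, h5⟩
    subst h4
    refine ⟨h1, h2, h3, ?_⟩
    rw [jequiv_cap]
    exact (testJ_iff (pow_cap_ok hlen (min_le_right _ _) (by omega)) _ _).1 h5
  · rintro ⟨h1, h2, h3, h5⟩
    have h4 : n = m := jequiv_order (by omega) h5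
    subst h4
    refine ⟨hw, h1, h2, h3, rfl, ?_⟩
    rw [jequiv_cap] at h5
    exact (testJ_iff (pow_cap_ok hlen (min_le_right _ _) (by omega)) _ _).2 h5

theorem mem_varDim_iff (w : List Bool) :
    w ∈ varDimEquivLang ↔ V2 w (2 ^ (2 * w.length)) := by
  constructor
  · rintro ⟨k, n, m, G, H, hk, hG, hH, hJ, hw⟩
    obtain ⟨h1, h2, h3, h4, h5, h6⟩ := parse2 G H w hw
    rw [V2_iff h6]
    subst h2 h4
    rw [h1, h3, h5, adjOf_bitsOf, adjOf_bitsOf]
    exact ⟨hk, hG, hH, hJ⟩
  · intro h
    have hw := h.1
    rw [V2_iff hw] at h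
    exact ⟨rd w, _, _, _, _, h.1, h.2.1, h.2.2.1, h.2.2.2, unparse2 hw⟩

theorem eval_two_mul_X (n : ℕ) : (2 * Polynomial.X : Polynomial ℕ).eval n = 2 * n := by simp

/-- S0436, first membership. -/
theorem inEXP_varDimEquivLang : Crest.ExpTime.InEXP varDimEquivLang :=
  inEXP_of_pad ptp_V2 (2 * Polynomial.X) (fun x => by
    rw [eval_two_mul_X]; exact mem_varDim_iff x)

/-! ### the subcubic restriction -/

/-- the test of the subcubic language -/
def V3 (w : List Bool) (cap : ℕ) : Prop :=
  V2 w cap ∧ connB (gn (rs w)) cap (gbits (rs w)) = true ∧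
    connB (gn (grest (rs w))) cap (gbits (grest (rs w))) = true ∧
    degB (gn (rs w)) (gbits (rs w)) = true ∧
    degB (gn (grest (rs w))) (gbits (grest (rs w))) = true

theorem ptp_V3 : PTPred (fun q : List Bool × Un => V3 q.1 q.2.val) := by
  have h0 : PTF (fun q : List Bool × Un => q.1) := PTF.fst
  have h1 := ptf_rs h0
  have h2 := ptf_grest h1
  have hcap : PTU (fun q : List Bool × Un => q.2.val) := PTU.val PTF.snd
  have hn := ptu_gn h1
  have hm := ptu_gn h2
  have hg := ptf_gbits h1
  have hh := ptf_gbits h2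
  unfold V3
  exact ptp_V2.and ((PTF.toPTPred (ptf_connB hn hcap hg)).and
    ((PTF.toPTPred (ptf_connB hm hcap hh)).and ((PTF.toPTPred (ptf_degB hn hg)).and
      (PTF.toPTPred (ptf_degB hm hh)))))

theorem V3_iff {w : List Bool} (hw : Wf2 w) :
    V3 w (2 ^ (2 * w.length)) ↔ 2 ≤ rd w ∧
      SimpleConnSubcubic (adjOf (gn (rs w)) (gbits (rs w))) ∧
      SimpleConnSubcubic (adjOf (gn (grest (rs w))) (gbits (grest (rs w)))) ∧
      JEquiv (rd w) (adjOf (gn (rs w)) (gbits (rs w)))
        (adjOf (gn (grest (rs w))) (gbits (grest (rs w)))) := by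
  have hlen := length_le_of_wf2 hw
  unfold V3
  rw [V2_iff hw]
  unfold SimpleConnSubcubic
  rw [degB_iff, degB_iff]
  generalize gn (rs w) = n at *
  generalize gn (grest (rs w)) = m at *
  generalize gbits (rs w) = gb at *
  generalize gbits (grest (rs w)) = hb at *
  constructor
  · rintro ⟨⟨h1, h2, h3, h4⟩, h5, h6, h7, h8⟩
    have h9 : n = m := jequiv_order (by omega) h4
    subst h9
    exact ⟨h1, ⟨h2, (connB_iff (cap_ok hlen).2.2 _).1 h5, h7⟩,
      ⟨h3, (connB_iff (cap_ok hlen).2.2 _).1 h6, h8⟩, h4⟩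
  · rintro ⟨h1, ⟨h2, h5, h7⟩, ⟨h3, h6, h8⟩, h4⟩
    have h9 : n = m := jequiv_order (by omega) h4
    subst h9
    exact ⟨⟨h1, h2, h3, h4⟩, (connB_iff (cap_ok hlen).2.2 _).2 h5,
      (connB_iff (cap_ok hlen).2.2 _).2 h6, h7, h8⟩

theorem mem_subcubic_iff (w : List Bool) :
    w ∈ subcubicVarDimEquivLang ↔ V3 w (2 ^ (2 * w.length)) := by
  constructor
  · rintro ⟨k, n, G, H, hk, hn, hG, hH, hJ, hw⟩
    obtain ⟨h1, h2, h3, h4, h5, h6⟩ := parse2 G H w hw
    rw [V3_iff h6]
    subst h2
    rw [h1, h3, h5, adjOf_bitsOf]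
    have e : SimpleConnSubcubic (adjOf (gn (grest (rs w))) (bitsOf H)) ∧
        JEquiv k G (adjOf (gn (grest (rs w))) (bitsOf H)) := by
      rw [h4, adjOf_bitsOf]
      exact ⟨hH, hJ⟩
    exact ⟨hk, hG, e.1, e.2⟩
  · intro h
    have hw := h.1.1
    have hw' := unparse2 hw
    rw [V3_iff hw] at h
    obtain ⟨h1, h2, h3, h4⟩ := h
    have h9 : gn (rs w) = gn (grest (rs w)) := jequiv_order (by omega) h4
    generalize gn (rs w) = n at *
    generalize gn (grest (rs w)) = m at *
    subst h9
    obtain ⟨v⟩ := h2.2.1.nonempty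
    exact ⟨rd w, n, _, _, h1, v.pos, h2, h3, h4, hw'⟩

/-- S0436, second membership. -/
theorem inEXP_subcubicVarDimEquivLang : Crest.ExpTime.InEXP subcubicVarDimEquivLang :=
  inEXP_of_pad ptp_V3 (2 * Polynomial.X) (fun x => by
    rw [eval_two_mul_X]; exact mem_subcubic_iff x)

/-! ### identification -/

/-- well-formedness of `k, G` -/
def Wf1 (w : List Bool) : Prop :=
  w = Crest.Enc.natCode (rd w) ++ (Crest.Enc.natCode (gn (rs w)) ++ (gbits (rs w) ++ [])) ∧
    (gbits (rs w)).length = gn (rs w) * gn (rs w)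

/-- the test of the identification language -/
def V1 (w : List Bool) (cap : ℕ) : Prop :=
  Wf1 w ∧ 1 ≤ rd w ∧ 1 ≤ gn (rs w) ∧ simpleB (gn (rs w)) (gbits (rs w)) = true ∧
    dimB (gn (rs w)) (rd w) cap (gbits (rs w)) = true

theorem ptp_V1 : PTPred (fun q : List Bool × Un => V1 q.1 q.2.val) := by
  have h0 : PTF (fun q : List Bool × Un => q.1) := PTF.fst
  have h1 := ptf_rs h0
  have hcap : PTU (fun q : List Bool × Un => q.2.val) := PTU.val PTF.snd
  have hn := ptu_gn h1
  have hg := ptf_gbits h1
  unfold V1 Wf1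
  refine PTPred.and (PTPred.and (PTPred.eq h0 ?_) ?_) (PTPred.and ?_ (PTPred.and ?_
    (PTPred.and ?_ ?_)))
  · exact PTF.append (ptf_natCode (ptf_rd h0)) (PTF.append (ptf_natCode (PTU.toPTF hn))
      (PTF.append hg (PTF.const _)))
  · exact PTU.eq (PTU.length hg) (PTU.mul hn hn)
  · exact PTPred.natLe (PTF.const 1) (ptf_rd h0)
  · exact PTU.le (PTU.const 1) hn
  · exact PTF.toPTPred (ptf_simpleB hn hg)
  · exact PTF.toPTPred (ptf_dimB hn (ptf_rd h0) hcap hg)

theorem mem_wlDim_iff (w : List Bool) :
    w ∈ wlDimLeLang ↔ V1 w (2 ^ (2 * w.length)) := by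
  have key : Wf1 w → 1 ≤ gn (rs w) → (dimB (gn (rs w)) (rd w) (2 ^ (2 * w.length))
      (gbits (rs w)) = true ↔ ∃ k', 1 ≤ k' ∧ k' ≤ rd w ∧
        Identifies k' (adjOf (gn (rs w)) (gbits (rs w)))) := by
    intro hw hn
    have hlen : gn (rs w) * gn (rs w) ≤ w.length := by
      have h := congrArg List.length hw.1
      simp only [List.length_append] at h
      rw [hw.2] at h
      omega
    exact dimB_iff (cap_ok hlen).1 (cap_ok hlen).2.1 hn _
  constructor
  · rintro ⟨k, n, G, hk, hn, hG, hI, hw⟩
    have hw' : w = Crest.Enc.natCode k ++ (Crest.Enc.natCode n ++ (bitsOf G ++ [])) := by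
      rw [hw, adjMatrixCode_eq, List.append_nil]
    have h1 : rd w = k := by rw [hw', rd_natCode]
    have h2 : rs w = Crest.Enc.natCode n ++ (bitsOf G ++ []) := by rw [hw', rs_natCode]
    have h3 : gn (rs w) = n := by rw [h2, gn_eq (length_bitsOf G)]
    have h4 : gbits (rs w) = bitsOf G := by rw [h2, gbits_eq (length_bitsOf G)]
    have hwf : Wf1 w := ⟨by rw [h1, h3, h4]; exact hw', by rw [h3, h4, length_bitsOf]⟩
    have hn' : 1 ≤ gn (rs w) := by omega
    refine ⟨hwf, by omega, hn', ?_, ?_⟩
    · rw [simpleB_iff]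
      subst h3
      rw [h4, adjOf_bitsOf]
      exact hG
    · rw [key hwf hn']
      subst h3
      rw [h1, h4, adjOf_bitsOf]
      exact hI
  · rintro ⟨hwf, h1, h2, h3, h4⟩
    rw [key hwf h2] at h4
    refine ⟨rd w, gn (rs w), adjOf (gn (rs w)) (gbits (rs w)), h1, h2,
      (simpleB_iff _ _).1 h3, h4, ?_⟩
    rw [adjMatrixCode_eq, bitsOf_adjOf hwf.2]
    have := hwf.1
    rwa [List.append_nil] at this

/-- S0437, membership. -/
theorem inEXP_wlDimLeLang : Crest.ExpTime.InEXP wlDimLeLang :=
  inEXP_of_pad ptp_V1 (2 * Polynomial.X) (fun x => by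
    rw [eval_two_mul_X]; exact mem_wlDim_iff x)

end Crest.Agent.R290.EX
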