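import Crest.Agent.R290.Defs

/-!
# Row 290, module ENCS-1: subdivisions with pendant paths (helper217)

`AGModel G b A cl as`: the adjacency function `A` on `V` is the agreement graph of `G` with parities
`b`; `cl` is the class of a vertex and `as` its assignment.

For `G : BG C X` with `G.Good`, every pebble system with `K ≥ 3` between two models of `subdiv G`
(same `G`, arbitrary parities) preserves all base classes and, for every class `c` reachable from
`c₀` along oriented edges, the relation "`v` in class `c₀`, `w` in class `c`, `v` and `w` agree on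
`vars c`" (`pres_down`).
-/

set_option autoImplicit false
set_option linter.unusedSectionVars false

namespace Crest.Agent.R290

open Crest.Agent.R290.WL

/-- `A` is the agreement graph of `G` with parities `b`. -/
structure AGModel {C X V : Type} (G : AG C X) (b : C → Bool) (A : V → V → Bool)
    (cl : V → C) (as : V → X → ZMod 2) : Prop where
  cl_mem : ∀ v, cl v ∈ G.cls
  adj_iff : ∀ v w, A v w = true ↔ G.E (cl v) (cl w) = true ∧
    ∀ x ∈ G.vars (cl v), x ∈ G.vars (cl w) → as v x = as w x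
  ext : ∀ v w, cl v = cl w → (∀ x ∈ G.vars (cl v), as v x = as w x) → v = w
  exist : ∀ c ∈ G.cls, ∀ α : X → ZMod 2,
    (G.con c = true → ((G.vars c).map α).sum = bz (b c)) →
      ∃ v, cl v = c ∧ ∀ x ∈ G.vars c, as v x = α x
  par : ∀ v, G.con (cl v) = true → ((G.vars (cl v)).map (as v)).sum = bz (b (cl v))

/-- Good base graphs. -/
structure BG.Good {C X : Type} (G : BG C X) : Prop where
  mem1 : ∀ e ∈ G.es, e.1 ∈ G.cls
  mem2 : ∀ e ∈ G.es, e.2 ∈ G.cls
  ne : ∀ e ∈ G.es, e.1 ≠ e.2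
  sub : ∀ e ∈ G.es, G.vars e.2 ⊆ G.vars e.1
  /-- an edge into a constrained class joins two copies -/
  con : ∀ e ∈ G.es, G.con e.2 = true → G.con e.1 = true ∧ G.vars e.1 = G.vars e.2
  /-- a constrained class above an unconstrained one has one more variable -/
  more : ∀ e ∈ G.es, G.con e.1 = true → G.con e.2 = false → ∃ x ∈ G.vars e.1, x ∉ G.vars e.2
  nodup : ∀ c ∈ G.cls, (G.vars c).Nodup
  simple : ∀ (k k' : ℕ) (e e' : C × C), G.es[k]? = some e → G.es[k']? = some e' →
    ∀ c c', c ≠ c' → (e.1 = c ∨ e.2 = c) → (e.1 = c' ∨ e.2 = c') → (e'.1 = c ∨ e'.2 = c) →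
      (e'.1 = c' ∨ e'.2 = c') → k = k'
  two : ∀ c ∈ G.cls, ∃ (k k' : ℕ) (e e' : C × C), k ≠ k' ∧ G.es[k]? = some e ∧
    G.es[k']? = some e' ∧ (e.1 = c ∨ e.2 = c) ∧ (e'.1 = c ∨ e'.2 = c)

/-- The parities are constant along edges between constrained classes. -/
def BG.ParOK {C X : Type} (G : BG C X) (b : C → Bool) : Prop :=
  ∀ e ∈ G.es, G.con e.2 = true → b e.1 = b e.2

section subdiv

variable {C X V : Type} [DecidableEq C] [DecidableEq X] {G : BG C X} {b : C → Bool}
  {A : V → V → Bool} {cl : V → C ⊕ (ℕ × ℕ)} {as : V → X → ZMod 2}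

theorem mem_subdiv_cls_inl {c : C} : Sum.inl c ∈ (subdiv G).cls ↔ c ∈ G.cls := by
  simp [subdiv]

theorem mem_subdiv_cls_inr {k j : ℕ} :
    Sum.inr (k, j) ∈ (subdiv G).cls ↔ k < G.es.length ∧ j < k + 2 := by
  simp [subdiv]

theorem subdiv_vars_inl (c : C) : (subdiv G).vars (Sum.inl c) = G.vars c := rfl

theorem subdiv_vars_inr {k j : ℕ} {e : C × C} (he : G.es[k]? = some e) :
    (subdiv G).vars (Sum.inr (k, j)) = G.vars e.1 := by
  simp [subdiv, he]

theorem subdiv_con_inr {k j : ℕ} {e : C × C} (he : G.es[k]? = some e) :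
    (subdiv G).con (Sum.inr (k, j)) = G.con e.1 := by
  simp [subdiv, he]

theorem bSub_inr {k j : ℕ} {e : C × C} (he : G.es[k]? = some e) :
    bSub G b (Sum.inr (k, j)) = b e.1 := by
  simp [bSub, he]

theorem ES_inl_inl (c c' : C) : (subdiv G).E (Sum.inl c) (Sum.inl c') = false := rfl

theorem ES_inl_inr {c : C} {k j : ℕ} : (subdiv G).E (Sum.inl c) (Sum.inr (k, j)) = true ↔
    j = 0 ∧ ∃ e, G.es[k]? = some e ∧ (e.1 = c ∨ e.2 = c) := by
  simp [subdiv, BG.ES]

theorem ES_inr_inl {c : C} {k j : ℕ} : (subdiv G).E (Sum.inr (k, j)) (Sum.inl c) = true ↔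
    j = 0 ∧ ∃ e, G.es[k]? = some e ∧ (e.1 = c ∨ e.2 = c) := by
  simp [subdiv, BG.ES]

theorem ES_inr_inr {k j k' j' : ℕ} :
    (subdiv G).E (Sum.inr (k, j)) (Sum.inr (k', j')) = true ↔
      k = k' ∧ (j' = j + 1 ∨ j = j' + 1) := by
  simp [subdiv, BG.ES]

/-- degree `t` -/
def dg (A : V → V → Bool) (t : ℕ) (v : V) : Prop := Nat.card {z // A v z = true} = t

theorem dg_one_of {v w : V} (h : A v w = true) (hu : ∀ z, A v z = true → z = w) : dg A 1 v := by
  unfold dg
  rw [Nat.card_eq_one_iff_unique]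
  refine ⟨⟨fun a b => Subtype.ext ?_⟩, ⟨⟨w, h⟩⟩⟩
  rw [hu a.1 a.2, hu b.1 b.2]

theorem not_dg_one_of {v w w' : V} (h : A v w = true) (h' : A v w' = true) (hne : w ≠ w') :
    ¬ dg A 1 v := by
  unfold dg
  intro h1
  rw [Nat.card_eq_one_iff_unique] at h1
  obtain ⟨h1, -⟩ := h1
  exact hne (congrArg Subtype.val (h1.allEq ⟨w, h⟩ ⟨w', h'⟩))

theorem dg_two_of {v w w' : V} (h : A v w = true) (h' : A v w' = true) (hne : w ≠ w')
    (hu : ∀ z, A v z = true → z = w ∨ z = w') : dg A 2 v := by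
  unfold dg
  rw [Nat.card_eq_two_iff]
  refine ⟨⟨w, h⟩, ⟨w', h'⟩, fun h => hne (congrArg Subtype.val h), ?_⟩
  ext z
  simp only [Set.mem_insert_iff, Set.mem_singleton_iff, Set.mem_univ, iff_true]
  rcases hu z.1 z.2 with h | h
  · left; exact Subtype.ext h
  · right; exact Subtype.ext h

theorem not_dg_two_of {v w₁ w₂ w₃ : V} (h1 : A v w₁ = true) (h2 : A v w₂ = true)
    (h3 : A v w₃ = true) (h12 : w₁ ≠ w₂) (h13 : w₁ ≠ w₃) (h23 : w₂ ≠ w₃) : ¬ dg A 2 v := by
  unfold dg
  intro h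
  rw [Nat.card_eq_two_iff] at h
  obtain ⟨x, y, -, hxy⟩ := h
  have key : ∀ w, A v w = true → w = x.1 ∨ w = y.1 := by
    intro w hw
    have : (⟨w, hw⟩ : {z // A v z = true}) ∈ ({x, y} : Set _) := by rw [hxy]; trivial
    rcases this with h | h
    · left; exact congrArg Subtype.val h
    · right; exact congrArg Subtype.val h
  rcases key _ h1 with a | a <;> rcases key _ h2 with b | b <;> rcases key _ h3 with c | c <;>
    simp_all

theorem sum_map_update {l : List X} (hl : l.Nodup) {x₀ : X} (hx : x₀ ∈ l) (f : X → ZMod 2)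
    (t : ZMod 2) : (l.map (Function.update f x₀ t)).sum = (l.map f).sum + f x₀ + t := by
  rw [← List.sum_toFinset _ hl, ← List.sum_toFinset _ hl,
    Finset.sum_update_of_mem (by simpa using hx),
    ← Finset.sum_sdiff (s₁ := {x₀}) (s₂ := l.toFinset) (by simpa using hx)]
  simp only [Finset.sum_singleton]
  have h1 : f x₀ + f x₀ = 0 := CharTwo.add_self_eq_zero _
  rw [add_assoc (∑ x ∈ l.toFinset \ {x₀}, f x), h1, add_zero, add_comm]

section model

variable (hG : G.Good) (hp : G.ParOK b) (hm : AGModel (subdiv G) (bSub G b) A cl as)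

include hm in
theorem model_lt {v : V} {k j : ℕ} (hv : cl v = Sum.inr (k, j)) :
    ∃ e, G.es[k]? = some e ∧ j < k + 2 := by
  have h := hm.cl_mem v
  rw [hv, mem_subdiv_cls_inr] at h
  exact ⟨G.es[k], by simp [h.1], h.2⟩

include hm in
theorem sum_inr {v : V} {k j : ℕ} {e : C × C} (he : G.es[k]? = some e)
    (hv : cl v = Sum.inr (k, j)) (hc : G.con e.1 = true) :
    ((G.vars e.1).map (as v)).sum = bz (b e.1) := by
  have h := hm.par v (by rw [hv, subdiv_con_inr he]; exact hc)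
  rw [hv, subdiv_vars_inr he, bSub_inr he] at h
  exact h

include hm in
theorem sum_inl {v : V} {c : C} (hv : cl v = Sum.inl c) (hc : G.con c = true) :
    ((G.vars c).map (as v)).sum = bz (b c) := by
  have h := hm.par v (by rw [hv]; exact hc)
  rw [hv] at h
  exact h

include hm in
theorem adj_of {v w : V} (hE : (subdiv G).E (cl v) (cl w) = true)
    (h : ∀ x ∈ (subdiv G).vars (cl v), x ∈ (subdiv G).vars (cl w) → as v x = as w x) :
    A v w = true := (hm.adj_iff v w).2 ⟨hE, h⟩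

include hm in
theorem adj_symm' {v w : V} (h : A v w = true) : A w v = true := by
  rw [hm.adj_iff] at h ⊢
  refine ⟨?_, fun x h1 h2 => (h.2 x h2 h1).symm⟩
  have h1 := h.1
  generalize cl v = a at h1
  generalize cl w = c at h1
  rcases a with a | ⟨k, j⟩ <;> rcases c with c | ⟨k', j'⟩
  · exact h1
  · rw [ES_inl_inr] at h1; rw [ES_inr_inl]; exact h1
  · rw [ES_inr_inl] at h1; rw [ES_inl_inr]; exact h1
  · rw [ES_inr_inr] at h1 ⊢
    exact ⟨h1.1.symm, h1.2.symm⟩

include hG hm in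
/-- from the subdivision class of an edge to its first end -/
theorem to_e1 {v : V} {k : ℕ} {e : C × C} (he : G.es[k]? = some e)
    (hv : cl v = Sum.inr (k, 0)) :
    ∃ w, cl w = Sum.inl e.1 ∧ A v w = true ∧ ∀ x ∈ G.vars e.1, as w x = as v x := by
  obtain ⟨w, hw, hw'⟩ := hm.exist (Sum.inl e.1)
    (mem_subdiv_cls_inl.2 (hG.mem1 e (List.mem_of_getElem? he))) (as v)
    (fun hc => sum_inr hm he hv hc)
  refine ⟨w, hw, adj_of hm ?_ ?_, hw'⟩
  · rw [hv, hw, ES_inr_inl]
    exact ⟨rfl, e, he, Or.inl rfl⟩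
  · intro x _ h2
    rw [hw] at h2
    exact (hw' x h2).symm

include hG hp hm in
/-- from the subdivision class of an edge to its second end -/
theorem to_e2 {v : V} {k : ℕ} {e : C × C} (he : G.es[k]? = some e)
    (hv : cl v = Sum.inr (k, 0)) :
    ∃ w, cl w = Sum.inl e.2 ∧ A v w = true ∧ ∀ x ∈ G.vars e.2, as w x = as v x := by
  have hmem := List.mem_of_getElem? he
  obtain ⟨w, hw, hw'⟩ := hm.exist (Sum.inl e.2)
    (mem_subdiv_cls_inl.2 (hG.mem2 e hmem)) (as v) (fun hc => by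
      obtain ⟨h1, h2⟩ := hG.con e hmem hc
      have h3 := sum_inr hm he hv h1
      rw [h2, hp e hmem hc] at h3
      exact h3)
  refine ⟨w, hw, adj_of hm ?_ ?_, hw'⟩
  · rw [hv, hw, ES_inr_inl]
    exact ⟨rfl, e, he, Or.inr rfl⟩
  · intro x _ h2
    rw [hw] at h2
    exact (hw' x h2).symm

include hm in
/-- along the pendant path -/
theorem to_pend {v : V} {k j j' : ℕ} {e : C × C} (he : G.es[k]? = some e)
    (hv : cl v = Sum.inr (k, j)) (hj : j' = j + 1 ∨ j = j' + 1) (hj' : j' < k + 2) :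
    ∃ w, cl w = Sum.inr (k, j') ∧ A v w = true ∧ ∀ x ∈ G.vars e.1, as w x = as v x := by
  have hk : k < G.es.length := (List.getElem?_eq_some_iff.1 he).1
  obtain ⟨w, hw, hw'⟩ := hm.exist (Sum.inr (k, j'))
    (mem_subdiv_cls_inr.2 ⟨hk, hj'⟩) (as v) (fun hc => by
      rw [subdiv_vars_inr he, bSub_inr he]
      exact sum_inr hm he hv (by rw [subdiv_con_inr he] at hc; exact hc))
  rw [subdiv_vars_inr he] at hw'
  refine ⟨w, hw, adj_of hm ?_ ?_, hw'⟩
  · rw [hv, hw, ES_inr_inr]
    exact ⟨rfl, hj⟩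
  · intro x _ h2
    rw [hw, subdiv_vars_inr he] at h2
    exact (hw' x h2).symm

include hm in
/-- from the first end of an edge to the subdivision class -/
theorem of_e1 {v : V} {k : ℕ} {e : C × C} (he : G.es[k]? = some e)
    (hv : cl v = Sum.inl e.1) :
    ∃ w, cl w = Sum.inr (k, 0) ∧ A v w = true ∧ ∀ x ∈ G.vars e.1, as w x = as v x := by
  have hk : k < G.es.length := (List.getElem?_eq_some_iff.1 he).1
  obtain ⟨w, hw, hw'⟩ := hm.exist (Sum.inr (k, 0))
    (mem_subdiv_cls_inr.2 ⟨hk, by omega⟩) (as v) (fun hc => by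
      rw [subdiv_vars_inr he, bSub_inr he]
      exact sum_inl hm hv (by rw [subdiv_con_inr he] at hc; exact hc))
  rw [subdiv_vars_inr he] at hw'
  refine ⟨w, hw, adj_of hm ?_ ?_, hw'⟩
  · rw [hv, hw, ES_inl_inr]
    exact ⟨rfl, e, he, Or.inl rfl⟩
  · intro x _ h2
    rw [hw, subdiv_vars_inr he] at h2
    exact (hw' x h2).symm

include hG hp hm in
/-- from the second end of an edge to the subdivision class -/
theorem of_e2 {v : V} {k : ℕ} {e : C × C} (he : G.es[k]? = some e)
    (hv : cl v = Sum.inl e.2) :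
    ∃ w, cl w = Sum.inr (k, 0) ∧ A v w = true ∧ ∀ x ∈ G.vars e.2, as w x = as v x := by
  have hk : k < G.es.length := (List.getElem?_eq_some_iff.1 he).1
  have hmem := List.mem_of_getElem? he
  have key : ∃ α : X → ZMod 2, (∀ x ∈ G.vars e.2, α x = as v x) ∧
      (G.con e.1 = true → ((G.vars e.1).map α).sum = bz (b e.1)) := by
    by_cases hc1 : G.con e.1 = true
    · by_cases hc2 : G.con e.2 = true
      · refine ⟨as v, fun _ _ => rfl, fun _ => ?_⟩
        rw [(hG.con e hmem hc2).2, hp e hmem hc2]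
        exact sum_inl hm hv hc2
      · obtain ⟨x₀, hx₀, hx₀'⟩ := hG.more e hmem hc1 (by simpa using hc2)
        refine ⟨Function.update (as v) x₀ (((G.vars e.1).map (as v)).sum + as v x₀ + bz (b e.1)),
          fun x hx => ?_, fun _ => ?_⟩
        · rw [Function.update_of_ne]
          rintro rfl
          exact hx₀' hx
        · rw [sum_map_update (hG.nodup _ (hG.mem1 e hmem)) hx₀]
          have h1 : ∀ s t : ZMod 2, s + t + (s + t + bz (b e.1)) = bz (b e.1) := by
            intro s t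
            have h2 : s + t + (s + t) = 0 := CharTwo.add_self_eq_zero _
            rw [← add_assoc, h2, zero_add]
          exact h1 _ _
    · exact ⟨as v, fun _ _ => rfl, fun h => absurd h hc1⟩
  obtain ⟨α, hα, hα'⟩ := key
  obtain ⟨w, hw, hw'⟩ := hm.exist (Sum.inr (k, 0))
    (mem_subdiv_cls_inr.2 ⟨hk, by omega⟩) α (fun hc => by
      rw [subdiv_vars_inr he, bSub_inr he]
      exact hα' (by rw [subdiv_con_inr he] at hc; exact hc))
  rw [subdiv_vars_inr he] at hw'
  have hag : ∀ x ∈ G.vars e.2, as w x = as v x := fun x hx =>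
    (hw' x (hG.sub e hmem hx)).trans (hα x hx)
  refine ⟨w, hw, adj_of hm ?_ ?_, hag⟩
  · rw [hv, hw, ES_inl_inr]
    exact ⟨rfl, e, he, Or.inr rfl⟩
  · intro x h2 _
    rw [hv] at h2
    exact (hag x h2).symm

include hG hp hm in
/-- from either end of an edge to the subdivision class -/
theorem of_end {v : V} {k : ℕ} {e : C × C} {c : C} (he : G.es[k]? = some e)
    (hc : e.1 = c ∨ e.2 = c) (hv : cl v = Sum.inl c) :
    ∃ w, cl w = Sum.inr (k, 0) ∧ A v w = true := by
  rcases hc with rfl | rfl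
  · obtain ⟨w, h1, h2, -⟩ := of_e1 hm he hv
    exact ⟨w, h1, h2⟩
  · obtain ⟨w, h1, h2, -⟩ := of_e2 hG hp hm he hv
    exact ⟨w, h1, h2⟩

/-! ### degrees -/

include hm in
theorem pend_unique {v w w' : V} {k j j' : ℕ} (hv : cl v = Sum.inr (k, j))
    (hw : cl w = Sum.inr (k, j')) (hw' : cl w' = Sum.inr (k, j')) (h : A v w = true)
    (h' : A v w' = true) : w = w' := by
  obtain ⟨e, he, -⟩ := model_lt hm hv
  rw [hm.adj_iff] at h h'
  refine hm.ext _ _ (hw.trans hw'.symm) fun x hx => ?_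
  rw [hw, subdiv_vars_inr he] at hx
  have h1 := h.2 x (by rw [hv, subdiv_vars_inr he]; exact hx)
    (by rw [hw, subdiv_vars_inr he]; exact hx)
  have h2 := h'.2 x (by rw [hv, subdiv_vars_inr he]; exact hx)
    (by rw [hw', subdiv_vars_inr he]; exact hx)
  exact h1.symm.trans h2

include hm in
/-- neighbours of a pendant vertex -/
theorem nbr_pend {v z : V} {k j : ℕ} (hv : cl v = Sum.inr (k, j)) (hj : j ≠ 0)
    (h : A v z = true) : ∃ j', cl z = Sum.inr (k, j') ∧ (j' = j + 1 ∨ j = j' + 1) ∧ j' < k + 2 := by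
  have h1 := ((hm.adj_iff v z).1 h).1
  have h2 := hm.cl_mem z
  generalize cl z = c at h1 h2
  rw [hv] at h1
  rcases c with c | ⟨k', j'⟩
  · rw [ES_inr_inl] at h1
    exact absurd h1.1 hj
  · rw [ES_inr_inr] at h1
    obtain ⟨rfl, h3⟩ := h1
    exact ⟨j', rfl, h3, (mem_subdiv_cls_inr.1 h2).2⟩

include hm in
theorem dg_leaf {v : V} {k : ℕ} (hv : cl v = Sum.inr (k, k + 1)) : dg A 1 v := by
  obtain ⟨e, he, -⟩ := model_lt hm hv
  obtain ⟨w, hw, hvw, -⟩ := to_pend hm he hv (Or.inr rfl : k = k + 1 + 1 ∨ k + 1 = k + 1) (by omega)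
  refine dg_one_of hvw fun z hz => ?_
  obtain ⟨j', hj', h1, h2⟩ := nbr_pend hm hv (by omega) hz
  obtain rfl : j' = k := by omega
  exact pend_unique hm hv hj' hw hz hvw

include hm in
theorem dg_pend {v : V} {k j : ℕ} (hv : cl v = Sum.inr (k, j)) (h1 : 1 ≤ j) (h2 : j ≤ k) :
    dg A 2 v := by
  obtain ⟨e, he, -⟩ := model_lt hm hv
  obtain ⟨w, hw, hvw, -⟩ := to_pend hm he hv (Or.inl rfl : j + 1 = j + 1 ∨ j = j + 1 + 1) (by omega)
  obtain ⟨w', hw', hvw', -⟩ := to_pend hm he hv
    (Or.inr (by omega) : j - 1 = j + 1 ∨ j = j - 1 + 1) (by omega)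
  refine dg_two_of hvw hvw' ?_ fun z hz => ?_
  · intro h
    rw [h, hw'] at hw
    simp at hw
  · obtain ⟨j', hj', h3, h4⟩ := nbr_pend hm hv (by omega) hz
    rcases h3 with h3 | h3
    · left; subst h3; exact pend_unique hm hv hj' hw hz hvw
    · right
      obtain rfl : j' = j - 1 := by omega
      exact pend_unique hm hv hj' hw' hz hvw'

include hG hp hm in
theorem dg_anchor {v : V} {k : ℕ} (hv : cl v = Sum.inr (k, 0)) : ¬ dg A 1 v ∧ ¬ dg A 2 v := by
  obtain ⟨e, he, -⟩ := model_lt hm hv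
  obtain ⟨w₁, hw₁, h1, -⟩ := to_e1 hG hm he hv
  obtain ⟨w₂, hw₂, h2, -⟩ := to_e2 hG hp hm he hv
  obtain ⟨w₃, hw₃, h3, -⟩ := to_pend hm he hv (Or.inl rfl : 0 + 1 = 0 + 1 ∨ 0 = 0 + 1 + 1) (by omega)
  have h12 : w₁ ≠ w₂ := by
    rintro rfl
    rw [hw₁] at hw₂
    exact hG.ne e (List.mem_of_getElem? he) (Sum.inl.inj hw₂)
  have h13 : w₁ ≠ w₃ := by
    rintro rfl
    rw [hw₁] at hw₃
    cases hw₃
  have h23 : w₂ ≠ w₃ := by
    rintro rfl
    rw [hw₂] at hw₃
    cases hw₃
  exact ⟨not_dg_one_of h1 h2 h12, not_dg_two_of h1 h2 h3 h12 h13 h23⟩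

include hG hp hm in
theorem dg_base {v : V} {c : C} (hv : cl v = Sum.inl c) : ¬ dg A 1 v := by
  have hc : c ∈ G.cls := by
    have := hm.cl_mem v
    rw [hv, mem_subdiv_cls_inl] at this
    exact this
  obtain ⟨k, k', e, e', hne, he, he', h, h'⟩ := hG.two c hc
  obtain ⟨w, hw, h1⟩ := of_end hG hp hm he h hv
  obtain ⟨w', hw', h1'⟩ := of_end hG hp hm he' h' hv
  refine not_dg_one_of h1 h1' ?_
  rintro rfl
  rw [hw] at hw'
  simp at hw'
  exact hne hw'

/-! ### distance from the leaf on a pendant path -/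

/-- distance `i` from the end of a pendant path -/
def Dp (A : V → V → Bool) : ℕ → V → Prop
  | 0, v => dg A 1 v
  | 1, v => dg A 2 v ∧ ∃ w, A v w = true ∧ Dp A 0 w
  | i + 2, v => (dg A 2 v ∧ ∃ w, A v w = true ∧ Dp A (i + 1) w) ∧ ¬ Dp A i v

include hG hp hm in
theorem Dp_iff (i : ℕ) : ∀ v, Dp A i v ↔ ∃ k, i ≤ k ∧ cl v = Sum.inr (k, k + 1 - i) := by
  induction i using Nat.strong_induction_on with
  | _ i ih =>
    intro v
    match i, ih with
    | 0, _ =>
      constructor
      · intro h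
        rcases hcl : cl v with c | ⟨k, j⟩
        · exact absurd h (dg_base hG hp hm hcl)
        · rcases Nat.eq_zero_or_pos j with rfl | hj
          · exact absurd h (dg_anchor hG hp hm hcl).1
          · obtain ⟨e, he, hlt⟩ := model_lt hm hcl
            rcases Nat.lt_or_ge k j with h1 | h1
            · obtain rfl : j = k + 1 := by omega
              exact ⟨k, Nat.zero_le _, by simp⟩
            · have h2 := dg_pend hm hcl hj h1
              unfold Dp dg at h
              unfold dg at h2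
              omega
      · rintro ⟨k, -, h⟩
        exact dg_leaf hm (by simpa using h)
    | 1, ih =>
      constructor
      · rintro ⟨h2, w, hvw, hw⟩
        obtain ⟨k, -, hk⟩ := (ih 0 (by omega) w).1 hw
        obtain ⟨j', hj', h3, h4⟩ := nbr_pend hm (j := k + 1) (by simpa using hk) (by omega)
          (adj_symm' hm hvw)
        obtain rfl : j' = k := by omega
        rcases Nat.eq_zero_or_pos j' with rfl | hj
        · exact absurd h2 (dg_anchor hG hp hm hj').2
        · exact ⟨j', hj, by simpa using hj'⟩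
      · rintro ⟨k, hk, hv⟩
        simp only [Nat.add_sub_cancel] at hv
        obtain ⟨e, he, -⟩ := model_lt hm hv
        obtain ⟨w, hw, hvw, -⟩ := to_pend hm he hv (Or.inl rfl : k + 1 = k + 1 ∨ k = k + 1 + 1)
          (by omega)
        exact ⟨dg_pend hm hv hk le_rfl, w, hvw, (ih 0 (by omega) w).2 ⟨k, by omega, by simpa using hw⟩⟩
    | i + 2, ih =>
      constructor
      · rintro ⟨⟨h2, w, hvw, hw⟩, hn⟩
        obtain ⟨k, hik, hk⟩ := (ih (i + 1) (by omega) w).1 hw
        obtain ⟨j', hj', h3, h4⟩ := nbr_pend hm hk (by omega) (adj_symm' hm hvw)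
        rcases h3 with h3 | h3
        · exfalso
          apply hn
          rw [ih i (by omega)]
          refine ⟨k, by omega, ?_⟩
          rw [hj', h3]
          congr 2
          omega
        · rcases Nat.eq_zero_or_pos j' with rfl | hj
          · exact absurd h2 (dg_anchor hG hp hm hj').2
          · refine ⟨k, by omega, ?_⟩
            rw [hj']
            congr 2
            omega
      · rintro ⟨k, hk, hv⟩
        obtain ⟨e, he, -⟩ := model_lt hm hv
        obtain ⟨w, hw, hvw, -⟩ := to_pend hm (j' := k + 1 - (i + 1)) he hv (Or.inl (by omega))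
          (by omega)
        refine ⟨⟨dg_pend hm hv (by omega) (by omega), w, hvw,
          (ih (i + 1) (by omega) w).2 ⟨k, by omega, hw⟩⟩, ?_⟩
        rw [ih i (by omega)]
        rintro ⟨k', h1, h2⟩
        rw [hv] at h2
        simp only [Sum.inr.injEq, Prod.mk.injEq] at h2
        omega

/-- the subdivision class of edge `k` -/
def Np (A : V → V → Bool) (k : ℕ) (v : V) : Prop :=
  (¬ dg A 1 v ∧ ¬ dg A 2 v) ∧ ∃ w, A v w = true ∧ Dp A k w

include hG hp hm in
theorem Np_iff (k : ℕ) (v : V) : Np A k v ↔ cl v = Sum.inr (k, 0) := by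
  constructor
  · rintro ⟨⟨h1, h2⟩, w, hvw, hw⟩
    obtain ⟨k', hk', hcl⟩ := (Dp_iff hG hp hm k w).1 hw
    obtain ⟨j', hj', h3, h4⟩ := nbr_pend hm hcl (by omega) (adj_symm' hm hvw)
    rcases Nat.eq_zero_or_pos j' with rfl | hj
    · obtain rfl : k' = k := by omega
      exact hj'
    · exfalso
      rcases Nat.lt_or_ge k' j' with h5 | h5
      · obtain rfl : j' = k' + 1 := by omega
        exact h1 (dg_leaf hm hj')
      · exact h2 (dg_pend hm hj' hj h5)
  · intro hv
    obtain ⟨e, he, -⟩ := model_lt hm hv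
    obtain ⟨w, hw, hvw, -⟩ := to_pend hm he hv (Or.inl rfl : 0 + 1 = 0 + 1 ∨ 0 = 0 + 1 + 1) (by omega)
    exact ⟨dg_anchor hG hp hm hv, w, hvw, (Dp_iff hG hp hm k w).2 ⟨k, le_rfl, by simpa using hw⟩⟩

/-- common neighbour of the subdivision classes of `k` and `k'` -/
def Bp (A : V → V → Bool) (k k' : ℕ) (v : V) : Prop :=
  (∃ w, A v w = true ∧ Np A k w) ∧ ∃ w, A v w = true ∧ Np A k' w

include hG hp hm in
theorem Bp_iff {k k' : ℕ} {e e' : C × C} {c : C} (hne : k ≠ k') (he : G.es[k]? = some e)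
    (he' : G.es[k']? = some e') (hc : e.1 = c ∨ e.2 = c) (hc' : e'.1 = c ∨ e'.2 = c) (v : V) :
    Bp A k k' v ↔ cl v = Sum.inl c := by
  constructor
  · rintro ⟨⟨w, hvw, hw⟩, w', hvw', hw'⟩
    rw [Np_iff hG hp hm] at hw hw'
    have h1 := ((hm.adj_iff v w).1 hvw).1
    have h2 := ((hm.adj_iff v w').1 hvw').1
    rw [hw] at h1
    rw [hw'] at h2
    rcases hcl : cl v with c' | ⟨l, j⟩
    · rw [hcl, ES_inl_inr] at h1 h2
      obtain ⟨-, f, hf, h3⟩ := h1
      obtain ⟨-, f', hf', h4⟩ := h2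
      rw [he] at hf
      rw [he'] at hf'
      cases hf
      cases hf'
      by_contra hcc
      exact hne (hG.simple k k' e e' he he' c c' (fun h => hcc (by rw [h])) hc h3 hc' h4)
    · rw [hcl, ES_inr_inr] at h1 h2
      exact absurd (h1.1.symm.trans h2.1) hne
  · intro hv
    obtain ⟨w, hw, h1⟩ := of_end hG hp hm he hc hv
    obtain ⟨w', hw', h1'⟩ := of_end hG hp hm he' hc' hv
    exact ⟨⟨w, h1, (Np_iff hG hp hm k w).2 hw⟩, w', h1', (Np_iff hG hp hm k' w').2 hw'⟩

end model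

/-! ### preserved relations -/

theorem _root_.Crest.Agent.R290.WL.Pres.congr {V W : Type} {R : Finset (V × W) → Prop}
    {P P' : V → V → Prop} {Q Q' : W → W → Prop} (h : Pres R P Q) (hP : ∀ v w, P' v w ↔ P v w)
    (hQ : ∀ v w, Q' v w ↔ Q v w) : Pres R P' Q' :=
  fun S hS a ha b hb => (hP _ _).trans ((h S hS a ha b hb).trans (hQ _ _).symm)

section pres

variable {W : Type} {b' : C → Bool} {B : W → W → Bool} {cl' : W → C ⊕ (ℕ × ℕ)}
  {as' : W → X → ZMod 2} {K : ℕ} {R : Finset (V × W) → Prop}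

theorem pres_dg (hR : PSys A B K R) (hK : 3 ≤ K) (t : ℕ) :
    Pres R (fun v _ => dg A t v) (fun w _ => dg B t w) :=
  Pres.card_unary hR (by omega) hR.pres_adj t

theorem pres_nbr (hR : PSys A B K R) (hK : 3 ≤ K) {p : V → Prop} {q : W → Prop}
    (h : Pres R (fun v _ => p v) (fun w _ => q w)) :
    Pres R (fun v _ => ∃ z, A v z = true ∧ p z) (fun v _ => ∃ z, B v z = true ∧ q z) :=
  Pres.exists_unary hR (by omega) (hR.pres_adj.and h.snd)

theorem pres_Dp (hR : PSys A B K R) (hK : 3 ≤ K) (i : ℕ) :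
    Pres R (fun v _ => Dp A i v) (fun w _ => Dp B i w) := by
  induction i using Nat.strong_induction_on with
  | _ i ih =>
    match i, ih with
    | 0, _ => exact pres_dg hR hK 1
    | 1, ih => exact (pres_dg hR hK 2).and (pres_nbr hR hK (ih 0 (by omega)))
    | i + 2, ih =>
      exact ((pres_dg hR hK 2).and (pres_nbr hR hK (ih (i + 1) (by omega)))).and
        (ih i (by omega)).not

theorem pres_Np (hR : PSys A B K R) (hK : 3 ≤ K) (k : ℕ) :
    Pres R (fun v _ => Np A k v) (fun w _ => Np B k w) :=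
  ((pres_dg hR hK 1).not.and (pres_dg hR hK 2).not).and (pres_nbr hR hK (pres_Dp hR hK k))

theorem pres_Bp (hR : PSys A B K R) (hK : 3 ≤ K) (k k' : ℕ) :
    Pres R (fun v _ => Bp A k k' v) (fun w _ => Bp B k k' w) :=
  (pres_nbr hR hK (pres_Np hR hK k)).and (pres_nbr hR hK (pres_Np hR hK k'))

variable (hG : G.Good) (hp : G.ParOK b) (hm : AGModel (subdiv G) (bSub G b) A cl as)
  (hp' : G.ParOK b') (hm' : AGModel (subdiv G) (bSub G b') B cl' as')

include hG hp hm hp' hm' in
/-- base classes are preserved -/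
theorem pres_cl (hR : PSys A B K R) (hK : 3 ≤ K) {c : C} (hc : c ∈ G.cls) :
    Pres R (fun v _ => cl v = Sum.inl c) (fun w _ => cl' w = Sum.inl c) := by
  obtain ⟨k, k', e, e', hne, he, he', h, h'⟩ := hG.two c hc
  exact (pres_Bp hR hK k k').congr (fun v _ => (Bp_iff hG hp hm hne he he' h h' v).symm)
    (fun v _ => (Bp_iff hG hp' hm' hne he he' h h' v).symm)

include hG hp hm hp' hm' in
theorem pres_Ncl (hR : PSys A B K R) (hK : 3 ≤ K) (k : ℕ) :
    Pres R (fun v _ => cl v = Sum.inr (k, 0)) (fun w _ => cl' w = Sum.inr (k, 0)) :=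
  (pres_Np hR hK k).congr (fun v _ => (Np_iff hG hp hm k v).symm)
    (fun v _ => (Np_iff hG hp' hm' k v).symm)

variable (G) in
/-- `v` in class `c₀`, `w` in class `c`, agreeing on the variables of `c` -/
def Down (cl : V → C ⊕ (ℕ × ℕ)) (as : V → X → ZMod 2) (c₀ c : C) (v w : V) : Prop :=
  cl v = Sum.inl c₀ ∧ cl w = Sum.inl c ∧ ∀ x ∈ G.vars c, as v x = as w x

include hG hm in
theorem edge_iff {k : ℕ} {e : C × C} (he : G.es[k]? = some e) (v w : V) :
    Down G cl as e.1 e.2 v w ↔ (cl v = Sum.inl e.1 ∧ cl w = Sum.inl e.2) ∧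
      ∃ z, (A v z = true ∧ cl z = Sum.inr (k, 0)) ∧ A z w = true := by
  have hmem := List.mem_of_getElem? he
  constructor
  · rintro ⟨hv, hw, h⟩
    obtain ⟨z, hz, hvz, hag⟩ := of_e1 hm he hv
    refine ⟨⟨hv, hw⟩, z, ⟨hvz, hz⟩, adj_of hm ?_ ?_⟩
    · rw [hz, hw, ES_inr_inl]
      exact ⟨rfl, e, he, Or.inr rfl⟩
    · intro x h1 h2
      rw [hz, subdiv_vars_inr he] at h1
      rw [hw] at h2
      exact (hag x h1).trans (h x h2)
  · rintro ⟨⟨hv, hw⟩, z, ⟨hvz, hz⟩, hzw⟩
    refine ⟨hv, hw, fun x hx => ?_⟩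
    have hx1 := hG.sub e hmem hx
    have h1 := ((hm.adj_iff v z).1 hvz).2 x (by rw [hv]; exact hx1)
      (by rw [hz, subdiv_vars_inr he]; exact hx1)
    have h2 := ((hm.adj_iff z w).1 hzw).2 x (by rw [hz, subdiv_vars_inr he]; exact hx1)
      (by rw [hw]; exact hx)
    exact h1.trans h2

include hG hp hm hp' hm' in
theorem pres_edge (hR : PSys A B K R) (hK : 3 ≤ K) {k : ℕ} {e : C × C}
    (he : G.es[k]? = some e) : Pres R (Down G cl as e.1 e.2) (Down G cl' as' e.1 e.2) := by
  have hmem := List.mem_of_getElem? he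
  have h1 := (pres_cl hG hp hm hp' hm' hR hK (hG.mem1 e hmem)).and
    (pres_cl hG hp hm hp' hm' hR hK (hG.mem2 e hmem)).snd
  have h2 := Pres.exists_comp hR hK
    (hR.pres_adj.and (pres_Ncl hG hp hm hp' hm' hR hK k).snd) hR.pres_adj
  exact (h1.and h2).congr (fun v w => edge_iff hG hm he v w) (fun v w => edge_iff hG hm' he v w)

/-- reachability along oriented edges -/
inductive BG.Reach (G : BG C X) (c₀ : C) : C → Prop
  | refl : c₀ ∈ G.cls → BG.Reach G c₀ c₀
  | step {c c' : C} : BG.Reach G c₀ c → (c, c') ∈ G.es → BG.Reach G c₀ c'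

include hG hp hm in
theorem exists_down {c₀ c : C} (h : G.Reach c₀ c) {v : V} (hv : cl v = Sum.inl c₀) :
    ∃ w, cl w = Sum.inl c ∧ ∀ x ∈ G.vars c, as v x = as w x := by
  induction h with
  | refl _ => exact ⟨v, hv, fun _ _ => rfl⟩
  | step _ he ih =>
    obtain ⟨w, hw, h1⟩ := ih
    obtain ⟨k, hk⟩ := List.mem_iff_getElem?.1 he
    obtain ⟨z, hz, -, h2⟩ := of_e1 hm hk hw
    obtain ⟨w', hw', -, h3⟩ := to_e2 hG hp hm hk hz
    refine ⟨w', hw', fun x hx => ?_⟩
    have hx1 := hG.sub _ he hx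
    rw [h1 x hx1, h3 x hx, h2 x hx1]

include hG hp hm in
theorem down_step {c₀ c c' : C} (h : G.Reach c₀ c) (he : (c, c') ∈ G.es) (v w : V) :
    Down G cl as c₀ c' v w ↔ ∃ z, Down G cl as c₀ c v z ∧ Down G cl as c c' z w := by
  constructor
  · rintro ⟨hv, hw, hag⟩
    obtain ⟨z, hz, h1⟩ := exists_down hG hp hm h hv
    exact ⟨z, ⟨hv, hz, h1⟩, hz, hw, fun x hx =>
      (h1 x (hG.sub _ he hx)).symm.trans (hag x hx)⟩
  · rintro ⟨z, ⟨hv, -, h1⟩, -, hw, h2⟩
    exact ⟨hv, hw, fun x hx => (h1 x (hG.sub _ he hx)).trans (h2 x hx)⟩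

include hm in
theorem down_refl (c₀ : C) (v w : V) :
    Down G cl as c₀ c₀ v w ↔ cl v = Sum.inl c₀ ∧ v = w := by
  constructor
  · rintro ⟨hv, hw, h⟩
    exact ⟨hv, hm.ext v w (hv.trans hw.symm) fun x hx => h x (by rw [hv] at hx; exact hx)⟩
  · rintro ⟨hv, rfl⟩
    exact ⟨hv, hv, fun _ _ => rfl⟩

include hG hp hm hp' hm' in
/-- the relation "restriction" is preserved -/
theorem pres_down (hR : PSys A B K R) (hK : 3 ≤ K) {c₀ c : C} (h : G.Reach c₀ c) :
    Pres R (Down G cl as c₀ c) (Down G cl' as' c₀ c) := by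
  induction h with
  | refl h0 =>
    exact ((pres_cl hG hp hm hp' hm' hR hK h0).and hR.pres_eq).congr
      (fun v w => down_refl hm _ v w) (fun v w => down_refl hm' _ v w)
  | step h1 he ih =>
    obtain ⟨k, hk⟩ := List.mem_iff_getElem?.1 he
    exact (Pres.exists_comp hR hK ih (pres_edge hG hp hm hp' hm' hR hK hk)).congr
      (fun v w => down_step hG hp hm h1 he v w) (fun v w => down_step hG hp' hm' h1 he v w)

include hG hp hm in
theorem meet_iff {c₀ c₁ c : C} (h₀ : G.Reach c₀ c) (v w : V) :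
    (cl v = Sum.inl c₀ ∧ cl w = Sum.inl c₁ ∧ ∀ x ∈ G.vars c, as v x = as w x) ↔
      ∃ z, Down G cl as c₀ c v z ∧ Down G cl as c₁ c w z := by
  constructor
  · rintro ⟨hv, hw, h⟩
    obtain ⟨z, hz, h1⟩ := exists_down hG hp hm h₀ hv
    exact ⟨z, ⟨hv, hz, h1⟩, hw, hz, fun x hx => (h x hx).symm.trans (h1 x hx)⟩
  · rintro ⟨z, ⟨hv, -, h1⟩, hw, -, h2⟩
    exact ⟨hv, hw, fun x hx => (h1 x hx).trans (h2 x hx).symm⟩

include hG hp hm hp' hm' in
/-- agreement on the variables of a common lower class is preserved -/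
theorem pres_meet (hR : PSys A B K R) (hK : 3 ≤ K) {c₀ c₁ c : C} (h₀ : G.Reach c₀ c)
    (h₁ : G.Reach c₁ c) :
    Pres R (fun v w => cl v = Sum.inl c₀ ∧ cl w = Sum.inl c₁ ∧ ∀ x ∈ G.vars c, as v x = as w x)
      (fun v w => cl' v = Sum.inl c₀ ∧ cl' w = Sum.inl c₁ ∧
        ∀ x ∈ G.vars c, as' v x = as' w x) :=
  (Pres.exists_comp hR hK (pres_down hG hp hm hp' hm' hR hK h₀)
    (pres_down hG hp hm hp' hm' hR hK h₁).swap).congr
    (fun v w => meet_iff hG hp hm h₀ v w) (fun v w => meet_iff hG hp' hm' h₀ v w)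

theorem zmod2_swap : ∀ a b c d : ZMod 2, (a = b ↔ c = d) → a + c = b + d := by decide

theorem sum_toFinset_add {l : List X} (hl : l.Nodup) (f g s : X → ZMod 2)
    (h : ∀ x ∈ l, f x + g x = s x) : ∑ x ∈ l.toFinset, s x = (l.map f).sum + (l.map g).sum := by
  rw [← List.sum_toFinset f hl, ← List.sum_toFinset g hl, ← Finset.sum_add_distrib]
  exact Finset.sum_congr rfl fun x hx => (h x (by simpa using hx)).symm

open Classical in
include hG hp' hm' in
/-- A pebble system between the agreement graphs of `subdiv G` for the parities `0` and `b'` gives a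
shift system for objects whose classes have common lower classes for common variables. -/
theorem shift_of_psys {O : Type} [DecidableEq O] {objs : List O} {ports : O → List X}
    {bo : O → Bool} {top : O → C}
    (hm : AGModel (subdiv G) (bSub G fun _ => false) A cl as)
    (hobj : ∀ u ∈ objs, top u ∈ G.cls ∧ G.vars (top u) = ports u ∧ G.con (top u) = true ∧
      b' (top u) = bo u)
    (hmeet : ∀ u ∈ objs, ∀ v ∈ objs, ∀ x ∈ ports u, x ∈ ports v →
      ∃ c, G.Reach (top u) c ∧ G.Reach (top v) c ∧ G.vars c = [x])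
    (hR : PSys A B K R) (hK : 3 ≤ K) : ShiftEquiv objs ports bo K := by
  have hp : G.ParOK (fun _ => false) := fun _ _ _ => rfl
  refine ⟨fun P s => ∃ f : {u // u ∈ objs} → V × W, R (P.image f) ∧ ∀ u ∈ P,
    cl (f u).1 = Sum.inl (top u) ∧ cl' (f u).2 = Sum.inl (top u) ∧
      ∀ x ∈ ports u, as (f u).1 x + as' (f u).2 x = s x, ?_, ?_, ?_, ?_⟩
  · rintro P s ⟨f, -, hf⟩ u hu
    obtain ⟨h1, h2, h3⟩ := hf u hu
    obtain ⟨hc, hv, hcon, hb⟩ := hobj u.1 u.2
    have hnd := hG.nodup _ hc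
    rw [hv] at hnd
    have e1 := sum_inl hm h1 hcon
    have e2 := sum_inl hm' h2 hcon
    rw [hv] at e1 e2
    rw [sum_toFinset_add hnd _ _ _ h3, e1, e2, hb]
    simp [bz]
  · rintro P Q s ⟨f, hRf, hf⟩ hQ
    exact ⟨f, hR.mono (Finset.image_subset_image hQ) hRf, fun u hu => hf u (hQ hu)⟩
  · by_cases hne : Nonempty (V × W)
    · obtain ⟨p⟩ := hne
      exact ⟨fun _ => 0, fun _ => p, by simpa using hR.empty, by simp⟩
    · -- no vertices: no objects
      have hobjs : ∀ u ∈ objs, False := by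
        intro u hu
        obtain ⟨hc, hv, hcon, hb⟩ := hobj u hu
        obtain ⟨z, -, -⟩ := hm.exist (Sum.inl (top u)) (mem_subdiv_cls_inl.2 hc) (fun _ => 0)
          (fun _ => by simp [bSub, bz])
        obtain ⟨g, -⟩ := hR.ext' hR.empty (by simp; omega)
        exact hne ⟨(z, g z)⟩
      exact ⟨fun _ => 0, fun u => (hobjs u.1 u.2).elim, by simpa using hR.empty, by simp⟩
  · rintro P s ⟨f, hRf, hf⟩ hP u
    by_cases hu : u ∈ P
    · exact ⟨s, ⟨f, by rwa [Finset.insert_eq_of_mem hu], fun v hv => hf v (by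
        rwa [Finset.insert_eq_of_mem hu] at hv)⟩, fun _ _ _ _ => rfl⟩
    obtain ⟨hc, -, hcon, hb⟩ := hobj u.1 u.2
    obtain ⟨z, hz, -⟩ := hm.exist (Sum.inl (top u)) (mem_subdiv_cls_inl.2 hc) (fun _ => 0)
      (fun _ => by simp [bSub, bz])
    obtain ⟨g, hg⟩ := hR.ext' hRf (lt_of_le_of_lt Finset.card_image_le hP)
    let f' : {u // u ∈ objs} → V × W := Function.update f u (z, g z)
    have hf'u : f' u = (z, g z) := Function.update_self _ _ _
    have hf'v : ∀ v ∈ P, f' v = f v := fun v hv => by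
      apply Function.update_of_ne
      rintro rfl
      exact hu hv
    have hRf' : R ((insert u P).image f') := by
      refine hg z _ fun x hx => ?_
      obtain ⟨v, hv, rfl⟩ := Finset.mem_image.1 hx
      rcases Finset.mem_insert.1 hv with rfl | hv
      · left; exact hf'u
      · right; rw [hf'v v hv]; exact Finset.mem_image_of_mem f hv
    have hmemz : (z, g z) ∈ (insert u P).image f' :=
      hf'u ▸ Finset.mem_image_of_mem f' (Finset.mem_insert_self u P)
    have hgz : cl' (g z) = Sum.inl (top u) :=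
      ((pres_cl hG hp hm hp' hm' hR hK hc) _ hRf' _ hmemz _ hmemz).1 hz
    have hstep : ∀ v ∈ P, ∀ x ∈ ports v, x ∈ ports u → as z x + as' (g z) x = s x := by
      intro v hvP x hxv hxu
      obtain ⟨c, hc1, hc2, hcx⟩ := hmeet u.1 u.2 v.1 v.2 x hxu hxv
      obtain ⟨k1, k2, k3⟩ := hf v hvP
      have hmemv : f v ∈ (insert u P).image f' := by
        rw [← hf'v v hvP]
        exact Finset.mem_image_of_mem f' (Finset.mem_insert_of_mem hvP)
      have key := (pres_meet hG hp hm hp' hm' hR hK hc1 hc2) _ hRf' _ hmemz _ hmemv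
      rw [← k3 x hxv]
      apply zmod2_swap
      constructor
      · intro h
        have := key.1 ⟨hz, k1, fun y hy => by
          rw [hcx] at hy
          rw [List.mem_singleton.1 hy]
          exact h⟩
        exact this.2.2 x (by rw [hcx]; exact List.mem_singleton_self x)
      · intro h
        have := key.2 ⟨hgz, k2, fun y hy => by
          rw [hcx] at hy
          rw [List.mem_singleton.1 hy]
          exact h⟩
        exact this.2.2 x (by rw [hcx]; exact List.mem_singleton_self x)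
    refine ⟨fun x => if x ∈ ports u then as z x + as' (g z) x else s x, ⟨f', hRf', ?_⟩, ?_⟩
    · intro v hv
      rcases Finset.mem_insert.1 hv with rfl | hv
      · rw [hf'u]
        exact ⟨hz, hgz, fun x hx => (if_pos hx).symm⟩
      · rw [hf'v v hv]
        obtain ⟨k1, k2, k3⟩ := hf v hv
        refine ⟨k1, k2, fun x hx => ?_⟩
        rw [k3 x hx]
        by_cases h : x ∈ ports u
        · simp only [if_pos h]
          exact (hstep v hv x hx h).symm
        · simp only [if_neg h]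
    · intro v hv x hx
      by_cases h : x ∈ ports u
      · simp only [if_pos h]
        exact hstep v hv x (by simpa using hx) h
      · simp only [if_neg h]

end pres

end subdiv

end Crest.Agent.R290
private theorem rz_0441b9eb5b : type_of% @_root_.Crest.Agent.R290.Dp.eq_def := @_root_.Crest.Agent.R290.Dp.eq_def -- L412
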