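import Mathlib
import Crest.Agent.R290.PreEqns
import Crest.Prelude.Def_ParityLift

-- ▼ part R290/ZDefs
section

/-!
# Row 290, statement S0438: shared definitions (namespace `Crest.Agent.R290Z`).

* `PebSys A B K R`: a family `R` of positions in which Duplicator wins the bijective `K`-pebble game.
* `Good A x`: `x` is a clique tuple all of whose triples have `≡ 3 (mod 4)` common neighbours.
* `lam`, `labN`: labels as natural numbers; `bAdj` is "types adjacent and labels agree".
-/

set_option autoImplicit false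

namespace Crest.Agent.R290Z

open Finset Crest.WLRefine Crest.WLRefine.ParityLift

/-! ### pebble systems -/

/-- Family of positions from which Duplicator wins the bijective `K`-pebble game between two Boolean
adjacency functions. -/
structure PebSys {V W : Type} [DecidableEq V] [DecidableEq W] (A : V → V → Bool) (B : W → W → Bool)
    (K : ℕ) (R : Finset (V × W) → Prop) : Prop where
  empty : R ∅
  mono : ∀ {P Q : Finset (V × W)}, R P → Q ⊆ P → R Q
  eq : ∀ {P : Finset (V × W)}, R P → ∀ p ∈ P, ∀ q ∈ P, (p.1 = q.1 ↔ p.2 = q.2)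
  adj : ∀ {P : Finset (V × W)}, R P → ∀ p ∈ P, ∀ q ∈ P, A p.1 q.1 = B p.2 q.2
  ext : ∀ {P : Finset (V × W)}, R P → P.card < K → ∃ f : V ≃ W, ∀ z, R (insert (z, f z) P)

/-- Number of common neighbours of three vertices. -/
def cn {V : Type} [Fintype V] (A : V → V → Bool) (x y z : V) : ℕ :=
  (univ.filter fun w => A w x = true ∧ A w y = true ∧ A w z = true).card

/-- A tuple of pairwise adjacent vertices all of whose triples have `3 mod 4` common neighbours. -/
def Good {V : Type} [Fintype V] (A : V → V → Bool) {t : ℕ} (x : Fin t → V) : Prop :=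
  (∀ i j, i ≠ j → A (x i) (x j) = true) ∧
    ∀ a b c : Fin t, a ≠ b → a ≠ c → b ≠ c → cn A (x a) (x b) (x c) % 4 = 3

/-! ### labels -/

variable {t : ℕ}

/-- The label, as a natural number, of the element `d` of domain `i` towards main type `j`. -/
def lam (C : ChoiceSystem t) (i j : Fin t) (d : Fin (C.dom i)) : ℕ :=
  if i < j then (C.lamL i j d : ℕ) else (C.lamR j i d : ℕ)

/-- first (smaller) pair element of a helper -/
abbrev h1 (h : Helper t) : Fin t := h.1.1
/-- second (larger) pair element of a helper -/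
abbrev h2 (h : Helper t) : Fin t := h.1.2.1
/-- third type of a helper -/
abbrev h3 (h : Helper t) : Fin t := h.1.2.2

/-- the other pair element -/
def oth (h : Helper t) (i : Fin t) : Fin t := if i = h1 h then h2 h else h1 h

/-- The label of a base vertex towards a template vertex. -/
def labN (C : ChoiceSystem t) : BV C → TV t → ℕ
  | Sum.inl p, Sum.inl j => lam C p.1 j p.2
  | Sum.inl p, Sum.inr h => if p.1 = h3 h then 0 else lam C p.1 (oth h p.1) p.2
  | Sum.inr p, Sum.inl i => if i = h3 p.1 then 0 else (p.2 : ℕ)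
  | Sum.inr _, Sum.inr _ => 0

theorem h12 (h : Helper t) : h1 h < h2 h := h.2.1
theorem h31 (h : Helper t) : h3 h ≠ h1 h := h.2.2.1
theorem h32 (h : Helper t) : h3 h ≠ h2 h := h.2.2.2

theorem tAdj_comm (a b : TV t) : tAdj a b = tAdj b a := by
  rcases a with i | h <;> rcases b with j | h' <;> simp [tAdj, eq_comm]


theorem mainAgree_iff (C : ChoiceSystem t) (p q : Σ i : Fin t, Fin (C.dom i)) :
    (mainAgree C p q || mainAgree C q p) = true ↔
      p.1 ≠ q.1 ∧ lam C p.1 q.1 p.2 = lam C q.1 p.1 q.2 := by
  unfold mainAgree lam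
  rw [Bool.or_eq_true, decide_eq_true_iff, decide_eq_true_iff]
  rcases lt_trichotomy p.1 q.1 with h | h | h
  · have h' : ¬ q.1 < p.1 := not_lt.2 h.le
    simp only [h, h', if_true, if_false, exists_true_left, IsEmpty.exists_iff, or_false, h.ne,
      ne_eq, not_false_eq_true, true_and, Fin.ext_iff]
  · have h1 : ¬ p.1 < q.1 := by rw [h]; exact lt_irrefl _
    have h2 : ¬ q.1 < p.1 := by rw [h]; exact lt_irrefl _
    constructor
    · rintro (⟨h3, -⟩ | ⟨h3, -⟩)
      · exact absurd h3 h1
      · exact absurd h3 h2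
    · rintro ⟨h3, -⟩
      exact absurd h h3
  · have h' : ¬ p.1 < q.1 := not_lt.2 h.le
    simp only [h, h', if_true, if_false, exists_true_left, IsEmpty.exists_iff, false_or, h.ne',
      ne_eq, not_false_eq_true, true_and, Fin.ext_iff]
    exact eq_comm

theorem helperAgree_iff (C : ChoiceSystem t) (p : Σ i : Fin t, Fin (C.dom i))
    (hq : Σ h : Helper t, Fin (C.lab h.1.1 h.1.2.1)) :
    helperAgree C p hq = true ↔
      tAdj (t := t) (Sum.inl p.1) (Sum.inr hq.1) = true ∧
        labN C (Sum.inl p) (Sum.inr hq.1) = labN C (Sum.inr hq) (Sum.inl p.1) := by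
  obtain ⟨i, d⟩ := p
  obtain ⟨h, q⟩ := hq
  unfold helperAgree
  rw [decide_eq_true_iff]
  simp only [tAdj, decide_eq_true_iff, labN]
  have e12 := h12 h
  have e31 := h31 h
  have e32 := h32 h
  by_cases c3 : i = h.1.2.2
  · subst c3
    simp
  · by_cases c1 : i = h.1.1
    · subst c1
      have ho : oth h h.1.1 = h.1.2.1 := if_pos rfl
      have hl : lam C h.1.1 h.1.2.1 d = (C.lamL h.1.1 h.1.2.1 d : ℕ) := if_pos e12
      simp only [exists_true_left, Fin.cast_refl, id_eq, e12.ne, IsEmpty.exists_iff, c3, or_false,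
        true_and, if_false, h3, Fin.ext_iff, ho, hl]
      exact eq_comm
    · by_cases c2 : i = h.1.2.1
      · subst c2
        have e21 : ¬ h.1.2.1 < h.1.1 := not_lt.2 e12.le
        have ho : oth h h.1.2.1 = h.1.1 := if_neg c1
        have hl : lam C h.1.2.1 h.1.1 d = (C.lamR h.1.1 h.1.2.1 d : ℕ) := if_neg e21
        simp only [exists_true_left, Fin.cast_refl, id_eq, c1, IsEmpty.exists_iff, c3, or_false,
          or_true, true_and, if_false, h3, Fin.ext_iff, false_or, ho, hl]
        exact eq_comm
      · simp [c1, c2, c3]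

/-- Base adjacency = template adjacency of the types and agreement of labels. -/
theorem bAdj_iff (C : ChoiceSystem t) (u v : BV C) :
    bAdj C u v = true ↔ tAdj (typeOf C u) (typeOf C v) = true ∧
      labN C u (typeOf C v) = labN C v (typeOf C u) := by
  rcases u with p | p <;> rcases v with q | q
  · show (mainAgree C p q || mainAgree C q p) = true ↔ _
    rw [mainAgree_iff]
    simp [typeOf, tAdj, labN]
  · show helperAgree C p q = true ↔ _
    rw [helperAgree_iff]
    rfl
  · show helperAgree C q p = true ↔ _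
    rw [helperAgree_iff, tAdj_comm]
    exact and_congr Iff.rfl eq_comm
  · simp [bAdj, typeOf, tAdj]

theorem bAdj_comm (C : ChoiceSystem t) (u v : BV C) : bAdj C u v = bAdj C v u := by
  rw [Bool.eq_iff_iff, bAdj_iff, bAdj_iff, tAdj_comm]
  exact and_congr Iff.rfl eq_comm

/-! ### lift vertices -/

/-- base vertex of a lift vertex -/
abbrev bse {C : ChoiceSystem t} {b : TV t → Bool} (x : LiftV C b) : BV C := x.1.1


/-- `Bool → ZMod 2`. -/
def bz (b : Bool) : ZMod 2 := if b then 1 else 0

@[simp] theorem bz_true : bz true = 1 := rfl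
@[simp] theorem bz_false : bz false = 0 := rfl




/-- number of `true`s mod 2 as a `ZMod 2` sum -/
theorem card_filter_bz {N : Type} [Fintype N] (z : N → Bool) (c : Bool) :
    (univ.filter fun a => z a = true).card % 2 = c.toNat ↔ ∑ a, bz (z a) = bz c := by
  have h1 : ∑ a, bz (z a) = (((univ.filter fun a => z a = true).card : ℕ) : ZMod 2) := by
    rw [Finset.card_filter, Nat.cast_sum]
    refine Finset.sum_congr rfl fun a _ => ?_
    cases z a <;> simp
  have h2 : bz c = ((c.toNat : ℕ) : ZMod 2) := by cases c <;> simp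
  rw [h1, h2, ZMod.natCast_eq_natCast_iff, Nat.ModEq]
  have : c.toNat % 2 = c.toNat := by cases c <;> rfl
  rw [this]

theorem sum_nbr {a : TV t} (g : TV t → ZMod 2) :
    ∑ a' : Nbr a, g a'.1 = ∑ a' ∈ univ.filter (fun a' => tAdj a a' = true), g a' :=
  (Finset.sum_subtype (univ.filter (fun a' => tAdj a a' = true)) (fun x => by simp) g).symm


/-- construct a lift vertex from a total tag function -/
def mkLift {C : ChoiceSystem t} {b : TV t → Bool} (u : BV C) (z : TV t → Bool)
    (hz : ∑ a ∈ univ.filter (fun a => tAdj (typeOf C u) a = true), bz (z a)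
      = bz (b (typeOf C u))) : LiftV C b :=
  ⟨⟨u, fun a => z a.1⟩, (card_filter_bz _ _).2 (by
    rw [sum_nbr (fun a => bz (z a))]; exact hz)⟩

@[simp] theorem bse_mkLift {C : ChoiceSystem t} {b : TV t → Bool} (u : BV C) (z : TV t → Bool)
    (hz : ∑ a ∈ univ.filter (fun a => tAdj (typeOf C u) a = true), bz (z a)
      = bz (b (typeOf C u))) : bse (mkLift (b := b) u z hz) = u := rfl



end Crest.Agent.R290Z
private theorem rz_e9368b9e57 : type_of% @_root_.Crest.Agent.R290Z.labN.eq_1 := @_root_.Crest.Agent.R290Z.labN.eq_1 -- L58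
end

-- ▼ part R290/ZD
section

/-!
# Row 290, S0438: Duplicator side of the parity lift (helper351)

If the choice system has no successful choice, Duplicator wins the bijective `t`-pebble game between
the two parity lifts, i.e. there is a pebble system with `t` pebbles.
-/

set_option autoImplicit false
open Finset Crest.WLRefine Crest.WLRefine.ParityLift

namespace Crest.Agent.R290.ZD

/-! ### mod-2 sums -/

/-- mod-2 sum of a Boolean vector -/
def par {ι : Type*} [Fintype ι] (f : ι → Bool) : ZMod 2 := ∑ a, if f a = true then 1 else 0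

theorem par_xor {ι : Type*} [Fintype ι] (f g : ι → Bool) :
    par (fun a => xor (f a) (g a)) = par f + par g := by
  unfold par
  rw [← Finset.sum_add_distrib]
  refine Finset.sum_congr rfl fun a _ => ?_
  beta_reduce
  generalize f a = x
  generalize g a = y
  revert x y
  decide

theorem par_eq_iff {ι : Type*} [Fintype ι] (f : ι → Bool) (b : Bool) :
    ((univ.filter fun a => f a = true).card % 2 = b.toNat) ↔ par f = (if b = true then 1 else 0) := by
  unfold par
  rw [Finset.sum_boole]
  have h : (b.toNat) = b.toNat % 2 := by cases b <;> rfl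
  rw [h, ← ZMod.natCast_eq_natCast_iff']
  cases b <;> simp

variable {t : ℕ} (C : ChoiceSystem t)

/-- mod-2 row sum of `x` at `u` over the template neighbours. -/
def rs (x : BV C → TV t → Bool) (u : BV C) : ZMod 2 :=
  ∑ a : TV t, if tAdj (typeOf C u) a = true ∧ x u a = true then 1 else 0

theorem rs_eq_par (x : BV C → TV t → Bool) (u : BV C) :
    rs C x u = par (fun a : Nbr (typeOf C u) => x u a.1) := by
  unfold rs par
  refine Eq.trans ?_ (Finset.sum_subtype (univ.filter fun a => tAdj (typeOf C u) a = true)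
    (by simp) (fun a => if x u a = true then (1 : ZMod 2) else 0))
  rw [Finset.sum_filter]
  refine Finset.sum_congr rfl fun a _ => ?_
  by_cases h1 : tAdj (typeOf C u) a = true <;> by_cases h2 : x u a = true <;> simp [h1, h2]

theorem rs_xor (x y : BV C → TV t → Bool) (u : BV C) :
    rs C (fun u a => xor (x u a) (y u a)) u = rs C x u + rs C y u := by
  simp only [rs_eq_par]
  exact par_xor _ _

theorem rs_congr {x y : BV C → TV t → Bool} {u : BV C} (h : ∀ a, x u a = y u a) :
    rs C x u = rs C y u := by
  unfold rs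
  simp only [h]

theorem rs_zero {x : BV C → TV t → Bool} {u : BV C} (h : ∀ a, x u a = false) :
    rs C x u = 0 := by
  unfold rs
  simp [h]

/-- consistency on base edges -/
def Cons (x : BV C → TV t → Bool) : Prop :=
  ∀ u v, bAdj C u v = true → x u (typeOf C v) = x v (typeOf C u)

theorem cons_xor {x y : BV C → TV t → Bool} (hx : Cons C x) (hy : Cons C y) :
    Cons C (fun u a => xor (x u a) (y u a)) := by
  intro u v h
  simp only [hx u v h, hy u v h]

theorem bAdj_comm (u v : BV C) : bAdj C u v = bAdj C v u := by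
  rcases u with u | u <;> rcases v with v | v <;> simp only [bAdj]
  exact Bool.or_comm _ _

theorem tAdj_comm (a b : TV t) : tAdj a b = tAdj b a := by
  rcases a with a | a <;> rcases b with b | b <;> simp only [tAdj, ne_eq]
  simp only [eq_comm]

theorem tAdj_irrefl (a : TV t) : tAdj a a = false := by
  rcases a with a | a <;> simp [tAdj]


/-! ### edge flips -/

/-- flip of the edge variables between template vertices `a₀` and `b₀`, at the base vertices with `p`. -/
def ef (a₀ b₀ : TV t) (p : BV C → Bool) (u : BV C) (a : TV t) : Bool :=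
  decide ((typeOf C u = a₀ ∧ a = b₀) ∨ (typeOf C u = b₀ ∧ a = a₀)) && p u

theorem rs_ef (a₀ b₀ : TV t) (hab : tAdj a₀ b₀ = true) (p : BV C → Bool) (u : BV C) :
    rs C (ef C a₀ b₀ p) u =
      if (typeOf C u = a₀ ∨ typeOf C u = b₀) ∧ p u = true then 1 else 0 := by
  have hba : tAdj b₀ a₀ = true := by rw [tAdj_comm]; exact hab
  have hne : a₀ ≠ b₀ := by
    rintro rfl
    rw [tAdj_irrefl] at hab
    exact Bool.noConfusion hab
  unfold rs
  by_cases h1 : typeOf C u = a₀
  · have : ∀ a, (tAdj (typeOf C u) a = true ∧ ef C a₀ b₀ p u a = true) ↔ (a = b₀ ∧ p u = true) := by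
      intro a
      simp only [ef, h1, Bool.and_eq_true, decide_eq_true_eq]
      constructor
      · rintro ⟨_, h | h, h'⟩
        · exact ⟨h.2, h'⟩
        · exact absurd h.1 hne
      · rintro ⟨h, h'⟩
        subst h
        exact ⟨hab, by simp, h'⟩
    simp only [this]
    by_cases hp : p u = true
    · simp [hp, h1]
    · simp [hp]
  · by_cases h2 : typeOf C u = b₀
    · have : ∀ a, (tAdj (typeOf C u) a = true ∧ ef C a₀ b₀ p u a = true) ↔ (a = a₀ ∧ p u = true) := by
        intro a
        simp only [ef, h2, Bool.and_eq_true, decide_eq_true_eq]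
        constructor
        · rintro ⟨_, h | h, h'⟩
          · exact absurd h.1.symm hne
          · exact ⟨h.2, h'⟩
        · rintro ⟨h, h'⟩
          subst h
          exact ⟨hba, by simp, h'⟩
      simp only [this]
      by_cases hp : p u = true
      · simp [hp, h2]
      · simp [hp]
    · have : ∀ a, ¬ (tAdj (typeOf C u) a = true ∧ ef C a₀ b₀ p u a = true) := by
        intro a
        simp [ef, h1, h2]
      simp [this, h1, h2]

theorem cons_ef (a₀ b₀ : TV t) (p : BV C → Bool)
    (h : ∀ u v, bAdj C u v = true → typeOf C u = a₀ → typeOf C v = b₀ → p u = p v) :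
    Cons C (ef C a₀ b₀ p) := by
  intro u v huv
  unfold ef
  by_cases h1 : typeOf C u = a₀ ∧ typeOf C v = b₀
  · rw [h u v huv h1.1 h1.2]
    simp [h1.1, h1.2]
  · by_cases h2 : typeOf C u = b₀ ∧ typeOf C v = a₀
    · have hvu : bAdj C v u = true := by rw [bAdj_comm]; exact huv
      rw [h v u hvu h2.2 h2.1]
      simp [h2.1, h2.2]
    · have e1 : ¬ ((typeOf C u = a₀ ∧ typeOf C v = b₀) ∨ (typeOf C u = b₀ ∧ typeOf C v = a₀)) := by
        rintro (h | h)
        · exact h1 h
        · exact h2 h
      have e2 : ¬ ((typeOf C v = a₀ ∧ typeOf C u = b₀) ∨ (typeOf C v = b₀ ∧ typeOf C u = a₀)) := by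
        rintro (h | h)
        · exact h2 h.symm
        · exact h1 h.symm
      rw [decide_eq_false e1, decide_eq_false e2, Bool.false_and, Bool.false_and]

/-- membership of the label of the pair `(i, j)` in `{q₀}`. -/
def inQ (i j : Fin t) (q₀ : Fin (C.lab i j)) : BV C → Bool
  | Sum.inl p => decide ((∃ e : p.1 = i, C.lamL i j (Fin.cast (congrArg C.dom e) p.2) = q₀) ∨
      (∃ e : p.1 = j, C.lamR i j (Fin.cast (congrArg C.dom e) p.2) = q₀))
  | Sum.inr hq => decide ((hq.2 : ℕ) = (q₀ : ℕ))

theorem inQ_left {i j : Fin t} (hij : i < j) (q₀ : Fin (C.lab i j)) (d : Fin (C.dom i)) :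
    inQ C i j q₀ (Sum.inl ⟨i, d⟩) = decide (C.lamL i j d = q₀) := by
  refine decide_eq_decide.mpr ?_
  constructor
  · rintro (⟨_, h⟩ | ⟨e, _⟩)
    · exact h
    · exact absurd e (ne_of_lt hij)
  · intro h
    exact Or.inl ⟨rfl, h⟩

theorem inQ_right {i j : Fin t} (hij : i < j) (q₀ : Fin (C.lab i j)) (d : Fin (C.dom j)) :
    inQ C i j q₀ (Sum.inl ⟨j, d⟩) = decide (C.lamR i j d = q₀) := by
  refine decide_eq_decide.mpr ?_
  constructor
  · rintro (⟨e, _⟩ | ⟨_, h⟩)
    · exact absurd e.symm (ne_of_lt hij)
    · exact h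
  · intro h
    exact Or.inr ⟨rfl, h⟩

/-- the helper `(i, j; l)`. -/
def hlp (i j l : Fin t) (hij : i < j) (hl : l ≠ i ∧ l ≠ j) : Helper t :=
  ⟨(i, j, l), hij, hl⟩

/-- the common defect. -/
def Dfct (i j : Fin t) (q₀ : Fin (C.lab i j)) (u : BV C) : ZMod 2 :=
  (if typeOf C u = Sum.inl i ∧ inQ C i j q₀ u = true then 1 else 0) +
    (if typeOf C u = Sum.inl j ∧ inQ C i j q₀ u = false then 1 else 0)

theorem cons_main {i j : Fin t} (hij : i < j) (q₀ : Fin (C.lab i j)) (f : Bool → Bool) :
    Cons C (ef C (Sum.inl i) (Sum.inl j) (fun u => f (inQ C i j q₀ u))) := by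
  apply cons_ef
  intro u v huv hu hv
  rcases u with ⟨i', d⟩ | u
  · simp only [typeOf, Sum.inl.injEq] at hu
    subst hu
    rcases v with ⟨j', e⟩ | v
    · simp only [typeOf, Sum.inl.injEq] at hv
      subst hv
      simp only [bAdj, mainAgree, Bool.or_eq_true, decide_eq_true_eq] at huv
      rcases huv with ⟨_, h⟩ | ⟨h, _⟩
      · simp only [inQ_left C hij, inQ_right C hij, h]
      · exact absurd h (lt_asymm hij)
    · simp [typeOf] at hv
  · simp [typeOf] at hu

theorem cons_left {i j l : Fin t} (hij : i < j) (hl : l ≠ i ∧ l ≠ j) (q₀ : Fin (C.lab i j))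
    (f : Bool → Bool) :
    Cons C (ef C (Sum.inl i) (Sum.inr (hlp i j l hij hl)) (fun u => f (inQ C i j q₀ u))) := by
  apply cons_ef
  intro u v huv hu hv
  rcases u with ⟨i', d⟩ | u
  · simp only [typeOf, Sum.inl.injEq] at hu
    subst hu
    rcases v with v | ⟨h, q⟩
    · simp [typeOf] at hv
    · simp only [typeOf, Sum.inr.injEq] at hv
      subst hv
      simp only [bAdj, helperAgree, decide_eq_true_eq] at huv
      rcases huv with ⟨_, h⟩ | ⟨h, _⟩ | h
      · simp only [inQ_left C hij]
        congr 1
        simp only [inQ]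
        rw [h]
        congr 1
        apply propext
        exact Fin.ext_iff
      · exact absurd h (ne_of_lt hij)
      · exact absurd h.symm hl.1
  · simp [typeOf] at hu

theorem cons_right {i j l : Fin t} (hij : i < j) (hl : l ≠ i ∧ l ≠ j) (q₀ : Fin (C.lab i j))
    (f : Bool → Bool) :
    Cons C (ef C (Sum.inl j) (Sum.inr (hlp i j l hij hl)) (fun u => f (inQ C i j q₀ u))) := by
  apply cons_ef
  intro u v huv hu hv
  rcases u with ⟨i', d⟩ | u
  · simp only [typeOf, Sum.inl.injEq] at hu
    subst hu
    rcases v with v | ⟨h, q⟩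
    · simp [typeOf] at hv
    · simp only [typeOf, Sum.inr.injEq] at hv
      subst hv
      simp only [bAdj, helperAgree, decide_eq_true_eq] at huv
      rcases huv with ⟨h, _⟩ | ⟨_, h⟩ | h
      · exact absurd h.symm (ne_of_lt hij)
      · simp only [inQ_right C hij]
        congr 1
        simp only [inQ]
        rw [h]
        congr 1
        apply propext
        exact Fin.ext_iff
      · exact absurd h.symm hl.2
  · simp [typeOf] at hu

/-- The vectors `y^(l)`. -/
theorem exists_y {i j : Fin t} (hij : i < j) (q₀ : Fin (C.lab i j)) (l : Fin t) :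
    ∃ y : BV C → TV t → Bool, Cons C y ∧
      (∀ u, rs C y u = Dfct C i j q₀ u + (if typeOf C u = Sum.inl l then 1 else 0)) ∧
      ∀ u a, (∃ m, typeOf C u = Sum.inl m) → typeOf C u ≠ Sum.inl l →
        (typeOf C u = Sum.inl i → inQ C i j q₀ u = false) →
        (typeOf C u = Sum.inl j → inQ C i j q₀ u = true) → y u a = false := by
  have hij' : i ≠ j := ne_of_lt hij
  by_cases hl : l ≠ i ∧ l ≠ j
  · refine ⟨fun u a => xor (xor
      (ef C (Sum.inl i) (Sum.inr (hlp i j l hij hl)) (fun u => inQ C i j q₀ u) u a)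
      (ef C (Sum.inl j) (Sum.inr (hlp i j l hij hl)) (fun u => !(inQ C i j q₀ u)) u a))
      (ef C (Sum.inl l) (Sum.inr (hlp i j l hij hl)) (fun _ => true) u a), ?_, ?_, ?_⟩
    · refine cons_xor C (cons_xor C (cons_left C hij hl q₀ id) (cons_right C hij hl q₀ not)) ?_
      exact cons_ef C _ _ _ fun _ _ _ _ _ => rfl
    · intro u
      rw [rs_xor C (fun u a => xor _ _) _ u, rs_xor, rs_ef, rs_ef, rs_ef]
      · have h1 := hl.1
        have h2 := hl.2
        have h3 := h1.symm
        have h4 := h2.symm
        have h5 := hij'.symm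
        unfold Dfct
        rcases htu : typeOf C u with m | m
        · cases hq : inQ C i j q₀ u <;> simp only [Sum.inl.injEq, reduceCtorEq, or_false] <;>
          by_cases hm1 : m = i <;> by_cases hm2 : m = j <;> by_cases hm3 : m = l <;>
            first
              | (exfalso; subst hm1; subst hm2; exact hij' rfl)
              | (exfalso; subst hm1; subst hm3; exact hl.1 rfl)
              | (exfalso; subst hm2; subst hm3; exact hl.2 rfl)
              | simp [hm1, hm2, hm3, h1, h2, h3, h4, h5, hij']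
        · by_cases hm : m = hlp i j l hij hl
          · subst hm
            cases hq : inQ C i j q₀ u <;> simp <;> decide
          · simp [hm]
      all_goals simp [tAdj, hlp]
    · rintro u a ⟨m, hm⟩ hul hui huj
      simp only [ef, hm, reduceCtorEq, false_and, or_false, Sum.inl.injEq, ne_eq] at hul hui huj ⊢
      by_cases h1 : m = i
      · have := hui h1
        subst h1
        simp [this, hij', hul]
      · by_cases h2 : m = j
        · have := huj h2
          subst h2
          simp [this, hij'.symm, hul]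
        · simp [h1, h2, hul]
  · by_cases hli : l = i
    · subst hli
      refine ⟨ef C (Sum.inl l) (Sum.inl j) (fun u => !(inQ C l j q₀ u)), cons_main C hij q₀ not, ?_, ?_⟩
      · intro u
        rw [rs_ef _ _ _ (by simp [tAdj, hij'])]
        unfold Dfct
        rcases htu : typeOf C u with m | m
        · cases hq : inQ C l j q₀ u <;> simp only [Sum.inl.injEq] <;>
          by_cases hm1 : m = l <;> by_cases hm2 : m = j <;>
            first
              | (exfalso; subst hm1; subst hm2; exact hij' rfl)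
              | (simp [hm1, hm2, hij', hij'.symm]; try decide)
        · simp
      · rintro u a ⟨m, hm⟩ hul hui huj
        simp only [ef, hm, Sum.inl.injEq, ne_eq] at hul hui huj ⊢
        by_cases h2 : m = j
        · simp [huj h2]
        · simp [h2, hul]
    · have hlj : l = j := by
        by_contra h
        exact hl ⟨hli, h⟩
      subst hlj
      refine ⟨ef C (Sum.inl i) (Sum.inl l) (fun u => inQ C i l q₀ u), cons_main C hij q₀ id, ?_, ?_⟩
      · intro u
        rw [rs_ef _ _ _ (by simp [tAdj, hij'])]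
        unfold Dfct
        rcases htu : typeOf C u with m | m
        · cases hq : inQ C i l q₀ u <;> simp only [Sum.inl.injEq] <;>
          by_cases hm1 : m = i <;> by_cases hm2 : m = l <;>
            first
              | (exfalso; subst hm1; subst hm2; exact hij' rfl)
              | (simp [hm1, hm2, hij', hij'.symm]; try decide)
        · simp
      · rintro u a ⟨m, hm⟩ hul hui huj
        simp only [ef, hm, Sum.inl.injEq, ne_eq] at hul hui huj ⊢
        by_cases h2 : m = i
        · simp [hui h2]
        · simp [h2, hul]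

/-! ### solutions and the shift system -/

/-- `x` solves the XOR system with the twist moved from main `0` to main `m`. -/
def Sol (m : Fin t) (x : BV C → TV t → Bool) : Prop :=
  Cons C x ∧ ∀ u, rs C x u = (if liftStarParity t (typeOf C u) = true then 1 else 0) +
    (if typeOf C u = Sum.inl m then 1 else 0)

/-- invariant with an uncovered main type. -/
def I1 (P : Finset (BV C)) (s : BV C → TV t → Bool) : Prop :=
  ∃ m : Fin t, (∀ u ∈ P, typeOf C u ≠ Sum.inl m) ∧ ∃ x, Sol C m x ∧ ∀ u ∈ P, ∀ a, s u a = x u a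

/-- the shift system. -/
def Shf (P : Finset (BV C)) (s : BV C → TV t → Bool) : Prop :=
  I1 C P s ∨ (P.card = t ∧ Cons C s ∧
    (∀ u ∈ P, rs C s u = if liftStarParity t (typeOf C u) = true then 1 else 0) ∧
    ∀ r ∈ P, I1 C (P.erase r) s)

variable {C}

theorem I1.mono {P Q : Finset (BV C)} {s : BV C → TV t → Bool} (h : I1 C P s) (hQ : Q ⊆ P) :
    I1 C Q s := by
  obtain ⟨m, hm, x, hx, hs⟩ := h
  exact ⟨m, fun u hu => hm u (hQ hu), x, hx, fun u hu => hs u (hQ hu)⟩

theorem Shf.mono {P Q : Finset (BV C)} {s : BV C → TV t → Bool} (h : Shf C P s) (hQ : Q ⊆ P) :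
    Shf C Q s := by
  rcases h with h | ⟨h1, h2, h3, h4⟩
  · exact Or.inl (h.mono hQ)
  · by_cases hPQ : P ⊆ Q
    · have : Q = P := Finset.Subset.antisymm hQ hPQ
      subst this
      exact Or.inr ⟨h1, h2, h3, h4⟩
    · obtain ⟨r, hr, hrQ⟩ := Finset.not_subset.mp hPQ
      exact Or.inl ((h4 r hr).mono (Finset.subset_erase.mpr ⟨hQ, hrQ⟩))

theorem Shf.valid {P : Finset (BV C)} {s : BV C → TV t → Bool} (h : Shf C P s) {u : BV C}
    (hu : u ∈ P) : rs C s u = if liftStarParity t (typeOf C u) = true then 1 else 0 := by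
  rcases h with ⟨m, hm, x, hx, hs⟩ | h
  · rw [rs_congr C (hs u hu), hx.2 u, if_neg (hm u hu), add_zero]
  · exact h.2.2.1 u hu

theorem Shf.cons {P : Finset (BV C)} {s : BV C → TV t → Bool} (h : Shf C P s) {u v : BV C}
    (hu : u ∈ P) (hv : v ∈ P) (huv : bAdj C u v = true) : s u (typeOf C v) = s v (typeOf C u) := by
  rcases h with ⟨m, hm, x, hx, hs⟩ | h
  · rw [hs u hu, hs v hv, hx.1 u v huv]
  · exact h.2.1 u v huv

theorem Shf.empty (ht : 0 < t) : ∃ s, Shf C ∅ s := by
  refine ⟨fun _ _ => false, Or.inl ⟨⟨0, ht⟩, by simp, fun _ _ => false, ⟨fun _ _ _ => rfl, fun u => ?_⟩,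
    by simp⟩⟩
  rw [rs_zero C fun _ => rfl]
  have : (liftStarParity t (typeOf C u) = true) ↔ typeOf C u = Sum.inl ⟨0, ht⟩ := by
    simp [liftStarParity, ht]
  by_cases h : typeOf C u = Sum.inl ⟨0, ht⟩
  · rw [if_pos (this.mpr h), if_pos h]
    decide
  · rw [if_neg (fun h' => h (this.mp h')), if_neg h, add_zero]

theorem Shf.ext (hC : ¬ C.Successful) {P : Finset (BV C)} {s : BV C → TV t → Bool}
    (h : Shf C P s) (hP : P.card < t) (u : BV C) :
    ∃ s', Shf C (insert u P) s' ∧ ∀ v ∈ P, ∀ a, s' v a = s v a := by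
  by_cases huP : u ∈ P
  · exact ⟨s, by rwa [Finset.insert_eq_of_mem huP], fun _ _ _ => rfl⟩
  rcases h with ⟨m, hm, x, hx, hs⟩ | h
  swap
  · exact absurd h.1 (ne_of_lt hP)
  by_cases hum : typeOf C u = Sum.inl m
  swap
  · refine ⟨x, Or.inl ⟨m, ?_, x, hx, fun _ _ _ => rfl⟩, fun v hv a => (hs v hv a).symm⟩
    intro v hv
    rcases Finset.mem_insert.mp hv with rfl | hv
    · exact hum
    · exact hm v hv
  by_cases hm' : ∃ m', m' ≠ m ∧ ∀ v ∈ P, typeOf C v ≠ Sum.inl m'
  · obtain ⟨m', hmm', hm'⟩ := hm'
    have key : ∀ v ∈ P, ∀ a, ef C (Sum.inl m) (Sum.inl m') (fun _ => true) v a = false := by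
      intro v hv a
      simp [ef, hm v hv, hm' v hv]
    refine ⟨fun v a => xor (x v a) (ef C (Sum.inl m) (Sum.inl m') (fun _ => true) v a),
      Or.inl ⟨m', ?_, _, ⟨cons_xor C hx.1 (cons_ef C _ _ _ fun _ _ _ _ _ => rfl), fun v => ?_⟩,
        fun _ _ _ => rfl⟩, fun v hv a => ?_⟩
    · intro v hv
      rcases Finset.mem_insert.mp hv with rfl | hv
      · rw [hum]
        intro h
        exact hmm' (Sum.inl.inj h).symm
      · exact hm' v hv
    · rw [rs_xor, hx.2 v, rs_ef _ _ _ (by simp [tAdj, Ne.symm hmm']), add_assoc]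
      congr 1
      by_cases h1 : typeOf C v = Sum.inl m
      · have h2 : typeOf C v ≠ Sum.inl m' := by
          rw [h1]
          intro h
          exact hmm' (Sum.inl.inj h).symm
        rw [if_pos h1, if_pos ⟨Or.inl h1, rfl⟩, if_neg h2]
        decide
      · by_cases h2 : typeOf C v = Sum.inl m'
        · rw [if_neg h1, if_pos ⟨Or.inr h2, rfl⟩, if_pos h2]
          decide
        · rw [if_neg h1, if_neg (by tauto), if_neg h2]
          decide
    · simp only [key v hv a, Bool.xor_false]
      exact (hs v hv a).symm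
  · -- all other types are covered
    push Not at hm'
    have hD : ∀ i : Fin t, ∃ d : Fin (C.dom i), (Sum.inl ⟨i, d⟩ : BV C) ∈ insert u P := by
      intro i
      by_cases hi : i = m
      · subst hi
        rcases u with ⟨i', d⟩ | u
        · simp only [typeOf, Sum.inl.injEq] at hum
          subst hum
          exact ⟨d, Finset.mem_insert_self _ _⟩
        · simp [typeOf] at hum
      · obtain ⟨v, hv, hvi⟩ := hm' i hi
        rcases v with ⟨i', d⟩ | v
        · simp only [typeOf, Sum.inl.injEq] at hvi
          subst hvi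
          exact ⟨d, Finset.mem_insert_of_mem hv⟩
        · simp [typeOf] at hvi
    choose d hd using hD
    have hcardP : (insert u P).card ≤ t := by
      rw [Finset.card_insert_of_notMem huP]
      exact hP
    have hinj : Function.Injective (fun i : Fin t => (Sum.inl ⟨i, d i⟩ : BV C)) := by
      intro i j hij
      simp only [Sum.inl.injEq, Sigma.mk.injEq] at hij
      exact hij.1
    have hPeq : insert u P = univ.image (fun i : Fin t => (Sum.inl ⟨i, d i⟩ : BV C)) := by
      symm
      apply Finset.eq_of_subset_of_card_le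
      · intro v hv
        obtain ⟨i, _, rfl⟩ := Finset.mem_image.mp hv
        exact hd i
      · rw [Finset.card_image_of_injective _ hinj, Finset.card_univ, Fintype.card_fin]
        exact hcardP
    have hcard : (insert u P).card = t := by
      rw [hPeq, Finset.card_image_of_injective _ hinj, Finset.card_univ, Fintype.card_fin]
    have hu_eq : u = Sum.inl ⟨m, d m⟩ := by
      have hu : u ∈ univ.image (fun i : Fin t => (Sum.inl ⟨i, d i⟩ : BV C)) := by
        rw [← hPeq]
        exact Finset.mem_insert_self _ _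
      obtain ⟨i, _, hi⟩ := Finset.mem_image.mp hu
      subst hi
      simp only [typeOf, Sum.inl.injEq] at hum
      subst hum
      rfl
    have hfail : ∃ i j : Fin t, i < j ∧ C.lamL i j (d i) ≠ C.lamR i j (d j) := by
      by_contra hcon
      push Not at hcon
      exact hC ⟨d, hcon⟩
    obtain ⟨i, j, hij, hne⟩ := hfail
    have hqi : inQ C i j (C.lamR i j (d j)) (Sum.inl ⟨i, d i⟩) = false := by
      rw [inQ_left C hij]
      exact decide_eq_false hne
    have hqj : inQ C i j (C.lamR i j (d j)) (Sum.inl ⟨j, d j⟩) = true := by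
      rw [inQ_right C hij]
      exact decide_eq_true rfl
    choose y hyc hyr hyv using exists_y C hij (C.lamR i j (d j))
    have hvan : ∀ l i', i' ≠ l → ∀ a, y l (Sum.inl ⟨i', d i'⟩) a = false := by
      intro l i' hil a
      refine hyv l _ a ⟨i', rfl⟩ ?_ ?_ ?_
      · intro h
        exact hil (Sum.inl.inj h)
      · intro h
        have h : i' = i := Sum.inl.inj h
        subst h
        exact hqi
      · intro h
        have h : i' = j := Sum.inl.inj h
        subst h
        exact hqj
    have hD0 : ∀ i', Dfct C i j (C.lamR i j (d j)) (Sum.inl ⟨i', d i'⟩) = 0 := by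
      intro i'
      unfold Dfct
      rw [if_neg, if_neg, add_zero]
      · rintro ⟨h, h'⟩
        have h : i' = j := Sum.inl.inj h
        subst h
        rw [hqj] at h'
        exact Bool.noConfusion h'
      · rintro ⟨h, h'⟩
        have h : i' = i := Sum.inl.inj h
        subst h
        rw [hqi] at h'
        exact Bool.noConfusion h'
    have hPvan : ∀ v ∈ P, ∀ a, y m v a = false := by
      intro v hv a
      have hv' : v ∈ univ.image (fun i : Fin t => (Sum.inl ⟨i, d i⟩ : BV C)) := by
        rw [← hPeq]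
        exact Finset.mem_insert_of_mem hv
      obtain ⟨i', _, rfl⟩ := Finset.mem_image.mp hv'
      apply hvan
      rintro rfl
      exact hm _ hv rfl
    refine ⟨fun v a => xor (x v a) (y m v a), Or.inr ⟨hcard, cons_xor C hx.1 (hyc m), ?_, ?_⟩, ?_⟩
    · intro v hv
      rw [hPeq] at hv
      obtain ⟨i', _, rfl⟩ := Finset.mem_image.mp hv
      rw [rs_xor, hx.2, hyr, hD0]
      generalize (if typeOf C (Sum.inl ⟨i', d i'⟩) = Sum.inl m then (1 : ZMod 2) else 0) = A
      generalize (if liftStarParity t (typeOf C (Sum.inl ⟨i', d i'⟩)) = true then (1 : ZMod 2) else 0) = B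
      revert A B
      decide
    · intro r hr
      rw [hPeq] at hr
      obtain ⟨l, _, rfl⟩ := Finset.mem_image.mp hr
      have hmem : ∀ v ∈ (insert u P).erase (Sum.inl ⟨l, d l⟩), ∃ i', i' ≠ l ∧ v = Sum.inl ⟨i', d i'⟩ := by
        intro v hv
        obtain ⟨hv1, hv2⟩ := Finset.mem_erase.mp hv
        rw [hPeq] at hv2
        obtain ⟨i', _, rfl⟩ := Finset.mem_image.mp hv2
        refine ⟨i', ?_, rfl⟩
        rintro rfl
        exact hv1 rfl
      refine ⟨l, ?_, fun v a => xor (xor (x v a) (y m v a)) (y l v a),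
        ⟨cons_xor C (cons_xor C hx.1 (hyc m)) (hyc l), ?_⟩, ?_⟩
      · intro v hv
        obtain ⟨i', hi', rfl⟩ := hmem v hv
        intro h
        exact hi' (Sum.inl.inj h)
      · intro v
        rw [rs_xor C (fun v a => xor _ _) _ v, rs_xor, hx.2, hyr, hyr]
        generalize Dfct C i j (C.lamR i j (d j)) v = D
        generalize (if typeOf C v = Sum.inl m then (1 : ZMod 2) else 0) = A
        generalize (if typeOf C v = Sum.inl l then (1 : ZMod 2) else 0) = A'
        generalize (if liftStarParity t (typeOf C v) = true then (1 : ZMod 2) else 0) = B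
        revert A B A' D
        decide
      · intro v hv a
        obtain ⟨i', hi', rfl⟩ := hmem v hv
        simp only [hvan l i' hi' a, Bool.xor_false]
    · intro v hv a
      simp only [hPvan v hv a, Bool.xor_false]
      exact (hs v hv a).symm

/-! ### from the shift system to a pebble system on the lifts -/

variable (C)

/-- underlying data of a lift vertex. -/
abbrev SV : Type := Σ u : BV C, (Nbr (typeOf C u) → Bool)

/-- shift of the tag. -/
def shp (s : BV C → TV t → Bool) (x : SV C) : SV C :=
  ⟨x.1, fun a => xor (x.2 a) (s x.1 a.1)⟩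

theorem shp_shp (s : BV C → TV t → Bool) (x : SV C) : shp C s (shp C s x) = x := by
  rcases x with ⟨u, z⟩
  simp [shp]

theorem shp_inj (s : BV C → TV t → Bool) {x y : SV C} (h : shp C s x = shp C s y) : x = y := by
  rw [← shp_shp C s x, h, shp_shp]

theorem shp_congr {s s' : BV C → TV t → Bool} {x : SV C} (h : ∀ a, s x.1 a = s' x.1 a) :
    shp C s x = shp C s' x := by
  unfold shp
  simp only [h]

/-- adjacency on the underlying data. -/
def sAdj (x y : SV C) : Bool :=
  decide (∃ h : tAdj (typeOf C x.1) (typeOf C y.1) = true,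
    ∃ h' : tAdj (typeOf C y.1) (typeOf C x.1) = true,
      bAdj C x.1 y.1 = true ∧ x.2 ⟨typeOf C y.1, h⟩ = y.2 ⟨typeOf C x.1, h'⟩)

theorem liftAdj_eq (b : TV t → Bool) (x y : LiftV C b) : liftAdj C b x y = sAdj C x.1 y.1 := rfl

theorem sAdj_shp (s : BV C → TV t → Bool) (x y : SV C)
    (h : bAdj C x.1 y.1 = true → s x.1 (typeOf C y.1) = s y.1 (typeOf C x.1)) :
    sAdj C (shp C s x) (shp C s y) = sAdj C x y := by
  unfold sAdj
  refine decide_eq_decide.mpr ?_
  constructor
  · rintro ⟨h1, h2, h3, h4⟩
    refine ⟨h1, h2, h3, ?_⟩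
    have h5 := h h3
    simp only [shp] at h4
    rw [h5] at h4
    exact Bool.xor_left_inj.mp h4
  · rintro ⟨h1, h2, h3, h4⟩
    refine ⟨h1, h2, h3, ?_⟩
    have h5 := h h3
    simp only [shp]
    rw [h5, h4]

theorem par_shp (s : BV C → TV t → Bool) (x : SV C) :
    par (shp C s x).2 = par x.2 + rs C s x.1 := by
  rw [rs_eq_par]
  exact par_xor _ _

/-- the bijection of the two lifts given by a valid shift. -/
def shiftEquiv (σ : BV C → TV t → Bool)
    (hσ : ∀ u, rs C σ u = if liftStarParity t (typeOf C u) = true then 1 else 0) :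
    LiftV C (lift0Parity t) ≃ LiftV C (liftStarParity t) where
  toFun x := ⟨shp C σ x.1, by
    have h := (par_eq_iff _ _).mp x.2
    refine (par_eq_iff _ _).mpr ?_
    have h' := par_shp C σ x.1
    rw [h, hσ] at h'
    refine Eq.trans h' ?_
    simp [lift0Parity]
    rfl⟩
  invFun y := ⟨shp C σ y.1, by
    have h := (par_eq_iff _ _).mp y.2
    refine (par_eq_iff _ _).mpr ?_
    have h' := par_shp C σ y.1
    rw [h, hσ] at h'
    refine Eq.trans h' ?_
    by_cases hb : liftStarParity t (typeOf C y.1.1) = true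
    · simp [lift0Parity, hb]
      decide
    · simp [lift0Parity, hb]⟩
  left_inv x := Subtype.ext (shp_shp C σ x.1)
  right_inv y := Subtype.ext (shp_shp C σ y.1)

/-- **Duplicator side**: without a successful choice there is a pebble system with `t` pebbles
between the two lifts. -/
theorem exists_pebble_system (hC : ¬ C.Successful) (ht : 0 < t) :
    ∃ R : Finset (LiftV C (lift0Parity t) × LiftV C (liftStarParity t)) → Prop,
      R ∅ ∧ (∀ P Q, R P → Q ⊆ P → R Q) ∧
      (∀ P, R P → ∀ p ∈ P, ∀ q ∈ P, (p.1 = q.1 ↔ p.2 = q.2)) ∧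
      (∀ P, R P → ∀ p ∈ P, ∀ q ∈ P,
        liftAdj C (lift0Parity t) p.1 q.1 = liftAdj C (liftStarParity t) p.2 q.2) ∧
      (∀ P, R P → P.card < t →
        ∃ f : LiftV C (lift0Parity t) ≃ LiftV C (liftStarParity t), ∀ z, R (insert (z, f z) P)) := by
  refine ⟨fun S => ∃ s, Shf C (S.image fun p => p.1.1.1) s ∧ ∀ p ∈ S, p.2.1 = shp C s p.1.1,
    ?_, ?_, ?_, ?_, ?_⟩
  · obtain ⟨s, hs⟩ := Shf.empty (C := C) ht
    exact ⟨s, by simpa using hs, by simp⟩
  · rintro P Q ⟨s, hs, hp⟩ hQ
    exact ⟨s, hs.mono (Finset.image_subset_image hQ), fun p hpQ => hp p (hQ hpQ)⟩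
  · rintro P ⟨s, hs, hP⟩ p hp q hq
    constructor
    · intro h
      apply Subtype.ext
      rw [hP p hp, hP q hq, h]
    · intro h
      apply Subtype.ext
      apply shp_inj C s
      rw [← hP p hp, ← hP q hq, h]
  · rintro P ⟨s, hs, hP⟩ p hp q hq
    rw [liftAdj_eq, liftAdj_eq, hP p hp, hP q hq, sAdj_shp]
    intro hb
    exact hs.cons (Finset.mem_image_of_mem (fun p : LiftV C (lift0Parity t) × LiftV C (liftStarParity t) => p.1.1.1) hp)
      (Finset.mem_image_of_mem (fun p : LiftV C (lift0Parity t) × LiftV C (liftStarParity t) => p.1.1.1) hq) hb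
  · rintro P ⟨s, hs, hP⟩ hcard
    have hcard' : (P.image fun p => p.1.1.1).card < t := lt_of_le_of_lt Finset.card_image_le hcard
    choose s' hs' hs'' using fun u => hs.ext hC hcard' u
    have hσ : ∀ u, rs C (fun u a => s' u u a) u =
        if liftStarParity t (typeOf C u) = true then 1 else 0 := by
      intro u
      rw [← (hs' u).valid (Finset.mem_insert_self _ _)]
      exact rs_congr C fun _ => rfl
    refine ⟨shiftEquiv C (fun u a => s' u u a) hσ, fun z => ⟨s' z.1.1, ?_, ?_⟩⟩
    · rw [Finset.image_insert]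
      exact hs' z.1.1
    · intro p hp
      rcases Finset.mem_insert.mp hp with rfl | hp
      · exact shp_congr C fun a => rfl
      · rw [hP p hp]
        apply shp_congr
        intro a
        exact (hs'' z.1.1 p.1.1.1 (Finset.mem_image_of_mem
          (fun p : LiftV C (lift0Parity t) × LiftV C (liftStarParity t) => p.1.1.1) hp) a).symm

/-- **Duplicator side**, packaged as `PebSys`. -/
theorem exists_pebSys (hC : ¬ C.Successful) (ht : 0 < t) :
    ∃ R, R290Z.PebSys (liftAdj C (lift0Parity t)) (liftAdj C (liftStarParity t)) t R := by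
  obtain ⟨R, h1, h2, h3, h4, h5⟩ := exists_pebble_system C hC ht
  exact ⟨R, ⟨h1, fun {P Q} => h2 P Q, fun {P} => h3 P, fun {P} => h4 P, fun {P} => h5 P⟩⟩

end Crest.Agent.R290.ZD
private theorem rz_96de9cd902 : type_of% @_root_.Crest.Agent.R290.ZD.inQ.eq_1 := @_root_.Crest.Agent.R290.ZD.inQ.eq_1 -- L180
end

-- ▼ part R290/ZVal
section

/-!
Basics on the parity lift (row 290, S0438): a lift vertex `x` is described by its base vertex `bs x`,
its template type `ty x` and the total tag function `val x : TV t → Bool` (value `false` off the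
template neighbours).
-/

set_option autoImplicit false

namespace Crest.Agent.R290.Z

open Crest.WLRefine Crest.WLRefine.ParityLift Finset

variable {t : ℕ} {C : ChoiceSystem t} {b : TV t → Bool}

theorem tAdj_symm (a c : TV t) : tAdj a c = tAdj c a := by
  rcases a with i | h <;> rcases c with j | h' <;> simp [tAdj, eq_comm]

theorem tAdj_irrefl (a : TV t) : tAdj a a = false := by
  rcases a with i | h <;> simp [tAdj]

theorem mainAgree_lt {p q : Σ i : Fin t, Fin (C.dom i)} (h : mainAgree C p q = true) : p.1 < q.1 := by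
  simp only [mainAgree, decide_eq_true_eq] at h
  exact h.1

theorem bAdj_symm (u v : BV C) : bAdj C u v = bAdj C v u := by
  rcases u with p | p <;> rcases v with q | q <;> simp [bAdj, Bool.or_comm]

theorem tAdj_of_bAdj {u v : BV C} (h : bAdj C u v = true) :
    tAdj (typeOf C u) (typeOf C v) = true := by
  rcases u with p | p <;> rcases v with q | q
  · simp only [bAdj, Bool.or_eq_true] at h
    simp only [typeOf, tAdj, decide_eq_true_eq]
    rcases h with h | h
    · exact (mainAgree_lt h).ne
    · exact (mainAgree_lt h).ne'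
  · simp only [bAdj, helperAgree, decide_eq_true_eq] at h
    simp only [typeOf, tAdj, decide_eq_true_eq]
    rcases h with ⟨e, _⟩ | ⟨e, _⟩ | e
    · exact Or.inl e
    · exact Or.inr (Or.inl e)
    · exact Or.inr (Or.inr e)
  · simp only [bAdj, helperAgree, decide_eq_true_eq] at h
    simp only [typeOf, tAdj, decide_eq_true_eq]
    rcases h with ⟨e, _⟩ | ⟨e, _⟩ | e
    · exact Or.inl e
    · exact Or.inr (Or.inl e)
    · exact Or.inr (Or.inr e)
  · simp [bAdj] at h

theorem bAdj_irrefl (u : BV C) : bAdj C u u = false := by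
  by_contra h
  have h' := tAdj_of_bAdj (Bool.eq_true_of_not_eq_false h)
  rw [tAdj_irrefl] at h'
  exact Bool.false_ne_true h'

/-- base vertex -/
def bs (x : LiftV C b) : BV C := x.1.1

/-- template type -/
def ty (x : LiftV C b) : TV t := typeOf C x.1.1

/-- total tag function -/
def val (x : LiftV C b) (c : TV t) : Bool :=
  if h : tAdj (typeOf C x.1.1) c = true then x.1.2 ⟨c, h⟩ else false

theorem ty_eq (x : LiftV C b) : ty x = typeOf C (bs x) := rfl

theorem val_of_adj (x : LiftV C b) {c : TV t} (h : tAdj (typeOf C x.1.1) c = true) :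
    val x c = x.1.2 ⟨c, h⟩ := by
  simp [val, h]

theorem val_of_not (x : LiftV C b) {c : TV t} (h : tAdj (ty x) c = false) :
    val x c = false := by
  have h' : ¬ tAdj (typeOf C x.1.1) c = true := by
    intro h2
    rw [ty] at h
    rw [h] at h2
    exact Bool.false_ne_true h2
  simp [val, h']

theorem liftAdj_iff (x y : LiftV C b) :
    liftAdj C b x y = true ↔ bAdj C (bs x) (bs y) = true ∧ val x (ty y) = val y (ty x) := by
  constructor
  · intro h
    simp only [liftAdj, decide_eq_true_eq] at h
    obtain ⟨h1, h2, h3, h4⟩ := h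
    refine ⟨h3, ?_⟩
    rw [ty, ty, val_of_adj x h1, val_of_adj y h2, h4]
  · rintro ⟨h1, h2⟩
    simp only [liftAdj, decide_eq_true_eq]
    have h3 : tAdj (typeOf C x.1.1) (typeOf C y.1.1) = true := tAdj_of_bAdj h1
    have h4 : tAdj (typeOf C y.1.1) (typeOf C x.1.1) = true := by
      rw [tAdj_symm]; exact h3
    refine ⟨h3, h4, h1, ?_⟩
    have e1 : val x (ty y) = _ := val_of_adj x h3
    have e2 : val y (ty x) = _ := val_of_adj y h4
    exact e1.symm.trans (h2.trans e2)

theorem liftAdj_symm (x y : LiftV C b) : liftAdj C b x y = liftAdj C b y x := by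
  rw [Bool.eq_iff_iff, liftAdj_iff, liftAdj_iff, bAdj_symm, eq_comm (a := val x (ty y))]

theorem liftAdj_irrefl (x : LiftV C b) : liftAdj C b x x = false := by
  by_contra h
  have h' := (liftAdj_iff x x).1 (Bool.eq_true_of_not_eq_false h)
  rw [bAdj_irrefl] at h'
  exact Bool.false_ne_true h'.1

theorem isSimple_asMatrix : IsSimple (asMatrix (liftAdj C b)) :=
  ⟨fun v w => by simp only [asMatrix]; exact liftAdj_symm _ _,
   fun v => by simp only [asMatrix]; exact liftAdj_irrefl _⟩

theorem ext_bs_val {x y : LiftV C b} (h1 : bs x = bs y) (h2 : ∀ c, val x c = val y c) : x = y := by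
  obtain ⟨⟨u, f⟩, hx⟩ := x
  obtain ⟨⟨v, g⟩, hy⟩ := y
  simp only [bs] at h1
  subst h1
  have : f = g := by
    funext c
    have := h2 c.1
    simp only [val] at this
    simpa [c.2] using this
  subst this
  rfl

theorem card_filter_nbr (a : TV t) (f : Nbr a → Bool) :
    (univ.filter fun a' => f a' = true).card =
      (univ.filter fun c : TV t => (if h : tAdj a c = true then f ⟨c, h⟩ else false) = true).card := by
  apply Finset.card_bij (fun a' _ => a'.1)
  · intro a' h
    simp only [mem_filter, mem_univ, true_and] at h ⊢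
    simp [a'.2, h]
  · intro a1 _ a2 _ h
    exact Subtype.ext h
  · intro c h
    simp only [mem_filter, mem_univ, true_and] at h
    by_cases h1 : tAdj a c = true
    · refine ⟨⟨c, h1⟩, ?_, rfl⟩
      simpa [h1] using h
    · simp [h1] at h

theorem val_parity (x : LiftV C b) :
    (univ.filter fun c : TV t => val x c = true).card % 2 = (b (ty x)).toNat := by
  have := x.2
  rw [card_filter_nbr] at this
  exact this

/-- Construct a lift vertex from a base vertex and a total tag function. -/
theorem exists_mk (u : BV C) (f : TV t → Bool) (hf : ∀ c, tAdj (typeOf C u) c = false → f c = false)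
    (hp : (univ.filter fun c : TV t => f c = true).card % 2 = (b (typeOf C u)).toNat) :
    ∃ x : LiftV C b, bs x = u ∧ ∀ c, val x c = f c := by
  have key : ∀ c, (if h : tAdj (typeOf C u) c = true then f c else false) = f c := by
    intro c
    by_cases h : tAdj (typeOf C u) c = true
    · simp [h]
    · have := hf c (by simpa using h)
      simp [this]
  have hx : (univ.filter fun a' : Nbr (typeOf C u) => f a'.1 = true).card % 2
      = (b (typeOf C u)).toNat := by
    rw [card_filter_nbr (typeOf C u) (fun a' => f a'.1)]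
    simp only [key]
    exact hp
  refine ⟨⟨⟨u, fun a' => f a'.1⟩, hx⟩, rfl, ?_⟩
  intro c
  simp only [val]
  exact key c

/-- tag values in `ZMod 2` -/
def v2 (x : LiftV C b) (c : TV t) : ZMod 2 := if val x c = true then 1 else 0

theorem v2_of_not (x : LiftV C b) {c : TV t} (h : tAdj (ty x) c = false) : v2 x c = 0 := by
  simp [v2, val_of_not x h]

theorem sum_v2 (x : LiftV C b) : ∑ c : TV t, v2 x c = if b (ty x) = true then 1 else 0 := by
  have h := val_parity x
  have h1 : ∑ c : TV t, v2 x c = (((univ.filter fun c : TV t => val x c = true).card : ℕ) : ZMod 2) := by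
    simp only [v2]
    rw [Finset.sum_ite]
    simp
  rw [h1]
  have h2 : (((univ.filter fun c : TV t => val x c = true).card : ℕ) : ZMod 2)
      = (((univ.filter fun c : TV t => val x c = true).card % 2 : ℕ) : ZMod 2) := by
    rw [ZMod.natCast_eq_natCast_iff]
    exact (Nat.mod_modEq _ _).symm
  rw [h2, h]
  cases b (ty x) <;> simp

theorem v2_eq_iff {b' : TV t → Bool} (x : LiftV C b) (y : LiftV C b') (c d : TV t) :
    v2 x c = v2 y d ↔ val x c = val y d := by
  unfold v2
  cases val x c <;> cases val y d <;> simp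


end Crest.Agent.R290.Z
end

-- ▼ part R290/ZS1
section

/-!
S0438, success side, part 1: good tuples in the parity lifts.
-/

set_option autoImplicit false

namespace Crest.Agent.R290.Z

open Crest.WLRefine Crest.WLRefine.ParityLift Finset

/-! ### Common neighbour counts and good tuples -/

open Classical in
/-- number of common neighbours of the `v j`, `j ∈ T` -/
noncomputable def cn {V : Type*} [Fintype V] (adj : V → V → Bool) {ι : Type*} (T : Finset ι)
    (v : ι → V) : ℕ :=
  (univ.filter fun z => ∀ j ∈ T, adj z (v j) = true).card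

/-- a clique all of whose triples have a number of common neighbours congruent to 3 modulo 4 -/
def Good {V : Type*} [Fintype V] (adj : V → V → Bool) {ι : Type*} (v : ι → V) : Prop :=
  (∀ i j, i ≠ j → adj (v i) (v j) = true) ∧ ∀ T : Finset ι, T.card = 3 → cn adj T v % 4 = 3

theorem cn_comp {V : Type*} [Fintype V] (adj : V → V → Bool) {ι κ : Type*} [DecidableEq κ]
    (T : Finset ι) (v : κ → V) (e : ι → κ) : cn adj (T.image e) v = cn adj T (v ∘ e) := by
  classical
  unfold cn
  congr 1
  apply Finset.filter_congr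
  intro z _
  simp

theorem Good.comp {V : Type*} [Fintype V] {adj : V → V → Bool} {ι κ : Type*} 
    {v : κ → V} (h : Good adj v) (e : ι → κ) (he : Function.Injective e) : Good adj (v ∘ e) := by
  classical
  refine ⟨fun i j hij => h.1 _ _ (fun h' => hij (he h')), fun T hT => ?_⟩
  rw [← cn_comp]
  apply h.2
  rw [Finset.card_image_of_injective _ he, hT]

/-- Two halvings. -/
theorem four_dvd_card {α : Type*} [DecidableEq α] (F : Finset α) (p q : α → Bool) (σ τ : α → α)
    (hσ : ∀ a ∈ F, σ a ∈ F) (hσσ : ∀ a ∈ F, σ (σ a) = a) (hσp : ∀ a ∈ F, p (σ a) = !(p a))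
    (hτ : ∀ a ∈ F, τ a ∈ F) (hττ : ∀ a ∈ F, τ (τ a) = a) (hτp : ∀ a ∈ F, p (τ a) = p a)
    (hτq : ∀ a ∈ F, q (τ a) = !(q a)) : 4 ∣ F.card := by
  have half : ∀ (G : Finset α) (r : α → Bool) (ρ : α → α), (∀ a ∈ G, ρ a ∈ G) →
      (∀ a ∈ G, ρ (ρ a) = a) → (∀ a ∈ G, r (ρ a) = !(r a)) →
      G.card = 2 * (G.filter fun a => r a = true).card := by
    intro G r ρ h1 h2 h3
    have h4 : (G.filter fun a => r a = true).card = (G.filter fun a => ¬ r a = true).card := by
      apply Finset.card_bij (fun a _ => ρ a)
      · intro a ha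
        rw [mem_filter] at ha ⊢
        refine ⟨h1 a ha.1, ?_⟩
        rw [h3 a ha.1, ha.2]
        simp
      · intro a1 h1' a2 h2' h
        rw [mem_filter] at h1' h2'
        rw [← h2 a1 h1'.1, ← h2 a2 h2'.1, h]
      · intro a ha
        rw [mem_filter] at ha
        refine ⟨ρ a, ?_, h2 a ha.1⟩
        rw [mem_filter]
        refine ⟨h1 a ha.1, ?_⟩
        rw [h3 a ha.1]
        simpa using ha.2
    have h5 := Finset.card_filter_add_card_filter_not (s := G) (fun a => r a = true)
    omega
  have e1 := half F p σ hσ hσσ hσp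
  have e2 := half (F.filter fun a => p a = true) q τ
    (by
      intro a ha
      rw [mem_filter] at ha ⊢
      exact ⟨hτ a ha.1, by rw [hτp a ha.1]; exact ha.2⟩)
    (by
      intro a ha
      rw [mem_filter] at ha
      exact hττ a ha.1)
    (by
      intro a ha
      rw [mem_filter] at ha
      exact hτq a ha.1)
  rw [e1, e2]
  exact ⟨_, by ring⟩

variable {t : ℕ} {C : ChoiceSystem t} {b : TV t → Bool}

/-- version of `exists_mk` with sums in `ZMod 2` -/
theorem exists_mk' (u : BV C) (f : TV t → Bool)
    (hf : ∀ c, tAdj (typeOf C u) c = false → f c = false)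
    (hp : ∑ c : TV t, (if f c = true then (1 : ZMod 2) else 0) = if b (typeOf C u) = true then 1 else 0) :
    ∃ x : LiftV C b, bs x = u ∧ ∀ c, val x c = f c := by
  apply exists_mk u f hf
  rw [Finset.sum_boole] at hp
  have h0 : (((univ.filter fun c : TV t => f c = true).card % 2 : ℕ) : ZMod 2)
      = (((b (typeOf C u)).toNat : ℕ) : ZMod 2) := by
    have h2 : (((univ.filter fun c : TV t => f c = true).card : ℕ) : ZMod 2)
      = (((univ.filter fun c : TV t => f c = true).card % 2 : ℕ) : ZMod 2) := by
      rw [ZMod.natCast_eq_natCast_iff]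
      exact (Nat.mod_modEq _ _).symm
    rw [← h2, hp]
    cases b (typeOf C u) <;> simp
  have h1 := (ZMod.natCast_eq_natCast_iff _ _ _).1 h0
  have h2 : (univ.filter fun c : TV t => f c = true).card % 2 < 2 := Nat.mod_lt _ (by norm_num)
  have h3 : (b (typeOf C u)).toNat < 2 := by cases b (typeOf C u) <;> simp
  unfold Nat.ModEq at h1
  rw [Nat.mod_eq_of_lt h2, Nat.mod_eq_of_lt h3] at h1
  exact h1

theorem exists_flip (c1 c2 : TV t) (x : LiftV C b) (h12 : c1 ≠ c2)
    (h1 : tAdj (ty x) c1 = true) (h2 : tAdj (ty x) c2 = true) :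
    ∃ y : LiftV C b, bs y = bs x ∧
      ∀ c, val y c = xor (val x c) (decide (c = c1) || decide (c = c2)) := by
  apply exists_mk'
  · intro c hc
    have : val x c = false := val_of_not x hc
    rw [this]
    have e1 : c ≠ c1 := by
      rintro rfl
      rw [ty_eq, hc] at h1
      exact Bool.false_ne_true h1
    have e2 : c ≠ c2 := by
      rintro rfl
      rw [ty_eq, hc] at h2
      exact Bool.false_ne_true h2
    simp [e1, e2]
  · have hs := sum_v2 x
    rw [ty_eq] at hs
    rw [← hs]
    have : ∀ c : TV t, (if (xor (val x c) (decide (c = c1) || decide (c = c2))) = true then (1 : ZMod 2) else 0)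
        = v2 x c + ((if c = c1 then 1 else 0) + (if c = c2 then 1 else 0)) := by
      intro c
      unfold v2
      by_cases e1 : c = c1
      · have e2 : c ≠ c2 := by rintro rfl; exact h12 e1.symm
        cases val x c <;> simp [e1, h12]
        decide
      · by_cases e2 : c = c2
        · cases val x c <;> simp [e2]
          · intro h; exact absurd h h12.symm
          · have := h12.symm
            simp [this]
            decide
        · cases val x c <;> simp [e1, e2]
    rw [Finset.sum_congr rfl (fun c _ => this c), Finset.sum_add_distrib, Finset.sum_add_distrib]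
    simp
    exact CharTwo.add_self_eq_zero _

open Classical in
/-- flip the tag at the two coordinates `c1 ≠ c2` -/
noncomputable def flip (c1 c2 : TV t) (x : LiftV C b) : LiftV C b :=
  if h : c1 ≠ c2 ∧ tAdj (ty x) c1 = true ∧ tAdj (ty x) c2 = true then
    Classical.choose (exists_flip c1 c2 x h.1 h.2.1 h.2.2) else x

theorem flip_spec (c1 c2 : TV t) (x : LiftV C b) (h12 : c1 ≠ c2)
    (h1 : tAdj (ty x) c1 = true) (h2 : tAdj (ty x) c2 = true) :
    bs (flip c1 c2 x) = bs x ∧
      ∀ c, val (flip c1 c2 x) c = xor (val x c) (decide (c = c1) || decide (c = c2)) := by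
  unfold flip
  rw [dif_pos ⟨h12, h1, h2⟩]
  exact Classical.choose_spec (exists_flip c1 c2 x h12 h1 h2)

theorem flip_flip (c1 c2 : TV t) (x : LiftV C b) (h12 : c1 ≠ c2)
    (h1 : tAdj (ty x) c1 = true) (h2 : tAdj (ty x) c2 = true) :
    flip c1 c2 (flip c1 c2 x) = x := by
  obtain ⟨e1, e2⟩ := flip_spec c1 c2 x h12 h1 h2
  have h1' : tAdj (ty (flip c1 c2 x)) c1 = true := by rw [ty_eq, e1]; exact h1
  have h2' : tAdj (ty (flip c1 c2 x)) c2 = true := by rw [ty_eq, e1]; exact h2
  obtain ⟨e3, e4⟩ := flip_spec c1 c2 (flip c1 c2 x) h12 h1' h2'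
  apply ext_bs_val
  · rw [e3, e1]
  · intro c
    rw [e4, e2]
    cases val x c <;> cases (decide (c = c1) || decide (c = c2)) <;> rfl

/-! ### Helpers over a triple -/

/-- the three mains of a helper -/
def mains (h : Helper t) : Finset (Fin t) := {h.1.1, h.1.2.1, h.1.2.2}

theorem card_mains (h : Helper t) : (mains h).card = 3 := by
  obtain ⟨⟨i, j, l⟩, h1, h2, h3⟩ := h
  simp only at h1 h2 h3
  unfold mains
  rw [Finset.card_eq_three]
  exact ⟨i, j, l, h1.ne, Ne.symm h2, Ne.symm h3, rfl⟩

theorem tAdj_inr_inl (h : Helper t) (i : Fin t) : tAdj (Sum.inr h) (Sum.inl i) = true ↔ i ∈ mains h := by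
  simp [tAdj, mains]

/-- helpers over a set of mains -/
def ovr (T : Finset (Fin t)) : Finset (Helper t) := univ.filter fun h => mains h = T

theorem mem_ovr (T : Finset (Fin t)) (h : Helper t) : h ∈ ovr T ↔ mains h = T := by
  simp [ovr]

theorem card_ovr (T : Finset (Fin t)) (hT : T.card = 3) : (ovr T).card = 3 := by
  rw [← hT]
  apply Finset.card_bij (fun h _ => h.1.2.2)
  · intro h hh
    rw [mem_ovr] at hh
    rw [← hh]
    simp [mains]
  · rintro ⟨⟨i, j, l⟩, h1, h2, h3⟩ hh ⟨⟨i', j', l'⟩, h1', h2', h3'⟩ hh' h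
    simp only at h1 h2 h3 h1' h2' h3' h
    subst h
    replace hh := (mem_ovr _ _).1 hh
    replace hh' := (mem_ovr _ _).1 hh'
    simp only [mains] at hh hh'
    have e := hh.trans hh'.symm
    have m1 : i ∈ ({i', j', l} : Finset (Fin t)) := by rw [← e]; simp
    have m2 : j ∈ ({i', j', l} : Finset (Fin t)) := by rw [← e]; simp
    simp only [mem_insert, mem_singleton] at m1 m2
    have e1 : i = i' ∧ j = j' := by
      rcases m1 with m1 | m1 | m1 <;> rcases m2 with m2 | m2 | m2
      · subst m1; exact absurd h1 (by rw [m2]; exact lt_irrefl _)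
      · exact ⟨m1, m2⟩
      · exact absurd m2.symm h3
      · rw [m1, m2] at h1
        exact absurd h1 (not_lt.2 h1'.le)
      · rw [m1, m2] at h1
        exact absurd h1 (lt_irrefl _)
      · exact absurd m2.symm h3
      · exact absurd m1.symm h2
      · exact absurd m1.symm h2
      · exact absurd m1.symm h2
    obtain ⟨rfl, rfl⟩ := e1
    rfl
  · intro l hl
    have hc : (T.erase l).card = 2 := by rw [Finset.card_erase_of_mem hl, hT]
    obtain ⟨i, j, hij, he⟩ := Finset.card_eq_two.1 hc
    have hT' : T = insert l {i, j} := by rw [← he, Finset.insert_erase hl]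
    have hli : l ≠ i := by
      rintro rfl
      have : l ∈ T.erase l := by rw [he]; simp
      simp at this
    have hlj : l ≠ j := by
      rintro rfl
      have : l ∈ T.erase l := by rw [he]; simp
      simp at this
    rcases lt_or_gt_of_ne hij with h | h
    · refine ⟨⟨(i, j, l), h, hli, hlj⟩, (mem_ovr _ _).2 ?_, rfl⟩
      rw [hT']
      ext x
      simp only [mains, mem_insert, mem_singleton]
      tauto
    · refine ⟨⟨(j, i, l), h, hlj, hli⟩, (mem_ovr _ _).2 ?_, rfl⟩
      rw [hT']
      ext x
      simp only [mains, mem_insert, mem_singleton]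
      tauto

/-- a main has at least six template neighbours -/
theorem six_le_nbr (ht : 4 ≤ t) (i : Fin t) :
    6 ≤ (univ.filter fun c : TV t => tAdj (Sum.inl i) c = true).card := by
  classical
  have h1 : (univ.erase i : Finset (Fin t)).card = t - 1 := by
    rw [Finset.card_erase_of_mem (mem_univ _), Finset.card_univ, Fintype.card_fin]
  obtain ⟨T0, hT0, hT0c⟩ := Finset.exists_subset_card_eq (s := (univ.erase i : Finset (Fin t))) (n := 2)
    (by omega)
  have hi : i ∉ T0 := fun h => by simpa using hT0 h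
  have hTc : (insert i T0).card = 3 := by rw [Finset.card_insert_of_notMem hi, hT0c]
  have hov := card_ovr (insert i T0) hTc
  have hsub : (univ.erase i : Finset (Fin t)).map ⟨Sum.inl, Sum.inl_injective⟩ ∪
      (ovr (insert i T0)).map ⟨Sum.inr, Sum.inr_injective⟩ ⊆
      (univ.filter fun c : TV t => tAdj (Sum.inl i) c = true) := by
    intro c hc
    rw [mem_union, mem_map, mem_map] at hc
    rw [mem_filter]
    refine ⟨mem_univ _, ?_⟩
    rcases hc with ⟨j, hj, rfl⟩ | ⟨h, hh, rfl⟩
    · simp only [mem_erase, mem_univ, and_true] at hj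
      simp [tAdj, Ne.symm hj]
    · rw [mem_ovr] at hh
      rw [tAdj_symm]
      simp only [Function.Embedding.coeFn_mk]
      rw [tAdj_inr_inl, hh]
      simp
  have hdisj : Disjoint ((univ.erase i : Finset (Fin t)).map ⟨Sum.inl, Sum.inl_injective⟩)
      ((ovr (insert i T0)).map ⟨(Sum.inr : Helper t → TV t), Sum.inr_injective⟩) := by
    rw [Finset.disjoint_left]
    intro c h1 h2
    rw [mem_map] at h1 h2
    obtain ⟨j, _, rfl⟩ := h1
    obtain ⟨h, _, hh⟩ := h2
    cases hh
  have := Finset.card_le_card hsub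
  rw [Finset.card_union_of_disjoint hdisj, Finset.card_map, Finset.card_map, h1, hov] at this
  omega

/-- Common neighbours of main type of at most three vertices: their number is divisible by 4. -/
theorem main_part (ht : 4 ≤ t) {ι : Type*} (T : Finset ι) (hT : T.card = 3) (v : ι → LiftV C b)
    (i : Fin t) (F : Finset (LiftV C b))
    (hF : ∀ z, z ∈ F ↔ ty z = Sum.inl i ∧ ∀ j ∈ T, liftAdj C b z (v j) = true) : 4 ∣ F.card := by
  classical
  set N := univ.filter fun c : TV t => tAdj (Sum.inl i) c = true with hN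
  have hN6 : 6 ≤ N.card := six_le_nbr ht i
  have h3 : 3 ≤ (N \ T.image fun j => ty (v j)).card := by
    have h1 := Finset.le_card_sdiff (T.image fun j => ty (v j)) N
    have h2 : (T.image fun j => ty (v j)).card ≤ 3 := hT ▸ Finset.card_image_le
    omega
  obtain ⟨E, hE, hEc⟩ := Finset.exists_subset_card_eq h3
  obtain ⟨c1, c2, c3, h12, h13, h23, rfl⟩ := Finset.card_eq_three.1 hEc
  have hm : ∀ c ∈ ({c1, c2, c3} : Finset (TV t)), tAdj (Sum.inl i) c = true ∧
      ∀ j ∈ T, ty (v j) ≠ c := by
    intro c hc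
    have := hE hc
    rw [mem_sdiff, hN, mem_filter, mem_image] at this
    refine ⟨this.1.2, fun j hj h => this.2 ⟨j, hj, h⟩⟩
  obtain ⟨a1, d1⟩ := hm c1 (by simp)
  obtain ⟨a2, d2⟩ := hm c2 (by simp)
  obtain ⟨a3, d3⟩ := hm c3 (by simp)
  have pres : ∀ c c' : TV t, c ≠ c' → tAdj (Sum.inl i) c = true → tAdj (Sum.inl i) c' = true →
      (∀ j ∈ T, ty (v j) ≠ c) → (∀ j ∈ T, ty (v j) ≠ c') → ∀ z ∈ F, flip c c' z ∈ F := by
    intro c c' hcc hc hc' hd hd' z hz
    rw [hF] at hz ⊢
    obtain ⟨hz1, hz2⟩ := hz
    obtain ⟨e1, e2⟩ := flip_spec c c' z hcc (by rw [hz1]; exact hc) (by rw [hz1]; exact hc')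
    refine ⟨by rw [ty_eq, e1]; exact hz1, fun j hj => ?_⟩
    have := (liftAdj_iff _ _).1 (hz2 j hj)
    rw [liftAdj_iff, e1, e2]
    refine ⟨this.1, ?_⟩
    have n1 := hd j hj
    have n2 := hd' j hj
    have e3 : ty (flip c c' z) = ty z := by rw [ty_eq, e1]; rfl
    rw [e3, this.2]
    simp [n1, n2]
  have hz1 : ∀ z ∈ F, ty z = Sum.inl i := fun z hz => ((hF z).1 hz).1
  apply four_dvd_card F (fun z => val z c1) (fun z => val z c2) (flip c1 c3) (flip c2 c3)
  · exact pres c1 c3 h13 a1 a3 d1 d3
  · intro z hz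
    exact flip_flip c1 c3 z h13 (by rw [hz1 z hz]; exact a1) (by rw [hz1 z hz]; exact a3)
  · intro z hz
    obtain ⟨_, e2⟩ := flip_spec c1 c3 z h13 (by rw [hz1 z hz]; exact a1) (by rw [hz1 z hz]; exact a3)
    rw [e2]
    simp
  · exact pres c2 c3 h23 a2 a3 d2 d3
  · intro z hz
    exact flip_flip c2 c3 z h23 (by rw [hz1 z hz]; exact a2) (by rw [hz1 z hz]; exact a3)
  · intro z hz
    obtain ⟨_, e2⟩ := flip_spec c2 c3 z h23 (by rw [hz1 z hz]; exact a2) (by rw [hz1 z hz]; exact a3)
    rw [e2]
    simp [h12, h13]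
  · intro z hz
    obtain ⟨_, e2⟩ := flip_spec c2 c3 z h23 (by rw [hz1 z hz]; exact a2) (by rw [hz1 z hz]; exact a3)
    rw [e2]
    simp

open Classical in
/-- `cn` modulo 4 only counts the helper-type common neighbours. -/
theorem cn_mod (ht : 4 ≤ t) {ι : Type*} (T : Finset ι) (hT : T.card = 3) (v : ι → LiftV C b) :
    cn (liftAdj C b) T v % 4 =
      (univ.filter fun z : LiftV C b => (∃ h, ty z = Sum.inr h) ∧
        ∀ j ∈ T, liftAdj C b z (v j) = true).card % 4 := by
  classical
  have key : (univ.filter fun z : LiftV C b => ∀ j ∈ T, liftAdj C b z (v j) = true).card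
      = (univ.filter fun z : LiftV C b => (∃ h, ty z = Sum.inr h) ∧
        ∀ j ∈ T, liftAdj C b z (v j) = true).card +
        ∑ i : Fin t, (univ.filter fun z : LiftV C b => ty z = Sum.inl i ∧
        ∀ j ∈ T, liftAdj C b z (v j) = true).card := by
    rw [← Finset.card_biUnion]
    · rw [← Finset.card_union_of_disjoint]
      · congr 1
        ext z
        simp only [mem_filter, mem_univ, true_and, mem_union, mem_biUnion]
        constructor
        · intro h
          rcases hty : ty z with i | h'
          · exact Or.inr ⟨i, rfl, h⟩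
          · exact Or.inl ⟨⟨h', rfl⟩, h⟩
        · rintro (⟨_, h⟩ | ⟨i, _, h⟩) <;> exact h
      · rw [Finset.disjoint_left]
        intro z h1 h2
        simp only [mem_filter, mem_univ, true_and, mem_biUnion] at h1 h2
        obtain ⟨⟨h, hh⟩, _⟩ := h1
        obtain ⟨i, hi, _⟩ := h2
        rw [hh] at hi
        cases hi
    · intro i _ j _ hij
      rw [Function.onFun, Finset.disjoint_left]
      intro z h1 h2
      simp only [mem_filter, mem_univ, true_and] at h1 h2
      apply hij
      have := h1.1.symm.trans h2.1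
      exact Sum.inl_injective this
  unfold cn
  rw [key]
  have : 4 ∣ ∑ i : Fin t, (univ.filter fun z : LiftV C b => ty z = Sum.inl i ∧
        ∀ j ∈ T, liftAdj C b z (v j) = true).card := by
    apply Finset.dvd_sum
    intro i _
    apply main_part ht T hT v i
    intro z
    simp
  omega

end Crest.Agent.R290.Z
end

-- ▼ part R290/ZS2
section

/-!
S0438, success side, part 2: the even lift has a good tuple iff there is a successful choice,
the odd lift never has one.
-/

set_option autoImplicit false

namespace Crest.Agent.R290.Z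

open Crest.WLRefine Crest.WLRefine.ParityLift Finset

variable {t : ℕ} {C : ChoiceSystem t} {b : TV t → Bool}

theorem eq_of_typeOf_inl {u : BV C} {i : Fin t} (h : typeOf C u = Sum.inl i) :
    ∃ m : Fin (C.dom i), u = Sum.inl ⟨i, m⟩ := by
  rcases u with ⟨i', m⟩ | q
  · simp only [typeOf, Sum.inl.injEq] at h
    subst h
    exact ⟨m, rfl⟩
  · simp [typeOf] at h

theorem eq_of_typeOf_inr {u : BV C} {h : Helper t} (hu : typeOf C u = Sum.inr h) :
    ∃ q : Fin (C.lab h.1.1 h.1.2.1), u = Sum.inr ⟨h, q⟩ := by
  rcases u with m | ⟨h', q⟩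
  · simp [typeOf] at hu
  · simp only [typeOf, Sum.inr.injEq] at hu
    subst hu
    exact ⟨q, rfl⟩

theorem agree_fst (h : Helper t) (q : Fin (C.lab h.1.1 h.1.2.1)) (m : Fin (C.dom h.1.1)) :
    bAdj C (Sum.inr ⟨h, q⟩) (Sum.inl ⟨h.1.1, m⟩) = true ↔ q = C.lamL h.1.1 h.1.2.1 m := by
  have h1 := h.2.1
  have h2 := h.2.2.1
  unfold bAdj helperAgree
  rw [decide_eq_true_eq]
  constructor
  · rintro (⟨_, e⟩ | ⟨e, _⟩ | e)
    · exact e
    · exact absurd e h1.ne
    · exact absurd e.symm h2
  · intro e
    exact Or.inl ⟨rfl, e⟩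

theorem agree_snd (h : Helper t) (q : Fin (C.lab h.1.1 h.1.2.1)) (m : Fin (C.dom h.1.2.1)) :
    bAdj C (Sum.inr ⟨h, q⟩) (Sum.inl ⟨h.1.2.1, m⟩) = true ↔ q = C.lamR h.1.1 h.1.2.1 m := by
  have h1 := h.2.1
  have h2 := h.2.2.2
  unfold bAdj helperAgree
  rw [decide_eq_true_eq]
  constructor
  · rintro (⟨e, _⟩ | ⟨_, e⟩ | e)
    · exact absurd e h1.ne'
    · exact e
    · exact absurd e.symm h2
  · intro e
    exact Or.inr (Or.inl ⟨rfl, e⟩)

theorem agree_thd (h : Helper t) (q : Fin (C.lab h.1.1 h.1.2.1)) (m : Fin (C.dom h.1.2.2)) :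
    bAdj C (Sum.inr ⟨h, q⟩) (Sum.inl ⟨h.1.2.2, m⟩) = true := by
  unfold bAdj helperAgree
  rw [decide_eq_true_eq]
  exact Or.inr (Or.inr rfl)

theorem mainAgree_iff {i j : Fin t} (hij : i < j) (m : Fin (C.dom i)) (m' : Fin (C.dom j)) :
    bAdj C (Sum.inl ⟨i, m⟩) (Sum.inl ⟨j, m'⟩) = true ↔ C.lamL i j m = C.lamR i j m' := by
  simp only [bAdj, mainAgree, Bool.or_eq_true, decide_eq_true_eq]
  constructor
  · rintro (⟨_, e⟩ | ⟨e, _⟩)
    · exact e
    · exact absurd e (not_lt.2 hij.le)
  · intro e
    exact Or.inl ⟨hij, e⟩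

/-- a triple containing a helper vertex has no helper-type common neighbour -/
theorem cn_helper (ht : 4 ≤ t) {ι : Type*} (T : Finset ι) (hT : T.card = 3) (v : ι → LiftV C b)
    {j0 : ι} (hj0 : j0 ∈ T) {h0 : Helper t} (hv : ty (v j0) = Sum.inr h0) :
    cn (liftAdj C b) T v % 4 = 0 := by
  classical
  rw [cn_mod ht T hT v]
  rw [Finset.card_eq_zero.2]
  rw [Finset.filter_eq_empty_iff]
  rintro z _ ⟨⟨h, hh⟩, ha⟩
  have := tAdj_of_bAdj ((liftAdj_iff _ _).1 (ha j0 hj0)).1
  rw [← ty_eq, ← ty_eq, hh, hv] at this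
  simp [tAdj] at this

theorem tAdj_of_liftAdj {x y : LiftV C b} (h : liftAdj C b x y = true) :
    tAdj (ty x) (ty y) = true := tAdj_of_bAdj ((liftAdj_iff _ _).1 h).1

/-- a helper vertex adjacent to given mains is determined by its type -/
theorem helper_unique {v : Fin t → LiftV C b} (hv : ∀ i, ty (v i) = Sum.inl i) {h : Helper t}
    {z z' : LiftV C b} (hz : ty z = Sum.inr h) (hz' : ty z' = Sum.inr h)
    (ha : ∀ j ∈ mains h, liftAdj C b z (v j) = true)
    (ha' : ∀ j ∈ mains h, liftAdj C b z' (v j) = true) : z = z' := by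
  obtain ⟨q, hq⟩ := eq_of_typeOf_inr (u := bs z) (by rw [← ty_eq]; exact hz)
  obtain ⟨q', hq'⟩ := eq_of_typeOf_inr (u := bs z') (by rw [← ty_eq]; exact hz')
  obtain ⟨m, hm⟩ := eq_of_typeOf_inl (u := bs (v h.1.1)) (by rw [← ty_eq]; exact hv _)
  have hm1 : h.1.1 ∈ mains h := by simp [mains]
  have e1 := ((liftAdj_iff _ _).1 (ha _ hm1)).1
  have e2 := ((liftAdj_iff _ _).1 (ha' _ hm1)).1
  rw [hq, hm, agree_fst] at e1
  rw [hq', hm, agree_fst] at e2
  apply ext_bs_val
  · rw [hq, hq', e1, e2]
  · intro c
    by_cases hc : ∃ j ∈ mains h, c = Sum.inl j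
    · obtain ⟨j, hj, rfl⟩ := hc
      have f1 := ((liftAdj_iff _ _).1 (ha _ hj)).2
      have f2 := ((liftAdj_iff _ _).1 (ha' _ hj)).2
      rw [hv] at f1 f2
      rw [f1, f2, hz, hz']
    · have : tAdj (Sum.inr h) c = false := by
        rcases c with j | h'
        · rw [← Bool.not_eq_true, tAdj_inr_inl]
          intro hj
          exact hc ⟨j, hj, rfl⟩
        · rfl
      rw [val_of_not z (by rw [hz]; exact this), val_of_not z' (by rw [hz']; exact this)]

open Classical in
theorem card_helper_part {v : Fin t → LiftV C b} (hv : ∀ i, ty (v i) = Sum.inl i)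
    (T : Finset (Fin t)) (hT : T.card = 3) :
    (univ.filter fun z : LiftV C b => (∃ h, ty z = Sum.inr h) ∧
        ∀ j ∈ T, liftAdj C b z (v j) = true).card =
    ((ovr T).filter fun h => ∃ z : LiftV C b, ty z = Sum.inr h ∧
        ∀ j ∈ T, liftAdj C b z (v j) = true).card := by
  classical
  have hmains : ∀ (z : LiftV C b) (h : Helper t), ty z = Sum.inr h →
      (∀ j ∈ T, liftAdj C b z (v j) = true) → mains h = T := by
    intro z h hz ha
    symm
    apply Finset.eq_of_subset_of_card_le
    · intro j hj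
      have := tAdj_of_liftAdj (ha j hj)
      rw [hz, hv, tAdj_inr_inl] at this
      exact this
    · rw [card_mains, hT]
  rw [← Finset.card_image_of_injOn (f := fun z : LiftV C b => ty z),
    ← Finset.card_map ⟨(Sum.inr : Helper t → TV t), Sum.inr_injective⟩]
  · congr 1
    ext c
    simp only [mem_image, mem_filter, mem_univ, true_and, mem_map, Function.Embedding.coeFn_mk,
      mem_ovr]
    constructor
    · rintro ⟨z, ⟨⟨h, hz⟩, ha⟩, rfl⟩
      exact ⟨h, ⟨hmains z h hz ha, z, hz, ha⟩, hz.symm⟩
    · rintro ⟨h, ⟨_, z, hz, ha⟩, rfl⟩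
      exact ⟨z, ⟨⟨h, hz⟩, ha⟩, hz⟩
  · intro z hz z' hz' e
    simp only [coe_filter, mem_univ, true_and, Set.mem_ofPred_eq] at hz hz' e
    obtain ⟨⟨h, hh⟩, ha⟩ := hz
    obtain ⟨⟨h', hh'⟩, ha'⟩ := hz'
    have hhh : h = h' := by
      have := hh.symm.trans (e.trans hh')
      exact Sum.inr_injective this
    subst hhh
    have hm := hmains z h hh ha
    rw [← hm] at ha ha'
    exact helper_unique hv hh hh' ha ha'

/-- `cn ≡ 3 (mod 4)` means that all helpers over the triple have a common neighbour of their type. -/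
theorem cn_eq_three_iff (ht : 4 ≤ t) {v : Fin t → LiftV C b} (hv : ∀ i, ty (v i) = Sum.inl i)
    (T : Finset (Fin t)) (hT : T.card = 3) :
    cn (liftAdj C b) T v % 4 = 3 ↔
      ∀ h : Helper t, mains h = T → ∃ z : LiftV C b, ty z = Sum.inr h ∧
        ∀ j ∈ mains h, liftAdj C b z (v j) = true := by
  classical
  have h0 : cn (liftAdj C b) T v % 4 = ((ovr T).filter fun h => ∃ z : LiftV C b, ty z = Sum.inr h ∧
        ∀ j ∈ T, liftAdj C b z (v j) = true).card % 4 := by
    rw [cn_mod ht T hT v]
    congr 1
    convert card_helper_part hv T hT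
  rw [h0]
  have h3 := card_ovr T hT
  have hle : ((ovr T).filter fun h => ∃ z : LiftV C b, ty z = Sum.inr h ∧
        ∀ j ∈ T, liftAdj C b z (v j) = true).card ≤ 3 := h3 ▸ Finset.card_filter_le _ _
  constructor
  · intro h h' hh'
    have h4 : ((ovr T).filter fun h => ∃ z : LiftV C b, ty z = Sum.inr h ∧
        ∀ j ∈ T, liftAdj C b z (v j) = true) = ovr T := by
      apply Finset.eq_of_subset_of_card_le (Finset.filter_subset _ _)
      omega
    have h5 : h' ∈ ovr T := (mem_ovr _ _).2 hh'
    rw [← h4, mem_filter] at h5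
    rw [hh']
    exact h5.2
  · intro h
    rw [Finset.filter_true_of_mem, h3]
    intro h' hh'
    rw [mem_ovr] at hh'
    have := h h' hh'
    rw [hh'] at this
    exact this

/-- parity at a helper vertex -/
theorem helper_sum {v : Fin t → LiftV C b} (hv : ∀ i, ty (v i) = Sum.inl i) {h : Helper t}
    (hb : b (Sum.inr h) = false) {z : LiftV C b} (hz : ty z = Sum.inr h)
    (ha : ∀ j ∈ mains h, liftAdj C b z (v j) = true) :
    ∑ j ∈ mains h, v2 (v j) (Sum.inr h) = 0 := by
  have h1 := sum_v2 z
  rw [hz, hb] at h1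
  simp only [Bool.false_eq_true, if_false] at h1
  rw [Fintype.sum_sum_type] at h1
  have h2 : ∑ h' : Helper t, v2 z (Sum.inr h') = 0 := by
    apply Finset.sum_eq_zero
    intro h' _
    apply v2_of_not
    rw [hz]
    rfl
  have h3 : ∑ j : Fin t, v2 z (Sum.inl j) = ∑ j ∈ mains h, v2 z (Sum.inl j) := by
    symm
    apply Finset.sum_subset (Finset.subset_univ _)
    intro j _ hj
    apply v2_of_not
    rw [hz, ← Bool.not_eq_true, tAdj_inr_inl]
    exact hj
  rw [h2, add_zero, h3] at h1
  rw [← h1]
  apply Finset.sum_congr rfl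
  intro j hj
  have f1 := ((liftAdj_iff _ _).1 (ha _ hj)).2
  rw [hv, hz] at f1
  rw [v2_eq_iff, f1]

/-- total parity -/
theorem total_parity {v : Fin t → LiftV C b} (hv : ∀ i, ty (v i) = Sum.inl i)
    (hadj : ∀ i j, i ≠ j → liftAdj C b (v i) (v j) = true)
    (hh : ∀ h : Helper t, ∑ j ∈ mains h, v2 (v j) (Sum.inr h) = 0) :
    ∑ i : Fin t, (if b (Sum.inl i) = true then (1 : ZMod 2) else 0) = 0 := by
  have h1 : ∀ i, (if b (Sum.inl i) = true then (1 : ZMod 2) else 0)
      = ∑ j : Fin t, v2 (v i) (Sum.inl j) + ∑ h : Helper t, v2 (v i) (Sum.inr h) := by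
    intro i
    have := sum_v2 (v i)
    rw [hv, Fintype.sum_sum_type] at this
    exact this.symm
  rw [Finset.sum_congr rfl (fun i _ => h1 i), Finset.sum_add_distrib]
  have h2 : ∑ i : Fin t, ∑ j : Fin t, v2 (v i) (Sum.inl j) = 0 := by
    rw [← Finset.sum_product']
    apply Finset.sum_involution (fun (p : Fin t × Fin t) _ => (p.2, p.1))
    · rintro ⟨i, j⟩ _
      by_cases hij : i = j
      · subst hij
        exact CharTwo.add_self_eq_zero _
      · have f := ((liftAdj_iff _ _).1 (hadj i j hij)).2
        rw [hv, hv] at f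
        have e : v2 (v i) (Sum.inl j) = v2 (v j) (Sum.inl i) := by rw [v2_eq_iff, f]
        simp only
        rw [e]
        exact CharTwo.add_self_eq_zero _
    · rintro ⟨i, j⟩ _ hne heq
      have hij : j = i := by simpa using congrArg Prod.fst heq
      subst hij
      apply hne
      simp only
      apply v2_of_not
      rw [hv]
      exact tAdj_irrefl _
    · rintro ⟨i, j⟩ _
      simp
    · rintro ⟨i, j⟩ _
      rfl
  have h3 : ∑ i : Fin t, ∑ h : Helper t, v2 (v i) (Sum.inr h) = 0 := by
    rw [Finset.sum_comm]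
    apply Finset.sum_eq_zero
    intro h _
    rw [← hh h]
    symm
    apply Finset.sum_subset (Finset.subset_univ _)
    intro j _ hj
    apply v2_of_not
    rw [hv, tAdj_symm, ← Bool.not_eq_true, tAdj_inr_inl]
    exact hj
  rw [h2, h3, add_zero]

/-- In a good tuple every vertex has main type. -/
theorem Good.main_ty (ht : 4 ≤ t) {v : Fin t → LiftV C b} (hg : Good (liftAdj C b) v) (i : Fin t) :
    ∃ a : Fin t, ty (v i) = Sum.inl a := by
  rcases hty : ty (v i) with a | h
  · exact ⟨a, rfl⟩
  · exfalso
    obtain ⟨T, hT, hTc⟩ := Finset.exists_subset_card_eq (s := (univ.erase i : Finset (Fin t)))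
      (n := 2) (by rw [Finset.card_erase_of_mem (mem_univ _), Finset.card_univ, Fintype.card_fin]; omega)
    have hi : i ∉ T := fun h => by simpa using hT h
    have hTc' : (insert i T).card = 3 := by rw [Finset.card_insert_of_notMem hi, hTc]
    have h1 := hg.2 (insert i T) hTc'
    rw [cn_helper ht (insert i T) hTc' v (Finset.mem_insert_self i T) hty] at h1
    omega

/-- Normal form of a good tuple. -/
theorem Good.normalize (ht : 4 ≤ t) {v : Fin t → LiftV C b} (hg : Good (liftAdj C b) v) :
    ∃ v' : Fin t → LiftV C b, Good (liftAdj C b) v' ∧ ∀ i, ty (v' i) = Sum.inl i := by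
  choose τ hτ using hg.main_ty ht
  have hinj : Function.Injective τ := by
    intro i j hij
    by_contra hne
    have := tAdj_of_liftAdj (hg.1 i j hne)
    rw [hτ, hτ, hij, tAdj_irrefl] at this
    exact Bool.false_ne_true this
  have hbij : Function.Bijective τ := Finite.injective_iff_bijective.1 hinj
  let e := Equiv.ofBijective τ hbij
  refine ⟨v ∘ e.symm, hg.comp _ e.symm.injective, fun i => ?_⟩
  rw [Function.comp_apply, hτ]
  congr 1
  exact e.apply_symm_apply i

theorem not_good_star (ht : 4 ≤ t) (v : Fin t → LiftV C (liftStarParity t)) :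
    ¬ Good (liftAdj C (liftStarParity t)) v := by
  intro hg
  obtain ⟨v', hg', hv⟩ := hg.normalize ht
  have hh : ∀ h : Helper t, ∑ j ∈ mains h, v2 (v' j) (Sum.inr h) = 0 := by
    intro h
    have h1 := (cn_eq_three_iff ht hv (mains h) (card_mains h)).1 (hg'.2 _ (card_mains h)) h rfl
    obtain ⟨z, hz, ha⟩ := h1
    exact helper_sum hv (by simp [liftStarParity]) hz ha
  have h2 := total_parity hv hg'.1 hh
  have ht0 : 0 < t := by omega
  have h3 : ∀ i : Fin t, (if liftStarParity t (Sum.inl i) = true then (1 : ZMod 2) else 0)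
      = if i = ⟨0, ht0⟩ then 1 else 0 := by
    intro i
    simp [liftStarParity, ht0]
  rw [Finset.sum_congr rfl (fun i _ => h3 i)] at h2
  simp at h2

theorem exists_good (ht : 4 ≤ t) (hC : C.Successful) :
    ∃ v : Fin t → LiftV C (lift0Parity t), Good (liftAdj C (lift0Parity t)) v := by
  obtain ⟨d, hd⟩ := hC
  have mk : ∀ u : BV C, ∃ x : LiftV C (lift0Parity t), bs x = u ∧ ∀ c, val x c = false := by
    intro u
    apply exists_mk'
    · intros; rfl
    · simp [lift0Parity]
  choose V hV1 hV2 using mk
  have hty : ∀ u, ty (V u) = typeOf C u := fun u => by rw [ty_eq, hV1]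
  have adj_iff : ∀ u w, liftAdj C (lift0Parity t) (V u) (V w) = true ↔ bAdj C u w = true := by
    intro u w
    rw [liftAdj_iff, hV1, hV1, hV2, hV2]
    simp
  let v : Fin t → LiftV C (lift0Parity t) := fun i => V (Sum.inl ⟨i, d i⟩)
  have hv : ∀ i, ty (v i) = Sum.inl i := fun i => hty _
  refine ⟨v, fun i j hij => ?_, fun T hT => ?_⟩
  · rw [adj_iff]
    rcases lt_or_gt_of_ne hij with h | h
    · rw [mainAgree_iff h]
      exact hd i j h
    · rw [bAdj_symm, mainAgree_iff h]
      exact hd j i h
  · rw [cn_eq_three_iff ht hv T hT]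
    intro h hh
    refine ⟨V (Sum.inr ⟨h, C.lamL h.1.1 h.1.2.1 (d h.1.1)⟩), hty _, fun j hj => ?_⟩
    rw [adj_iff]
    simp only [mains, mem_insert, mem_singleton] at hj
    rcases hj with rfl | rfl | rfl
    · rw [agree_fst]
    · rw [agree_snd]
      exact hd _ _ h.2.1
    · exact agree_thd _ _ _

end Crest.Agent.R290.Z
end

-- ▼ part R290/ZS3
section

/-!
S0438, success side, part 3: a good tuple is visible in the round-1 separate / round-2 joint colours.
-/

set_option autoImplicit false

namespace Crest.Agent.R290.Z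

open Crest.WLRefine Crest.WLRefine.ParityLift Finset

theorem filter_congr_inst {α : Type*} {p q : α → Prop} (ip : DecidablePred p)
    (iq : DecidablePred q) (s : Multiset α) (h : ∀ x ∈ s, p x ↔ q x) :
    @Multiset.filter α p ip s = @Multiset.filter α q iq s := Multiset.filter_congr h

/-! ### Transport of good tuples -/

theorem cn_embed {V W : Type*} [Fintype V] [Fintype W] {A : V → V → Bool} {B : W → W → Bool}
    (f : V → W) (hf : Function.Injective f) (hAB : ∀ x y, B (f x) (f y) = A x y)
    (hn : ∀ w y, B w (f y) = true → ∃ x, w = f x)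
    {ι : Type*} (T : Finset ι) (hT : T.Nonempty) (v : ι → V) : cn B T (f ∘ v) = cn A T v := by
  classical
  unfold cn
  symm
  apply Finset.card_bij (fun x _ => f x)
  · intro x hx
    simp only [mem_filter, mem_univ, true_and, Function.comp_apply] at hx ⊢
    intro j hj
    rw [hAB]
    exact hx j hj
  · intro x _ y _ h
    exact hf h
  · intro w hw
    simp only [mem_filter, mem_univ, true_and, Function.comp_apply] at hw
    obtain ⟨j0, hj0⟩ := hT
    obtain ⟨x, rfl⟩ := hn w (v j0) (hw j0 hj0)
    refine ⟨x, ?_, rfl⟩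
    simp only [mem_filter, mem_univ, true_and]
    intro j hj
    rw [← hAB]
    exact hw j hj

theorem good_embed {V W : Type*} [Fintype V] [Fintype W] {A : V → V → Bool} {B : W → W → Bool}
    (f : V → W) (hf : Function.Injective f) (hAB : ∀ x y, B (f x) (f y) = A x y)
    (hn : ∀ w y, B w (f y) = true → ∃ x, w = f x)
    {ι : Type*} (v : ι → V) : Good B (f ∘ v) ↔ Good A v := by
  unfold Good
  simp only [Function.comp_apply, hAB]
  apply and_congr_right
  intro _
  apply forall_congr'
  intro T
  constructor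
  · intro h hT
    have := h hT
    rw [cn_embed f hf hAB hn T (Finset.card_pos.1 (by omega)) v] at this
    exact this
  · intro h hT
    rw [cn_embed f hf hAB hn T (Finset.card_pos.1 (by omega)) v]
    exact h hT

theorem good_asMatrix {V : Type} [Fintype V] (A : V → V → Bool) {ι : Type*} (v : ι → V) :
    Good (asMatrix A) (Fintype.equivFin V ∘ v) ↔ Good A v := by
  apply good_embed (Fintype.equivFin V) (Fintype.equivFin V).injective
  · intro x y
    simp [asMatrix]
  · intro w y _
    exact ⟨(Fintype.equivFin V).symm w, by simp⟩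

theorem good_inl {n m : ℕ} (G : Fin n → Fin n → Bool) (H : Fin m → Fin m → Bool) {ι : Type*}
    (v : ι → Fin n) : Good (unionAdj G H) (Sum.inl ∘ v) ↔ Good G v := by
  apply good_embed Sum.inl Sum.inl_injective
  · intro x y
    rfl
  · intro w y h
    rcases w with x | x
    · exact ⟨x, rfl⟩
    · simp [unionAdj] at h

theorem good_inr {n m : ℕ} (G : Fin n → Fin n → Bool) (H : Fin m → Fin m → Bool) {ι : Type*}
    (v : ι → Fin m) : Good (unionAdj G H) (Sum.inr ∘ v) ↔ Good H v := by
  apply good_embed Sum.inr Sum.inr_injective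
  · intro x y
    rfl
  · intro w y h
    rcases w with x | x
    · simp [unionAdj] at h
    · exact ⟨x, rfl⟩

/-! ### Colours -/

variable {n m k : ℕ}

theorem good_of_scolor (hk : 4 ≤ k) {A : Fin n → Fin n → Bool} {B : Fin m → Fin m → Bool}
    {v : Fin k → Fin n} {w : Fin k → Fin m} (h : scolor A k 1 v = scolor B k 1 w)
    (hg : Good A v) : Good B w := by
  classical
  have h0 : atomicType A v = atomicType B w := congrArg Prod.fst h
  have h1 : (fun i => (univ : Finset (Fin n)).val.map fun z => atomicType A (Function.update v i z)) =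
      (fun i => (univ : Finset (Fin m)).val.map fun z => atomicType B (Function.update w i z)) :=
    congrArg Prod.snd h
  refine ⟨fun i j hij => ?_, fun T hT => ?_⟩
  · have := congrFun (congrFun (congrArg Prod.snd h0) i) j
    simp only [atomicType] at this
    rw [← this]
    exact hg.1 i j hij
  · rw [← hg.2 T hT]
    obtain ⟨i, hi⟩ : ∃ i, i ∉ T := by
      by_contra hne
      push Not at hne
      have : (univ : Finset (Fin k)).card ≤ T.card := Finset.card_le_card (fun x _ => hne x)
      rw [Finset.card_univ, Fintype.card_fin] at this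
      omega
    have h2 := congrFun h1 i
    have key : ∀ {p : ℕ} (A' : Fin p → Fin p → Bool) (v' : Fin k → Fin p),
        cn A' T v' = (((univ : Finset (Fin p)).val.map
          fun z => atomicType A' (Function.update v' i z)).countP
            (fun c => ∀ j ∈ T, c.2 i j = true)) := by
      intro p A' v'
      rw [Multiset.countP_map]
      unfold cn
      rw [Finset.card_def, Finset.filter_val]
      congr 1
      refine filter_congr_inst _ _ _ (fun z _ => ?_)
      apply forall_congr'
      intro j
      apply imp_congr_right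
      intro hj
      have hji : j ≠ i := by rintro rfl; exact hi hj
      simp [atomicType, Function.update_of_ne hji]
    rw [key A v, key B w, h2]

theorem cn_of_jcolor (hk : 2 ≤ k) {A : Fin n → Fin n → Bool} {B : Fin m → Fin m → Bool}
    {v : Fin k → Fin n} {w : Fin k → Fin m} (h : jcolor A k 1 v = jcolor B k 1 w)
    (T : Finset (Fin k)) : cn A T v = cn B T w := by
  classical
  have h1 : ((univ : Finset (Fin n)).val.map fun z => fun i => atomicType A (Function.update v i z)) =
      ((univ : Finset (Fin m)).val.map fun z => fun i => atomicType B (Function.update w i z)) :=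
    congrArg Prod.snd h
  have hf : ∀ j : Fin k, ∃ i : Fin k, i ≠ j := by
    intro j
    have : Nontrivial (Fin k) := Fin.nontrivial_iff_two_le.2 hk
    exact exists_ne j
  choose f hf using hf
  have key : ∀ {p : ℕ} (A' : Fin p → Fin p → Bool) (v' : Fin k → Fin p),
      cn A' T v' = (((univ : Finset (Fin p)).val.map
        fun z => fun i => atomicType A' (Function.update v' i z)).countP
          (fun c => ∀ j ∈ T, (c (f j)).2 (f j) j = true)) := by
    intro p A' v'
    rw [Multiset.countP_map]
    unfold cn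
    rw [Finset.card_def, Finset.filter_val]
    congr 1
    refine filter_congr_inst _ _ _ (fun z _ => ?_)
    apply forall_congr'
    intro j
    apply imp_congr_right
    intro hj
    simp [atomicType, Function.update_of_ne (hf j).symm]
  rw [key A v, key B w, h1]

theorem atomic_of_jcolor {A : Fin n → Fin n → Bool} {B : Fin m → Fin m → Bool}
    {v : Fin k → Fin n} {w : Fin k → Fin m} (h : jcolor A k 1 v = jcolor B k 1 w)
    (i j : Fin k) : A (v i) (v j) = B (w i) (w j) := by
  have h0 : atomicType A v = atomicType B w := congrArg Prod.fst h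
  exact congrFun (congrFun (congrArg Prod.snd h0) i) j

/-- the reindexing turning `Fin.snoc v z` into `update v i z` -/
def snocIdx (i : Fin k) (j : Fin k) : Fin (k + 1) := if j = i then Fin.last k else j.castSucc

theorem snoc_comp_snocIdx {α : Type*} (v : Fin k → α) (z : α) (i : Fin k) :
    (Fin.snoc v z : Fin (k + 1) → α) ∘ snocIdx i = Function.update v i z := by
  funext j
  simp only [Function.comp_apply, snocIdx]
  by_cases h : j = i
  · subst h
    simp
  · simp [h]

theorem exists_snocIdx {i : Fin k} {a : Fin (k + 1)} (h : a ≠ i.castSucc) :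
    ∃ j, snocIdx i j = a := by
  rcases Fin.eq_castSucc_or_eq_last a with ⟨j, rfl⟩ | rfl
  · refine ⟨j, ?_⟩
    have : j ≠ i := by rintro rfl; exact h rfl
    simp [snocIdx, this]
  · exact ⟨i, by simp [snocIdx]⟩

theorem exists_castSucc_notMem (T : Finset (Fin (k + 1))) (hT : T.card < k) :
    ∃ i : Fin k, i.castSucc ∉ T := by
  by_contra hne
  push Not at hne
  have : (univ : Finset (Fin k)).card ≤ T.card :=
    Finset.card_le_card_of_injOn Fin.castSucc (fun x _ => hne x)
      (fun x _ y _ h => Fin.castSucc_injective _ h)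
  rw [Finset.card_univ, Fintype.card_fin] at this
  omega

theorem good_of_jcolor (hk : 4 ≤ k) {A : Fin n → Fin n → Bool} {B : Fin m → Fin m → Bool}
    {v : Fin k → Fin n} {w : Fin k → Fin m} (h : jcolor A k 2 v = jcolor B k 2 w)
    {z : Fin n} (hg : Good A (Fin.snoc v z : Fin (k + 1) → Fin n)) :
    ∃ z', Good B (Fin.snoc w z' : Fin (k + 1) → Fin m) := by
  classical
  have h1 : ((univ : Finset (Fin n)).val.map fun z => fun i => jcolor A k 1 (Function.update v i z)) =
      ((univ : Finset (Fin m)).val.map fun z => fun i => jcolor B k 1 (Function.update w i z)) :=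
    congrArg Prod.snd h
  have h2 : (fun i => jcolor A k 1 (Function.update v i z)) ∈
      ((univ : Finset (Fin m)).val.map fun z => fun i => jcolor B k 1 (Function.update w i z)) := by
    rw [← h1]
    exact Multiset.mem_map_of_mem _ (Finset.mem_univ_val z)
  obtain ⟨z', _, hz'⟩ := Multiset.mem_map.1 h2
  have h3 : ∀ i, jcolor A k 1 (Function.update v i z) = jcolor B k 1 (Function.update w i z') :=
    fun i => (congrFun hz' i).symm
  refine ⟨z', fun a c hac => ?_, fun T hT => ?_⟩
  · obtain ⟨i, hi⟩ := exists_castSucc_notMem (k := k) {a, c}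
      (lt_of_le_of_lt Finset.card_le_two (by omega))
    simp only [mem_insert, mem_singleton, not_or] at hi
    obtain ⟨ja, hja⟩ := exists_snocIdx (Ne.symm hi.1)
    obtain ⟨jc, hjc⟩ := exists_snocIdx (Ne.symm hi.2)
    have e1 := atomic_of_jcolor (h3 i) ja jc
    rw [← snoc_comp_snocIdx, ← snoc_comp_snocIdx] at e1
    simp only [Function.comp_apply, hja, hjc] at e1
    rw [← e1]
    exact hg.1 a c hac
  · obtain ⟨i, hi⟩ := exists_castSucc_notMem (k := k) T (by omega)
    have hTi : ∃ T1 : Finset (Fin k), T1.image (snocIdx i) = T := by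
      refine ⟨univ.filter fun j => snocIdx i j ∈ T, ?_⟩
      ext a
      simp only [mem_image, mem_filter, mem_univ, true_and]
      constructor
      · rintro ⟨j, hj, rfl⟩
        exact hj
      · intro ha
        obtain ⟨j, rfl⟩ := exists_snocIdx (i := i) (a := a) (by rintro rfl; exact hi ha)
        exact ⟨j, ha, rfl⟩
    obtain ⟨T1, rfl⟩ := hTi
    have e1 := cn_of_jcolor (by omega) (h3 i) T1
    rw [← snoc_comp_snocIdx, ← snoc_comp_snocIdx] at e1
    rw [cn_comp, ← e1, ← cn_comp]
    exact hg.2 _ hT

/-! ### The success side -/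

section
variable {t : ℕ} {C : ChoiceSystem t}

theorem exists_good_matrix (ht : 4 ≤ t) (hC : C.Successful) :
    ∃ v : Fin t → Fin _, Good (asMatrix (liftAdj C (lift0Parity t))) v := by
  obtain ⟨v, hv⟩ := exists_good ht hC
  exact ⟨_, (good_asMatrix _ v).2 hv⟩

theorem not_good_matrix (ht : 4 ≤ t) (v : Fin t → Fin _) :
    ¬ Good (asMatrix (liftAdj C (liftStarParity t))) v := by
  intro h
  have e : v = Fintype.equivFin _ ∘ ((Fintype.equivFin _).symm ∘ v) := by
    funext i
    simp
  rw [e, good_asMatrix] at h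
  exact not_good_star ht _ h

end

theorem scolor_ne (hk : 4 ≤ k) (C : ChoiceSystem k) (hC : C.Successful) :
    (Finset.univ.val.map (scolor (asMatrix (liftAdj C (lift0Parity k))) k 1)) ≠
      Finset.univ.val.map (scolor (asMatrix (liftAdj C (liftStarParity k))) k 1) := by
  intro h
  obtain ⟨v, hv⟩ := exists_good_matrix hk hC
  have h1 : scolor (asMatrix (liftAdj C (lift0Parity k))) k 1 v ∈
      Finset.univ.val.map (scolor (asMatrix (liftAdj C (liftStarParity k))) k 1) := by
    rw [← h]
    exact Multiset.mem_map_of_mem _ (Finset.mem_univ_val v)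
  obtain ⟨w, _, hw⟩ := Multiset.mem_map.1 h1
  exact not_good_matrix hk w (good_of_scolor hk hw.symm hv)

theorem jcolor_ne (hk : 4 ≤ k) (C : ChoiceSystem (k + 1)) (hC : C.Successful) :
    (Finset.univ.val.map (jcolor (asMatrix (liftAdj C (lift0Parity (k + 1)))) k 2)) ≠
      Finset.univ.val.map (jcolor (asMatrix (liftAdj C (liftStarParity (k + 1)))) k 2) := by
  intro h
  obtain ⟨v, hv⟩ := exists_good_matrix (by omega) hC
  have h1 : jcolor (asMatrix (liftAdj C (lift0Parity (k + 1)))) k 2 (Fin.init v) ∈
      Finset.univ.val.map (jcolor (asMatrix (liftAdj C (liftStarParity (k + 1)))) k 2) := by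
    rw [← h]
    exact Multiset.mem_map_of_mem _ (Finset.mem_univ_val _)
  obtain ⟨w, _, hw⟩ := Multiset.mem_map.1 h1
  rw [← Fin.snoc_init_self v] at hv
  obtain ⟨z', hz'⟩ := good_of_jcolor hk hw.symm hv
  exact not_good_matrix (by omega) _ hz'

theorem pureS_ne (hk : 4 ≤ k) (C : ChoiceSystem k) (hC : C.Successful) :
    ¬ PureSHistEq k 1 (asMatrix (liftAdj C (lift0Parity k)))
      (asMatrix (liftAdj C (liftStarParity k))) := by
  intro h
  obtain ⟨v, hv⟩ := exists_good_matrix hk hC
  unfold PureSHistEq at h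
  have h1 := Multiset.mem_map_of_mem (fun v => scolor (asMatrix (unionAdj
    (asMatrix (liftAdj C (lift0Parity k))) (asMatrix (liftAdj C (liftStarParity k))))) k 1
      (Fintype.equivFin _ ∘ Sum.inl ∘ v)) (Finset.mem_univ_val v)
  rw [h] at h1
  obtain ⟨w, _, hw⟩ := Multiset.mem_map.1 h1
  have h2 := good_of_scolor hk hw.symm ((good_asMatrix _ _).2 ((good_inl _ _ v).2 hv))
  exact not_good_matrix hk w ((good_inr _ _ w).1 ((good_asMatrix _ _).1 h2))

theorem pureJ_ne (hk : 4 ≤ k) (C : ChoiceSystem (k + 1)) (hC : C.Successful) :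
    ¬ PureJHistEq k 2 (asMatrix (liftAdj C (lift0Parity (k + 1))))
      (asMatrix (liftAdj C (liftStarParity (k + 1)))) := by
  intro h
  obtain ⟨v, hv⟩ := exists_good_matrix (by omega) hC
  unfold PureJHistEq at h
  have h1 := Multiset.mem_map_of_mem (fun v => jcolor (asMatrix (unionAdj
    (asMatrix (liftAdj C (lift0Parity (k + 1)))) (asMatrix (liftAdj C (liftStarParity (k + 1)))))) k 2
      (Fintype.equivFin _ ∘ Sum.inl ∘ v)) (Finset.mem_univ_val (Fin.init v))
  rw [h] at h1
  obtain ⟨w, _, hw⟩ := Multiset.mem_map.1 h1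
  have hv' : Good (asMatrix (unionAdj
    (asMatrix (liftAdj C (lift0Parity (k + 1)))) (asMatrix (liftAdj C (liftStarParity (k + 1))))))
      (Fin.snoc (Fintype.equivFin _ ∘ Sum.inl ∘ (Fin.init v : Fin k → Fin _))
        (Fintype.equivFin _ (Sum.inl (v (Fin.last k)))) : Fin (k + 1) → Fin _) := by
    have e : (Fin.snoc (Fintype.equivFin _ ∘ Sum.inl ∘ (Fin.init v : Fin k → Fin _))
        (Fintype.equivFin _ (Sum.inl (v (Fin.last k)))) : Fin (k + 1) → Fin _) =
        (Fintype.equivFin (Fin (Fintype.card (LiftV C (lift0Parity (k + 1)))) ⊕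
          Fin (Fintype.card (LiftV C (liftStarParity (k + 1)))))) ∘ Sum.inl ∘ v := by
      funext i
      refine Fin.lastCases ?_ (fun j => ?_) i
      · simp
      · simp [Fin.init]
    rw [e]
    exact (good_asMatrix _ _).2 ((good_inl _ _ v).2 hv)
  obtain ⟨z', hz'⟩ := good_of_jcolor hk hw.symm hv'
  obtain ⟨c, hc⟩ : ∃ c, z' = Fintype.equivFin _ (Sum.inr c) := by
    have h3 := hz'.1 (Fin.last k) (Fin.castSucc ⟨0, by omega⟩) (by
      intro h
      have := congrArg Fin.val h
      simp at this
      omega)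
    rw [Fin.snoc_last, Fin.snoc_castSucc] at h3
    simp only [asMatrix, Function.comp_apply, Equiv.symm_apply_apply] at h3
    rcases hzz : (Fintype.equivFin (Fin (Fintype.card (LiftV C (lift0Parity (k + 1)))) ⊕
          Fin (Fintype.card (LiftV C (liftStarParity (k + 1)))))).symm z' with x | x
    · rw [hzz] at h3
      simp [unionAdj] at h3
    · exact ⟨x, by rw [← hzz]; simp⟩
  subst hc
  have e : (Fin.snoc (Fintype.equivFin _ ∘ Sum.inr ∘ w)
        (Fintype.equivFin _ (Sum.inr c)) : Fin (k + 1) → Fin _) =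
        (Fintype.equivFin (Fin (Fintype.card (LiftV C (lift0Parity (k + 1)))) ⊕
          Fin (Fintype.card (LiftV C (liftStarParity (k + 1)))))) ∘ Sum.inr ∘
          (Fin.snoc w c : Fin (k + 1) → Fin _) := by
    funext i
    refine Fin.lastCases ?_ (fun j => ?_) i
    · simp
    · simp
  rw [e] at hz'
  exact not_good_matrix (by omega) _ ((good_inr _ _ _).1 ((good_asMatrix _ _).1 hz'))

end Crest.Agent.R290.Z
end

-- ▼ part R290/ZCard

/-!
# Row 290, S0438: cardinality of the parity lifts and the order bound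
-/

set_option autoImplicit false
set_option linter.unusedSectionVars false

namespace Crest.Agent.R290.ZCard

open Crest.WLRefine Crest.WLRefine.ParityLift Finset

/-! ### Boolean vectors of given parity -/

section parity

variable {N : Type*} [Fintype N] [DecidableEq N]

/-- flip one coordinate -/
def flip (a : N) (z : N → Bool) : N → Bool := Function.update z a (!z a)

theorem flip_flip (a : N) (z : N → Bool) : flip a (flip a z) = z := by
  funext b
  by_cases h : b = a
  · subst h; simp [flip]
  · simp [flip, h]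

theorem card_flip (a : N) (z : N → Bool) :
    (univ.filter fun b => flip a z b = true).card % 2 =
      1 - (univ.filter fun b => z b = true).card % 2 := by
  have key : ∀ w : N → Bool, (univ.filter fun b => w b = true).card =
      (if w a = true then 1 else 0) + ((univ.erase a).filter fun b => w b = true).card := by
    intro w
    rw [← Finset.insert_erase (mem_univ a), Finset.filter_insert]
    split_ifs with h
    · rw [Finset.card_insert_of_notMem (by simp), Finset.erase_insert (by simp)]
      ring
    · rw [Finset.erase_insert (by simp), zero_add]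
  rw [key, key z]
  have h2 : ((univ.erase a).filter fun b => flip a z b = true) =
      ((univ.erase a).filter fun b => z b = true) := by
    apply Finset.filter_congr
    intro b hb
    have : b ≠ a := (Finset.mem_erase.1 hb).1
    simp [flip, this]
  rw [h2]
  have h3 : flip a z a = !z a := by simp [flip]
  rw [h3]
  cases z a <;> simp <;> omega

/-- the flip is a bijection between the two parity classes -/
def parityEquiv (a : N) (c : ℕ) (hc : c < 2) :
    {z : N → Bool // (univ.filter fun b => z b = true).card % 2 = c} ≃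
      {z : N → Bool // (univ.filter fun b => z b = true).card % 2 = 1 - c} where
  toFun z := ⟨flip a z.1, by rw [card_flip, z.2]⟩
  invFun z := ⟨flip a z.1, by rw [card_flip, z.2]; omega⟩
  left_inv z := Subtype.ext (flip_flip a z.1)
  right_inv z := Subtype.ext (flip_flip a z.1)

theorem card_parity (a : N) (c : ℕ) (hc : c < 2) :
    Fintype.card {z : N → Bool // (univ.filter fun b => z b = true).card % 2 = c} =
      2 ^ (Fintype.card N - 1) := by
  have h1 : Fintype.card {z : N → Bool // (univ.filter fun b => z b = true).card % 2 = c} =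
      Fintype.card {z : N → Bool // (univ.filter fun b => z b = true).card % 2 = 1 - c} :=
    Fintype.card_congr (parityEquiv a c hc)
  have h2 : Fintype.card {z : N → Bool // (univ.filter fun b => z b = true).card % 2 = 1 - c} =
      Fintype.card {z : N → Bool // ¬ (univ.filter fun b => z b = true).card % 2 = c} := by
    apply Fintype.card_congr
    refine Equiv.subtypeEquivRight fun z => ?_
    have := Nat.mod_lt (univ.filter fun b => z b = true).card (show 0 < 2 by norm_num)
    omega
  have h3 := Fintype.card_subtype_compl (fun z : N → Bool =>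
    (univ.filter fun b => z b = true).card % 2 = c)
  have h4 : Fintype.card {z : N → Bool // (univ.filter fun b => z b = true).card % 2 = c} ≤
      Fintype.card (N → Bool) := Fintype.card_subtype_le _
  rw [Fintype.card_fun, Fintype.card_bool] at h3 h4
  have hN : 0 < Fintype.card N := Fintype.card_pos_iff.2 ⟨a⟩
  obtain ⟨m, hm⟩ : ∃ m, Fintype.card N = m + 1 := ⟨Fintype.card N - 1, by omega⟩
  rw [hm, pow_succ] at h3 h4
  rw [hm, Nat.add_sub_cancel]
  omega

end parity

variable {t : ℕ} {C : ChoiceSystem t}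

/-- the fibre description of the lift -/
def liftEquiv (b : TV t → Bool) : LiftV C b ≃
    Σ u : BV C, {z : Nbr (typeOf C u) → Bool //
      (univ.filter fun a' => z a' = true).card % 2 = (b (typeOf C u)).toNat} where
  toFun x := ⟨x.1.1, x.1.2, x.2⟩
  invFun x := ⟨⟨x.1, x.2.1⟩, x.2.2⟩
  left_inv _ := rfl
  right_inv _ := rfl

theorem exists_nbr (ht : 4 ≤ t) (a : TV t) : Nonempty (Nbr a) := by
  rcases a with i | h
  · obtain ⟨j, hj⟩ : ∃ j : Fin t, i ≠ j := by
      by_cases h0 : i = ⟨0, by omega⟩
      · exact ⟨⟨1, by omega⟩, by rw [h0]; simp [Fin.ext_iff]⟩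
      · exact ⟨⟨0, by omega⟩, h0⟩
    exact ⟨⟨Sum.inl j, by simp [tAdj, hj]⟩⟩
  · exact ⟨⟨Sum.inl h.1.1, by simp [tAdj]⟩⟩

theorem card_lift (ht : 4 ≤ t) (b : TV t → Bool) :
    Fintype.card (LiftV C b) = ∑ u : BV C, 2 ^ (Fintype.card (Nbr (typeOf C u)) - 1) := by
  rw [Fintype.card_congr (liftEquiv b), Fintype.card_sigma]
  refine Finset.sum_congr rfl fun u _ => ?_
  obtain ⟨a⟩ := exists_nbr ht (typeOf C u)
  exact card_parity a _ (by cases b (typeOf C u) <;> simp)

theorem card_lift_eq (ht : 4 ≤ t) (b b' : TV t → Bool) :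
    Fintype.card (LiftV C b) = Fintype.card (LiftV C b') := by
  rw [card_lift ht, card_lift ht]

/-! ### counting helpers -/

/-- the three mains of a helper -/
def T (h : Helper t) : Finset (Fin t) := {h.1.1, h.1.2.1, h.1.2.2}

theorem card_T (h : Helper t) : (T h).card = 3 := by
  rw [T, Finset.card_eq_three]
  exact ⟨_, _, _, h.2.1.ne, h.2.2.1.symm, h.2.2.2.symm, rfl⟩

theorem T_third (h : Helper t) : h.1.2.2 ∈ T h := by simp [T]

theorem T_erase (h : Helper t) : (T h).erase h.1.2.2 = {h.1.1, h.1.2.1} := by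
  ext x
  simp only [T, mem_erase, mem_insert, mem_singleton]
  have h1 := h.2.2.1
  have h2 := h.2.2.2
  constructor
  · rintro ⟨hx, rfl | rfl | rfl⟩
    · exact Or.inl rfl
    · exact Or.inr rfl
    · exact absurd rfl hx
  · rintro (rfl | rfl)
    · exact ⟨h1.symm, Or.inl rfl⟩
    · exact ⟨h2.symm, Or.inr (Or.inl rfl)⟩

theorem T_inj {h h' : Helper t} (hT : T h = T h') (h3 : h.1.2.2 = h'.1.2.2) : h = h' := by
  have e : ({h.1.1, h.1.2.1} : Finset (Fin t)) = {h'.1.1, h'.1.2.1} := by
    rw [← T_erase, ← T_erase, hT, h3]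
  have a1 : h.1.1 ∈ ({h'.1.1, h'.1.2.1} : Finset (Fin t)) := by rw [← e]; simp
  have a2 : h.1.2.1 ∈ ({h'.1.1, h'.1.2.1} : Finset (Fin t)) := by rw [← e]; simp
  have a3 : h'.1.1 ∈ ({h.1.1, h.1.2.1} : Finset (Fin t)) := by rw [e]; simp
  simp only [mem_insert, mem_singleton] at a1 a2 a3
  have l1 := h.2.1
  have l2 := h'.2.1
  have e1 : h.1.1 = h'.1.1 := by
    rcases a1 with a1 | a1
    · exact a1
    · rcases a3 with a3 | a3
      · exact a3.symm
      · exfalso
        have l3 : h.1.2.1 < h.1.1 := by rw [← a3, a1]; exact l2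
        exact lt_irrefl _ (l1.trans l3)
  have e2 : h.1.2.1 = h'.1.2.1 := by
    rcases a2 with a2 | a2
    · rw [a2, ← e1] at l1
      exact absurd l1 (lt_irrefl _)
    · exact a2
  apply Subtype.ext
  exact Prod.ext e1 (Prod.ext e2 h3)

theorem card_helper_le : Fintype.card (Helper t) ≤ 3 * t.choose 3 := by
  have h1 : (((univ : Finset (Fin t)).powersetCard 3).sigma fun s => s).card = 3 * t.choose 3 := by
    rw [Finset.card_sigma, Finset.sum_congr rfl (fun s hs => (Finset.mem_powersetCard.1 hs).2),
      Finset.sum_const, Finset.card_powersetCard, Finset.card_univ, Fintype.card_fin, smul_eq_mul,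
      mul_comm]
  rw [← h1, ← Finset.card_univ]
  refine Finset.card_le_card_of_injOn (fun h : Helper t => (⟨T h, h.1.2.2⟩ :
    Σ _ : Finset (Fin t), Fin t)) ?_ ?_
  · intro h _
    simp only [Finset.coe_sigma, Set.mem_sigma_iff, Finset.mem_coe, Finset.mem_powersetCard]
    exact ⟨⟨Finset.subset_univ _, card_T h⟩, T_third h⟩
  · intro h _ h' _ heq
    simp only [Sigma.mk.injEq, heq_eq_eq] at heq
    exact T_inj heq.1 heq.2

theorem card_helper_at_le (i : Fin t) :
    (univ.filter fun h : Helper t => i ∈ T h).card ≤ 3 * (t - 1).choose 2 := by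
  have h1 : ((((univ : Finset (Fin t)).erase i).powersetCard 2).sigma fun s => insert i s).card =
      3 * (t - 1).choose 2 := by
    rw [Finset.card_sigma, Finset.sum_congr rfl (g := fun _ => 3), Finset.sum_const,
      Finset.card_powersetCard, Finset.card_erase_of_mem (mem_univ i), Finset.card_univ,
      Fintype.card_fin, smul_eq_mul, mul_comm]
    intro s hs
    obtain ⟨hs1, hs2⟩ := Finset.mem_powersetCard.1 hs
    rw [Finset.card_insert_of_notMem, hs2]
    intro hi
    exact absurd rfl (Finset.mem_erase.1 (hs1 hi)).1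
  rw [← h1]
  refine Finset.card_le_card_of_injOn (fun h : Helper t => (⟨(T h).erase i, h.1.2.2⟩ :
    Σ _ : Finset (Fin t), Fin t)) ?_ ?_
  · intro h hh
    have hi : i ∈ T h := (Finset.mem_filter.1 hh).2
    simp only [Finset.coe_sigma, Set.mem_sigma_iff, Finset.mem_coe, Finset.mem_powersetCard]
    refine ⟨⟨Finset.erase_subset_erase _ (Finset.subset_univ _), ?_⟩, ?_⟩
    · rw [Finset.card_erase_of_mem hi, card_T]
    · rw [Finset.insert_erase hi]
      exact T_third h
  · intro h hh h' hh' heq
    have hi : i ∈ T h := (Finset.mem_filter.1 hh).2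
    have hi' : i ∈ T h' := (Finset.mem_filter.1 hh').2
    simp only [Sigma.mk.injEq, heq_eq_eq] at heq
    refine T_inj ?_ heq.2
    rw [← Finset.insert_erase hi, heq.1, Finset.insert_erase hi']

theorem card_nbr_main (i : Fin t) :
    Fintype.card (Nbr (Sum.inl i : TV t)) ≤ t - 1 + 3 * (t - 1).choose 2 := by
  rw [Fintype.card_subtype]
  have h1 : (univ.filter fun a' : TV t => tAdj (Sum.inl i) a' = true) =
      ((univ.erase i).map Function.Embedding.inl).disjUnion
        ((univ.filter fun h : Helper t => i ∈ T h).map Function.Embedding.inr) (by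
          rw [Finset.disjoint_left]
          intro x hx hy
          obtain ⟨a, _, rfl⟩ := Finset.mem_map.1 hx
          obtain ⟨b, _, hb⟩ := Finset.mem_map.1 hy
          simp at hb) := by
    ext a
    rw [Finset.mem_disjUnion, Finset.mem_map, Finset.mem_map, Finset.mem_filter]
    rcases a with j | h
    · constructor
      · rintro ⟨-, h2⟩
        have h3 : i ≠ j := by simpa [tAdj] using h2
        exact Or.inl ⟨j, Finset.mem_erase.2 ⟨h3.symm, mem_univ _⟩, rfl⟩
      · rintro (⟨a, ha, hb⟩ | ⟨a, ha, hb⟩)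
        · have h3 : a = j := Sum.inl_injective hb
          subst h3
          have h4 : i ≠ a := (Finset.mem_erase.1 ha).1.symm
          exact ⟨mem_univ _, by simp [tAdj, h4]⟩
        · simp at hb
    · simp [tAdj, T]
  rw [h1, Finset.card_disjUnion, Finset.card_map, Finset.card_map,
    Finset.card_erase_of_mem (mem_univ i), Finset.card_univ, Fintype.card_fin]
  exact Nat.add_le_add_left (card_helper_at_le i) _

theorem card_nbr_helper (h : Helper t) : Fintype.card (Nbr (Sum.inr h : TV t)) ≤ 3 := by
  rw [Fintype.card_subtype]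
  have h1 : (univ.filter fun a' : TV t => tAdj (Sum.inr h) a' = true) ⊆
      {Sum.inl h.1.1, Sum.inl h.1.2.1, Sum.inl h.1.2.2} := by
    intro a ha
    have ha' := (Finset.mem_filter.1 ha).2
    rcases a with j | h'
    · simp only [tAdj, decide_eq_true_eq] at ha'
      simp only [mem_insert, mem_singleton, Sum.inl.injEq]
      exact ha'
    · simp [tAdj] at ha'
  exact (Finset.card_le_card h1).trans Finset.card_le_three

theorem card_lift_le (ht : 4 ≤ t) (b : TV t → Bool) (A : ℕ) (hA : C.SizeAtMost A) :
    Fintype.card (LiftV C b) ≤ A * orderFactor t := by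
  rw [card_lift ht, Fintype.sum_sum_type, Fintype.sum_sigma, Fintype.sum_sigma]
  have h1 : ∑ i : Fin t, ∑ d : Fin (C.dom i),
      2 ^ (Fintype.card (Nbr (typeOf C (Sum.inl ⟨i, d⟩))) - 1) ≤
      t * (A * 2 ^ (t - 2 + 3 * (t - 1).choose 2)) := by
    calc ∑ i : Fin t, ∑ d : Fin (C.dom i),
          2 ^ (Fintype.card (Nbr (typeOf C (Sum.inl ⟨i, d⟩))) - 1)
        ≤ ∑ i : Fin t, ∑ _d : Fin (C.dom i), 2 ^ (t - 2 + 3 * (t - 1).choose 2) := by
          refine Finset.sum_le_sum fun i _ => Finset.sum_le_sum fun d _ => ?_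
          refine Nat.pow_le_pow_right (by norm_num) ?_
          have := card_nbr_main (t := t) i
          change Fintype.card (Nbr (Sum.inl i : TV t)) - 1 ≤ _
          omega
      _ ≤ ∑ _i : Fin t, A * 2 ^ (t - 2 + 3 * (t - 1).choose 2) := by
          refine Finset.sum_le_sum fun i _ => ?_
          rw [Finset.sum_const, Finset.card_univ, Fintype.card_fin, smul_eq_mul]
          exact Nat.mul_le_mul_right _ (hA.1 i)
      _ = t * (A * 2 ^ (t - 2 + 3 * (t - 1).choose 2)) := by
          rw [Finset.sum_const, Finset.card_univ, Fintype.card_fin, smul_eq_mul]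
  have h2 : ∑ h : Helper t, ∑ q : Fin (C.lab h.1.1 h.1.2.1),
      2 ^ (Fintype.card (Nbr (typeOf C (Sum.inr ⟨h, q⟩))) - 1) ≤
      (3 * t.choose 3) * (A * 4) := by
    calc ∑ h : Helper t, ∑ q : Fin (C.lab h.1.1 h.1.2.1),
          2 ^ (Fintype.card (Nbr (typeOf C (Sum.inr ⟨h, q⟩))) - 1)
        ≤ ∑ h : Helper t, ∑ _q : Fin (C.lab h.1.1 h.1.2.1), 4 := by
          refine Finset.sum_le_sum fun h _ => Finset.sum_le_sum fun q _ => ?_
          have h3 : Fintype.card (Nbr (typeOf C (Sum.inr ⟨h, q⟩))) - 1 ≤ 2 := by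
            have := card_nbr_helper (t := t) h
            change Fintype.card (Nbr (Sum.inr h : TV t)) - 1 ≤ _
            omega
          exact (Nat.pow_le_pow_right (by norm_num) h3).trans (by norm_num)
      _ ≤ ∑ _h : Helper t, A * 4 := by
          refine Finset.sum_le_sum fun h _ => ?_
          rw [Finset.sum_const, Finset.card_univ, Fintype.card_fin, smul_eq_mul]
          exact Nat.mul_le_mul_right _ (hA.2 _ _ h.2.1)
      _ = Fintype.card (Helper t) * (A * 4) := by
          rw [Finset.sum_const, Finset.card_univ, smul_eq_mul]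
      _ ≤ (3 * t.choose 3) * (A * 4) := Nat.mul_le_mul_right _ card_helper_le
  refine (Nat.add_le_add h1 h2).trans (le_of_eq ?_)
  rw [orderFactor]
  ring

end Crest.Agent.R290.ZCard
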